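import Vale.Agent.P084.MathlibUsed

set_option linter.all false

section

/- SmNorm -/
section
/-!
Derivative of a norm: basic facts.
-/

open Set Filter Topology Metric

noncomputable section

namespace P084

variable {X : Type*} [NormedAddCommGroup X] [NormedSpace ℝ X]

/-- The derivative of the norm at `x`. -/
def dn (x : X) : X →L[ℝ] ℝ := fderiv ℝ (fun y : X => ‖y‖) x

/-- The norm is differentiable off zero. -/
def SmoothNorm (X : Type*) [NormedAddCommGroup X] [NormedSpace ℝ X] : Prop :=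
  ∀ x : X, x ≠ 0 → DifferentiableAt ℝ (fun y : X => ‖y‖) x

theorem SmoothNorm.hasFDerivAt (h : SmoothNorm X) {x : X} (hx : x ≠ 0) :
    HasFDerivAt (fun y : X => ‖y‖) (dn x) x := (h x hx).hasFDerivAt

theorem SmoothNorm.dn_self (h : SmoothNorm X) {x : X} (hx : x ≠ 0) : dn x x = ‖x‖ :=
  (h x hx).fderiv_norm_self

theorem norm_dn_le (x : X) : ‖dn x‖ ≤ 1 :=
  NNReal.coe_one ▸ norm_fderiv_le_of_lipschitz ℝ lipschitzWith_one_norm

theorem dn_apply_abs_le (x v : X) : |dn x v| ≤ ‖v‖ := by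
  have := (dn x).le_opNorm v
  have h2 := norm_dn_le x
  calc |dn x v| = ‖dn x v‖ := rfl
    _ ≤ ‖dn x‖ * ‖v‖ := this
    _ ≤ 1 * ‖v‖ := by gcongr
    _ = ‖v‖ := one_mul _

theorem dn_apply_le (x v : X) : dn x v ≤ ‖v‖ := (le_abs_self _).trans (dn_apply_abs_le x v)

theorem dn_smul_pos {c : ℝ} (hc : 0 < c) (x : X) : dn (c • x) = dn x :=
  fderiv_norm_smul_pos hc

theorem SmoothNorm.le_norm_add (h : SmoothNorm X) {x : X} (hx : x ≠ 0) (v : X) :
    ‖x‖ + dn x v ≤ ‖x + v‖ := by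
  have := dn_apply_le x (x + v)
  rw [map_add, h.dn_self hx] at this
  exact this

/-- Continuity of the derivative of the norm. -/
theorem SmoothNorm.continuousAt_dn (h : SmoothNorm X) {x : X} (hx : x ≠ 0) :
    ContinuousAt (dn : X → X →L[ℝ] ℝ) x := by
  rw [Metric.continuousAt_iff]
  intro ε hε
  have hd := h.hasFDerivAt hx
  rw [hasFDerivAt_iff_isLittleO_nhds_zero] at hd
  have h1 := hd.def (c := ε / 4) (by positivity)
  rw [Metric.eventually_nhds_iff] at h1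
  obtain ⟨δ, hδ, h1⟩ := h1
  have hx' : 0 < ‖x‖ := norm_pos_iff.mpr hx
  refine ⟨min (ε * (δ / 2) / 8) ‖x‖, by positivity, fun {y} hy => ?_⟩
  have hy1 : ‖y - x‖ < ε * (δ / 2) / 8 := by
    rw [dist_eq_norm] at hy; exact hy.trans_le (min_le_left _ _)
  have hy2 : ‖y - x‖ < ‖x‖ := by
    rw [dist_eq_norm] at hy; exact hy.trans_le (min_le_right _ _)
  have hy0 : y ≠ 0 := by
    rintro rfl
    simp at hy2
  have key : ∀ v : X, ‖v‖ = 1 → dn y v - dn x v ≤ ε / 2 := by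
    intro v hv
    set t : ℝ := δ / 2 with ht
    have ht0 : 0 < t := by positivity
    have e1 := h.le_norm_add hy0 (t • v)
    have e2 := h1 (y := t • v) (by
      rw [dist_zero_right, norm_smul, hv, Real.norm_eq_abs, abs_of_pos ht0]; linarith)
    rw [Real.norm_eq_abs, norm_smul, hv, Real.norm_eq_abs, abs_of_pos ht0] at e2
    have e3 : ‖y + t • v‖ ≤ ‖x + t • v‖ + ‖y - x‖ := by
      have : y + t • v = (x + t • v) + (y - x) := by abel
      rw [this]; exact norm_add_le _ _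
    have e4 : ‖x‖ ≤ ‖y‖ + ‖y - x‖ := by
      have : x = y - (y - x) := by abel
      calc ‖x‖ = ‖y - (y - x)‖ := by rw [← this]
        _ ≤ _ := norm_sub_le _ _
    have e5 := (abs_le.mp e2).2
    rw [map_smul, smul_eq_mul] at e1 e5
    have e6 : t * dn y v ≤ t * dn x v + ε / 4 * (t * 1) + 2 * ‖y - x‖ := by linarith only [e5, e4, e3, e1]
    have e7 : 2 * ‖y - x‖ ≤ t * (ε / 4) := by
      have : 2 * (ε * t / 8) = t * (ε / 4) := by ring
      linarith
    have e8 : t * (dn y v - dn x v) ≤ t * (ε / 2) := by linarith only [e6, hy1]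
    exact le_of_mul_le_mul_left e8 ht0
  rw [dist_eq_norm]
  have hle : ‖dn y - dn x‖ ≤ ε / 2 := by
    refine ContinuousLinearMap.opNorm_le_of_unit_norm (by positivity) fun v hv => ?_
    rw [Real.norm_eq_abs, abs_le, sub_apply]
    constructor
    · have := key (-v) (by rwa [norm_neg])
      rw [map_neg, map_neg] at this
      linarith
    · exact key v hv
  linarith

theorem SmoothNorm.hasStrictFDerivAt (h : SmoothNorm X) {x : X} (hx : x ≠ 0) :
    HasStrictFDerivAt (fun y : X => ‖y‖) (dn x) x := by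
  refine hasStrictFDerivAt_of_hasFDerivAt_of_continuousAt ?_ (h.continuousAt_dn hx)
  filter_upwards [isOpen_ne.mem_nhds hx] with y hy using h.hasFDerivAt hy

end P084
end 
end

/- SmIso -/
section
/-!
Homogeneous extensions of isometries between unit spheres.
-/

open Set Filter Topology Metric

noncomputable section

namespace P084

variable {X Y : Type*} [NormedAddCommGroup X] [NormedSpace ℝ X]
  [NormedAddCommGroup Y] [NormedSpace ℝ Y]

/-- The homogeneous extension of an (odd) surjective isometry between the unit spheres. -/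
structure SphIso (F : X → Y) : Prop where
  smul : ∀ (c : ℝ) (x : X), F (c • x) = c • F x
  dist : ∀ x y : X, ‖x‖ = ‖y‖ → ‖F x - F y‖ = ‖x - y‖
  surj : Function.Surjective F

namespace SphIso

variable {F : X → Y}

theorem zero (hF : SphIso F) : F 0 = 0 := by
  have := hF.smul 0 0
  simpa using this

theorem neg (hF : SphIso F) (x : X) : F (-x) = - F x := by
  have := hF.smul (-1) x
  simpa using this

theorem norm (hF : SphIso F) (x : X) : ‖F x‖ = ‖x‖ := by
  have h := hF.dist x (-x) (norm_neg x).symm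
  rw [hF.neg, sub_neg_eq_add, sub_neg_eq_add, ← two_smul ℝ, ← two_smul ℝ, norm_smul, norm_smul] at h
  exact mul_left_cancel₀ (by norm_num) h

theorem inj (hF : SphIso F) : Function.Injective F := by
  intro x y hxy
  have h1 : ‖x‖ = ‖y‖ := by rw [← hF.norm x, ← hF.norm y, hxy]
  have h2 := hF.dist x y h1
  rw [hxy, sub_self, norm_zero] at h2
  exact sub_eq_zero.mp (norm_eq_zero.mp h2.symm)

theorem ne_zero (hF : SphIso F) {x : X} (hx : x ≠ 0) : F x ≠ 0 := by
  intro h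
  exact hx (hF.inj (h.trans hF.zero.symm))

/-- Basic two-point identity in homogeneous form. -/
theorem dist_smul (hF : SphIso F) (a b : X) :
    ‖‖b‖ • F a - ‖a‖ • F b‖ = ‖‖b‖ • a - ‖a‖ • b‖ := by
  rw [← hF.smul, ← hF.smul]
  apply hF.dist
  rw [norm_smul, norm_smul, norm_norm, norm_norm, mul_comm]

theorem dist_smul_add (hF : SphIso F) (a b : X) :
    ‖‖b‖ • F a + ‖a‖ • F b‖ = ‖‖b‖ • a + ‖a‖ • b‖ := by
  have := hF.dist_smul a (-b)
  simpa [hF.neg] using this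

theorem dist_le (hF : SphIso F) (a b : X) : ‖F a - F b‖ ≤ 3 * ‖a - b‖ := by
  by_cases hb : b = 0
  · subst hb
    rw [hF.zero, sub_zero, sub_zero, hF.norm]
    linarith [norm_nonneg a]
  have hb' : 0 < ‖b‖ := norm_pos_iff.mpr hb
  set b' : X := (‖a‖ / ‖b‖) • b with hb'def
  have hnb' : ‖b'‖ = ‖a‖ := by
    rw [hb'def, norm_smul, Real.norm_eq_abs, abs_of_nonneg (by positivity)]
    field_simp
  have hbb : ‖b - b'‖ = |‖b‖ - ‖a‖| := by
    have : b - b' = (1 - ‖a‖ / ‖b‖) • b := by rw [sub_smul, one_smul]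
    rw [this, norm_smul, Real.norm_eq_abs]
    have h2 : |‖b‖ - ‖a‖| = |(1 - ‖a‖ / ‖b‖) * ‖b‖| := by
      congr 1; field_simp
    rw [h2, abs_mul, abs_of_pos hb']
  have hab : |‖b‖ - ‖a‖| ≤ ‖a - b‖ := by
    rw [abs_sub_comm]; exact abs_norm_sub_norm_le a b
  have h1 : ‖F a - F b'‖ = ‖a - b'‖ := hF.dist a b' hnb'.symm
  have h2 : ‖F b' - F b‖ = ‖b - b'‖ := by
    have : F b' - F b = (‖a‖ / ‖b‖ - 1) • F b := by
      rw [hb'def, hF.smul, sub_smul, one_smul]
    rw [this, norm_smul, hF.norm, ← norm_smul, sub_smul, one_smul, ← hb'def, norm_sub_rev]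
  calc ‖F a - F b‖ = ‖(F a - F b') + (F b' - F b)‖ := by congr 1; abel
    _ ≤ ‖F a - F b'‖ + ‖F b' - F b‖ := norm_add_le _ _
    _ = ‖a - b'‖ + ‖b - b'‖ := by rw [h1, h2]
    _ ≤ (‖a - b‖ + ‖b - b'‖) + ‖b - b'‖ := by
        gcongr
        calc ‖a - b'‖ = ‖(a - b) + (b - b')‖ := by congr 1; abel
          _ ≤ _ := norm_add_le _ _
    _ ≤ 3 * ‖a - b‖ := by rw [hbb]; linarith

theorem lipschitz (hF : SphIso F) : LipschitzWith 3 F :=
  LipschitzWith.of_dist_le_mul fun a b => by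
    rw [dist_eq_norm, dist_eq_norm]
    exact_mod_cast hF.dist_le a b

theorem continuous (hF : SphIso F) : Continuous F := hF.lipschitz.continuous

/-- The inverse map. -/
def inv (_hF : SphIso F) : Y → X := Function.surjInv _hF.surj

theorem apply_inv (hF : SphIso F) (y : Y) : F (hF.inv y) = y := Function.surjInv_eq hF.surj y

theorem inv_apply (hF : SphIso F) (x : X) : hF.inv (F x) = x :=
  hF.inj (hF.apply_inv (F x))

theorem sphIso_inv (hF : SphIso F) : SphIso hF.inv where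
  smul c y := by
    apply hF.inj
    rw [hF.apply_inv, hF.smul, hF.apply_inv]
  dist x y hxy := by
    have hx : ‖hF.inv x‖ = ‖hF.inv y‖ := by
      rw [← hF.norm, ← hF.norm, hF.apply_inv, hF.apply_inv, hxy]
    have := hF.dist _ _ hx
    rw [hF.apply_inv, hF.apply_inv] at this
    exact this.symm
  surj x := ⟨F x, hF.inv_apply x⟩

end SphIso

theorem SphIso.finiteDimensional [FiniteDimensional ℝ X] {F : X → Y} (hF : SphIso F) :
    FiniteDimensional ℝ Y := by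
  have : ProperSpace X := FiniteDimensional.proper ℝ X
  refine FiniteDimensional.of_isCompact_closedBall ℝ (r := 1) zero_lt_one (c := 0) ?_
  have : closedBall (0 : Y) 1 = F '' closedBall (0 : X) 1 := by
    ext y
    constructor
    · intro hy
      obtain ⟨x, rfl⟩ := hF.surj y
      refine ⟨x, ?_, rfl⟩
      rw [mem_closedBall_zero_iff] at hy ⊢
      rwa [hF.norm] at hy
    · rintro ⟨x, hx, rfl⟩
      rw [mem_closedBall_zero_iff] at hx ⊢
      rwa [hF.norm]
  rw [this]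
  exact (isCompact_closedBall _ _).image hF.continuous

end P084
end 
end

/- UcBasic -/
section
/-!
Uniformly convex and uniformly smooth norms: basic facts, and transfer along isometries of spheres.
-/

open Set Filter Topology Metric

noncomputable section

set_option linter.unusedSectionVars false

namespace P084

variable {X Y : Type*} [NormedAddCommGroup X] [NormedSpace ℝ X]
  [NormedAddCommGroup Y] [NormedSpace ℝ Y]

/-- The norm is uniformly smooth. -/
def UnifSmooth (X : Type*) [NormedAddCommGroup X] : Prop :=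
  ∀ ε : ℝ, 0 < ε → ∃ δ : ℝ, 0 < δ ∧ ∀ q h : X, ‖q‖ = 1 → ‖h‖ ≤ δ →
    ‖q + h‖ + ‖q - h‖ - 2 ≤ ε * ‖h‖

/-- The norm is uniformly of class `C^{1,1}`. -/
def UC11 (X : Type*) [NormedAddCommGroup X] : Prop :=
  ∃ C : ℝ, ∀ q h : X, ‖q‖ = 1 → ‖q + h‖ + ‖q - h‖ - 2 ≤ C * ‖h‖ ^ 2

theorem UC11.exists_pos (h : UC11 X) : ∃ C : ℝ, 0 < C ∧ ∀ q h : X, ‖q‖ = 1 →
    ‖q + h‖ + ‖q - h‖ - 2 ≤ C * ‖h‖ ^ 2 := by
  obtain ⟨C, hC⟩ := h
  refine ⟨max C 1, by positivity, fun q h hq => (hC q h hq).trans ?_⟩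
  gcongr
  exact le_max_left _ _

theorem UC11.unifSmooth (h : UC11 X) : UnifSmooth X := by
  obtain ⟨C, hC0, hC⟩ := h.exists_pos
  intro ε hε
  refine ⟨ε / C, by positivity, fun q h hq hh => (hC q h hq).trans ?_⟩
  have h1 : C * ‖h‖ ≤ ε := by
    rw [mul_comm]
    exact (le_div_iff₀ hC0).mp hh
  calc C * ‖h‖ ^ 2 = (C * ‖h‖) * ‖h‖ := by ring
    _ ≤ ε * ‖h‖ := by gcongr

/-- Symmetric second differences at a general base point. -/
theorem sd_scale {c δ ε : ℝ} (hδ : ∀ q h : X, ‖q‖ = 1 → ‖h‖ ≤ δ → ‖q + h‖ + ‖q - h‖ - 2 ≤ ε * ‖h‖)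
    (hc : 0 < c) {z w : X} (hz : c ≤ ‖z‖) (hw : ‖w‖ ≤ c * δ) :
    ‖z + w‖ + ‖z - w‖ - 2 * ‖z‖ ≤ ε * ‖w‖ := by
  have hz0 : 0 < ‖z‖ := hc.trans_le hz
  have hδ0 : 0 ≤ δ := by
    by_contra hneg
    push Not at hneg
    have : c * δ < 0 := mul_neg_of_pos_of_neg hc hneg
    linarith [norm_nonneg w]
  have h1 := hδ (‖z‖⁻¹ • z) (‖z‖⁻¹ • w)
    (by rw [norm_smul, norm_inv, norm_norm, inv_mul_cancel₀ hz0.ne'])
    (by
      rw [norm_smul, norm_inv, norm_norm, inv_mul_le_iff₀ hz0]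
      calc ‖w‖ ≤ c * δ := hw
        _ ≤ ‖z‖ * δ := by gcongr)
  rw [← smul_add, ← smul_sub, norm_smul, norm_smul, norm_smul, norm_inv, norm_norm] at h1
  have h2 := mul_le_mul_of_nonneg_left h1 hz0.le
  have e1 : ‖z‖ * (‖z‖⁻¹ * ‖z + w‖ + ‖z‖⁻¹ * ‖z - w‖ - 2)
      = ‖z + w‖ + ‖z - w‖ - 2 * ‖z‖ := by
    field_simp
  have e2 : ‖z‖ * (ε * (‖z‖⁻¹ * ‖w‖)) = ε * ‖w‖ := by
    field_simp
  rwa [e1, e2] at h2

theorem UC11.sd_le {C : ℝ} (hC : ∀ q h : X, ‖q‖ = 1 → ‖q + h‖ + ‖q - h‖ - 2 ≤ C * ‖h‖ ^ 2)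
    {z : X} (hz : z ≠ 0) (w : X) :
    ‖z + w‖ + ‖z - w‖ - 2 * ‖z‖ ≤ C * ‖w‖ ^ 2 / ‖z‖ := by
  have hz0 : 0 < ‖z‖ := norm_pos_iff.mpr hz
  have h1 := hC (‖z‖⁻¹ • z) (‖z‖⁻¹ • w)
    (by rw [norm_smul, norm_inv, norm_norm, inv_mul_cancel₀ hz0.ne'])
  rw [← smul_add, ← smul_sub, norm_smul, norm_smul, norm_smul, norm_inv, norm_norm] at h1
  have h2 := mul_le_mul_of_nonneg_left h1 hz0.le
  have e1 : ‖z‖ * (‖z‖⁻¹ * ‖z + w‖ + ‖z‖⁻¹ * ‖z - w‖ - 2)
      = ‖z + w‖ + ‖z - w‖ - 2 * ‖z‖ := by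
    field_simp
  have e2 : ‖z‖ * (C * (‖z‖⁻¹ * ‖w‖) ^ 2) = C * ‖w‖ ^ 2 / ‖z‖ := by
    field_simp
  rwa [e1, e2] at h2

/-- A uniformly smooth norm is differentiable off zero. -/
theorem UnifSmooth.smooth (h : UnifSmooth X) : SmoothNorm X := by
  intro x hx
  obtain ⟨φ, hφ1, hφ2⟩ := exists_dual_vector ℝ x (norm_ne_zero_iff.mpr hx)
  have hφ2' : φ x = ‖x‖ := by simpa using hφ2
  have hle : ∀ v, φ v ≤ ‖v‖ := fun v => by
    have := φ.le_opNorm v
    rw [hφ1, one_mul] at this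
    exact (le_abs_self _).trans this
  have hx0 : 0 < ‖x‖ := norm_pos_iff.mpr hx
  refine HasFDerivAt.differentiableAt (f' := φ) ?_
  rw [hasFDerivAt_iff_isLittleO_nhds_zero, Asymptotics.isLittleO_iff]
  intro ε hε
  obtain ⟨δ, hδ, hδ'⟩ := h ε hε
  have : ∀ᶠ w : X in 𝓝 0, ‖w‖ < ‖x‖ * δ := by
    have := Metric.ball_mem_nhds (0 : X) (show 0 < ‖x‖ * δ by positivity)
    filter_upwards [this] with w hw
    simpa using hw
  filter_upwards [this] with w hw
  have h1 := sd_scale hδ' hx0 le_rfl hw.le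
  have h2 := hle (x + w)
  have h3 := hle (x - w)
  rw [map_add, hφ2'] at h2
  rw [map_sub, hφ2'] at h3
  rw [Real.norm_eq_abs, abs_of_nonneg (by linarith)]
  linarith

theorem UC11.smooth (h : UC11 X) : SmoothNorm X := h.unifSmooth.smooth

theorem UC11.taylor {C : ℝ} (hC : ∀ q h : X, ‖q‖ = 1 → ‖q + h‖ + ‖q - h‖ - 2 ≤ C * ‖h‖ ^ 2)
    {z : X} (hz : z ≠ 0) (w : X) : ‖z + w‖ - ‖z‖ - dn z w ≤ C * ‖w‖ ^ 2 / ‖z‖ := by
  have h1 := UC11.sd_le hC hz w
  have h2 := (UC11.smooth ⟨C, hC⟩).le_norm_add hz (-w)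
  rw [map_neg, ← sub_eq_add_neg, ← sub_eq_add_neg] at h2
  linarith

theorem UC11.dn_lip {C : ℝ} (hC0 : 0 ≤ C)
    (hC : ∀ q h : X, ‖q‖ = 1 → ‖q + h‖ + ‖q - h‖ - 2 ≤ C * ‖h‖ ^ 2)
    {x y : X} (hx : x ≠ 0) (hy : y ≠ 0) : ‖dn x - dn y‖ ≤ 4 * C * ‖x - y‖ / ‖x‖ := by
  rcases eq_or_ne x y with rfl | hxy
  · simp
  have hsm : SmoothNorm X := UC11.smooth ⟨C, hC⟩
  have hx0 : 0 < ‖x‖ := norm_pos_iff.mpr hx
  set t : ℝ := ‖x - y‖ with ht
  have ht0 : 0 < t := norm_pos_iff.mpr (sub_ne_zero.mpr hxy)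
  have key : ∀ v : X, ‖v‖ = 1 → dn y v - dn x v ≤ 4 * C * t / ‖x‖ := by
    intro v hv
    have e1 := hsm.le_norm_add hy (t • v)
    have e2 := UC11.taylor hC hx (y - x + t • v)
    have e3 := hsm.le_norm_add hx (y - x)
    rw [add_sub_cancel] at e3
    have e4 : x + (y - x + t • v) = y + t • v := by abel
    rw [e4, map_add] at e2
    have e5 : ‖y - x + t • v‖ ≤ 2 * t := by
      refine (norm_add_le _ _).trans ?_
      rw [norm_smul, hv, Real.norm_eq_abs, abs_of_pos ht0, norm_sub_rev y x]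
      linarith
    have e6 : C * ‖y - x + t • v‖ ^ 2 / ‖x‖ ≤ C * (2 * t) ^ 2 / ‖x‖ := by gcongr
    rw [map_smul, smul_eq_mul] at e1 e2
    have e7 : t * (dn y v - dn x v) ≤ t * (4 * C * t / ‖x‖) := by
      have : C * (2 * t) ^ 2 / ‖x‖ = t * (4 * C * t / ‖x‖) := by ring
      linarith
    exact le_of_mul_le_mul_left e7 ht0
  refine ContinuousLinearMap.opNorm_le_of_unit_norm (by positivity) fun v hv => ?_
  rw [Real.norm_eq_abs, abs_le, sub_apply]
  constructor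
  · have := key v hv
    linarith
  · have := key (-v) (by rwa [norm_neg])
    rw [map_neg, map_neg] at this
    linarith

/-! ### Uniform convexity along filters -/

/-- In a uniformly convex space, almost aligned vectors of the same length are close. -/
theorem tendsto_sub_of_norm_add [UniformConvexSpace X] {ι : Type*} {l : Filter ι} {u v : ι → X}
    {α : ℝ} (hu : ∀ ε : ℝ, 0 < ε → ∀ᶠ i in l, ‖u i‖ ≤ α + ε)
    (hv : ∀ ε : ℝ, 0 < ε → ∀ᶠ i in l, ‖v i‖ ≤ α + ε)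
    (huv : ∀ ε : ℝ, 0 < ε → ∀ᶠ i in l, 2 * α - ε ≤ ‖u i + v i‖) :
    Tendsto (fun i => u i - v i) l (𝓝 0) := by
  rw [Metric.tendsto_nhds]
  intro η hη
  rcases lt_or_ge α (η / 4) with hα | hα
  · have h1 := hu ((η / 4 - α) / 2) (by linarith)
    have h2 := hv ((η / 4 - α) / 2) (by linarith)
    filter_upwards [h1, h2] with i h1 h2
    rw [dist_zero_right]
    calc ‖u i - v i‖ ≤ ‖u i‖ + ‖v i‖ := norm_sub_le _ _
      _ < η := by linarith
  · have hα0 : 0 < α := by linarith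
    obtain ⟨δ, hδ, H⟩ := exists_forall_closed_ball_dist_add_le_two_mul_sub X
      (show 0 < η / 4 by positivity) (α + 1)
    obtain ⟨δ, hδ, H⟩ := exists_forall_closed_ball_dist_add_le_two_sub X
      (show 0 < η / (2 * (α + 1)) by positivity)
    -- scale by `α + ε`
    set ε : ℝ := min (min 1 (δ * α / 8)) (η / 8) with hε
    have hε0 : 0 < ε := by positivity
    have hε1 : ε ≤ 1 := (min_le_left _ _).trans (min_le_left _ _)
    have hε2 : ε ≤ δ * α / 8 := (min_le_left _ _).trans (min_le_right _ _)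
    filter_upwards [hu ε hε0, hv ε hε0, huv ε hε0] with i h1 h2 h3
    rw [dist_zero_right]
    by_contra hcon
    push Not at hcon
    set r : ℝ := α + ε with hr
    have hr0 : 0 < r := by positivity
    have h4 := H (x := r⁻¹ • u i) (by
        rw [norm_smul, norm_inv, Real.norm_eq_abs, abs_of_pos hr0, inv_mul_le_iff₀ hr0, mul_one]
        exact h1) (y := r⁻¹ • v i) (by
        rw [norm_smul, norm_inv, Real.norm_eq_abs, abs_of_pos hr0, inv_mul_le_iff₀ hr0, mul_one]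
        exact h2) (by
        rw [← smul_sub, norm_smul, norm_inv, Real.norm_eq_abs, abs_of_pos hr0,
          div_le_iff₀ (by positivity)]
        rw [inv_mul_eq_div, div_mul_eq_mul_div, le_div_iff₀ hr0]
        have : r ≤ α + 1 := by rw [hr]; linarith
        (by_contra nlg; linarith only [nlg, mul_nonneg (sub_nonneg.2 hcon) (sub_nonneg.2 this), mul_nonneg (sub_nonneg.2 hcon) (le_of_lt (sub_pos.2 hr0)), mul_nonneg (le_of_lt (sub_pos.2 hη)) (sub_nonneg.2 this), mul_pos (sub_pos.2 hη) (sub_pos.2 hr0), mul_nonneg (le_of_lt (sub_pos.2 (not_le.1 nlg))) (sub_nonneg.2 this), mul_pos (sub_pos.2 (not_le.1 nlg)) (sub_pos.2 hε0)]))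
    rw [← smul_add, norm_smul, norm_inv, Real.norm_eq_abs, abs_of_pos hr0,
      inv_mul_le_iff₀ hr0] at h4
    have h5 : r * δ ≤ 3 * ε := by
      have : r * (2 - δ) = 2 * α + 2 * ε - r * δ := by rw [hr]; ring
      linarith
    have h6 : α * δ ≤ r * δ := by
      gcongr
      rw [hr]; linarith
    linarith only [mul_pos hα0 hδ, h6, h5, hε2]

/-! ### Transfer along isometries of the spheres -/

namespace SphIso

variable {F : X → Y}

theorem completeSpace [CompleteSpace X] (hF : SphIso F) : CompleteSpace Y := by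
  have hG := hF.sphIso_inv
  refine Metric.complete_of_cauchySeq_tendsto fun u hu => ?_
  have h1 : CauchySeq fun n => hF.inv (u n) :=
    hG.lipschitz.uniformContinuous.comp_cauchySeq hu
  obtain ⟨x, hx⟩ := cauchySeq_tendsto_of_complete h1
  refine ⟨F x, ?_⟩
  have h2 := (hF.continuous.tendsto x).comp hx
  refine h2.congr fun n => ?_
  simp [hF.apply_inv]

end SphIso

end P084
end 
end

/- UcReg -/
section
/-!
Regularity of maps with quadratically bounded second differences.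
-/

open Set Filter Topology Metric

noncomputable section

set_option linter.unusedSectionVars false

namespace P084

variable {X Y : Type*} [NormedAddCommGroup X] [NormedSpace ℝ X]
  [NormedAddCommGroup Y] [NormedSpace ℝ Y]

section sd

variable {f : X → Y} {w : X} {r C L : ℝ}

/-- four point estimate -/
theorem four_point (hC : 0 ≤ C)
    (hsd : ∀ u h : X, ‖u - w‖ ≤ r → ‖h‖ ≤ r → ‖f (u + h) + f (u - h) - (2 : ℝ) • f u‖ ≤ C * ‖h‖ ^ 2)
    {a b : X} (hab : ‖a‖ + ‖b‖ ≤ r) :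
    ‖f (w + a) + f (w + b) - f (w + a + b) - f w‖ ≤ C * (‖a‖ + ‖b‖) ^ 2 := by
  set u : X := w + (1 / 2 : ℝ) • (a + b) with hu
  have hn : ‖(1 / 2 : ℝ) • (a + b)‖ ≤ (‖a‖ + ‖b‖) / 2 := by
    rw [norm_smul]
    have := norm_add_le a b
    norm_num
    linarith
  have hn' : ‖(1 / 2 : ℝ) • (a - b)‖ ≤ (‖a‖ + ‖b‖) / 2 := by
    rw [norm_smul]
    have := norm_sub_le a b
    norm_num
    linarith
  have h0 : 0 ≤ ‖a‖ + ‖b‖ := by positivity
  have hur : ‖u - w‖ ≤ r := by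
    rw [hu, add_sub_cancel_left]
    linarith only [h0, hn, hab]
  have h1 := hsd u ((1 / 2 : ℝ) • (a - b)) hur (by linarith)
  have h2 := hsd u ((1 / 2 : ℝ) • (a + b)) hur (by linarith only [h0, hn, hab])
  have e1 : u + (1 / 2 : ℝ) • (a - b) = w + a := by rw [hu]; module
  have e2 : u - (1 / 2 : ℝ) • (a - b) = w + b := by rw [hu]; module
  have e3 : u + (1 / 2 : ℝ) • (a + b) = w + a + b := by rw [hu]; module
  have e4 : u - (1 / 2 : ℝ) • (a + b) = w := by rw [hu]; module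
  rw [e1, e2] at h1
  rw [e3, e4] at h2
  have e5 : f (w + a) + f (w + b) - f (w + a + b) - f w
      = (f (w + a) + f (w + b) - (2 : ℝ) • f u) - (f (w + a + b) + f w - (2 : ℝ) • f u) := by
    abel
  rw [e5]
  have h3 : C * ‖(1 / 2 : ℝ) • (a - b)‖ ^ 2 ≤ C * ((‖a‖ + ‖b‖) / 2) ^ 2 := by gcongr
  have h4 : C * ‖(1 / 2 : ℝ) • (a + b)‖ ^ 2 ≤ C * ((‖a‖ + ‖b‖) / 2) ^ 2 := by gcongr
  calc _ ≤ ‖f (w + a) + f (w + b) - (2 : ℝ) • f u‖ + ‖f (w + a + b) + f w - (2 : ℝ) • f u‖ :=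
        norm_sub_le _ _
    _ ≤ C * ((‖a‖ + ‖b‖) / 2) ^ 2 + C * ((‖a‖ + ‖b‖) / 2) ^ 2 := by linarith
    _ ≤ _ := by linarith only [mul_nonneg hC (sq_nonneg (‖a‖ + ‖b‖))]

/-- dyadic difference quotients -/
def dq (f : X → Y) (w : X) (n : ℕ) (h : X) : Y :=
  (2 : ℝ) ^ n • (f (w + (1 / 2 : ℝ) ^ n • h) - f w)

theorem dq_succ_sub (hC : 0 ≤ C)
    (hsd : ∀ u h : X, ‖u - w‖ ≤ r → ‖h‖ ≤ r → ‖f (u + h) + f (u - h) - (2 : ℝ) • f u‖ ≤ C * ‖h‖ ^ 2)
    {h : X} {n : ℕ} (hn : (1 / 2 : ℝ) ^ n * ‖h‖ ≤ r) :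
    ‖dq f w (n + 1) h - dq f w n h‖ ≤ C * ‖h‖ ^ 2 * (1 / 2) ^ n := by
  have hn' : ‖(1 / 2 : ℝ) ^ (n + 1) • h‖ = (1 / 2 : ℝ) ^ (n + 1) * ‖h‖ := by
    rw [norm_smul, Real.norm_eq_abs, abs_of_pos (by positivity)]
  have e0 : (1 / 2 : ℝ) ^ (n + 1) • h + (1 / 2 : ℝ) ^ (n + 1) • h = (1 / 2 : ℝ) ^ n • h := by
    rw [← add_smul]
    congr 1
    rw [pow_succ]
    ring
  have h1 := four_point (f := f) (w := w) (r := r) hC hsd (a := (1 / 2 : ℝ) ^ (n + 1) • h)
    (b := (1 / 2 : ℝ) ^ (n + 1) • h) (by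
      rw [hn', pow_succ]
      linarith)
  rw [add_assoc w, e0, hn'] at h1
  have e1 : dq f w (n + 1) h - dq f w n h = (2 : ℝ) ^ n • (f (w + (1 / 2 : ℝ) ^ (n + 1) • h)
      + f (w + (1 / 2 : ℝ) ^ (n + 1) • h) - f (w + (1 / 2 : ℝ) ^ n • h) - f w) := by
    simp only [dq, pow_succ]
    module
  rw [e1, norm_smul, Real.norm_eq_abs, abs_of_pos (by positivity)]
  have h2 := mul_le_mul_of_nonneg_left h1 (show (0 : ℝ) ≤ 2 ^ n by positivity)
  refine h2.trans (le_of_eq ?_)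
  have e2 : (2 : ℝ) ^ n * (1 / 2) ^ n = 1 := by
    rw [← mul_pow]
    norm_num
  calc (2 : ℝ) ^ n * (C * ((1 / 2) ^ (n + 1) * ‖h‖ + (1 / 2) ^ (n + 1) * ‖h‖) ^ 2)
      = C * ‖h‖ ^ 2 * (1 / 2) ^ n * ((2 : ℝ) ^ n * (1 / 2) ^ n) := by
        rw [pow_succ]; ring
    _ = _ := by rw [e2, mul_one]

/-- A Lipschitz map with quadratically bounded second differences near `w` is differentiable
at `w`, with a quadratic remainder. -/
theorem exists_deriv_of_sd [CompleteSpace Y] (hr : 0 < r) (hC : 0 ≤ C)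
    (hlip : ∀ h : X, ‖h‖ ≤ r → ‖f (w + h) - f w‖ ≤ L * ‖h‖)
    (hsd : ∀ u h : X, ‖u - w‖ ≤ r → ‖h‖ ≤ r → ‖f (u + h) + f (u - h) - (2 : ℝ) • f u‖ ≤ C * ‖h‖ ^ 2) :
    ∃ A : X →L[ℝ] Y, (∀ h : X, ‖A h‖ ≤ L * ‖h‖) ∧
      ∀ h : X, ‖h‖ ≤ r → ‖f (w + h) - f w - A h‖ ≤ 2 * C * ‖h‖ ^ 2 := by
  have hsmall : ∀ h : X, ∀ᶠ n : ℕ in atTop, (1 / 2 : ℝ) ^ n * ‖h‖ ≤ r := by
    intro h
    have h1 : Tendsto (fun n : ℕ => (1 / 2 : ℝ) ^ n * ‖h‖) atTop (𝓝 (0 * ‖h‖)) :=
      (tendsto_pow_atTop_nhds_zero_of_lt_one (by norm_num) (by norm_num)).mul_const _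
    rw [zero_mul] at h1
    exact h1.eventually (ge_mem_nhds hr)
  have hmono : ∀ (h : X) (m n : ℕ), m ≤ n → (1 / 2 : ℝ) ^ m * ‖h‖ ≤ r →
      (1 / 2 : ℝ) ^ n * ‖h‖ ≤ r := by
    intro h m n hmn hm
    refine le_trans ?_ hm
    gcongr ?_ * _
    exact pow_le_pow_of_le_one (by norm_num) (by norm_num) hmn
  -- limits of the dyadic quotients
  have hlim : ∀ h : X, ∃ y : Y, Tendsto (fun n => dq f w n h) atTop (𝓝 y) := by
    intro h
    obtain ⟨N, hN⟩ := eventually_atTop.mp (hsmall h)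
    have h1 : CauchySeq (fun n => dq f w (n + N) h) := by
      apply cauchySeq_of_le_geometric (1 / 2) (C * ‖h‖ ^ 2) (by norm_num)
      intro n
      rw [dist_comm, dist_eq_norm]
      have h2 := dq_succ_sub (f := f) (w := w) hC hsd (h := h) (n := n + N) (hN _ (by omega))
      rw [show n + 1 + N = n + N + 1 by ring]
      refine h2.trans ?_
      have h3 : (1 / 2 : ℝ) ^ (n + N) ≤ (1 / 2) ^ n :=
        pow_le_pow_of_le_one (by norm_num) (by norm_num) (by omega)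
      gcongr
    obtain ⟨y, hy⟩ := cauchySeq_tendsto_of_complete h1
    exact ⟨y, (tendsto_add_atTop_iff_nat N).mp hy⟩
  choose A hA using hlim
  -- bounds
  have hAbd : ∀ h : X, ‖A h‖ ≤ L * ‖h‖ := by
    intro h
    refine le_of_tendsto (hA h).norm ?_
    filter_upwards [hsmall h] with n hn
    rw [dq, norm_smul, Real.norm_eq_abs, abs_of_pos (by positivity)]
    have h1 : ‖(1 / 2 : ℝ) ^ n • h‖ = (1 / 2 : ℝ) ^ n * ‖h‖ := by
      rw [norm_smul, Real.norm_eq_abs, abs_of_pos (by positivity)]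
    have h2 := hlip ((1 / 2 : ℝ) ^ n • h) (by rw [h1]; exact hn)
    rw [h1] at h2
    have h3 := mul_le_mul_of_nonneg_left h2 (show (0 : ℝ) ≤ 2 ^ n by positivity)
    refine h3.trans (le_of_eq ?_)
    have e2 : (2 : ℝ) ^ n * (1 / 2) ^ n = 1 := by
      rw [← mul_pow]
      norm_num
    calc (2 : ℝ) ^ n * (L * ((1 / 2) ^ n * ‖h‖)) = (L * ‖h‖) * ((2 : ℝ) ^ n * (1 / 2) ^ n) := by
          ring
      _ = _ := by rw [e2, mul_one]
  have hrem : ∀ h : X, ‖h‖ ≤ r → ‖f (w + h) - f w - A h‖ ≤ 2 * C * ‖h‖ ^ 2 := by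
    intro h hh
    have h1 : ∀ n : ℕ, dist (dq f w n h) (dq f w (n + 1) h) ≤ C * ‖h‖ ^ 2 * (1 / 2) ^ n := by
      intro n
      rw [dist_comm, dist_eq_norm]
      exact dq_succ_sub hC hsd (hmono h 0 n (by omega) (by simpa using hh))
    have h2 := dist_le_of_le_geometric_of_tendsto₀ (1 / 2) (C * ‖h‖ ^ 2) (by norm_num) h1 (hA h)
    rw [dist_eq_norm] at h2
    have e0 : dq f w 0 h = f (w + h) - f w := by simp [dq]
    rw [e0] at h2
    refine h2.trans (le_of_eq ?_)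
    ring
  -- additivity
  have hadd : ∀ a b : X, A (a + b) = A a + A b := by
    intro a b
    have h1 : Tendsto (fun n => dq f w n a + dq f w n b - dq f w n (a + b)) atTop
        (𝓝 (A a + A b - A (a + b))) := ((hA a).add (hA b)).sub (hA _)
    have h2 : Tendsto (fun n => dq f w n a + dq f w n b - dq f w n (a + b)) atTop (𝓝 0) := by
      have h3 : Tendsto (fun n : ℕ => C * (‖a‖ + ‖b‖) ^ 2 * (1 / 2 : ℝ) ^ n) atTop
          (𝓝 (C * (‖a‖ + ‖b‖) ^ 2 * 0)) :=
        (tendsto_pow_atTop_nhds_zero_of_lt_one (by norm_num) (by norm_num)).const_mul _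
      rw [mul_zero] at h3
      refine squeeze_zero_norm' ?_ h3
      have h4 : ∀ᶠ n : ℕ in atTop, (1 / 2 : ℝ) ^ n * (‖a‖ + ‖b‖) ≤ r := by
        have h1 : Tendsto (fun n : ℕ => (1 / 2 : ℝ) ^ n * (‖a‖ + ‖b‖)) atTop
            (𝓝 (0 * (‖a‖ + ‖b‖))) :=
          (tendsto_pow_atTop_nhds_zero_of_lt_one (by norm_num) (by norm_num)).mul_const _
        rw [zero_mul] at h1
        exact h1.eventually (ge_mem_nhds hr)
      filter_upwards [h4] with n hn
      have ha : ‖(1 / 2 : ℝ) ^ n • a‖ = (1 / 2 : ℝ) ^ n * ‖a‖ := by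
        rw [norm_smul, Real.norm_eq_abs, abs_of_pos (by positivity)]
      have hb : ‖(1 / 2 : ℝ) ^ n • b‖ = (1 / 2 : ℝ) ^ n * ‖b‖ := by
        rw [norm_smul, Real.norm_eq_abs, abs_of_pos (by positivity)]
      have h5 := four_point (f := f) (w := w) (r := r) hC hsd (a := (1 / 2 : ℝ) ^ n • a)
        (b := (1 / 2 : ℝ) ^ n • b) (by rw [ha, hb]; linarith)
      rw [ha, hb] at h5
      have e1 : dq f w n a + dq f w n b - dq f w n (a + b) = (2 : ℝ) ^ n •
          (f (w + (1 / 2 : ℝ) ^ n • a) + f (w + (1 / 2 : ℝ) ^ n • b)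
            - f (w + (1 / 2 : ℝ) ^ n • a + (1 / 2 : ℝ) ^ n • b) - f w) := by
        simp only [dq, smul_add, add_assoc]
        module
      rw [e1, norm_smul, Real.norm_eq_abs, abs_of_pos (by positivity)]
      have h6 := mul_le_mul_of_nonneg_left h5 (show (0 : ℝ) ≤ 2 ^ n by positivity)
      refine h6.trans (le_of_eq ?_)
      have e2 : (2 : ℝ) ^ n * (1 / 2) ^ n = 1 := by
        rw [← mul_pow]
        norm_num
      calc (2 : ℝ) ^ n * (C * ((1 / 2) ^ n * ‖a‖ + (1 / 2) ^ n * ‖b‖) ^ 2)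
          = C * (‖a‖ + ‖b‖) ^ 2 * (1 / 2) ^ n * ((2 : ℝ) ^ n * (1 / 2) ^ n) := by
            ring
        _ = _ := by rw [e2, mul_one]
    have h3 := tendsto_nhds_unique h1 h2
    rw [sub_eq_zero] at h3
    exact h3.symm
  let A₀ : X →+ Y := AddMonoidHom.mk' A hadd
  have hcont : Continuous A₀ := AddMonoidHomClass.continuous_of_bound A₀ L hAbd
  refine ⟨A₀.toRealLinearMap hcont, hAbd, hrem⟩

end sd

/-- Quantitative `C^{1,1}` regularity of a homogeneous map. -/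
structure Reg (F : X → Y) (K : ℝ) : Prop where
  nonneg : 0 ≤ K
  diff : ∀ x : X, x ≠ 0 → DifferentiableAt ℝ F x
  rem : ∀ x h : X, x ≠ 0 → ‖F (x + h) - F x - fderiv ℝ F x h‖ ≤ K * ‖h‖ ^ 2 / ‖x‖
  lip : ∀ x y : X, x ≠ 0 → y ≠ 0 → ‖fderiv ℝ F x - fderiv ℝ F y‖ ≤ K * ‖x - y‖ / ‖x‖

theorem SphIso.sd_general {F : X → Y} (hF : SphIso F) {C : ℝ}
    (hsd : ∀ q h : X, ‖q‖ = 1 → ‖F (q + h) + F (q - h) - (2 : ℝ) • F q‖ ≤ C * ‖h‖ ^ 2)
    {z : X} (hz : z ≠ 0) (h : X) :
    ‖F (z + h) + F (z - h) - (2 : ℝ) • F z‖ ≤ C * ‖h‖ ^ 2 / ‖z‖ := by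
  have hz0 : 0 < ‖z‖ := norm_pos_iff.mpr hz
  have h1 := hsd (‖z‖⁻¹ • z) (‖z‖⁻¹ • h)
    (by rw [norm_smul, norm_inv, norm_norm, inv_mul_cancel₀ hz0.ne'])
  rw [← smul_add, ← smul_sub, hF.smul, hF.smul, hF.smul, smul_comm (2 : ℝ), ← smul_add, ← smul_sub,
    norm_smul, norm_smul, norm_inv, norm_norm] at h1
  have h2 := mul_le_mul_of_nonneg_left h1 hz0.le
  rw [← mul_assoc, mul_inv_cancel₀ hz0.ne', one_mul] at h2
  refine h2.trans (le_of_eq ?_)
  field_simp

theorem SphIso.reg_of_sd [CompleteSpace Y] {F : X → Y} (hF : SphIso F) {C : ℝ} (hC : 0 ≤ C)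
    (hsd : ∀ q h : X, ‖q‖ = 1 → ‖F (q + h) + F (q - h) - (2 : ℝ) • F q‖ ≤ C * ‖h‖ ^ 2) :
    ∃ K : ℝ, Reg F K := by
  have key : ∀ z : X, z ≠ 0 → ∃ A : X →L[ℝ] Y, (∀ h : X, ‖A h‖ ≤ 3 * ‖h‖) ∧
      ∀ h : X, ‖F (z + h) - F z - A h‖ ≤ (4 * C + 12) * ‖h‖ ^ 2 / ‖z‖ := by
    intro z hz
    have hz0 : 0 < ‖z‖ := norm_pos_iff.mpr hz
    obtain ⟨A, hA1, hA2⟩ := exists_deriv_of_sd (f := F) (w := z) (r := ‖z‖ / 2)
      (C := 2 * C / ‖z‖) (L := 3) (by positivity) (by positivity)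
      (fun h _ => by
        have := hF.dist_le (z + h) z
        rwa [add_sub_cancel_left] at this)
      (fun u h hu hh => by
        have h1 : ‖z‖ ≤ ‖u‖ + ‖u - z‖ := by
          have : z = u - (u - z) := by abel
          calc ‖z‖ = ‖u - (u - z)‖ := by rw [← this]
            _ ≤ _ := norm_sub_le _ _
        have h2 : ‖z‖ / 2 ≤ ‖u‖ := by linarith only [h1, hu]
        have hu0 : u ≠ 0 := norm_pos_iff.mp (by linarith)
        refine (hF.sd_general hsd hu0 h).trans ?_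
        calc C * ‖h‖ ^ 2 / ‖u‖ ≤ C * ‖h‖ ^ 2 / (‖z‖ / 2) := by gcongr
          _ = _ := by field_simp)
    refine ⟨A, hA1, fun h => ?_⟩
    by_cases hh : ‖h‖ ≤ ‖z‖ / 2
    · refine (hA2 h hh).trans ?_
      have : 2 * (2 * C / ‖z‖) * ‖h‖ ^ 2 = 4 * C * ‖h‖ ^ 2 / ‖z‖ := by ring
      rw [this]
      gcongr
      linarith only []
    · push Not at hh
      have h1 : ‖F (z + h) - F z - A h‖ ≤ 6 * ‖h‖ := by
        have h2 := hF.dist_le (z + h) z
        rw [add_sub_cancel_left] at h2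
        calc _ ≤ ‖F (z + h) - F z‖ + ‖A h‖ := norm_sub_le _ _
          _ ≤ 3 * ‖h‖ + 3 * ‖h‖ := by gcongr; exact hA1 h
          _ = _ := by ring
      refine h1.trans ?_
      rw [le_div_iff₀ hz0]
      have h3 : 0 ≤ C * ‖h‖ ^ 2 := by positivity
      nlinarith [norm_nonneg h]
  have hderiv : ∀ z : X, z ≠ 0 → DifferentiableAt ℝ F z ∧ (∀ h : X, ‖fderiv ℝ F z h‖ ≤ 3 * ‖h‖) ∧
      ∀ h : X, ‖F (z + h) - F z - fderiv ℝ F z h‖ ≤ (4 * C + 12) * ‖h‖ ^ 2 / ‖z‖ := by
    intro z hz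
    have hz0 : 0 < ‖z‖ := norm_pos_iff.mpr hz
    obtain ⟨A, hA1, hA2⟩ := key z hz
    have hd : HasFDerivAt F A z := by
      rw [hasFDerivAt_iff_isLittleO_nhds_zero, Asymptotics.isLittleO_iff]
      intro ε hε
      have : ∀ᶠ w : X in 𝓝 0, ‖w‖ < ε * ‖z‖ / (4 * C + 12) := by
        have := Metric.ball_mem_nhds (0 : X) (show 0 < ε * ‖z‖ / (4 * C + 12) by positivity)
        filter_upwards [this] with w hw
        simpa using hw
      filter_upwards [this] with h hh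
      refine (hA2 h).trans ?_
      rw [lt_div_iff₀ (by positivity)] at hh
      rw [div_le_iff₀ hz0]
      linarith only [mul_nonneg (le_of_lt (sub_pos.2 hh)) (sub_nonneg.2 (norm_nonneg h))]
    rw [hd.fderiv]
    exact ⟨hd.differentiableAt, hA1, hA2⟩
  set K : ℝ := 4 * C + 12 with hK
  have hK0 : 0 ≤ K := by positivity
  refine ⟨7 * K + 12, ⟨by positivity, fun x hx => (hderiv x hx).1, fun x h hx => ?_,
    fun x y hx hy => ?_⟩⟩
  · refine ((hderiv x hx).2.2 h).trans ?_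
    gcongr
    linarith
  · have hx0 : 0 < ‖x‖ := norm_pos_iff.mpr hx
    have hbd : ∀ z : X, z ≠ 0 → ‖fderiv ℝ F z‖ ≤ 3 := fun z hz =>
      ContinuousLinearMap.opNorm_le_bound _ (by norm_num) (hderiv z hz).2.1
    by_cases hxy : ‖x - y‖ ≤ ‖x‖ / 2
    · rcases eq_or_ne x y with rfl | hne
      · simp
      have hd0 : 0 < ‖x - y‖ := norm_pos_iff.mpr (sub_ne_zero.mpr hne)
      have hyx : ‖x‖ / 2 ≤ ‖y‖ := by
        have : ‖x‖ ≤ ‖y‖ + ‖x - y‖ := by
          have h0 : x = y + (x - y) := by abel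
          calc ‖x‖ = ‖y + (x - y)‖ := by rw [← h0]
            _ ≤ _ := norm_add_le _ _
        linarith
      set δ : ℝ := ‖x - y‖ with hδ
      have hunit : ∀ v : X, ‖v‖ = 1 → ‖(fderiv ℝ F x - fderiv ℝ F y) v‖ ≤ (7 * K + 12) * δ / ‖x‖ := by
        intro v hv
        set u : X := δ • v with hu
        have hun : ‖u‖ = δ := by rw [hu, norm_smul, hv, mul_one, Real.norm_eq_abs, abs_of_pos hd0]
        have r1 := (hderiv y hy).2.2 u
        have r2 := (hderiv x hx).2.2 (y - x + u)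
        have r3 := (hderiv x hx).2.2 (y - x)
        rw [show x + (y - x + u) = y + u by abel] at r2
        rw [add_sub_cancel] at r3
        have n2 : ‖y - x + u‖ ≤ 2 * δ := by
          refine (norm_add_le _ _).trans ?_
          rw [hun, norm_sub_rev y x]
          linarith only []
        have n3 : ‖y - x‖ = δ := norm_sub_rev _ _
        have b1 : K * ‖u‖ ^ 2 / ‖y‖ ≤ 2 * K * δ ^ 2 / ‖x‖ := by
          rw [hun]
          calc K * δ ^ 2 / ‖y‖ ≤ K * δ ^ 2 / (‖x‖ / 2) := by gcongr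
            _ = _ := by field_simp
        have b2 : K * ‖y - x + u‖ ^ 2 / ‖x‖ ≤ 4 * K * δ ^ 2 / ‖x‖ := by
          calc K * ‖y - x + u‖ ^ 2 / ‖x‖ ≤ K * (2 * δ) ^ 2 / ‖x‖ := by gcongr
            _ = _ := by ring
        have b3 : K * ‖y - x‖ ^ 2 / ‖x‖ = K * δ ^ 2 / ‖x‖ := by rw [n3]
        have e1 : (fderiv ℝ F x - fderiv ℝ F y) u
            = (F (y + u) - F y - fderiv ℝ F y u) - (F (y + u) - F x - fderiv ℝ F x (y - x + u))
              + (F y - F x - fderiv ℝ F x (y - x)) := by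
          rw [sub_apply, map_add]
          abel
        have e2 : ‖(fderiv ℝ F x - fderiv ℝ F y) u‖ ≤ 7 * K * δ ^ 2 / ‖x‖ := by
          rw [e1]
          calc _ ≤ ‖(F (y + u) - F y - fderiv ℝ F y u)
                - (F (y + u) - F x - fderiv ℝ F x (y - x + u))‖
                + ‖F y - F x - fderiv ℝ F x (y - x)‖ := norm_add_le _ _
            _ ≤ (2 * K * δ ^ 2 / ‖x‖ + 4 * K * δ ^ 2 / ‖x‖) + K * δ ^ 2 / ‖x‖ := by
                gcongr
                · exact (norm_sub_le _ _).trans (add_le_add (r1.trans b1) (r2.trans b2))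
                · exact r3.trans_eq b3
            _ = _ := by ring
        rw [hu, map_smul, norm_smul, Real.norm_eq_abs, abs_of_pos hd0] at e2
        have e3 : δ * ‖(fderiv ℝ F x - fderiv ℝ F y) v‖ ≤ δ * (7 * K * δ / ‖x‖) := by
          refine e2.trans (le_of_eq ?_)
          ring
        have e4 := le_of_mul_le_mul_left e3 hd0
        refine e4.trans ?_
        gcongr
        linarith only []
      exact ContinuousLinearMap.opNorm_le_of_unit_norm (by (clear * - hC hd0 hx; positivity)) hunit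
    · push Not at hxy
      have h1 : ‖fderiv ℝ F x - fderiv ℝ F y‖ ≤ 6 := by
        calc _ ≤ ‖fderiv ℝ F x‖ + ‖fderiv ℝ F y‖ := norm_sub_le _ _
          _ ≤ 3 + 3 := add_le_add (hbd x hx) (hbd y hy)
          _ = 6 := by norm_num
      refine h1.trans ?_
      rw [le_div_iff₀ hx0]
      linarith only [mul_nonneg (sub_nonneg.2 hC) (sub_nonneg.2 (norm_nonneg (x - y))), hxy, hx0]

end P084
end 
end

/- SecondOrder -/
section
open Set Filter Topology Metric Asymptotics P084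

namespace Vale.Agent.P084

variable {X Y : Type*} [NormedAddCommGroup X] [NormedSpace ℝ X]
  [NormedAddCommGroup Y] [NormedSpace ℝ Y]

theorem norm_deriv_eq {W : ℝ → Y} {w : ℝ → X} {W' : Y} {w' : X} (h1 : HasDerivAt W W' 0)
    (h2 : HasDerivAt w w' 0) (h3 : W 0 = 0) (h4 : w 0 = 0)
    (h : ∀ᶠ t in 𝓝 (0 : ℝ), ‖W t‖ = ‖w t‖) : ‖W'‖ = ‖w'‖ := by
  have e1 := (hasDerivAt_iff_tendsto_slope_zero.1 h1).norm
  have e2 := (hasDerivAt_iff_tendsto_slope_zero.1 h2).norm
  simp only [zero_add, h3, h4, sub_zero] at e1 e2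
  refine tendsto_nhds_unique (e1.congr' ?_) e2
  filter_upwards [h.filter_mono nhdsWithin_le_nhds] with t ht
  rw [norm_smul, norm_smul, ht]

section first
variable {F : X → Y} (hF : SphIso F) (sx : SmoothNorm X) (sy : SmoothNorm Y) {x : X}

include hF sy sx in
theorem dn_fderiv (hx : x ≠ 0) (hd : DifferentiableAt ℝ F x) (u : X) :
    dn (F x) (fderiv ℝ F x u) = dn x u := by
  have h1 : HasFDerivAt (fun z => ‖F z‖) ((dn (F x)).comp (fderiv ℝ F x)) x :=
    (sy.hasFDerivAt (hF.ne_zero hx)).comp x hd.hasFDerivAt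
  have h2 : (fun z => ‖F z‖) = fun z : X => ‖z‖ := by
    ext z; exact hF.norm z
  rw [h2] at h1
  have := h1.unique (sx.hasFDerivAt hx)
  rw [← this]
  rfl

include hF in
theorem fderiv_self (hd : DifferentiableAt ℝ F x) : fderiv ℝ F x x = F x := by
  have h1 : HasDerivAt (fun t : ℝ => F (x + t • x)) (fderiv ℝ F x x) 0 := by
    have e1 : HasDerivAt (fun t : ℝ => x + t • x) x 0 := by
      simpa using ((hasDerivAt_id (0:ℝ)).smul_const x).const_add x
    have e2 : HasFDerivAt F (fderiv ℝ F x) (x + (0:ℝ) • x) := by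
      simpa using hd.hasFDerivAt
    exact e2.comp_hasDerivAt (0:ℝ) e1
  have h2 : (fun t : ℝ => F (x + t • x)) = fun t : ℝ => F x + t • F x := by
    ext t
    have : x + t • x = (1 + t) • x := by rw [add_smul, one_smul]
    rw [this, hF.smul, add_smul, one_smul]
  rw [h2] at h1
  have h3 : HasDerivAt (fun t : ℝ => F x + t • F x) (F x) 0 := by
    simpa using ((hasDerivAt_id (0:ℝ)).smul_const (F x)).const_add (F x)
  exact h1.unique h3

theorem hasDerivAt_line {f : X → Y} {f' : X →L[ℝ] Y} (hf : HasFDerivAt f f' x) (v : X) :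
    HasDerivAt (fun t : ℝ => f (x + t • v)) (f' v) 0 := by
  have e1 : HasDerivAt (fun t : ℝ => x + t • v) v 0 := by
    simpa using ((hasDerivAt_id (0:ℝ)).smul_const v).const_add x
  have e2 : HasFDerivAt f f' (x + (0:ℝ) • v) := by simpa using hf
  exact e2.comp_hasDerivAt (0:ℝ) e1

include hF sx in
theorem norm_fderiv_tangent (hx : x ≠ 0) (hd : DifferentiableAt ℝ F x) {v : X}
    (hv : dn x v = 0) : ‖fderiv ℝ F x v‖ = ‖v‖ := by
  have n1 : HasDerivAt (fun t : ℝ => ‖x + t • v‖) 0 0 := by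
    have := hasDerivAt_line (sx.hasFDerivAt hx) v
    rwa [hv] at this
  have F1 : HasDerivAt (fun t : ℝ => F (x + t • v)) (fderiv ℝ F x v) 0 :=
    hasDerivAt_line hd.hasFDerivAt v
  have x1 : HasDerivAt (fun t : ℝ => x + t • v) v 0 := by
    simpa using ((hasDerivAt_id (0:ℝ)).smul_const v).const_add x
  have W1 : HasDerivAt (fun t : ℝ => ‖x + t • v‖ • F x - ‖x‖ • F (x + t • v))
      (-(‖x‖ • fderiv ℝ F x v)) 0 := by
    have := (n1.smul_const (F x)).sub (F1.const_smul ‖x‖)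
    convert! this using 1
    simp
  have w1 : HasDerivAt (fun t : ℝ => ‖x + t • v‖ • x - ‖x‖ • (x + t • v))
      (-(‖x‖ • v)) 0 := by
    have := (n1.smul_const x).sub (x1.const_smul ‖x‖)
    convert! this using 1
    simp
  have := norm_deriv_eq W1 w1 (by simp) (by simp)
    (Eventually.of_forall fun t => hF.dist_smul x (x + t • v))
  rw [norm_neg, norm_neg, norm_smul, norm_smul] at this
  exact mul_left_cancel₀ (by simpa using hx) this

include hF sx sy in
/-- first variation of the identity `‖F a + F b‖ = ‖a + b‖`. -/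
theorem first_variation (hx : x ≠ 0) (hd : DifferentiableAt ℝ F x) {u : X} (hu : dn x u = 0)
    {b : X} (hb : b ≠ 0) (hbx : ‖b‖ • x + ‖x‖ • b ≠ 0) :
    dn (‖b‖ • F x + ‖x‖ • F b) (fderiv ℝ F x u) = dn (‖b‖ • x + ‖x‖ • b) u := by
  have n1 : HasDerivAt (fun t : ℝ => ‖x + t • u‖) 0 0 := by
    have := hasDerivAt_line (sx.hasFDerivAt hx) u
    rwa [hu] at this
  have F1 : HasDerivAt (fun t : ℝ => F (x + t • u)) (fderiv ℝ F x u) 0 :=
    hasDerivAt_line hd.hasFDerivAt u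
  have x1 : HasDerivAt (fun t : ℝ => x + t • u) u 0 := by
    simpa using ((hasDerivAt_id (0:ℝ)).smul_const u).const_add x
  have W1 : HasDerivAt (fun t : ℝ => ‖b‖ • F (x + t • u) + ‖x + t • u‖ • F b)
      (‖b‖ • fderiv ℝ F x u) 0 := by
    have := (F1.const_smul ‖b‖).add (n1.smul_const (F b))
    convert! this using 1
    simp
  have w1 : HasDerivAt (fun t : ℝ => ‖b‖ • (x + t • u) + ‖x + t • u‖ • b)
      (‖b‖ • u) 0 := by
    have := (x1.const_smul ‖b‖).add (n1.smul_const b)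
    convert! this using 1
    simp
  have hbx' : ‖b‖ • F x + ‖x‖ • F b ≠ 0 := by
    intro h
    have := hF.dist_smul_add x b
    rw [h, norm_zero] at this
    exact hbx (norm_eq_zero.1 this.symm)
  have W2 : HasDerivAt (fun t : ℝ => ‖‖b‖ • F (x + t • u) + ‖x + t • u‖ • F b‖)
      (dn (‖b‖ • F x + ‖x‖ • F b) (‖b‖ • fderiv ℝ F x u)) 0 := by
    have e2 : HasFDerivAt (fun y : Y => ‖y‖) (dn (‖b‖ • F x + ‖x‖ • F b))
        (‖b‖ • F (x + (0:ℝ) • u) + ‖x + (0:ℝ) • u‖ • F b) := by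
      simpa using sy.hasFDerivAt hbx'
    exact e2.comp_hasDerivAt (0:ℝ) W1
  have w2 : HasDerivAt (fun t : ℝ => ‖‖b‖ • (x + t • u) + ‖x + t • u‖ • b‖)
      (dn (‖b‖ • x + ‖x‖ • b) (‖b‖ • u)) 0 := by
    have e2 : HasFDerivAt (fun y : X => ‖y‖) (dn (‖b‖ • x + ‖x‖ • b))
        (‖b‖ • (x + (0:ℝ) • u) + ‖x + (0:ℝ) • u‖ • b) := by
      simpa using sx.hasFDerivAt hbx
    exact e2.comp_hasDerivAt (0:ℝ) w1
  have h3 : (fun t : ℝ => ‖‖b‖ • F (x + t • u) + ‖x + t • u‖ • F b‖)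
      = fun t : ℝ => ‖‖b‖ • (x + t • u) + ‖x + t • u‖ • b‖ := by
    ext t
    exact hF.dist_smul_add (x + t • u) b
  rw [h3] at W2
  have h4 := W2.unique w2
  rw [map_smul, map_smul] at h4
  exact smul_right_injective ℝ (norm_ne_zero_iff.2 hb) h4

end first


end Vale.Agent.P084
end

/- Chord -/
section
open Set Filter Topology Metric Asymptotics P084

namespace Vale.Agent.P084

variable {X Y : Type*} [NormedAddCommGroup X] [NormedSpace ℝ X]
  [NormedAddCommGroup Y] [NormedSpace ℝ Y]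

variable {F : X → Y} {x : X} {H : X →L[ℝ] X →L[ℝ] ℝ} {Q : X →L[ℝ] X →L[ℝ] Y}

variable (hF : SphIso F) (sx : SmoothNorm X) (sy : SmoothNorm Y)

/-- differentiated tangent isometry -/
theorem dn_fderiv_tangent (hF : SphIso F) (sx : SmoothNorm X) (sy : SmoothNorm Y) (hx : x ≠ 0)
    (hd : DifferentiableAt ℝ F x) {v w : X} (hv : dn x v = 0)
    (hw : dn x w = 0) (hv0 : v ≠ 0) : dn (fderiv ℝ F x v) (fderiv ℝ F x w) = dn v w := by
  have hA0 : fderiv ℝ F x v ≠ 0 := by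
    intro h
    have := norm_fderiv_tangent hF sx hx hd (v := v) hv
    rw [h, norm_zero] at this
    exact hv0 (norm_eq_zero.1 this.symm)
  have h1 := hasDerivAt_line (sy.hasFDerivAt hA0) (fderiv ℝ F x w)
  have h2 := hasDerivAt_line (sx.hasFDerivAt hv0) w
  have h3 : (fun t : ℝ => ‖fderiv ℝ F x v + t • fderiv ℝ F x w‖) = fun t : ℝ => ‖v + t • w‖ := by
    ext t
    rw [← map_smul, ← map_add]
    exact norm_fderiv_tangent hF sx hx hd (by rw [map_add, map_smul, hv, hw]; simp)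
  rw [h3] at h1
  exact h1.unique h2

end Vale.Agent.P084
end

/- SmLip -/
section
/-!
Pointwise-local Lipschitz property of maps, and closure properties.
-/

open Set Filter Topology Metric Asymptotics

noncomputable section

set_option linter.unusedSectionVars false

namespace P084

variable {E F G H : Type*} [NormedAddCommGroup E] [NormedSpace ℝ E]
  [NormedAddCommGroup F] [NormedSpace ℝ F] [NormedAddCommGroup G] [NormedSpace ℝ G]
  [NormedAddCommGroup H] [NormedSpace ℝ H]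

/-- `f` is Lipschitz near `x`. -/
def LipAt (f : E → F) (x : E) : Prop :=
  (fun p : E × E => f p.1 - f p.2) =O[𝓝 (x, x)] (fun p : E × E => p.1 - p.2)

theorem LipAt.continuousAt {f : E → F} {x : E} (h : LipAt f x) : ContinuousAt f x := by
  have h1 : Tendsto (fun a : E => (a, x)) (𝓝 x) (𝓝 (x, x)) := by
    have : Continuous fun a : E => (a, x) := by fun_prop
    exact this.tendsto x
  have h2 := IsBigO.comp_tendsto h h1
  have h3 : Tendsto (fun a : E => a - x) (𝓝 x) (𝓝 0) := by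
    have : Continuous fun a : E => a - x := by fun_prop
    have h4 := this.tendsto x
    simpa using h4
  have h4 := h2.trans_tendsto h3
  rw [ContinuousAt]
  exact tendsto_sub_nhds_zero_iff.mp h4

theorem lipAt_iff {f : E → F} {x : E} :
    LipAt f x ↔ ∃ K : NNReal, ∃ U ∈ 𝓝 x, LipschitzOnWith K f U := by
  constructor
  · intro h
    obtain ⟨C, hC⟩ := h.bound
    rw [nhds_prod_eq, Filter.eventually_iff, Filter.mem_prod_self_iff] at hC
    obtain ⟨U, hU, hUU⟩ := hC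
    refine ⟨(max C 0).toNNReal, U, hU, LipschitzOnWith.of_dist_le_mul fun a ha b hb => ?_⟩
    have h1 := hUU (show (a, b) ∈ U ×ˢ U from ⟨ha, hb⟩)
    simp only [Set.mem_ofPred_eq] at h1
    rw [dist_eq_norm, dist_eq_norm, Real.coe_toNNReal _ (le_max_right _ _)]
    exact h1.trans (by gcongr; exact le_max_left _ _)
  · rintro ⟨K, U, hU, hK⟩
    refine IsBigO.of_bound K ?_
    rw [nhds_prod_eq]
    filter_upwards [Filter.prod_mem_prod hU hU] with p hp
    have := hK.dist_le_mul p.1 hp.1 p.2 hp.2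
    rwa [dist_eq_norm, dist_eq_norm] at this

theorem _root_.HasStrictFDerivAt.lipAt {f : E → F} {f' : E →L[ℝ] F} {x : E}
    (h : HasStrictFDerivAt f f' x) : LipAt f x := h.isBigO_sub

theorem LipAt.tendsto_prod {f : E → F} {x : E} (h : LipAt f x) :
    Tendsto (fun p : E × E => (f p.1, f p.2)) (𝓝 (x, x)) (𝓝 (f x, f x)) := by
  rw [nhds_prod_eq, nhds_prod_eq]
  exact h.continuousAt.tendsto.prodMap h.continuousAt.tendsto

theorem LipAt.comp {f : F → G} {g : E → F} {x : E} (hf : LipAt f (g x)) (hg : LipAt g x) :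
    LipAt (fun a => f (g a)) x :=
  (IsBigO.comp_tendsto hf hg.tendsto_prod).trans hg

theorem LipAt.congr {f g : E → F} {x : E} (hf : LipAt f x) (h : f =ᶠ[𝓝 x] g) : LipAt g x := by
  refine IsBigO.congr' hf ?_ (EventuallyEq.refl _ _)
  rw [nhds_prod_eq]
  filter_upwards [h.prod_mk h] with p hp
  rw [hp.1, hp.2]

theorem lipAt_const (c : F) (x : E) : LipAt (fun _ : E => c) x := by
  unfold LipAt
  simp only [sub_self]
  exact isBigO_zero _ _

theorem lipAt_id (x : E) : LipAt (fun a : E => a) x := isBigO_refl _ _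

theorem LipAt.add {f g : E → F} {x : E} (hf : LipAt f x) (hg : LipAt g x) :
    LipAt (fun a => f a + g a) x := by
  have := IsBigO.add hf hg
  exact this.congr_left fun p => by simp only []; abel

theorem LipAt.sub {f g : E → F} {x : E} (hf : LipAt f x) (hg : LipAt g x) :
    LipAt (fun a => f a - g a) x := by
  have := IsBigO.sub hf hg
  exact this.congr_left fun p => by simp only []; abel

theorem LipAt.neg {f : E → F} {x : E} (hf : LipAt f x) : LipAt (fun a => -f a) x := by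
  have := (lipAt_const (0 : F) x).sub hf
  simpa using this

/-- Bilinear combination of Lipschitz functions. -/
theorem LipAt.bilin (B : F →L[ℝ] G →L[ℝ] H) {f : E → F} {g : E → G} {x : E} (hf : LipAt f x)
    (hg : LipAt g x) : LipAt (fun a => B (f a) (g a)) x := by
  obtain ⟨Cf, hCf0, hCf⟩ := hf.exists_nonneg
  obtain ⟨Cg, hCg0, hCg⟩ := hg.exists_nonneg
  have hCf := hCf.bound
  have hCg := hCg.bound
  have hb1 : ∀ᶠ p : E × E in 𝓝 (x, x), ‖g p.1‖ < ‖g x‖ + 1 := by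
    have : Tendsto (fun p : E × E => ‖g p.1‖) (𝓝 (x, x)) (𝓝 ‖g x‖) :=
      (hg.continuousAt.tendsto.comp (continuous_fst.tendsto (x, x))).norm
    exact this.eventually (gt_mem_nhds (by linarith))
  have hb2 : ∀ᶠ p : E × E in 𝓝 (x, x), ‖f p.2‖ < ‖f x‖ + 1 := by
    have : Tendsto (fun p : E × E => ‖f p.2‖) (𝓝 (x, x)) (𝓝 ‖f x‖) :=
      (hf.continuousAt.tendsto.comp (continuous_snd.tendsto (x, x))).norm
    exact this.eventually (gt_mem_nhds (by linarith))
  refine IsBigO.of_bound (‖B‖ * (Cf * (‖g x‖ + 1) + (‖f x‖ + 1) * Cg)) ?_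
  filter_upwards [hCf, hCg, hb1, hb2] with p h1 h2 h3 h4
  have e : B (f p.1) (g p.1) - B (f p.2) (g p.2)
      = B (f p.1 - f p.2) (g p.1) + B (f p.2) (g p.1 - g p.2) := by
    simp only [map_sub, sub_apply]
    abel
  rw [e]
  have n1 := B.le_opNorm₂ (f p.1 - f p.2) (g p.1)
  have n2 := B.le_opNorm₂ (f p.2) (g p.1 - g p.2)
  calc ‖B (f p.1 - f p.2) (g p.1) + B (f p.2) (g p.1 - g p.2)‖
      ≤ ‖B (f p.1 - f p.2) (g p.1)‖ + ‖B (f p.2) (g p.1 - g p.2)‖ := norm_add_le _ _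
    _ ≤ ‖B‖ * ‖f p.1 - f p.2‖ * ‖g p.1‖ + ‖B‖ * ‖f p.2‖ * ‖g p.1 - g p.2‖ := add_le_add n1 n2
    _ ≤ ‖B‖ * (Cf * ‖p.1 - p.2‖) * (‖g x‖ + 1) + ‖B‖ * (‖f x‖ + 1) * (Cg * ‖p.1 - p.2‖) := by
        gcongr
    _ = ‖B‖ * (Cf * (‖g x‖ + 1) + (‖f x‖ + 1) * Cg) * ‖p.1 - p.2‖ := by ring

theorem LipAt.clm_comp {f : E → G →L[ℝ] H} {g : E → F →L[ℝ] G} {x : E} (hf : LipAt f x)
    (hg : LipAt g x) : LipAt (fun a => (f a).comp (g a)) x :=
  LipAt.bilin (ContinuousLinearMap.compL ℝ F G H) hf hg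

theorem LipAt.clm_apply {f : E → G →L[ℝ] H} {g : E → G} {x : E} (hf : LipAt f x)
    (hg : LipAt g x) : LipAt (fun a => f a (g a)) x :=
  LipAt.bilin (ContinuousLinearMap.id ℝ (G →L[ℝ] H)) hf hg

theorem LipAt.smul {f : E → ℝ} {g : E → G} {x : E} (hf : LipAt f x)
    (hg : LipAt g x) : LipAt (fun a => f a • g a) x :=
  LipAt.bilin (ContinuousLinearMap.lsmul ℝ ℝ) hf hg

theorem LipAt.mul {f g : E → ℝ} {x : E} (hf : LipAt f x)
    (hg : LipAt g x) : LipAt (fun a => f a * g a) x :=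
  LipAt.bilin (ContinuousLinearMap.mul ℝ ℝ) hf hg

theorem LipAt.smulRight {f : E → F →L[ℝ] ℝ} {g : E → G} {x : E} (hf : LipAt f x)
    (hg : LipAt g x) : LipAt (fun a => (f a).smulRight (g a)) x :=
  LipAt.bilin (ContinuousLinearMap.smulRightL ℝ F G) hf hg

theorem lipAt_norm (x : E) : LipAt (fun a : E => ‖a‖) x := by
  refine IsBigO.of_bound 1 (Eventually.of_forall fun p => ?_)
  rw [one_mul, Real.norm_eq_abs]
  exact abs_norm_sub_norm_le _ _

theorem _root_.LipschitzWith.lipAt {f : E → F} {K : NNReal} (hf : LipschitzWith K f) (x : E) :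
    LipAt f x := lipAt_iff.mpr ⟨K, univ, univ_mem, hf.lipschitzOnWith⟩

end P084
end 
end

/- SmFinish -/
section
/-!
Finishing lemma: a linear map matching all norming functionals at one point is the isometry.
-/

open Set Filter Topology Metric

noncomputable section

namespace P084

variable {X Y : Type*} [NormedAddCommGroup X] [NormedSpace ℝ X]
  [NormedAddCommGroup Y] [NormedSpace ℝ Y]

/-- A ray pointing inward meets the sphere again. -/
theorem SmoothNorm.exists_ray (h : SmoothNorm X) {q v : X} (hq : ‖q‖ = 1) (hv : 0 < dn q v) :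
    ∃ s : ℝ, 0 < s ∧ ‖q - s • v‖ = 1 := by
  have hq0 : q ≠ 0 := by rintro rfl; simp at hq
  have hv0 : v ≠ 0 := by rintro rfl; simp at hv
  have hvn : 0 < ‖v‖ := norm_pos_iff.mpr hv0
  -- derivative at zero
  have hd : HasDerivAt (fun t : ℝ => ‖q - t • v‖) (-(dn q v)) 0 := by
    have h1 : HasDerivAt (fun t : ℝ => q - t • v) (-v) 0 := by
      have := ((hasDerivAt_id (0 : ℝ)).smul_const v).const_sub q
      simpa using this
    have h2 : HasFDerivAt (fun y : X => ‖y‖) (dn q) (q - (0 : ℝ) • v) := by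
      simpa using h.hasFDerivAt hq0
    have := h2.comp_hasDerivAt (0 : ℝ) h1
    rw [map_neg] at this
    exact this
  have hlt : ∀ᶠ t in 𝓝[>] (0 : ℝ), ‖q - t • v‖ < 1 := by
    have h1 := hd.hasDerivWithinAt (s := Ioi 0)
    have h2 := (hasDerivWithinAt_iff_tendsto_slope' (by simp)).mp h1
    have h3 : ∀ᶠ t in 𝓝[>] (0 : ℝ), slope (fun t : ℝ => ‖q - t • v‖) 0 t < 0 :=
      h2.eventually (gt_mem_nhds (by linarith))
    filter_upwards [h3, self_mem_nhdsWithin] with t ht htp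
    rw [slope_def_field] at ht
    have htp' : 0 < t := htp
    simp only [zero_smul, sub_zero, hq] at ht
    rw [div_neg_iff] at ht
    rcases ht with ht | ht
    · linarith [ht.2]
    · linarith [ht.1]
  obtain ⟨t, ht1, ht0⟩ := (hlt.and self_mem_nhdsWithin).exists
  have ht0' : (0 : ℝ) < t := ht0
  -- large parameter
  set T : ℝ := 2 / ‖v‖ + t with hT
  have hTt : t ≤ T := by rw [hT]; linarith [show 0 < 2 / ‖v‖ by positivity]
  have hT1 : 1 ≤ ‖q - T • v‖ := by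
    have h1 : ‖T • v‖ - ‖q‖ ≤ ‖q - T • v‖ := by
      rw [norm_sub_rev]; exact norm_sub_norm_le _ _
    have h2 : ‖T • v‖ = T * ‖v‖ := by
      rw [norm_smul, Real.norm_eq_abs, abs_of_pos (by positivity)]
    have h3 : 2 ≤ T * ‖v‖ := by
      rw [hT, add_mul, div_mul_cancel₀ _ hvn.ne']
      linarith only [mul_pos (sub_pos.2 hvn) (sub_pos.2 ht0')]
    rw [hq] at h1
    linarith
  have hc : ContinuousOn (fun s : ℝ => ‖q - s • v‖) (Icc t T) := by fun_prop
  obtain ⟨s, hs, hs1⟩ := intermediate_value_Icc hTt hc ⟨ht1.le, hT1⟩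
  exact ⟨s, ht0'.trans_le hs.1, hs1⟩

theorem SphIso.finrank_eq [FiniteDimensional ℝ X] {F : X → Y} (hF : SphIso F) :
    Module.finrank ℝ X = Module.finrank ℝ Y := by
  have : FiniteDimensional ℝ Y := hF.finiteDimensional
  have h1 : dimH (Set.range F) ≤ dimH (Set.univ : Set X) := hF.lipschitz.dimH_range_le
  have h2 : dimH (Set.range hF.inv) ≤ dimH (Set.univ : Set Y) := hF.sphIso_inv.lipschitz.dimH_range_le
  rw [hF.surj.range_eq, Real.dimH_univ_eq_finrank, Real.dimH_univ_eq_finrank] at h1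
  rw [hF.sphIso_inv.surj.range_eq, Real.dimH_univ_eq_finrank, Real.dimH_univ_eq_finrank] at h2
  apply le_antisymm
  · exact_mod_cast h2
  · exact_mod_cast h1

/-- A linear homogeneous extension is a linear isometry equivalence. -/
theorem SphIso.exists_linearIsometryEquiv {F : X → Y} (hF : SphIso F) (R : X →ₗ[ℝ] Y)
    (hR : ∀ x : X, F x = R x) : ∃ T : X ≃ₗᵢ[ℝ] Y, ∀ x : X, T x = F x := by
  have hiso : ∀ x, ‖R x‖ = ‖x‖ := fun x => by rw [← hR, hF.norm]
  let e : X ≃ₗ[ℝ] Y := LinearEquiv.ofBijective R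
    ⟨fun x y h => hF.inj (by rw [hR, hR, h]), fun y => by
      obtain ⟨x, hx⟩ := hF.surj y
      exact ⟨x, by rw [← hR, hx]⟩⟩
  exact ⟨⟨e, hiso⟩, fun x => (hR x).symm⟩

end P084
end 
end

/- SmReg -/
section
/-!
Regularity of isometries between unit spheres.
-/

open Set Filter Topology Metric Asymptotics

noncomputable section

set_option linter.unusedSectionVars false

namespace P084

variable {X Y : Type*} [NormedAddCommGroup X] [NormedSpace ℝ X]
  [NormedAddCommGroup Y] [NormedSpace ℝ Y]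

/-- `C^{1,1}` norms: differentiable off zero, with locally Lipschitz derivative. -/
structure C11Norm (X : Type*) [NormedAddCommGroup X] [NormedSpace ℝ X] : Prop where
  smooth : SmoothNorm X
  lip : ∀ x : X, x ≠ 0 → LipAt (dn : X → X →L[ℝ] ℝ) x

/-- The inward chord functionals separate vectors. -/
theorem SmoothNorm.exists_functional (h : SmoothNorm Y) {q : Y} (hq : ‖q‖ = 1) {t : Y}
    (ht : t ≠ 0) : ∃ w : Y, ‖w‖ = 1 ∧ 0 < dn q (q - w) ∧ dn (q - w) t ≠ 0 := by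
  have hq0 : q ≠ 0 := by rintro rfl; simp at hq
  -- it suffices to treat `0 ≤ dn q t`
  have main : ∀ t : Y, t ≠ 0 → 0 ≤ dn q t →
      ∃ w : Y, ‖w‖ = 1 ∧ 0 < dn q (q - w) ∧ dn (q - w) t ≠ 0 := by
    intro t ht htq
    by_contra hcon
    push Not at hcon
    have h1 : ∀ ε : ℝ, 0 < ε → dn (t + ε • q) t = 0 := by
      intro ε hε
      have hpos : 0 < dn q (t + ε • q) := by
        rw [map_add, map_smul, h.dn_self hq0, hq, smul_eq_mul, mul_one]
        linarith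
      obtain ⟨s, hs, hs1⟩ := h.exists_ray hq hpos
      have h2 := hcon (q - s • (t + ε • q)) hs1 (by
        rw [sub_sub_cancel, map_smul, smul_eq_mul]
        exact mul_pos hs hpos)
      rw [sub_sub_cancel, dn_smul_pos hs] at h2
      exact h2
    have hl : Tendsto (fun ε : ℝ => t + ε • q) (𝓝[>] 0) (𝓝 t) := by
      have h2 : Continuous fun ε : ℝ => t + ε • q := by fun_prop
      have h3 := h2.tendsto 0
      simp only [zero_smul, add_zero] at h3
      exact h3.mono_left nhdsWithin_le_nhds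
    have h4 : Tendsto (fun ε : ℝ => dn (t + ε • q) t) (𝓝[>] 0) (𝓝 (dn t t)) := by
      have h5 : Tendsto (fun ε : ℝ => dn (t + ε • q)) (𝓝[>] 0) (𝓝 (dn t)) :=
        (h.continuousAt_dn ht).tendsto.comp hl
      exact ((ContinuousLinearMap.apply ℝ ℝ t).continuous.tendsto (dn t)).comp h5
    have h5 : dn t t = 0 := by
      refine tendsto_nhds_unique h4 ?_
      refine Tendsto.congr' ?_ tendsto_const_nhds
      filter_upwards [self_mem_nhdsWithin] with ε hε
      exact (h1 ε hε).symm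
    rw [h.dn_self ht] at h5
    exact ht (norm_eq_zero.mp h5)
  rcases le_total 0 (dn q t) with h0 | h0
  · exact main t ht h0
  · obtain ⟨w, hw1, hw2, hw3⟩ := main (-t) (neg_ne_zero.mpr ht) (by rw [map_neg]; linarith)
    refine ⟨w, hw1, hw2, fun h' => hw3 ?_⟩
    rw [map_neg, h', neg_zero]

/-- Derivative of the homogeneous chord function `x ↦ ‖x - ‖x‖ y‖`. -/
def dPsi (y x : X) : X →L[ℝ] ℝ :=
  (dn (x - ‖x‖ • y)).comp (ContinuousLinearMap.id ℝ X - (dn x).smulRight y)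

theorem dPsi_apply (y x t : X) : dPsi y x t = dn (x - ‖x‖ • y) (t - dn x t • y) := rfl

theorem SmoothNorm.hasStrictFDerivAt_psi (h : SmoothNorm X) {x y : X} (hx : x ≠ 0)
    (hxy : x - ‖x‖ • y ≠ 0) :
    HasStrictFDerivAt (fun a : X => ‖a - ‖a‖ • y‖) (dPsi y x) x := by
  have h1 : HasStrictFDerivAt (fun a : X => a - ‖a‖ • y)
      (ContinuousLinearMap.id ℝ X - (dn x).smulRight y) x :=
    (hasStrictFDerivAt_id x).sub ((h.hasStrictFDerivAt hx).smul_const y)
  exact (h.hasStrictFDerivAt hxy).comp x h1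

theorem C11Norm.lipAt_dPsi (h : C11Norm X) {x y : X} (hx : x ≠ 0)
    (hxy : x - ‖x‖ • y ≠ 0) : LipAt (dPsi y) x := by
  have h1 : LipAt (fun a : X => a - ‖a‖ • y) x :=
    (lipAt_id x).sub ((lipAt_norm x).smul (lipAt_const y x))
  have h2 : LipAt (fun a : X => dn (a - ‖a‖ • y)) x :=
    LipAt.comp (f := (dn : X → X →L[ℝ] ℝ)) (h.lip _ hxy) h1
  exact h2.clm_comp ((lipAt_const _ x).sub ((h.lip x hx).smulRight (lipAt_const y x)))

theorem SmoothNorm.exists_dPsi (h : SmoothNorm X) {x : X} (hx : x ≠ 0) {t : X} (ht : t ≠ 0) :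
    ∃ y : X, ‖y‖ = 1 ∧ x - ‖x‖ • y ≠ 0 ∧ dPsi y x t ≠ 0 := by
  have hxn : 0 < ‖x‖ := norm_pos_iff.mpr hx
  set q : X := ‖x‖⁻¹ • x with hq
  have hxq : x = ‖x‖ • q := by rw [hq, smul_smul, mul_inv_cancel₀ hxn.ne', one_smul]
  have hqn : ‖q‖ = 1 := by rw [hq, norm_smul, norm_inv, norm_norm, inv_mul_cancel₀ hxn.ne']
  have hdx : dn x = dn q := by
    conv_lhs => rw [hxq]
    exact dn_smul_pos hxn q
  have hdy : ∀ y : X, dn (x - ‖x‖ • y) = dn (q - y) := by
    intro y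
    have : x - ‖x‖ • y = ‖x‖ • (q - y) := by rw [smul_sub, ← hxq]
    rw [this, dn_smul_pos hxn]
  have hne : ∀ y : X, q ≠ y → x - ‖x‖ • y ≠ 0 := by
    intro y hy
    have : x - ‖x‖ • y = ‖x‖ • (q - y) := by rw [smul_sub, ← hxq]
    rw [this]
    exact smul_ne_zero hxn.ne' (sub_ne_zero.mpr hy)
  have hq0 : q ≠ 0 := by intro h0; rw [h0] at hqn; simp at hqn
  by_cases h0 : dn x t = 0
  · obtain ⟨w, hw1, hw2, hw3⟩ := h.exists_functional hqn ht
    refine ⟨w, hw1, hne w ?_, ?_⟩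
    · rintro rfl
      simp at hw2
    · rw [dPsi_apply, h0, zero_smul, sub_zero, hdy]
      exact hw3
  · have hqq : q ≠ -q := by
      intro h'
      have : (2 : ℝ) • q = 0 := by
        rw [two_smul]
        nth_rewrite 2 [h']
        simp
      rcases smul_eq_zero.mp this with h' | h'
      · norm_num at h'
      · exact hq0 h'
    refine ⟨-q, by rwa [norm_neg], hne _ hqq, ?_⟩
    rw [dPsi_apply, hdy, sub_neg_eq_add, ← two_smul ℝ, dn_smul_pos two_pos, map_sub, map_smul,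
      map_neg, h.dn_self hq0, hqn, hdx, smul_eq_mul]
    rw [hdx] at h0
    intro h'
    apply h0
    linarith

/-- A finite family of chord functionals bounded below. -/
theorem SmoothNorm.exists_finset_dPsi [FiniteDimensional ℝ X] (h : SmoothNorm X) {x : X}
    (hx : x ≠ 0) : ∃ (s : Finset X) (c : ℝ), 0 < c ∧ (∀ y ∈ s, ‖y‖ = 1 ∧ x - ‖x‖ • y ≠ 0) ∧
      ∀ t : X, c * ‖t‖ ≤ ∑ y ∈ s, |dPsi y x t| := by
  have : ProperSpace X := FiniteDimensional.proper ℝ X
  classical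
  -- cover
  have hcov : ∀ t ∈ sphere (0 : X) 1, ∃ y : X, ‖y‖ = 1 ∧ x - ‖x‖ • y ≠ 0 ∧ dPsi y x t ≠ 0 := by
    intro t ht
    apply h.exists_dPsi hx
    intro h0
    rw [h0] at ht
    simp at ht
  choose! Y hY using hcov
  have hopen : ∀ t ∈ sphere (0 : X) 1, {t' : X | dPsi (Y t) x t' ≠ 0} ∈ 𝓝 t := by
    intro t ht
    have : ContinuousAt (fun t' => dPsi (Y t) x t') t := by fun_prop
    exact this.eventually_ne (hY t ht).2.2
  obtain ⟨T, hT1, hT2⟩ := (isCompact_sphere (0 : X) 1).elim_nhds_subcover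
    (fun t => {t' : X | dPsi (Y t) x t' ≠ 0}) hopen
  set s : Finset X := T.image Y with hs
  have hcont : Continuous fun t : X => ∑ y ∈ s, |dPsi y x t| := by fun_prop
  have hpos : ∀ t ∈ sphere (0 : X) 1, 0 < ∑ y ∈ s, |dPsi y x t| := by
    intro t ht
    have h1 := hT2 ht
    rw [mem_iUnion₂] at h1
    obtain ⟨t₀, ht₀, h2⟩ := h1
    refine Finset.sum_pos' (fun _ _ => abs_nonneg _) ⟨Y t₀, Finset.mem_image_of_mem _ ht₀, ?_⟩
    exact abs_pos.mpr h2
  by_cases hne : (sphere (0 : X) 1).Nonempty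
  · obtain ⟨t₀, ht₀, hmin⟩ := (isCompact_sphere (0 : X) 1).exists_isMinOn hne hcont.continuousOn
    refine ⟨s, ∑ y ∈ s, |dPsi y x t₀|, hpos t₀ ht₀, ?_, ?_⟩
    · intro y hy
      rw [hs, Finset.mem_image] at hy
      obtain ⟨t, ht, rfl⟩ := hy
      exact ⟨(hY t (hT1 t ht)).1, (hY t (hT1 t ht)).2.1⟩
    · intro t
      by_cases ht : t = 0
      · subst ht; simp
      have htn : 0 < ‖t‖ := norm_pos_iff.mpr ht
      have h1 : ‖t‖⁻¹ • t ∈ sphere (0 : X) 1 := by
        rw [mem_sphere_zero_iff_norm, norm_smul, norm_inv, norm_norm, inv_mul_cancel₀ htn.ne']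
      have h2 : ∑ y ∈ s, |dPsi y x t₀| ≤ ∑ y ∈ s, |dPsi y x (‖t‖⁻¹ • t)| := hmin h1
      have h3 : ∑ y ∈ s, |dPsi y x (‖t‖⁻¹ • t)| = ‖t‖⁻¹ * ∑ y ∈ s, |dPsi y x t| := by
        rw [Finset.mul_sum]
        refine Finset.sum_congr rfl fun y _ => ?_
        rw [map_smul, smul_eq_mul, abs_mul, abs_of_pos (inv_pos.mpr htn)]
      rw [h3] at h2
      calc (∑ y ∈ s, |dPsi y x t₀|) * ‖t‖ ≤ (‖t‖⁻¹ * ∑ y ∈ s, |dPsi y x t|) * ‖t‖ := by gcongr
        _ = ∑ y ∈ s, |dPsi y x t| := by field_simp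
  · exfalso
    apply hne
    exact ⟨‖x‖⁻¹ • x, by
      rw [mem_sphere_zero_iff_norm, norm_smul, norm_inv, norm_norm,
        inv_mul_cancel₀ (norm_ne_zero_iff.mpr hx)]⟩

end P084
end 
end

/- SmReg2 -/
section
/-!
Regularity of isometries between unit spheres: differentiability and `C^{1,1}` regularity.
-/

open Set Filter Topology Metric Asymptotics

noncomputable section

set_option linter.unusedSectionVars false

namespace P084

variable {X Y : Type*} [NormedAddCommGroup X] [NormedSpace ℝ X]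
  [NormedAddCommGroup Y] [NormedSpace ℝ Y] {F : X → Y}

theorem SphIso.psi_comp (hF : SphIso F) {y : X} (hy : ‖y‖ = 1) (a : X) :
    ‖F a - ‖F a‖ • F y‖ = ‖a - ‖a‖ • y‖ := by
  have := hF.dist_smul a y
  rw [hy, one_smul, one_smul] at this
  rwa [hF.norm]

theorem SphIso.chord_ne_zero (hF : SphIso F) {a y : X} (h : a - ‖a‖ • y ≠ 0) :
    F a - ‖F a‖ • F y ≠ 0 := by
  intro h'
  rw [hF.norm, ← hF.smul] at h'
  exact h (sub_eq_zero.mpr (hF.inj (sub_eq_zero.mp h')))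

/-- Strict differentiability of the homogeneous extension. -/
theorem SphIso.hasStrictFDerivAt [FiniteDimensional ℝ X] (hF : SphIso F) (hX : SmoothNorm X)
    (hY : SmoothNorm Y) {x : X} (hx : x ≠ 0) : HasStrictFDerivAt F (fderiv ℝ F x) x := by
  have : FiniteDimensional ℝ Y := hF.finiteDimensional
  have hFx : F x ≠ 0 := hF.ne_zero hx
  obtain ⟨s, c, hc, hs, hlow⟩ := hY.exists_finset_dPsi hFx
  -- the chart maps
  set B : Y →L[ℝ] (s → ℝ) := ContinuousLinearMap.pi fun w : s => dPsi (w : Y) (F x) with hB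
  set B' : X →L[ℝ] (s → ℝ) := ContinuousLinearMap.pi fun w : s => dPsi (hF.inv (w : Y)) x with hB'
  have hinj : Function.Injective B.toLinearMap := by
    rw [← LinearMap.ker_eq_bot, LinearMap.ker_eq_bot']
    intro t ht
    have h1 : ∀ w ∈ s, |dPsi w (F x) t| = 0 := by
      intro w hw
      have := congrFun ht ⟨w, hw⟩
      simp only [Pi.zero_apply] at this
      exact abs_eq_zero.mpr this
    have h2 := hlow t
    rw [Finset.sum_eq_zero h1] at h2
    have h3 : ‖t‖ ≤ 0 := by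
      by_contra h
      push Not at h
      have := mul_pos hc h
      linarith
    exact norm_le_zero_iff.mp h3
  obtain ⟨C, hC⟩ := B.toLinearMap.exists_leftInverse_of_injective (LinearMap.ker_eq_bot.mpr hinj)
  set C' : (s → ℝ) →L[ℝ] Y := C.toContinuousLinearMap with hC'
  have hCB : ∀ t, C' (B t) = t := fun t => by
    have := LinearMap.congr_fun hC t
    exact this
  have hinvn : ∀ w ∈ s, ‖hF.inv w‖ = 1 := by
    intro w hw
    rw [← hF.norm, hF.apply_inv]
    exact (hs w hw).1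
  have hchord : ∀ w ∈ s, x - ‖x‖ • hF.inv w ≠ 0 := by
    intro w hw h
    have h1 := (hs w hw).2
    apply h1
    rw [hF.norm]
    have h2 : F x = ‖x‖ • w := by
      rw [sub_eq_zero.mp h]
      rw [hF.smul, hF.apply_inv, ← sub_eq_zero.mp h]
    rw [← h2, sub_self]
  have hΦ : HasStrictFDerivAt (fun z : Y => fun w : s => ‖z - ‖z‖ • (w : Y)‖) B (F x) := by
    rw [hasStrictFDerivAt_pi']
    intro w
    exact hY.hasStrictFDerivAt_psi hFx (hs w w.2).2
  have hΨ : HasStrictFDerivAt (fun a : X => fun w : s => ‖a - ‖a‖ • hF.inv (w : Y)‖) B' x := by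
    rw [hasStrictFDerivAt_pi']
    intro w
    exact hX.hasStrictFDerivAt_psi hx (hchord w w.2)
  have hΦΨ : ∀ a : X, (fun w : s => ‖F a - ‖F a‖ • (w : Y)‖)
      = fun w : s => ‖a - ‖a‖ • hF.inv (w : Y)‖ := by
    intro a
    funext w
    have := hF.psi_comp (hinvn w w.2) a
    rwa [hF.apply_inv] at this
  have hmain : HasStrictFDerivAt F (C'.comp B') x := by
    rw [hasStrictFDerivAt_iff_isLittleO] at hΦ hΨ ⊢
    have hlip : (fun p : X × X => F p.1 - F p.2) =O[𝓝 (x, x)] fun p => p.1 - p.2 :=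
      (hF.lipschitz.lipAt x)
    have hto : Tendsto (fun p : X × X => (F p.1, F p.2)) (𝓝 (x, x)) (𝓝 (F x, F x)) :=
      LipAt.tendsto_prod (hF.lipschitz.lipAt x)
    have h1 := (hΦ.comp_tendsto hto).trans_isBigO hlip
    have h2 := (C'.isBigO_comp _ _).trans_isLittleO h1
    have h3 := (C'.isBigO_comp _ _).trans_isLittleO hΨ
    have h4 := h3.sub h2
    refine h4.congr_left fun p => ?_
    simp only [Function.comp_apply, hΦΨ, map_sub, hCB, ContinuousLinearMap.comp_apply]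
    abel
  rwa [hmain.hasFDerivAt.fderiv]

theorem SphIso.hasFDerivAt [FiniteDimensional ℝ X] (hF : SphIso F) (hX : SmoothNorm X)
    (hY : SmoothNorm Y) {x : X} (hx : x ≠ 0) : HasFDerivAt F (fderiv ℝ F x) x :=
  (hF.hasStrictFDerivAt hX hY hx).hasFDerivAt

theorem SphIso.norm_fderiv_le (hF : SphIso F) (x : X) : ‖fderiv ℝ F x‖ ≤ 3 := by
  have := norm_fderiv_le_of_lipschitz ℝ hF.lipschitz (x₀ := x)
  exact_mod_cast this

/-- The first order two-point identity. -/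
theorem SphIso.dPsi_comp [FiniteDimensional ℝ X] (hF : SphIso F) (hX : SmoothNorm X)
    (hY : SmoothNorm Y) {a y : X} (ha : a ≠ 0) (hy : ‖y‖ = 1) (hay : a - ‖a‖ • y ≠ 0) :
    (dPsi (F y) (F a)).comp (fderiv ℝ F a) = dPsi y a := by
  have h1 := (hY.hasStrictFDerivAt_psi (hF.ne_zero ha) (hF.chord_ne_zero hay)).hasFDerivAt.comp a
    (hF.hasFDerivAt hX hY ha)
  have h2 := (hX.hasStrictFDerivAt_psi ha hay).hasFDerivAt
  have h3 : ((fun z : Y => ‖z - ‖z‖ • F y‖) ∘ F) = fun a : X => ‖a - ‖a‖ • y‖ := by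
    funext b
    exact hF.psi_comp hy b
  rw [h3] at h1
  exact h1.unique h2

/-- The derivative of the homogeneous extension is locally Lipschitz. -/
theorem SphIso.lipAt_fderiv [FiniteDimensional ℝ X] (hF : SphIso F) (hX : C11Norm X)
    (hY : C11Norm Y) {x : X} (hx : x ≠ 0) : LipAt (fderiv ℝ F) x := by
  have : FiniteDimensional ℝ Y := hF.finiteDimensional
  have hFx : F x ≠ 0 := hF.ne_zero hx
  obtain ⟨s, c, hc, hs, hlow⟩ := hY.smooth.exists_finset_dPsi hFx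
  have hinvn : ∀ w ∈ s, ‖hF.inv w‖ = 1 := by
    intro w hw
    rw [← hF.norm, hF.apply_inv]
    exact (hs w hw).1
  have hchord : ∀ w ∈ s, x - ‖x‖ • hF.inv w ≠ 0 := by
    intro w hw h
    have h1 := (hs w hw).2
    apply h1
    rw [hF.norm]
    have h2 : F x = ‖x‖ • w := by
      rw [sub_eq_zero.mp h]
      rw [hF.smul, hF.apply_inv, ← sub_eq_zero.mp h]
    rw [← h2, sub_self]
  -- Lipschitz data
  have hM : ∀ w ∈ s, LipAt (fun a => dPsi w (F a)) x := fun w hw =>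
    LipAt.comp (f := dPsi w) (hY.lipAt_dPsi hFx (hs w hw).2) (hF.lipschitz.lipAt x)
  have hN : ∀ w ∈ s, LipAt (fun a => dPsi (hF.inv w) a) x := fun w hw =>
    hX.lipAt_dPsi hx (hchord w hw)
  -- identities near `x`
  have hid : ∀ w ∈ s, ∀ᶠ a in 𝓝 x, (dPsi w (F a)).comp (fderiv ℝ F a) = dPsi (hF.inv w) a := by
    intro w hw
    have h1 : ∀ᶠ a in 𝓝 x, a ≠ 0 := isOpen_ne.mem_nhds hx
    have h2 : ∀ᶠ a in 𝓝 x, a - ‖a‖ • hF.inv w ≠ 0 := by
      have hc : ContinuousAt (fun a : X => a - ‖a‖ • hF.inv w) x := by fun_prop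
      exact hc.eventually_ne (hchord w hw)
    filter_upwards [h1, h2] with a ha1 ha2
    have := hF.dPsi_comp hX.smooth hY.smooth ha1 (hinvn w hw) ha2
    rwa [hF.apply_inv] at this
  have hid' : ∀ᶠ a in 𝓝 x, ∀ w ∈ s,
      (dPsi w (F a)).comp (fderiv ℝ F a) = dPsi (hF.inv w) a := by
    rw [Filter.eventually_all_finset]
    exact hid
  -- lower bound near `x`
  have hlow' : ∀ᶠ a in 𝓝 x, ∀ t : Y, c / 2 * ‖t‖ ≤ ∑ w ∈ s, |dPsi w (F a) t| := by
    have hc1 : ContinuousAt (fun a => ∑ w ∈ s, ‖dPsi w (F a) - dPsi w (F x)‖) x := by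
      refine tendsto_finsetSum _ fun w hw => ?_
      exact ((hM w hw).continuousAt.sub continuousAt_const).norm
    have h0 : (∑ w ∈ s, ‖dPsi w (F x) - dPsi w (F x)‖) < c / 2 := by
      simp only [sub_self, norm_zero, Finset.sum_const_zero]
      positivity
    filter_upwards [hc1.eventually (gt_mem_nhds h0)] with a ha t
    have h1 : ∑ w ∈ s, |dPsi w (F x) t| ≤ ∑ w ∈ s, |dPsi w (F a) t|
        + (∑ w ∈ s, ‖dPsi w (F a) - dPsi w (F x)‖) * ‖t‖ := by
      rw [Finset.sum_mul, ← Finset.sum_add_distrib]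
      refine Finset.sum_le_sum fun w _ => ?_
      have h2 := (dPsi w (F a) - dPsi w (F x)).le_opNorm t
      rw [sub_apply, Real.norm_eq_abs] at h2
      have h3 : |dPsi w (F x) t| ≤ |dPsi w (F a) t| + |dPsi w (F a) t - dPsi w (F x) t| := by
        have := abs_sub_abs_le_abs_sub (dPsi w (F x) t) (dPsi w (F a) t)
        rw [abs_sub_comm] at this
        linarith
      linarith
    have h2 := hlow t
    have h3 : (∑ w ∈ s, ‖dPsi w (F a) - dPsi w (F x)‖) * ‖t‖ ≤ c / 2 * ‖t‖ := by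
      gcongr
    linarith
  -- conclusion
  have hbig : (fun p : X × X => ∑ w ∈ s, (‖dPsi (hF.inv w) p.1 - dPsi (hF.inv w) p.2‖
      + 3 * ‖dPsi w (F p.1) - dPsi w (F p.2)‖)) =O[𝓝 (x, x)] fun p => p.1 - p.2 := by
    refine IsBigO.fun_sum fun w hw => ?_
    exact (IsBigO.norm_left (hN w hw)).add ((IsBigO.norm_left (hM w hw)).const_mul_left 3)
  refine IsBigO.trans (IsBigO.of_bound (2 / c) ?_) hbig
  rw [nhds_prod_eq]
  filter_upwards [hid'.prod_mk hid', (hlow'.prod_mk hlow')] with p hp1 hp2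
  refine ContinuousLinearMap.opNorm_le_bound _ (by positivity) fun v => ?_
  have h1 := hp2.1 ((fderiv ℝ F p.1 - fderiv ℝ F p.2) v)
  have h2 : ∑ w ∈ s, |dPsi w (F p.1) ((fderiv ℝ F p.1 - fderiv ℝ F p.2) v)| ≤
      (∑ w ∈ s, (‖dPsi (hF.inv w) p.1 - dPsi (hF.inv w) p.2‖
      + 3 * ‖dPsi w (F p.1) - dPsi w (F p.2)‖)) * ‖v‖ := by
    rw [Finset.sum_mul]
    refine Finset.sum_le_sum fun w hw => ?_
    have e1 : dPsi w (F p.1) (fderiv ℝ F p.1 v) = dPsi (hF.inv w) p.1 v := by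
      rw [← hp1.1 w hw]; rfl
    have e2 : dPsi w (F p.2) (fderiv ℝ F p.2 v) = dPsi (hF.inv w) p.2 v := by
      rw [← hp1.2 w hw]; rfl
    have e3 : dPsi w (F p.1) ((fderiv ℝ F p.1 - fderiv ℝ F p.2) v)
        = (dPsi (hF.inv w) p.1 - dPsi (hF.inv w) p.2) v
          - (dPsi w (F p.1) - dPsi w (F p.2)) (fderiv ℝ F p.2 v) := by
      simp only [sub_apply, map_sub, e1, e2]
      ring
    rw [e3]
    have n1 := (dPsi (hF.inv w) p.1 - dPsi (hF.inv w) p.2).le_opNorm v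
    have n2 := (dPsi w (F p.1) - dPsi w (F p.2)).le_opNorm (fderiv ℝ F p.2 v)
    have n3 : ‖fderiv ℝ F p.2 v‖ ≤ 3 * ‖v‖ :=
      ((fderiv ℝ F p.2).le_opNorm v).trans (by gcongr; exact hF.norm_fderiv_le _)
    rw [Real.norm_eq_abs] at n1 n2
    calc _ ≤ |(dPsi (hF.inv w) p.1 - dPsi (hF.inv w) p.2) v|
          + |(dPsi w (F p.1) - dPsi w (F p.2)) (fderiv ℝ F p.2 v)| := abs_sub _ _
      _ ≤ ‖dPsi (hF.inv w) p.1 - dPsi (hF.inv w) p.2‖ * ‖v‖
          + ‖dPsi w (F p.1) - dPsi w (F p.2)‖ * (3 * ‖v‖) := by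
          refine add_le_add n1 (n2.trans ?_)
          gcongr
      _ = _ := by ring
  have h3 : 0 ≤ ∑ w ∈ s, (‖dPsi (hF.inv w) p.1 - dPsi (hF.inv w) p.2‖
      + 3 * ‖dPsi w (F p.1) - dPsi w (F p.2)‖) := Finset.sum_nonneg fun _ _ => by (clear * - hF; positivity)
  rw [Real.norm_eq_abs, abs_of_nonneg h3]
  have h4 : c / 2 * ‖(fderiv ℝ F p.1 - fderiv ℝ F p.2) v‖ ≤ (∑ w ∈ s,
      (‖dPsi (hF.inv w) p.1 - dPsi (hF.inv w) p.2‖
      + 3 * ‖dPsi w (F p.1) - dPsi w (F p.2)‖)) * ‖v‖ := h1.trans h2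
  calc ‖(fderiv ℝ F p.1 - fderiv ℝ F p.2) v‖
      = 2 / c * (c / 2 * ‖(fderiv ℝ F p.1 - fderiv ℝ F p.2) v‖) := by field_simp
    _ ≤ 2 / c * ((∑ w ∈ s, (‖dPsi (hF.inv w) p.1 - dPsi (hF.inv w) p.2‖
      + 3 * ‖dPsi w (F p.1) - dPsi w (F p.2)‖)) * ‖v‖) := by gcongr
    _ = _ := by ring

end P084
end 
end

/- SecondForm -/
section
open MeasureTheory Measure Set Filter Topology Metric Module P084
open scoped NNReal ENNReal ContDiff

set_option maxSynthPendingDepth 3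

namespace Vale.Agent.P084


section sub
variable {X : Type*} [NormedAddCommGroup X] [NormedSpace ℝ X]

theorem dn_submodule (sx : SmoothNorm X) (T : Submodule ℝ X) {t : T} (ht : t ≠ 0) (s : T) :
    dn t s = dn (t : X) (s : X) := by
  have h1 : HasFDerivAt (fun y : T => ‖(y : X)‖) ((dn (t : X)).comp T.subtypeL) t := by
    have h2 : HasFDerivAt (fun y : X => ‖y‖) (dn (t : X)) (T.subtypeL t) :=
      sx.hasFDerivAt (by simpa using ht)
    exact h2.comp t T.subtypeL.hasFDerivAt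
  have h3 : dn t = (dn (t : X)).comp T.subtypeL := h1.fderiv
  rw [h3]
  rfl

end sub

variable {X Y : Type*} [NormedAddCommGroup X] [NormedSpace ℝ X] [FiniteDimensional ℝ X]
  [NormedAddCommGroup Y] [NormedSpace ℝ Y] {F : X → Y}

theorem fderiv_injective (hF : SphIso F) (sx : SmoothNorm X) (sy : SmoothNorm Y) {x : X}
    (hx : x ≠ 0) : Function.Injective (fderiv ℝ F x) := by
  have hd : DifferentiableAt ℝ F x := (hF.hasFDerivAt sx sy hx).differentiableAt
  rw [injective_iff_map_eq_zero]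
  intro u hu
  have h1 := dn_fderiv hF sx sy hx hd u
  rw [hu, map_zero] at h1
  have h2 := norm_fderiv_tangent hF sx hx hd h1.symm
  rw [hu, norm_zero] at h2
  exact norm_eq_zero.1 h2.symm

end Vale.Agent.P084
end
end
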