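import Vale.Agent.P084.MathlibUsed

set_option linter.all false

section

/- BadPointBasic -/
section
/-!
Homogeneous extensions of surjective isometries between unit spheres.
-/

namespace Vale.Agent.P084.BadPoint

open MeasureTheory Set Filter Topology Metric

/-- A positively homogeneous norm preserving bijection which is isometric on the unit sphere. -/
structure SphereEquiv (X Y : Type*) [NormedAddCommGroup X] [NormedSpace ℝ X]
    [NormedAddCommGroup Y] [NormedSpace ℝ Y] where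
  fn : X → Y
  inv : Y → X
  inv_fn : ∀ x, inv (fn x) = x
  fn_inv : ∀ z, fn (inv z) = z
  norm_fn : ∀ x, ‖fn x‖ = ‖x‖
  fn_smul : ∀ (c : ℝ), 0 ≤ c → ∀ x, fn (c • x) = c • fn x
  fn_iso : ∀ x y, ‖x‖ = 1 → ‖y‖ = 1 → ‖fn x - fn y‖ = ‖x - y‖

namespace SphereEquiv

variable {X Y : Type*} [NormedAddCommGroup X] [NormedSpace ℝ X]
    [NormedAddCommGroup Y] [NormedSpace ℝ Y]

instance : CoeFun (SphereEquiv X Y) (fun _ => X → Y) := ⟨fn⟩

variable (F : SphereEquiv X Y)

theorem norm_map (x : X) : ‖F x‖ = ‖x‖ := F.norm_fn x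
theorem smul_map {c : ℝ} (hc : 0 ≤ c) (x : X) : F (c • x) = c • F x := F.fn_smul c hc x
theorem iso_map {x y : X} (hx : ‖x‖ = 1) (hy : ‖y‖ = 1) : ‖F x - F y‖ = ‖x - y‖ :=
  F.fn_iso x y hx hy

theorem injective : Function.Injective F := Function.LeftInverse.injective F.inv_fn
theorem surjective : Function.Surjective F := Function.RightInverse.surjective F.fn_inv

theorem norm_inv (z : Y) : ‖F.inv z‖ = ‖z‖ := by
  rw [← F.norm_map (F.inv z), F.fn_inv]

/-- The inverse. -/
def symm : SphereEquiv Y X where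
  fn := F.inv
  inv := F.fn
  inv_fn := F.fn_inv
  fn_inv := F.inv_fn
  norm_fn := F.norm_inv
  fn_smul := fun c hc z => by
    apply F.injective
    rw [F.smul_map hc, F.fn_inv, F.fn_inv]
  fn_iso := fun z w hz hw => by
    have h3 := F.iso_map (x := F.inv z) (y := F.inv w) (by rw [F.norm_inv, hz])
      (by rw [F.norm_inv, hw])
    rw [F.fn_inv, F.fn_inv] at h3
    exact h3.symm

@[simp] theorem symm_apply (x : X) : F.symm (F x) = x := F.inv_fn x
@[simp] theorem apply_symm (z : Y) : F (F.symm z) = z := F.fn_inv z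

theorem map_zero : F 0 = 0 := by
  have := F.norm_map 0
  rw [norm_zero, norm_eq_zero] at this
  exact this

theorem lipschitz : LipschitzWith 3 F := by
  apply LipschitzWith.of_dist_le_mul
  intro x y
  rw [dist_eq_norm, dist_eq_norm]
  simp only [NNReal.coe_ofNat]
  rcases eq_or_ne x 0 with hx | hx
  · subst hx
    rw [F.map_zero]
    simp only [zero_sub, norm_neg, F.norm_map]
    (clear * -; linarith only [norm_nonneg y])
  rcases eq_or_ne y 0 with hy | hy
  · subst hy
    rw [F.map_zero]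
    simp only [sub_zero, F.norm_map]
    linarith only [norm_nonneg x]
  have hx0 : 0 < ‖x‖ := norm_pos_iff.2 hx
  have hy0 : 0 < ‖y‖ := norm_pos_iff.2 hy
  set a := ‖x‖⁻¹ • x with ha
  set b := ‖y‖⁻¹ • y with hb
  have ha1 : ‖a‖ = 1 := by rw [ha, norm_smul, _root_.norm_inv, norm_norm, inv_mul_cancel₀ hx0.ne']
  have hb1 : ‖b‖ = 1 := by rw [hb, norm_smul, _root_.norm_inv, norm_norm, inv_mul_cancel₀ hy0.ne']
  have hxa : x = ‖x‖ • a := by rw [ha, smul_smul, mul_inv_cancel₀ hx0.ne', one_smul]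
  have hyb : y = ‖y‖ • b := by rw [hb, smul_smul, mul_inv_cancel₀ hy0.ne', one_smul]
  have hFx : F x = ‖x‖ • F a := by
    conv_lhs => rw [hxa]
    exact F.smul_map hx0.le a
  have hFy : F y = ‖y‖ • F b := by
    conv_lhs => rw [hyb]
    exact F.smul_map hy0.le b
  have h1 : |‖x‖ - ‖y‖| ≤ ‖x - y‖ := abs_norm_sub_norm_le x y
  have h2 : ‖y‖ * ‖a - b‖ ≤ 2 * ‖x - y‖ := by
    calc ‖y‖ * ‖a - b‖ = ‖‖y‖ • (a - b)‖ := by rw [norm_smul, norm_norm]
      _ = ‖(x - y) - (‖x‖ - ‖y‖) • a‖ := by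
          congr 1
          rw [smul_sub, ← hyb, sub_smul, ← hxa]; abel
      _ ≤ ‖x - y‖ + ‖(‖x‖ - ‖y‖) • a‖ := norm_sub_le _ _
      _ ≤ ‖x - y‖ + ‖x - y‖ := by
          gcongr
          rw [norm_smul, ha1, mul_one]; exact h1
      _ = 2 * ‖x - y‖ := by ring
  calc ‖F x - F y‖ = ‖(‖x‖ - ‖y‖) • F a + ‖y‖ • (F a - F b)‖ := by
        congr 1
        rw [hFx, hFy, sub_smul, smul_sub]; abel
    _ ≤ ‖(‖x‖ - ‖y‖) • F a‖ + ‖‖y‖ • (F a - F b)‖ := norm_add_le _ _
    _ = |‖x‖ - ‖y‖| + ‖y‖ * ‖a - b‖ := by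
        rw [norm_smul, norm_smul, F.norm_map, ha1, mul_one, norm_norm, F.iso_map ha1 hb1,
          Real.norm_eq_abs]
    _ ≤ ‖x - y‖ + 2 * ‖x - y‖ := add_le_add h1 h2
    _ = 3 * ‖x - y‖ := by ring

theorem continuous : Continuous F := F.lipschitz.continuous

end SphereEquiv

section construct

variable {X Y : Type*} [NormedAddCommGroup X] [NormedSpace ℝ X]
    [NormedAddCommGroup Y] [NormedSpace ℝ Y]

theorem norm_inv_smul_eq_one {x : X} (hx : x ≠ 0) : ‖‖x‖⁻¹ • x‖ = 1 := by
  rw [norm_smul, norm_inv, norm_norm, inv_mul_cancel₀ (norm_ne_zero_iff.2 hx)]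

/-- homogeneous extension -/
noncomputable def hext (f : sphere (0 : X) 1 → sphere (0 : Y) 1) (x : X) : Y :=
  open Classical in
  if hx : x = 0 then 0 else
    ‖x‖ • (f ⟨‖x‖⁻¹ • x, by rw [mem_sphere_zero_iff_norm]; exact norm_inv_smul_eq_one hx⟩ : Y)

theorem hext_zero (f : sphere (0 : X) 1 → sphere (0 : Y) 1) : hext f 0 = 0 := by
  simp [hext]

theorem hext_of_ne (f : sphere (0 : X) 1 → sphere (0 : Y) 1) {x : X} (hx : x ≠ 0) {r : ℝ}
    (hr : ‖x‖ = r) (u : sphere (0 : X) 1) (hu : (u : X) = r⁻¹ • x) :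
    hext f x = r • (f u : Y) := by
  subst hr
  have : u = ⟨‖x‖⁻¹ • x, by rw [mem_sphere_zero_iff_norm]; exact norm_inv_smul_eq_one hx⟩ :=
    Subtype.ext hu
  rw [this]
  simp only [hext, hx, ↓reduceDIte]

/-- normalisation -/
noncomputable def unitOf (x : X) (hx : x ≠ 0) : sphere (0 : X) 1 :=
  ⟨‖x‖⁻¹ • x, by rw [mem_sphere_zero_iff_norm]; exact norm_inv_smul_eq_one hx⟩

theorem norm_hext (f : sphere (0 : X) 1 → sphere (0 : Y) 1) (x : X) : ‖hext f x‖ = ‖x‖ := by
  rcases eq_or_ne x 0 with hx | hx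
  · subst hx; simp [hext_zero]
  · rw [hext_of_ne f hx rfl (unitOf x hx) rfl, norm_smul, norm_norm, norm_eq_of_mem_sphere, mul_one]

theorem hext_sphere (f : sphere (0 : X) 1 → sphere (0 : Y) 1) (x : sphere (0 : X) 1) :
    hext f x = f x := by
  have h1 : ‖(x : X)‖ = 1 := norm_eq_of_mem_sphere x
  have h2 : (x : X) ≠ 0 := by
    intro h; rw [h, norm_zero] at h1; exact zero_ne_one h1
  rw [hext_of_ne f h2 h1 x (by simp only [inv_one, one_smul]), one_smul]

theorem hext_smul (f : sphere (0 : X) 1 → sphere (0 : Y) 1) {c : ℝ} (hc : 0 ≤ c) (x : X) :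
    hext f (c • x) = c • hext f x := by
  rcases eq_or_ne x 0 with hx | hx
  · subst hx; simp only [smul_zero, hext_zero]
  rcases hc.eq_or_lt with hc0 | hc0
  · subst hc0; simp only [zero_smul, hext_zero]
  have hcx : c • x ≠ 0 := smul_ne_zero hc0.ne' hx
  rw [hext_of_ne f hx rfl (unitOf x hx) rfl, hext_of_ne f hcx (r := c * ‖x‖)
    (by rw [norm_smul, Real.norm_of_nonneg hc]) (unitOf x hx), smul_smul]
  have := norm_ne_zero_iff.2 hx
  simp only [unitOf, smul_smul]
  congr 1
  (clear * - hc0 this; field_simp)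

theorem hext_injective {f : sphere (0 : X) 1 → sphere (0 : Y) 1} (hf : Function.Injective f) :
    Function.Injective (hext f) := by
  intro x y hxy
  have hn : ‖x‖ = ‖y‖ := by rw [← norm_hext f x, ← norm_hext f y, hxy]
  rcases eq_or_ne x 0 with hx | hx
  · subst hx
    rw [norm_zero] at hn
    exact (norm_eq_zero.1 hn.symm).symm
  have hy : y ≠ 0 := by
    intro h; subst h
    rw [norm_zero, norm_eq_zero] at hn
    exact hx hn
  rw [hext_of_ne f hx rfl (unitOf x hx) rfl, hext_of_ne f hy hn.symm (unitOf y hy)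
    (by simp [unitOf, hn])] at hxy
  have h1 := smul_right_injective Y (norm_ne_zero_iff.2 hx) hxy
  have h2 := hf (Subtype.ext h1)
  have h3 := congrArg Subtype.val h2
  simp only [unitOf] at h3
  rw [hn] at h3
  exact smul_right_injective X (inv_ne_zero (norm_ne_zero_iff.2 hy)) h3

theorem hext_surjective {f : sphere (0 : X) 1 → sphere (0 : Y) 1} (hf : Function.Surjective f) :
    Function.Surjective (hext f) := by
  intro z
  rcases eq_or_ne z 0 with hz | hz
  · exact ⟨0, by rw [hz, hext_zero]⟩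
  obtain ⟨x, hx⟩ := hf (unitOf z hz)
  refine ⟨‖z‖ • (x : X), ?_⟩
  rw [hext_smul f (norm_nonneg z), hext_sphere, hx]
  simp only [unitOf, smul_smul]
  rw [mul_inv_cancel₀ (norm_ne_zero_iff.2 hz), one_smul]

/-- The homogeneous extension of a surjective isometry between unit spheres. -/
noncomputable def ofIsometry (f : sphere (0 : X) 1 → sphere (0 : Y) 1) (hf : Isometry f)
    (hs : Function.Surjective f) : SphereEquiv X Y where
  fn := hext f
  inv := Function.surjInv (hext_surjective hs)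
  inv_fn := Function.leftInverse_surjInv ⟨hext_injective hf.injective, hext_surjective hs⟩
  fn_inv := Function.surjInv_eq (hext_surjective hs)
  norm_fn := fun x => norm_hext f x
  fn_smul := fun c hc x => hext_smul f hc x
  fn_iso := fun x y hx hy => by
    have h2 := hext_sphere f ⟨x, mem_sphere_zero_iff_norm.2 hx⟩
    have h3 := hext_sphere f ⟨y, mem_sphere_zero_iff_norm.2 hy⟩
    simp only at h2 h3
    rw [h2, h3]
    have h4 := hf.dist_eq ⟨x, mem_sphere_zero_iff_norm.2 hx⟩ ⟨y, mem_sphere_zero_iff_norm.2 hy⟩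
    rw [Subtype.dist_eq, Subtype.dist_eq, dist_eq_norm, dist_eq_norm] at h4
    exact h4

theorem ofIsometry_apply (f : sphere (0 : X) 1 → sphere (0 : Y) 1) (hf : Isometry f)
    (hs : Function.Surjective f) (x : sphere (0 : X) 1) : ofIsometry f hf hs x = f x :=
  hext_sphere f x

end construct

end Vale.Agent.P084.BadPoint
end

/- UCUltra -/
section
/-!
# Ultrapowers of Banach spaces

`Ultra X` is the ultrapower of `X` along a free ultrafilter on the natural numbers.
-/

open Set Filter Topology Metric BoundedContinuousFunction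
open scoped BoundedContinuousFunction

noncomputable section

namespace Vale.Agent.P084.UC

/-- The free ultrafilter. -/
def UF : Ultrafilter ℕ := hyperfilter ℕ

theorem UF_le : (UF : Filter ℕ) ≤ atTop := by
  have h : (UF : Filter ℕ) ≤ cofinite := hyperfilter_le_cofinite
  rwa [Nat.cofinite_eq_atTop] at h

/-- Bounded real sequences converge along the ultrafilter. -/
theorem exists_lim {a : ℕ → ℝ} {C : ℝ} (h : ∀ n, |a n| ≤ C) :
    ∃ l, |l| ≤ C ∧ Tendsto a UF (𝓝 l) := by
  have h1 : IsCompact (Icc (-C) C) := isCompact_Icc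
  have h2 : ∀ᶠ n in (UF : Filter ℕ), a n ∈ Icc (-C) C :=
    Eventually.of_forall fun n => abs_le.1 (h n)
  have h3 : ((UF.map a : Ultrafilter ℝ) : Filter ℝ) ≤ 𝓟 (Icc (-C) C) := by
    rw [le_principal_iff]
    exact h2
  obtain ⟨l, hl, hl2⟩ := h1.ultrafilter_le_nhds (UF.map a) h3
  exact ⟨l, abs_le.2 hl, hl2⟩

variable (X : Type*) [NormedAddCommGroup X] [NormedSpace ℝ X]

/-- sequences which are null along the ultrafilter -/
def nullSub : Submodule ℝ (ℕ →ᵇ X) where
  carrier := {x | Tendsto (fun n => ‖x n‖) UF (𝓝 0)}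
  zero_mem' := by
    simp only [mem_ofPred_eq, BoundedContinuousFunction.coe_zero, Pi.zero_apply, norm_zero]
    exact tendsto_const_nhds
  add_mem' := by
    intro x y hx hy
    have h1 : Tendsto (fun n => ‖x n‖ + ‖y n‖) UF (𝓝 0) := by
      simpa using Tendsto.add (show Tendsto (fun n => ‖x n‖) UF (𝓝 0) from hx)
        (show Tendsto (fun n => ‖y n‖) UF (𝓝 0) from hy)
    exact squeeze_zero (fun n => norm_nonneg _) (fun n => norm_add_le _ _) h1
  smul_mem' := by
    intro c x hx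
    have h1 : Tendsto (fun n => ‖c‖ * ‖x n‖) UF (𝓝 0) := by
      simpa using Tendsto.const_mul ‖c‖ (show Tendsto (fun n => ‖x n‖) UF (𝓝 0) from hx)
    refine h1.congr fun n => ?_
    rw [BoundedContinuousFunction.coe_smul, norm_smul]

theorem mem_nullSub {x : ℕ →ᵇ X} : x ∈ nullSub X ↔ Tendsto (fun n => ‖x n‖) UF (𝓝 0) := Iff.rfl

instance isClosed_nullSub : IsClosed (nullSub X : Set (ℕ →ᵇ X)) := by
  rw [← isSeqClosed_iff_isClosed]
  intro x y hx hxy
  change Tendsto (fun n => ‖y n‖) UF (𝓝 0)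
  rw [Metric.tendsto_nhds]
  intro ε hε
  have h1 := (tendsto_iff_norm_sub_tendsto_zero.1 hxy).eventually (gt_mem_nhds (half_pos hε))
  obtain ⟨k, hk⟩ := h1.exists
  have h2 := (Metric.tendsto_nhds.1 (show Tendsto (fun n => ‖x k n‖) UF (𝓝 0) from hx k))
    (ε / 2) (half_pos hε)
  filter_upwards [h2] with n hn
  rw [dist_zero_right, norm_norm] at hn ⊢
  have h3 : ‖y n‖ ≤ ‖x k n‖ + ‖(x k - y) n‖ := by
    have : y n = x k n - (x k - y) n := by
      rw [BoundedContinuousFunction.coe_sub]; simp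
    rw [this]
    exact norm_sub_le _ _
  have h4 := (x k - y).norm_coe_le_norm n
  linarith

/-- The ultrapower. -/
def Ultra : Type _ := (ℕ →ᵇ X) ⧸ nullSub X

instance : NormedAddCommGroup (Ultra X) :=
  inferInstanceAs (NormedAddCommGroup ((ℕ →ᵇ X) ⧸ nullSub X))

instance : NormedSpace ℝ (Ultra X) :=
  inferInstanceAs (NormedSpace ℝ ((ℕ →ᵇ X) ⧸ nullSub X))

instance [CompleteSpace X] : CompleteSpace (Ultra X) :=
  inferInstanceAs (CompleteSpace ((ℕ →ᵇ X) ⧸ nullSub X))

variable {X}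

section
omit [NormedSpace ℝ X]

/-- bounded sequences -/
def Bdd (x : ℕ → X) : Prop := ∃ C : ℝ, ∀ n, ‖x n‖ ≤ C

/-- a bounded sequence as a bounded function -/
def toB (x : ℕ → X) (h : Bdd x) : ℕ →ᵇ X :=
  BoundedContinuousFunction.ofNormedAddCommGroupDiscrete x h.choose h.choose_spec

@[simp] theorem toB_apply (x : ℕ → X) (h : Bdd x) (n : ℕ) : toB x h n = x n := rfl

theorem Bdd.add {x y : ℕ → X} (hx : Bdd x) (hy : Bdd y) : Bdd (fun n => x n + y n) := by
  obtain ⟨C, hC⟩ := hx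
  obtain ⟨D, hD⟩ := hy
  exact ⟨C + D, fun n => (norm_add_le _ _).trans (add_le_add (hC n) (hD n))⟩

theorem Bdd.sub {x y : ℕ → X} (hx : Bdd x) (hy : Bdd y) : Bdd (fun n => x n - y n) := by
  obtain ⟨C, hC⟩ := hx
  obtain ⟨D, hD⟩ := hy
  exact ⟨C + D, fun n => (norm_sub_le _ _).trans (add_le_add (hC n) (hD n))⟩

theorem Bdd.neg {x : ℕ → X} (hx : Bdd x) : Bdd (fun n => - x n) := by
  obtain ⟨C, hC⟩ := hx
  exact ⟨C, fun n => by rw [norm_neg]; exact hC n⟩

end

theorem Bdd.smul {a : ℕ → ℝ} {x : ℕ → X} (ha : Bdd a) (hx : Bdd x) : Bdd (fun n => a n • x n) := by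
  obtain ⟨C, hC⟩ := hx
  obtain ⟨D, hD⟩ := ha
  refine ⟨D * C, fun n => ?_⟩
  rw [norm_smul]
  exact mul_le_mul (hD n) (hC n) (norm_nonneg _) ((norm_nonneg _).trans (hD n))

theorem bdd_const {V : Type*} [NormedAddCommGroup V] [NormedSpace ℝ V] (x : V) :
    Bdd (fun _ : ℕ => x) := ⟨‖x‖, fun _ => le_rfl⟩

/-- the quotient map -/
def mkU (x : ℕ →ᵇ X) : Ultra X := (Submodule.Quotient.mk x : (ℕ →ᵇ X) ⧸ nullSub X)

theorem mkU_add (x y : ℕ →ᵇ X) : mkU (x + y) = mkU x + mkU y := rfl
theorem mkU_sub (x y : ℕ →ᵇ X) : mkU (x - y) = mkU x - mkU y := rfl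
theorem mkU_smul (c : ℝ) (x : ℕ →ᵇ X) : mkU (c • x) = c • mkU x := rfl
theorem mkU_eq_iff {x y : ℕ →ᵇ X} : mkU x = mkU y ↔ x - y ∈ nullSub X :=
  Submodule.Quotient.eq (nullSub X)
theorem norm_mkU_le (x : ℕ →ᵇ X) : ‖mkU x‖ ≤ ‖x‖ := Submodule.Quotient.norm_mk_le (nullSub X) x
theorem exists_mkU_lt (u : Ultra X) {ε : ℝ} (hε : 0 < ε) : ∃ m : ℕ →ᵇ X, mkU m = u ∧
    ‖m‖ < ‖u‖ + ε := Submodule.Quotient.norm_mk_lt (S := nullSub X) u hε
theorem mkU_surjective (u : Ultra X) : ∃ x, mkU x = u := by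
  obtain ⟨m, hm, -⟩ := exists_mkU_lt u one_pos
  exact ⟨m, hm⟩

/-- the class of a bounded sequence -/
def cls (x : ℕ → X) : Ultra X :=
  open Classical in if h : Bdd x then mkU (toB x h) else 0

theorem cls_eq {x : ℕ → X} (h : Bdd x) : cls x = mkU (toB x h) := by
  rw [cls, dif_pos h]

theorem exists_rep (u : Ultra X) : ∃ x : ℕ → X, Bdd x ∧ cls x = u := by
  obtain ⟨x, hx⟩ := mkU_surjective u
  have hb : Bdd (fun n => x n) := ⟨‖x‖, fun n => x.norm_coe_le_norm n⟩
  refine ⟨fun n => x n, hb, ?_⟩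
  rw [cls_eq hb, ← hx]
  congr 1

theorem cls_add {x y : ℕ → X} (hx : Bdd x) (hy : Bdd y) :
    cls (fun n => x n + y n) = cls x + cls y := by
  rw [cls_eq hx, cls_eq hy, cls_eq (hx.add hy)]
  exact mkU_add (toB x hx) (toB y hy)

theorem cls_sub {x y : ℕ → X} (hx : Bdd x) (hy : Bdd y) :
    cls (fun n => x n - y n) = cls x - cls y := by
  rw [cls_eq hx, cls_eq hy, cls_eq (hx.sub hy)]
  exact mkU_sub (toB x hx) (toB y hy)

theorem cls_smul_const (c : ℝ) {x : ℕ → X} (hx : Bdd x) :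
    cls (fun n => c • x n) = c • cls x := by
  rw [cls_eq hx, cls_eq ((bdd_const c).smul hx)]
  exact mkU_smul c (toB x hx)

/-- The norm of a class is the limit of the norms. -/
theorem tendsto_norm_cls {x : ℕ → X} (hx : Bdd x) :
    Tendsto (fun n => ‖x n‖) UF (𝓝 ‖cls x‖) := by
  obtain ⟨C, hC⟩ := hx
  obtain ⟨l, hl, hlt⟩ := exists_lim (a := fun n => ‖x n‖) (C := C)
    (fun n => by rw [abs_of_nonneg (norm_nonneg _)]; exact hC n)
  have hx : Bdd x := ⟨C, hC⟩
  have hl0 : 0 ≤ l := ge_of_tendsto hlt (Eventually.of_forall fun n => norm_nonneg _)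
  have key : ‖cls x‖ = l := by
    rw [cls_eq hx]
    apply le_antisymm
    · apply le_of_forall_pos_le_add
      intro ε hε
      -- modify the sequence off a large set
      let z : ℕ → X := fun n => if ‖x n‖ ≤ l + ε then 0 else - x n
      have hz : Bdd z := ⟨max C 0, fun n => by
        simp only [z]
        split_ifs
        · simp only [norm_zero, le_sup_right]
        · rw [norm_neg]; exact (hC n).trans (le_max_left _ _)⟩
      have hzn : toB z hz ∈ nullSub X := by
        rw [mem_nullSub]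
        refine Tendsto.congr' ?_ tendsto_const_nhds
        have h2 := hlt.eventually (gt_mem_nhds (show l < l + ε by linarith only [hε]))
        filter_upwards [h2] with n hn
        simp only [toB_apply, z]
        rw [if_pos hn.le, norm_zero]
      have h3 : mkU (toB x hx) = mkU (toB x hx + toB z hz) := by
        rw [mkU_eq_iff]
        have : toB x hx - (toB x hx + toB z hz) = - toB z hz := by abel
        rw [this]
        exact (nullSub X).neg_mem hzn
      rw [h3]
      refine (norm_mkU_le _).trans ?_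
      rw [BoundedContinuousFunction.norm_le (by (clear * - hl0 hε; positivity))]
      intro n
      change ‖x n + z n‖ ≤ l + ε
      simp only [z]
      split_ifs with h
      · rw [add_zero]; exact h
      · rw [add_neg_cancel, norm_zero]; (clear * - hl0 hε; positivity)
    · apply le_of_forall_pos_le_add
      intro ε hε
      obtain ⟨m, hm, hm2⟩ := exists_mkU_lt (mkU (toB x hx)) hε
      rw [mkU_eq_iff] at hm
      have h3 : Tendsto (fun n => ‖(m - toB x hx) n‖) UF (𝓝 0) := hm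
      have h4 : Tendsto (fun n => ‖x n‖ - ‖(m - toB x hx) n‖) UF (𝓝 (l - 0)) := hlt.sub h3
      rw [sub_zero] at h4
      have h5 : ∀ n, ‖x n‖ - ‖(m - toB x hx) n‖ ≤ ‖m‖ := by
        intro n
        have h6 : (m - toB x hx) n = m n - x n := by
          rw [BoundedContinuousFunction.coe_sub]; rfl
        have h7 : ‖x n‖ ≤ ‖m n‖ + ‖m n - x n‖ := by
          have : x n = m n - (m n - x n) := by abel
          calc ‖x n‖ = ‖m n - (m n - x n)‖ := by rw [← this]
            _ ≤ _ := norm_sub_le _ _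
        rw [h6]
        linarith only [h7, m.norm_coe_le_norm n]
      have h6 := le_of_tendsto h4 (Eventually.of_forall h5)
      linarith only [hm2, h6]
  rw [key]
  exact hlt

theorem cls_eq_cls_iff {x y : ℕ → X} (hx : Bdd x) (hy : Bdd y) :
    cls x = cls y ↔ Tendsto (fun n => ‖x n - y n‖) UF (𝓝 0) := by
  rw [← sub_eq_zero, ← cls_sub hx hy, ← norm_eq_zero]
  have h := tendsto_norm_cls (hx.sub hy)
  constructor
  · intro h0
    rwa [h0] at h
  · intro h0
    exact tendsto_nhds_unique h h0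

theorem norm_cls_eq {x : ℕ → X} {r : ℝ} (h : ∀ n, ‖x n‖ = r) : ‖cls x‖ = r := by
  have h1 := tendsto_norm_cls (x := x) ⟨r, fun n => (h n).le⟩
  simp only [h] at h1
  exact tendsto_nhds_unique h1 tendsto_const_nhds

theorem norm_cls_le {x : ℕ → X} {r : ℝ} (h : ∀ n, ‖x n‖ ≤ r) : ‖cls x‖ ≤ r :=
  le_of_tendsto (tendsto_norm_cls (x := x) ⟨r, h⟩) (Eventually.of_forall h)

/-- the class of a product with a convergent scalar sequence -/
theorem cls_smul {a : ℕ → ℝ} {l : ℝ} {x : ℕ → X} (ha : Bdd a) (hx : Bdd x)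
    (hl : Tendsto a UF (𝓝 l)) : cls (fun n => a n • x n) = l • cls x := by
  rw [← cls_smul_const l hx, cls_eq_cls_iff (ha.smul hx) ((bdd_const l).smul hx)]
  obtain ⟨C, hC⟩ := hx
  have h1 : Tendsto (fun n => |a n - l| * C) UF (𝓝 0) := by
    have h2 : Tendsto (fun n => |a n - l|) UF (𝓝 |l - l|) := (hl.sub_const l).abs
    rw [sub_self, abs_zero] at h2
    simpa only [zero_mul] using h2.mul_const C
  refine squeeze_zero (fun n => norm_nonneg _) (fun n => ?_) h1
  rw [← sub_smul, norm_smul, Real.norm_eq_abs]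
  exact mul_le_mul_of_nonneg_left (hC n) (abs_nonneg _)

/-- A unit vector of the ultrapower is represented by unit vectors. -/
theorem exists_rep_unit {u : Ultra X} (hu : ‖u‖ = 1) :
    ∃ x : ℕ → X, (∀ n, ‖x n‖ = 1) ∧ cls x = u := by
  obtain ⟨x, hx, rfl⟩ := exists_rep u
  have h1 := tendsto_norm_cls hx
  rw [hu] at h1
  have h2 : ∀ᶠ n in (UF : Filter ℕ), (1 / 2 : ℝ) < ‖x n‖ :=
    h1.eventually (lt_mem_nhds (by norm_num))
  obtain ⟨k, hk⟩ := h2.exists
  have hk0 : ‖x k‖ ≠ 0 := by intro h; rw [h] at hk; norm_num at hk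
  classical
  let y : ℕ → X := fun n => if x n = 0 then ‖x k‖⁻¹ • x k else ‖x n‖⁻¹ • x n
  have hy : ∀ n, ‖y n‖ = 1 := by
    intro n
    simp only [y]
    split_ifs with h
    · rw [norm_smul, norm_inv, norm_norm, inv_mul_cancel₀ hk0]
    · rw [norm_smul, norm_inv, norm_norm, inv_mul_cancel₀ (norm_ne_zero_iff.2 h)]
  refine ⟨y, hy, ?_⟩
  rw [cls_eq_cls_iff ⟨1, fun n => (hy n).le⟩ hx]
  have h3 : Tendsto (fun n => |1 - ‖x n‖|) UF (𝓝 0) := by
    have := (h1.const_sub 1).abs
    simpa only [sub_self, abs_zero] using this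
  refine h3.congr' ?_
  filter_upwards [h2] with n hn
  have hn0 : ‖x n‖ ≠ 0 := by intro h; rw [h] at hn; norm_num at hn
  have hxn : x n ≠ 0 := norm_ne_zero_iff.1 hn0
  simp only [y, if_neg hxn]
  have : ‖x n‖⁻¹ • x n - x n = (‖x n‖⁻¹ * (1 - ‖x n‖)) • x n := by
    rw [mul_sub, mul_one, inv_mul_cancel₀ hn0, sub_smul, one_smul]
  rw [this, norm_smul, norm_mul, norm_inv, norm_norm, Real.norm_eq_abs]
  (clear * - hn0; field_simp)

/-- The ultrapower of a uniformly convex space is uniformly convex. -/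
instance [UniformConvexSpace X] : UniformConvexSpace (Ultra X) where
  uniform_convex := by
    intro ε hε
    obtain ⟨δ, hδ, h⟩ := UniformConvexSpace.uniform_convex (E := X) (half_pos hε)
    refine ⟨δ, hδ, fun u hu v hv huv => ?_⟩
    obtain ⟨x, hx, rfl⟩ := exists_rep_unit hu
    obtain ⟨y, hy, rfl⟩ := exists_rep_unit hv
    have bx : Bdd x := ⟨1, fun n => (hx n).le⟩
    have by' : Bdd y := ⟨1, fun n => (hy n).le⟩
    rw [← cls_sub bx by'] at huv
    rw [← cls_add bx by']
    have h1 := tendsto_norm_cls (bx.sub by')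
    have h2 := tendsto_norm_cls (bx.add by')
    have h3 : ∀ᶠ n in (UF : Filter ℕ), ε / 2 < ‖x n - y n‖ :=
      h1.eventually (lt_mem_nhds (by linarith))
    refine le_of_tendsto h2 ?_
    filter_upwards [h3] with n hn
    exact h (hx n) (hy n) hn.le

/-- The diagonal embedding. -/
def diag (x : X) : Ultra X := cls (fun _ => x)

theorem norm_diag (x : X) : ‖diag x‖ = ‖x‖ := norm_cls_eq fun _ => rfl

theorem diag_add (x y : X) : diag (x + y) = diag x + diag y := cls_add (bdd_const x) (bdd_const y)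

theorem diag_sub (x y : X) : diag (x - y) = diag x - diag y := cls_sub (bdd_const x) (bdd_const y)

theorem diag_smul (c : ℝ) (x : X) : diag (c • x) = c • diag x := cls_smul_const c (bdd_const x)

theorem diag_injective : Function.Injective (diag : X → Ultra X) := by
  intro x y h
  rw [← sub_eq_zero, ← diag_sub, ← norm_eq_zero, norm_diag, norm_eq_zero, sub_eq_zero] at h
  exact h

section map

open BadPoint

variable {Y : Type*} [NormedAddCommGroup Y] [NormedSpace ℝ Y]

theorem Bdd.map (F : SphereEquiv X Y) {x : ℕ → X} (hx : Bdd x) : Bdd (fun n => F (x n)) := by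
  obtain ⟨C, hC⟩ := hx
  exact ⟨C, fun n => by rw [F.norm_map]; exact hC n⟩

/-- a representing sequence -/
def rep (u : Ultra X) : ℕ → X := (exists_rep u).choose

theorem bdd_rep (u : Ultra X) : Bdd (rep u) := (exists_rep u).choose_spec.1

theorem cls_rep (u : Ultra X) : cls (rep u) = u := (exists_rep u).choose_spec.2

/-- the ultrapower of a map -/
def ultraMap (F : SphereEquiv X Y) (u : Ultra X) : Ultra Y := cls (fun n => F (rep u n))

theorem ultraMap_cls (F : SphereEquiv X Y) {x : ℕ → X} (hx : Bdd x) :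
    ultraMap F (cls x) = cls (fun n => F (x n)) := by
  rw [ultraMap, cls_eq_cls_iff ((bdd_rep _).map F) (hx.map F)]
  have h1 : Tendsto (fun n => ‖rep (cls x) n - x n‖) UF (𝓝 0) := by
    rw [← cls_eq_cls_iff (bdd_rep _) hx, cls_rep]
  have h2 : Tendsto (fun n => 3 * ‖rep (cls x) n - x n‖) UF (𝓝 0) := by
    simpa only [mul_zero] using h1.const_mul 3
  refine squeeze_zero (fun n => norm_nonneg _) (fun n => ?_) h2
  have := F.lipschitz.dist_le_mul (rep (cls x) n) (x n)
  rwa [dist_eq_norm, dist_eq_norm] at this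

/-- The ultrapower of a sphere equivalence. -/
def ultraEquiv (F : SphereEquiv X Y) : SphereEquiv (Ultra X) (Ultra Y) where
  fn := ultraMap F
  inv := ultraMap F.symm
  inv_fn := fun u => by
    have h : ultraMap F.symm (cls (fun n => F (rep u n))) = u := by
      rw [ultraMap_cls F.symm ((bdd_rep u).map F)]
      simp only [F.symm_apply]
      exact cls_rep u
    exact h
  fn_inv := fun u => by
    have h : ultraMap F (cls (fun n => F.symm (rep u n))) = u := by
      rw [ultraMap_cls F ((bdd_rep u).map F.symm)]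
      simp only [F.apply_symm]
      exact cls_rep u
    exact h
  norm_fn := fun u => by
    have h1 := tendsto_norm_cls ((bdd_rep u).map F)
    have h2 := tendsto_norm_cls (bdd_rep u)
    simp only [F.norm_map] at h1
    rw [cls_rep] at h2
    exact tendsto_nhds_unique h1 h2
  fn_smul := fun c hc u => by
    conv_lhs => rw [← cls_rep u, ← cls_smul_const c (bdd_rep u),
      ultraMap_cls F ((bdd_const c).smul (bdd_rep u))]
    simp only [F.smul_map hc]
    exact cls_smul_const c ((bdd_rep u).map F)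
  fn_iso := fun u v hu hv => by
    obtain ⟨x, hx, rfl⟩ := exists_rep_unit hu
    obtain ⟨y, hy, rfl⟩ := exists_rep_unit hv
    have bx : Bdd x := ⟨1, fun n => (hx n).le⟩
    have by' : Bdd y := ⟨1, fun n => (hy n).le⟩
    rw [ultraMap_cls F bx, ultraMap_cls F by', ← cls_sub bx by', ← cls_sub (bx.map F) (by'.map F)]
    have h1 := tendsto_norm_cls (bx.sub by')
    have h2 := tendsto_norm_cls ((bx.map F).sub (by'.map F))
    refine tendsto_nhds_unique h2 (h1.congr fun n => ?_)
    rw [F.iso_map (hx n) (hy n)]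

theorem ultraEquiv_cls (F : SphereEquiv X Y) {x : ℕ → X} (hx : Bdd x) :
    ultraEquiv F (cls x) = cls (fun n => F (x n)) := ultraMap_cls F hx

theorem ultraEquiv_diag (F : SphereEquiv X Y) (x : X) : ultraEquiv F (diag x) = diag (F x) :=
  ultraEquiv_cls F (bdd_const x)

end map

end Vale.Agent.P084.UC
end 
end

/- BadPointCone -/
section
/-!
One-sided directional derivatives of the norm, and the cone of inner directions.
-/

namespace Vale.Agent.P084.BadPoint

open MeasureTheory Set Filter Topology Metric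

section cone

variable {E : Type*} [NormedAddCommGroup E] [NormedSpace ℝ E]

/-- (negated) inner directions at `q`. -/
def Vc (q : E) : Set E := {p | ∃ t : ℝ, 0 < t ∧ ‖q - t • p‖ < 1}

/-- right directional derivative of the norm. -/
noncomputable def dd (q v : E) : ℝ := derivWithin (fun t : ℝ => ‖q + t • v‖) (Ioi 0) 0

theorem convexOn_line (q v : E) : ConvexOn ℝ univ (fun t : ℝ => ‖q + t • v‖) := by
  refine ⟨convex_univ, fun a _ b _ s t hs ht hst => ?_⟩
  calc ‖q + (s • a + t • b) • v‖ = ‖s • (q + a • v) + t • (q + b • v)‖ := by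
        congr 1
        have : q = s • q + t • q := by rw [← add_smul, hst, one_smul]
        nth_rewrite 1 [this]
        simp only [smul_eq_mul, add_smul, mul_smul, smul_add]
        abel
    _ ≤ ‖s • (q + a • v)‖ + ‖t • (q + b • v)‖ := norm_add_le _ _
    _ = s • ‖q + a • v‖ + t • ‖q + b • v‖ := by
        rw [norm_smul, norm_smul, Real.norm_of_nonneg hs, Real.norm_of_nonneg ht]; rfl

theorem tendsto_dd (q v : E) :
    Tendsto (fun t : ℝ => (‖q + t • v‖ - ‖q‖) / t) (𝓝[>] 0) (𝓝 (dd q v)) := by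
  have h := (convexOn_line q v).hasDerivWithinAt_rightDeriv_of_mem_interior (x := 0) (by simp)
  rw [hasDerivWithinAt_iff_tendsto_slope' (by simp)] at h
  refine h.congr fun t => ?_
  rw [slope_def_field]
  simp only [zero_smul, add_zero, sub_zero]

theorem dd_mul_le (q v : E) {t : ℝ} (ht : 0 < t) : dd q v * t ≤ ‖q + t • v‖ - ‖q‖ := by
  have h := (convexOn_line q v).rightDeriv_le_slope_of_mem_interior (x := 0) (y := t) (by simp)
    (by simp) ht
  rw [slope_def_field, le_div_iff₀ (by linarith only [ht])] at h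
  simpa only [dd, ge_iff_le, sub_zero, zero_smul, add_zero] using h

theorem dd_le_div (q v : E) {t : ℝ} (ht : 0 < t) : dd q v ≤ (‖q + t • v‖ - ‖q‖) / t := by
  rw [le_div_iff₀ ht]; exact dd_mul_le q v ht

theorem dd_le_norm (q v : E) : dd q v ≤ ‖v‖ := by
  have h := dd_le_div q v one_pos
  have h2 := norm_add_le q ((1 : ℝ) • v)
  rw [one_smul] at h h2
  linarith only [h, h2]

theorem dd_smul (q v : E) {c : ℝ} (hc : 0 < c) : dd q (c • v) = c * dd q v := by
  have h1 : Tendsto (fun t : ℝ => c * ((‖q + (t * c) • v‖ - ‖q‖) / (t * c))) (𝓝[>] 0)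
      (𝓝 (c * dd q v)) := by
    apply Tendsto.const_mul
    apply (tendsto_dd q v).comp
    rw [tendsto_nhdsWithin_iff]
    constructor
    · apply tendsto_nhdsWithin_of_tendsto_nhds
      have : Tendsto (fun t : ℝ => t * c) (𝓝 0) (𝓝 (0 * c)) := by
        apply Continuous.tendsto; fun_prop
      simpa only [zero_mul] using this
    · filter_upwards [self_mem_nhdsWithin] with t ht
      exact mul_pos ht hc
  refine tendsto_nhds_unique (tendsto_dd q (c • v)) (h1.congr' ?_)
  filter_upwards [self_mem_nhdsWithin] with t ht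
  rw [mem_Ioi] at ht
  rw [smul_smul]
  (clear * - hc ht; field_simp)

theorem dd_add_le (q v w : E) : dd q (v + w) ≤ dd q v + dd q w := by
  have h1 : Tendsto (fun t : ℝ => ((‖q + t • ((2 : ℝ) • v)‖ - ‖q‖) / t) / 2 +
      ((‖q + t • ((2 : ℝ) • w)‖ - ‖q‖) / t) / 2) (𝓝[>] 0)
      (𝓝 (dd q ((2 : ℝ) • v) / 2 + dd q ((2 : ℝ) • w) / 2)) :=
    ((tendsto_dd q _).div_const 2).add ((tendsto_dd q _).div_const 2)
  rw [dd_smul q v two_pos, dd_smul q w two_pos, mul_div_cancel_left₀ _ two_ne_zero,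
    mul_div_cancel_left₀ _ two_ne_zero] at h1
  refine ge_of_tendsto h1 ?_
  filter_upwards [self_mem_nhdsWithin] with t ht
  rw [mem_Ioi] at ht
  refine (dd_le_div q (v + w) ht).trans ?_
  rw [div_div, div_div, ← add_div, mul_comm t 2, div_le_div_iff₀ ht (by positivity)]
  have : q + t • (v + w) = (1 / 2 : ℝ) • ((q + t • ((2 : ℝ) • v)) + (q + t • ((2 : ℝ) • w))) := by
    module
  have h3 : ‖q + t • (v + w)‖ ≤ 1 / 2 * (‖q + t • ((2 : ℝ) • v)‖ + ‖q + t • ((2 : ℝ) • w)‖) := by
    rw [this, norm_smul, Real.norm_of_nonneg (by norm_num)]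
    gcongr
    exact norm_add_le _ _
  linarith only [mul_nonneg (le_of_lt (sub_pos.2 ht)) (sub_nonneg.2 h3)]

theorem dd_zero (q : E) : dd q 0 = 0 := by
  have h1 := tendsto_dd q 0
  simp only [smul_zero, add_zero, sub_self, zero_div] at h1
  exact (tendsto_nhds_unique h1 tendsto_const_nhds)

theorem dd_smul_self {q : E} (hq : ‖q‖ = 1) (c : ℝ) : dd q (c • q) = c := by
  refine tendsto_nhds_unique (tendsto_dd q (c • q)) (Tendsto.congr' ?_ tendsto_const_nhds)
  have h1 : ∀ᶠ t in 𝓝 (0 : ℝ), 0 < 1 + t * c := by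
    apply ContinuousAt.eventually_lt continuousAt_const (by fun_prop)
    simp only [zero_mul, add_zero, zero_lt_one]
  filter_upwards [self_mem_nhdsWithin, nhdsWithin_le_nhds h1] with t ht h1
  rw [mem_Ioi] at ht
  have : q + t • c • q = (1 + t * c) • q := by module
  rw [this, norm_smul, hq, Real.norm_of_nonneg h1.le]
  field_simp
  ring

theorem dd_add_smul_self {q : E} (hq : ‖q‖ = 1) (v : E) (c : ℝ) :
    dd q (v + c • q) = dd q v + c := by
  apply le_antisymm
  · have := dd_add_le q v (c • q)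
    rwa [dd_smul_self hq] at this
  · have := dd_add_le q (v + c • q) ((-c) • q)
    rw [dd_smul_self hq] at this
    have h2 : v + c • q + (-c) • q = v := by module
    rw [h2] at this
    linarith only [this]

theorem mem_Vc_iff {q : E} (hq : ‖q‖ = 1) (p : E) : p ∈ Vc q ↔ dd q (-p) < 0 := by
  constructor
  · rintro ⟨t, ht, h⟩
    have h1 := dd_mul_le q (-p) ht
    rw [smul_neg, ← sub_eq_add_neg, hq] at h1
    by_contra h2
    push Not at h2
    have : 0 ≤ dd q (-p) * t := by (clear * - h2 ht; positivity)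
    linarith only [h, h1, this]
  · intro h
    have h1 := (tendsto_dd q (-p)).eventually_lt_const h
    obtain ⟨t, ht1, ht2⟩ := (h1.and self_mem_nhdsWithin).exists
    replace ht2 : 0 < t := ht2
    refine ⟨t, ht2, ?_⟩
    rw [div_lt_iff₀ ht2, zero_mul, smul_neg, ← sub_eq_add_neg, hq] at ht1
    linarith only [ht1]

theorem sub_mem_Vc {q y : E} (h : ‖q + y‖ < 2) : q - y ∈ Vc q := by
  refine ⟨1 / 2, by norm_num, ?_⟩
  have : q - (1 / 2 : ℝ) • (q - y) = (1 / 2 : ℝ) • (q + y) := by module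
  rw [this, norm_smul, Real.norm_of_nonneg (by norm_num)]
  linarith only [h]

theorem exists_of_mem_Vc {q : E} (hq : ‖q‖ = 1) {p : E} (hp : p ∈ Vc q) :
    ∃ c : ℝ, 0 < c ∧ ∃ y : E, ‖y‖ = 1 ∧ ‖q + y‖ < 2 ∧ p = c • (q - y) := by
  obtain ⟨t₀, ht₀, h₀⟩ := hp
  have hp0 : p ≠ 0 := by
    intro h; subst h; simp only [smul_zero, sub_zero, hq, lt_self_iff_false] at h₀
  have hpn : 0 < ‖p‖ := norm_pos_iff.2 hp0
  set φ : ℝ → ℝ := fun t => ‖q - t • p‖ with hφ
  have hφc : Continuous φ := by fun_prop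
  have hconv : ConvexOn ℝ univ φ := by
    have := convexOn_line q (-p)
    convert this using 2
    simp only [hφ, sub_eq_add_neg, smul_neg]
  set T : ℝ := t₀ + 3 / ‖p‖ with hT
  have hT0 : t₀ < T := by rw [hT]; have : 0 < 3 / ‖p‖ := by positivity
                          linarith
  have hφT : 1 ≤ φ T := by
    have h1 : ‖T • p‖ ≤ φ T + ‖q‖ := by
      have : T • p = -(q - T • p) + q := by abel
      calc ‖T • p‖ = ‖-(q - T • p) + q‖ := by rw [← this]
        _ ≤ ‖-(q - T • p)‖ + ‖q‖ := norm_add_le _ _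
        _ = φ T + ‖q‖ := by rw [norm_neg]
    rw [norm_smul, Real.norm_of_nonneg (ht₀.trans hT0).le, hq] at h1
    have h2 : 3 ≤ T * ‖p‖ := by
      rw [hT, add_mul, div_mul_cancel₀ _ hpn.ne']
      have : 0 ≤ t₀ * ‖p‖ := by positivity
      linarith only [this]
    linarith only [h1, h2]
  obtain ⟨t₁, ht₁, h₁⟩ : (1 : ℝ) ∈ φ '' Icc t₀ T :=
    intermediate_value_Icc hT0.le hφc.continuousOn ⟨h₀.le, hφT⟩
  have ht01 : t₀ < t₁ := lt_of_le_of_ne ht₁.1 (by rintro rfl; exact absurd h₁ h₀.ne)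
  have ht1 : 0 < t₁ := ht₀.trans ht01
  have hhalf : φ (t₁ / 2) < 1 := by
    rcases le_total (t₁ / 2) t₀ with hle | hle
    · have h2 := hconv.2 (mem_univ (0 : ℝ)) (mem_univ t₀)
        (show 0 ≤ 1 - t₁ / (2 * t₀) by rw [sub_nonneg, div_le_one (by positivity)]; linarith only [hle])
        (show 0 ≤ t₁ / (2 * t₀) by (clear * - ht1 ht₀; positivity)) (by ring)
      have h3 : (1 - t₁ / (2 * t₀)) • (0 : ℝ) + (t₁ / (2 * t₀)) • t₀ = t₁ / 2 := by
        simp only [smul_eq_mul]; field_simp; ring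
      rw [h3] at h2
      have h4 : φ 0 = 1 := by simp only [hφ, zero_smul, sub_zero, hq]
      rw [h4] at h2
      simp only [smul_eq_mul] at h2
      have h5 : 0 < t₁ / (2 * t₀) := by positivity
      nlinarith only [h2, h₀, h5]
    · have hd : 0 < t₁ - t₀ := by linarith only [ht01]
      have h2 := hconv.2 (mem_univ t₀) (mem_univ t₁)
        (show 0 ≤ (t₁ / 2) / (t₁ - t₀) by (clear * - ht1 ht01; positivity))
        (show 0 ≤ 1 - (t₁ / 2) / (t₁ - t₀) by rw [sub_nonneg, div_le_one hd]; linarith) (by ring)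
      have h3 : ((t₁ / 2) / (t₁ - t₀)) • t₀ + (1 - (t₁ / 2) / (t₁ - t₀)) • t₁ = t₁ / 2 := by
        simp only [smul_eq_mul]; field_simp; ring
      rw [h3, h₁] at h2
      simp only [smul_eq_mul] at h2
      have h5 : 0 < (t₁ / 2) / (t₁ - t₀) := by (clear * - ht1 ht01; positivity)
      nlinarith only [h2, h₀, h5]
  refine ⟨t₁⁻¹, inv_pos.2 ht1, q - t₁ • p, h₁, ?_, ?_⟩
  · have : q + (q - t₁ • p) = (2 : ℝ) • (q - (t₁ / 2) • p) := by module
    rw [this, norm_smul, Real.norm_of_nonneg (by norm_num)]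
    have : ‖q - (t₁ / 2) • p‖ < 1 := hhalf
    linarith only [hhalf]
  · rw [sub_sub_cancel, smul_smul, inv_mul_cancel₀ ht1.ne', one_smul]

/-- closedness principle: a closed property of the vectors `p`, invariant under scaling, which
holds at `q - y` for the good `y`, holds on the closed cone. -/
theorem forall_cone {q : E} (hq : ‖q‖ = 1) {P : E → Prop} (hP : IsClosed {p | P p})
    (hsmul : ∀ c : ℝ, 0 < c → ∀ p, P p → P (c • p))
    {ι : Type*} (y : ι → E)
    (hdense : ∀ y₀, ‖y₀‖ = 1 → ‖q + y₀‖ < 2 → ∀ ε > 0, ∃ i, ‖y i - y₀‖ < ε)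
    (h : ∀ i, P (q - y i)) {p : E} (hp : dd q (-p) ≤ 0) : P p := by
  -- first on the open cone
  have h1 : ∀ p ∈ Vc q, P p := by
    intro p hp
    obtain ⟨c, hc, y₀, hy₀, hy₀2, rfl⟩ := exists_of_mem_Vc hq hp
    apply hsmul c hc
    have h2 : q - y₀ ∈ closure {p | P p} := by
      rw [Metric.mem_closure_iff]
      intro ε hε
      obtain ⟨i, hi⟩ := hdense y₀ hy₀ hy₀2 ε hε
      refine ⟨q - y i, h i, ?_⟩
      rw [dist_eq_norm]
      have : q - y₀ - (q - y i) = y i - y₀ := by abel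
      rwa [this]
    rwa [hP.closure_eq] at h2
  have h2 : p ∈ closure {p | P p} := by
    rw [Metric.mem_closure_iff]
    intro ε hε
    refine ⟨p + (ε / 2) • q, h1 _ ?_, ?_⟩
    · rw [mem_Vc_iff hq]
      have : -(p + (ε / 2) • q) = -p + (-(ε / 2)) • q := by module
      rw [this, dd_add_smul_self hq]
      linarith only [hp, hε]
    · rw [dist_eq_norm]
      have : p - (p + (ε / 2) • q) = -((ε / 2) • q) := by abel
      rw [this, norm_neg, norm_smul, hq, Real.norm_of_nonneg (by positivity)]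
      linarith only [hε]
  rwa [hP.closure_eq] at h2

end cone

end Vale.Agent.P084.BadPoint
end

/- BadPointFam -/
section
/-!
Families of good points, and the linear map which they determine.
-/

namespace Vale.Agent.P084.BadPoint

open MeasureTheory Set Filter Topology Metric

variable {X Y : Type*} [NormedAddCommGroup X] [NormedSpace ℝ X]
    [NormedAddCommGroup Y] [NormedSpace ℝ Y]


/-- the curve on the sphere in direction `w`. -/
noncomputable def curve (q w : X) (t : ℝ) : X := ‖q + t • w‖⁻¹ • (q + t • w)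

theorem norm_line_tendsto (q w : X) : Tendsto (fun t : ℝ => ‖q + t • w‖) (𝓝[>] 0) (𝓝 ‖q‖) := by
  apply tendsto_nhdsWithin_of_tendsto_nhds
  have : Continuous (fun t : ℝ => ‖q + t • w‖) := by fun_prop
  simpa only [zero_smul, add_zero] using this.tendsto 0

theorem curve_norm {q w : X} {t : ℝ} (h : ‖q + t • w‖ ≠ 0) : ‖curve q w t‖ = 1 := by
  rw [curve, norm_smul, norm_inv, norm_norm, inv_mul_cancel₀ h]

theorem eventually_ne {q : X} (hq : ‖q‖ = 1) (w : X) :
    ∀ᶠ t in 𝓝[>] (0 : ℝ), ‖q + t • w‖ ≠ 0 := by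
  have := norm_line_tendsto q w
  rw [hq] at this
  exact this.eventually_ne one_ne_zero

theorem curve_tendsto {q : X} (hq : ‖q‖ = 1) {w : X} (hw : dd q w = 0) :
    Tendsto (fun t : ℝ => t⁻¹ • (curve q w t - q)) (𝓝[>] 0) (𝓝 w) := by
  have h1 := tendsto_dd q w
  rw [hw, hq] at h1
  have h2 := norm_line_tendsto q w
  rw [hq] at h2
  have h3 : Tendsto (fun t : ℝ => ‖q + t • w‖⁻¹ • (w - ((‖q + t • w‖ - 1) / t) • q)) (𝓝[>] 0)
      (𝓝 ((1 : ℝ)⁻¹ • (w - (0 : ℝ) • q))) := by
    apply Tendsto.smul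
    · exact h2.inv₀ one_ne_zero
    · exact tendsto_const_nhds.sub (h1.smul_const q)
  rw [inv_one, one_smul, zero_smul, sub_zero] at h3
  refine h3.congr' ?_
  filter_upwards [self_mem_nhdsWithin, eventually_ne hq w] with t ht hne
  rw [mem_Ioi] at ht
  have e1 : curve q w t - q = ‖q + t • w‖⁻¹ • ((q + t • w) - ‖q + t • w‖ • q) := by
    rw [curve, smul_sub, smul_smul, inv_mul_cancel₀ hne, one_smul]
  rw [e1, smul_comm t⁻¹]
  congr 1
  rw [smul_sub, smul_add, smul_smul, inv_mul_cancel₀ ht.ne', one_smul, smul_smul, sub_div,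
    sub_smul]
  have e2 : (t⁻¹ * ‖q + t • w‖) = ‖q + t • w‖ / t := by rw [div_eq_inv_mul]
  rw [e2, one_div]
  abel


end Vale.Agent.P084.BadPoint
end

/- BadPointStar -/
section
/-!
Surjective isometries between spheres of finite-dimensional spaces preserve the relation
`‖x + y‖ = 2`.
-/

namespace Vale.Agent.P084.BadPoint

open MeasureTheory Set Filter Topology Metric

section

variable {X Y : Type*} [NormedAddCommGroup X] [NormedSpace ℝ X]
    [NormedAddCommGroup Y] [NormedSpace ℝ Y]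

/-- `φ` is a subgradient of the norm at `p`. -/
def SubG (p : X) (φ : X →L[ℝ] ℝ) : Prop := (∀ v, φ v ≤ ‖v‖) ∧ φ p = ‖p‖

theorem exists_subG (p : X) : ∃ φ : X →L[ℝ] ℝ, SubG p φ := by
  obtain ⟨g, hg, hgp⟩ := exists_dual_vector'' ℝ p
  refine ⟨g, fun v => ?_, by simpa using hgp⟩
  calc g v ≤ ‖g v‖ := le_abs_self _
    _ ≤ ‖g‖ * ‖v‖ := g.le_opNorm v
    _ ≤ 1 * ‖v‖ := by gcongr
    _ = ‖v‖ := one_mul _

/-- A functional norming a sum of two unit vectors of norm two norms both. -/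
theorem exists_common {x y : X} (hx : ‖x‖ = 1) (hy : ‖y‖ = 1) (hxy : ‖x + y‖ = 2) :
    ∃ φ : X →L[ℝ] ℝ, (∀ v, φ v ≤ ‖v‖) ∧ φ x = 1 ∧ φ y = 1 := by
  obtain ⟨φ, h1, h2⟩ := exists_subG (x + y)
  have hx1 := h1 x
  have hy1 := h1 y
  rw [map_add, hxy] at h2
  rw [hx] at hx1
  rw [hy] at hy1
  exact ⟨φ, h1, by linarith only [h2, hy1, hx1], by linarith only [h2, hx1, hy1]⟩

theorem norm_add_eq_two {x y : X} (hx : ‖x‖ = 1) (hy : ‖y‖ = 1) {φ : X →L[ℝ] ℝ}
    (h : ∀ v, φ v ≤ ‖v‖) (h1 : φ x = 1) (h2 : φ y = 1) : ‖x + y‖ = 2 := by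
  apply le_antisymm
  · refine (norm_add_le _ _).trans ?_
    rw [hx, hy]; norm_num
  · have := h (x + y)
    rw [map_add, h1, h2] at this
    linarith only [this]

/-- The isometry `x ↦ -F(-x)`. -/
def SphereEquiv.neg (F : SphereEquiv X Y) : SphereEquiv X Y where
  fn := fun x => - F (-x)
  inv := fun z => - F.inv (-z)
  inv_fn := fun x => by rw [neg_neg, F.inv_fn, neg_neg]
  fn_inv := fun z => by rw [neg_neg, F.fn_inv, neg_neg]
  norm_fn := fun x => by rw [norm_neg, F.norm_map, norm_neg]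
  fn_smul := fun c hc x => by rw [← smul_neg, F.smul_map hc, smul_neg]
  fn_iso := fun x y hx hy => by
    have := F.iso_map (x := -x) (y := -y) (by rwa [norm_neg]) (by rwa [norm_neg])
    rw [neg_sub_neg, ← norm_neg, neg_sub, this, neg_sub_neg, norm_sub_rev]

theorem SphereEquiv.neg_apply (F : SphereEquiv X Y) (x : X) : F.neg x = - F (-x) := rfl

end

end Vale.Agent.P084.BadPoint
end

/- BadPointSub -/
section
/-!
Subgradients, and passage from good points to all points.
-/

namespace Vale.Agent.P084.BadPoint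

open MeasureTheory Set Filter Topology Metric

section

variable {X Y : Type*} [NormedAddCommGroup X] [NormedSpace ℝ X]
    [NormedAddCommGroup Y] [NormedSpace ℝ Y]

/-- The exit point depends continuously on the direction. -/
theorem exit_cont {q x : X} (hq : ‖q‖ = 1) (hx : ‖x‖ = 1) (hqx : ‖q + x‖ < 2) {ε : ℝ}
    (hε : 0 < ε) :
    ∃ ρ > 0, ∀ p₁ : X, ‖p₁ - (q - x)‖ < ρ → ∃ c : ℝ, 0 < c ∧ c ≤ 2 ∧ ∃ y : X, ‖y‖ = 1 ∧
      ‖q + y‖ < 2 ∧ ‖y - x‖ < ε ∧ p₁ = c • (q - y) := by
  set p := q - x with hp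
  -- shrink ε
  obtain ⟨ε', hε', hε'1, hε'2⟩ : ∃ ε' : ℝ, 0 < ε' ∧ ε' ≤ ε ∧ ε' ≤ 2 - ‖q + x‖ :=
    ⟨min ε (2 - ‖q + x‖), lt_min hε (by linarith only [hqx]), min_le_left _ _, min_le_right _ _⟩
  have hpn : ‖p‖ ≤ 2 := by
    rw [hp]; refine (norm_sub_le _ _).trans ?_; rw [hq, hx]; norm_num
  obtain ⟨η, hη, hη1, hη2⟩ : ∃ η : ℝ, 0 < η ∧ η ≤ 1 / 4 ∧ η * 3 < ε' / 2 := by
    refine ⟨min (1 / 4) (ε' / 12), lt_min (by norm_num) (by positivity), min_le_left _ _, ?_⟩
    have := min_le_right (1 / 4 : ℝ) (ε' / 12)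
    linarith only [this, hε']
  set φ : ℝ → ℝ := fun t => ‖q - t • p‖ with hφ
  have hconv : ConvexOn ℝ univ φ := by
    have := convexOn_line q (-p)
    convert this using 2
    simp only [hφ, sub_eq_add_neg, smul_neg]
  have h1 : φ 1 = 1 := by
    have : q - (1 : ℝ) • p = x := by rw [hp, one_smul]; abel
    rw [hφ]; simp only; rw [this, hx]
  have h2 : φ (1 / 2) < 1 := by
    have : q - (1 / 2 : ℝ) • p = (1 / 2 : ℝ) • (q + x) := by rw [hp]; module
    rw [hφ]; simp only; rw [this, norm_smul, Real.norm_of_nonneg (by norm_num)]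
    linarith only [hη2, hη, hε'2]
  have h3 : φ (1 - η) < 1 := by
    have h4 := hconv.2 (mem_univ (1 / 2 : ℝ)) (mem_univ (1 : ℝ)) (show 0 ≤ 2 * η by (clear * - hη; positivity))
      (show 0 ≤ 1 - 2 * η by linarith only [hη1]) (by ring)
    have h5 : (2 * η) • (1 / 2 : ℝ) + (1 - 2 * η) • (1 : ℝ) = 1 - η := by
      simp only [smul_eq_mul]; ring
    rw [h5, h1] at h4
    simp only [smul_eq_mul] at h4
    nlinarith only [h4, hη, h2]
  have h4 : 1 < φ (1 + η) := by
    have hd : 0 < 1 / 2 + η := by linarith only [hη]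
    have h5 := hconv.2 (mem_univ (1 / 2 : ℝ)) (mem_univ (1 + η))
      (show 0 ≤ 1 - (1 / 2) / (1 / 2 + η) by
        rw [sub_nonneg, div_le_one hd]; linarith only [hη])
      (show 0 ≤ (1 / 2) / (1 / 2 + η) by (clear * - hη; positivity)) (by ring)
    have h6 : (1 - (1 / 2) / (1 / 2 + η)) • (1 / 2 : ℝ) + ((1 / 2) / (1 / 2 + η)) • (1 + η) = 1 := by
      simp only [smul_eq_mul]; field_simp; ring
    rw [h6, h1] at h5
    simp only [smul_eq_mul] at h5
    have h7 : 0 < 1 - (1 / 2) / (1 / 2 + η) := by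
      rw [sub_pos, div_lt_one hd]; linarith only [hη]
    have h8 : 0 < (1 / 2) / (1 / 2 + η) := by positivity
    nlinarith only [h5, h2, h7, h8]
  set m := min (1 - φ (1 - η)) (φ (1 + η) - 1) with hm
  have hm0 : 0 < m := lt_min (by linarith only [h3]) (by linarith only [h4])
  refine ⟨min (m / 2) (min (ε' / 4) 1), lt_min (by positivity) (lt_min (by positivity) one_pos),
    fun p₁ hp₁ => ?_⟩
  have hp₁1 : ‖p₁ - p‖ < m / 2 := hp₁.trans_le (min_le_left _ _)
  have hp₁2 : ‖p₁ - p‖ < ε' / 4 := hp₁.trans_le ((min_le_right _ _).trans (min_le_left _ _))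
  have hp₁3 : ‖p₁ - p‖ < 1 := hp₁.trans_le ((min_le_right _ _).trans (min_le_right _ _))
  have hclose : ∀ t : ℝ, 0 ≤ t → |‖q - t • p₁‖ - φ t| ≤ t * ‖p₁ - p‖ := by
    intro t ht
    have h5 := abs_norm_sub_norm_le (q - t • p₁) (q - t • p)
    have h6 : q - t • p₁ - (q - t • p) = -(t • (p₁ - p)) := by module
    rw [h6, norm_neg, norm_smul, Real.norm_of_nonneg ht] at h5
    exact h5
  have h5 : ‖q - (1 - η) • p₁‖ ≤ 1 := by
    have h6 := (abs_le.1 (hclose (1 - η) (by linarith only [hη1]))).2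
    have h7 : m ≤ 1 - φ (1 - η) := min_le_left _ _
    linarith only [mul_nonneg (le_of_lt (sub_pos.2 hη)) (sub_nonneg.2 (norm_nonneg (p₁ - p))), norm_nonneg (p₁ - p), h7, h6, hp₁1]
  have h6 : 1 ≤ ‖q - (1 + η) • p₁‖ := by
    have h6 := (abs_le.1 (hclose (1 + η) (by linarith only [hη]))).1
    have h7 : m ≤ φ (1 + η) - 1 := min_le_right _ _
    nlinarith only [h4, hp₁1, h6, h7, hη, hη1]
  have hcont : Continuous (fun t : ℝ => ‖q - t • p₁‖) := by fun_prop
  obtain ⟨τ, hτ, hτ1⟩ : (1 : ℝ) ∈ (fun t : ℝ => ‖q - t • p₁‖) '' Icc (1 - η) (1 + η) :=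
    intermediate_value_Icc (by linarith only [hη]) hcont.continuousOn ⟨h5, h6⟩
  obtain ⟨hτl, hτr⟩ := hτ
  have hτ0 : 0 < τ := by linarith only [hη1, hτl]
  have hdist : ‖(q - τ • p₁) - x‖ < ε' := by
    have e1 : (q - τ • p₁) - x = -(p₁ - p) + (1 - τ) • p₁ := by rw [hp]; module
    rw [e1]
    refine (norm_add_le _ _).trans_lt ?_
    rw [norm_neg, norm_smul, Real.norm_eq_abs]
    have h7 : |1 - τ| ≤ η := by rw [abs_le]; constructor <;> linarith only [hτl, hτr]
    have h8 : ‖p₁‖ ≤ 3 := by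
      have : ‖p₁‖ ≤ ‖p₁ - p‖ + ‖p‖ := by
        calc ‖p₁‖ = ‖(p₁ - p) + p‖ := by congr 1; abel
          _ ≤ _ := norm_add_le _ _
      linarith only [hpn, hp₁3, this]
    have h9 : |1 - τ| * ‖p₁‖ ≤ η * 3 := by (clear * - h7 h8 hη; gcongr)
    linarith only [hη, hη2, hp₁2, h9]
  refine ⟨τ⁻¹, inv_pos.2 hτ0, ?_, q - τ • p₁, hτ1, ?_, hdist.trans_le hε'1, ?_⟩
  · rw [inv_le_comm₀ hτ0 (by norm_num)]; linarith only [hη1, hτl]
  · calc ‖q + (q - τ • p₁)‖ = ‖(q + x) + ((q - τ • p₁) - x)‖ := by congr 1; abel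
      _ ≤ ‖q + x‖ + ‖(q - τ • p₁) - x‖ := norm_add_le _ _
      _ < 2 := by linarith only [hε'2, hdist]
  · rw [sub_sub_cancel, smul_smul, inv_mul_cancel₀ hτ0.ne', one_smul]

end

end Vale.Agent.P084.BadPoint
end

/- UCBase -/
section
/-!
# One-sided derivatives of the norm, uniformly convex spaces
-/

open Set Filter Topology Metric

namespace Vale.Agent.P084.UC

open BadPoint

section ddlemmas

variable {E : Type*} [NormedAddCommGroup E] [NormedSpace ℝ E]

theorem dd_le_sub (z w : E) : dd z w ≤ ‖z + w‖ - ‖z‖ := by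
  have := dd_mul_le z w one_pos
  rwa [mul_one, one_smul] at this

theorem dd_smul_nonneg (z w : E) {c : ℝ} (hc : 0 ≤ c) : dd z (c • w) = c * dd z w := by
  rcases hc.eq_or_lt with h | h
  · subst h; rw [zero_smul, dd_zero, zero_mul]
  · exact dd_smul z w h

theorem dd_smul_left (z w : E) {c : ℝ} (hc : 0 < c) : dd (c • z) w = dd z w := by
  have h1 : Tendsto (fun t : ℝ => (‖z + (t / c) • w‖ - ‖z‖) / (t / c)) (𝓝[>] 0)
      (𝓝 (dd z w)) := by
    apply (tendsto_dd z w).comp
    rw [tendsto_nhdsWithin_iff]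
    constructor
    · apply tendsto_nhdsWithin_of_tendsto_nhds
      have : Tendsto (fun t : ℝ => t / c) (𝓝 0) (𝓝 (0 / c)) := by
        apply Continuous.tendsto; fun_prop
      simpa only [zero_div] using this
    · filter_upwards [self_mem_nhdsWithin] with t ht
      exact div_pos ht hc
  refine tendsto_nhds_unique (tendsto_dd (c • z) w) (h1.congr' ?_)
  filter_upwards [self_mem_nhdsWithin] with t ht
  rw [mem_Ioi] at ht
  have e1 : c • z + t • w = c • (z + (t / c) • w) := by
    rw [smul_add, smul_smul, mul_div_cancel₀ _ hc.ne']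
  rw [e1, norm_smul, norm_smul, Real.norm_of_nonneg hc.le]
  field_simp

theorem dd_neg_add_nonneg (z w : E) : 0 ≤ dd z w + dd z (-w) := by
  have := dd_add_le z w (-w)
  rwa [add_neg_cancel, dd_zero] at this

theorem dd_self (z : E) : dd z z = ‖z‖ := by
  rcases eq_or_ne z 0 with rfl | hz
  · rw [dd_zero, norm_zero]
  have hn : 0 < ‖z‖ := norm_pos_iff.2 hz
  have h1 : ‖‖z‖⁻¹ • z‖ = 1 := norm_inv_smul_eq_one hz
  have h2 := dd_smul_self h1 ‖z‖
  rw [dd_smul_left _ _ (inv_pos.2 hn), smul_smul, mul_inv_cancel₀ hn.ne', one_smul] at h2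
  exact h2

theorem dd_neg_self (z : E) : dd z (-z) = -‖z‖ := by
  rcases eq_or_ne z 0 with rfl | hz
  · rw [neg_zero, dd_zero, norm_zero, neg_zero]
  have hn : 0 < ‖z‖ := norm_pos_iff.2 hz
  have h1 : ‖‖z‖⁻¹ • z‖ = 1 := norm_inv_smul_eq_one hz
  have h2 := dd_smul_self h1 (-‖z‖)
  rw [dd_smul_left _ _ (inv_pos.2 hn), smul_smul, neg_mul, mul_inv_cancel₀ hn.ne', neg_smul,
    one_smul] at h2
  exact h2

theorem neg_norm_le_dd (z w : E) : -‖w‖ ≤ dd z w := by
  have h1 := dd_neg_add_nonneg z w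
  have h2 := dd_le_norm z (-w)
  rw [norm_neg] at h2
  linarith only [h1, h2]

theorem abs_dd_le (z w : E) : |dd z w| ≤ ‖w‖ := abs_le.2 ⟨neg_norm_le_dd z w, dd_le_norm z w⟩

/-- the norm is differentiable at `z` in direction `w` -/
def Dir (z w : E) : Prop := dd z w + dd z (-w) = 0

theorem dir_self (z : E) : Dir z z := by
  rw [Dir, dd_self, dd_neg_self, add_neg_cancel]

theorem Dir.neg_eq {z w : E} (h : Dir z w) : dd z (-w) = - dd z w := by
  rw [Dir] at h; linarith only [h]

theorem Dir.neg {z w : E} (h : Dir z w) : Dir z (-w) := by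
  rw [Dir] at h ⊢; rw [neg_neg]; linarith only [h]

theorem Dir.dd_add {z w : E} (h : Dir z w) (u : E) : dd z (w + u) = dd z w + dd z u := by
  apply le_antisymm (dd_add_le z w u)
  have h1 := dd_add_le z (w + u) (-w)
  rw [h.neg_eq] at h1
  have h2 : w + u + -w = u := by abel
  rw [h2] at h1
  linarith only [h1]

theorem Dir.add {z w u : E} (h : Dir z w) (h' : Dir z u) : Dir z (w + u) := by
  rw [Dir, h.dd_add, neg_add, h.neg.dd_add, h.neg_eq, h'.neg_eq]
  ring

theorem Dir.smul {z w : E} (h : Dir z w) (c : ℝ) : Dir z (c • w) := by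
  rcases le_total 0 c with hc | hc
  · rw [Dir, ← smul_neg, dd_smul_nonneg _ _ hc, dd_smul_nonneg _ _ hc, h.neg_eq]; ring
  · have hc' : 0 ≤ -c := by linarith only [hc]
    have e1 : c • w = (-c) • (-w) := by module
    rw [Dir, e1, ← smul_neg, dd_smul_nonneg _ _ hc', dd_smul_nonneg _ _ hc', neg_neg, h.neg_eq]
    ring

theorem Dir.dd_smul {z w : E} (h : Dir z w) (c : ℝ) : dd z (c • w) = c * dd z w := by
  rcases le_total 0 c with hc | hc
  · exact dd_smul_nonneg _ _ hc
  · have hc' : 0 ≤ -c := by linarith only [hc]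
    have e1 : c • w = (-c) • (-w) := by module
    rw [e1, dd_smul_nonneg _ _ hc', h.neg_eq]
    ring

theorem Dir.sub {z w u : E} (h : Dir z w) (h' : Dir z u) : Dir z (w - u) := by
  rw [sub_eq_add_neg]; exact h.add h'.neg

theorem Dir.dd_sub {z w u : E} (h : Dir z w) (h' : Dir z u) : dd z (w - u) = dd z w - dd z u := by
  rw [sub_eq_add_neg, h.dd_add, h'.neg_eq]; ring

/-- lower bound of the one-sided derivative in directions near to `z`. -/
theorem dd_ge_of_near (z u : E) : ‖u‖ - 2 * ‖z - u‖ ≤ dd z u := by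
  have h1 := dd_add_le z u (z - u)
  have h2 : u + (z - u) = z := by abel
  rw [h2, dd_self] at h1
  have h3 := dd_le_norm z (z - u)
  have h4 : ‖u‖ ≤ ‖z‖ + ‖z - u‖ := by
    have : u = z - (z - u) := by abel
    calc ‖u‖ = ‖z - (z - u)‖ := by rw [← this]
      _ ≤ _ := norm_sub_le _ _
  linarith only [h1, h3, h4]

end ddlemmas


section odd

variable {X Y : Type*} [NormedAddCommGroup X] [NormedSpace ℝ X]
    [NormedAddCommGroup Y] [NormedSpace ℝ Y]

theorem dist_smul_map (F : SphereEquiv X Y) (a y : X) (hy : ‖y‖ = 1) :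
    ‖F a - ‖a‖ • F y‖ = ‖a - ‖a‖ • y‖ := by
  rcases eq_or_ne a 0 with rfl | ha
  · rw [F.map_zero, norm_zero, zero_smul, zero_smul, sub_self, sub_self, norm_zero, norm_zero]
  have h1 : ‖‖a‖⁻¹ • a‖ = 1 := norm_inv_smul_eq_one ha
  have h2 : a = ‖a‖ • (‖a‖⁻¹ • a) := by
    rw [smul_smul, mul_inv_cancel₀ (norm_ne_zero_iff.2 ha), one_smul]
  have h3 : F a = ‖a‖ • F (‖a‖⁻¹ • a) := by rw [← F.smul_map (norm_nonneg a), ← h2]
  have h4 : ‖F a - ‖a‖ • F y‖ = ‖a‖ * ‖F (‖a‖⁻¹ • a) - F y‖ := by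
    rw [h3, ← smul_sub, norm_smul, norm_norm]
  have h5 : ‖a - ‖a‖ • y‖ = ‖a‖ * ‖‖a‖⁻¹ • a - y‖ := by
    conv_lhs => rw [h2]
    rw [norm_smul, norm_norm, h1, mul_one, ← smul_sub, norm_smul, norm_norm]
  rw [h4, h5, F.iso_map h1 hy]

end odd

end Vale.Agent.P084.UC
end

/- UCTangent -/
section
/-!
# The tangent map at a point of the sphere of a uniformly convex space
-/

open Set Filter Topology Metric

namespace Vale.Agent.P084.UC

open BadPoint


section tangent

variable {X Y : Type*} [NormedAddCommGroup X] [NormedSpace ℝ X]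
    [NormedAddCommGroup Y] [NormedSpace ℝ Y]

variable [UniformConvexSpace Y] [CompleteSpace Y] (F : SphereEquiv X Y) {q : X} (hq : ‖q‖ = 1)
  {w : X} (hw : dd q w = 0)

/-- Distances to the points of the tangent ray and to the curve agree to first order. -/
theorem dd_eq_of_curve {E : Type*} [NormedAddCommGroup E] [NormedSpace ℝ E] {z v : E} {c : ℝ → E}
    (hc : Tendsto (fun t : ℝ => t⁻¹ • c t) (𝓝[>] 0) (𝓝 v)) :
    Tendsto (fun t : ℝ => (‖z + c t‖ - ‖z‖) / t) (𝓝[>] 0) (𝓝 (dd z v)) := by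
  have h1 := tendsto_dd z v
  have h2 : Tendsto (fun t : ℝ => ‖t⁻¹ • c t - v‖) (𝓝[>] 0) (𝓝 0) :=
    tendsto_iff_norm_sub_tendsto_zero.1 hc
  have h3 : Tendsto (fun t : ℝ => (‖z + c t‖ - ‖z‖) / t - (‖z + t • v‖ - ‖z‖) / t) (𝓝[>] 0)
      (𝓝 0) := by
    refine squeeze_zero_norm' ?_ h2
    filter_upwards [self_mem_nhdsWithin] with t ht
    rw [mem_Ioi] at ht
    rw [← sub_div, sub_sub_sub_cancel_right, norm_div, Real.norm_of_nonneg ht.le,
      div_le_iff₀ ht, Real.norm_eq_abs]
    refine (abs_norm_sub_norm_le _ _).trans ?_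
    have e : z + c t - (z + t • v) = t • (t⁻¹ • c t - v) := by
      rw [smul_sub, smul_smul, mul_inv_cancel₀ ht.ne', one_smul]; abel
    rw [e, norm_smul, Real.norm_of_nonneg ht.le, mul_comm]
  have h4 := h3.add h1
  rw [zero_add] at h4
  refine h4.congr fun t => ?_
  ring

theorem curve_smul (q w : X) (c t : ℝ) : curve q (c • w) t = curve q w (t * c) := by
  rw [curve, curve, smul_smul]

end tangent

end Vale.Agent.P084.UC
end

/- UCBaire -/
section
/-!
# Generic directional differentiability of the norm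
-/

open Set Filter Topology Metric

namespace Vale.Agent.P084.UC

open BadPoint

/-- The space is at least two-dimensional. -/
def Dim2 (E : Type*) [AddCommGroup E] [Module ℝ E] : Prop := ∀ q : E, ∃ v, ∀ c : ℝ, v ≠ c • q

section tele

variable {E : Type*} [NormedAddCommGroup E] [NormedSpace ℝ E]

/-- Telescoping of second differences. -/
theorem telescope (z v : E) {K : ℕ} (hK : 0 < K) : ∃ j : ℕ, j < K ∧
    ‖z + (j : ℝ) • v + v‖ + ‖z + (j : ℝ) • v - v‖ - 2 * ‖z + (j : ℝ) • v‖ ≤ 2 * ‖v‖ / K := by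
  by_contra hcon
  push Not at hcon
  set a : ℕ → ℝ := fun j => ‖z + ((j : ℝ) - 1) • v‖ with ha
  have hK' : (0 : ℝ) < K := by exact_mod_cast hK
  have h1 : ∑ j ∈ Finset.range K, (2 * ‖v‖ / K) < ∑ j ∈ Finset.range K,
      ((a (j + 1 + 1) - a (j + 1)) - (a (j + 1) - a j)) := by
    apply Finset.sum_lt_sum_of_nonempty (by simpa using hK.ne')
    intro j hj
    have h2 := hcon j (Finset.mem_range.1 hj)
    have e1 : z + (j : ℝ) • v + v = z + (((j + 1 + 1 : ℕ) : ℝ) - 1) • v := by
      push_cast; module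
    have e2 : z + (j : ℝ) • v - v = z + ((j : ℝ) - 1) • v := by module
    have e3 : z + (j : ℝ) • v = z + (((j + 1 : ℕ) : ℝ) - 1) • v := by
      push_cast; module
    rw [e1, e2, e3] at h2
    simp only [ha]
    linarith only [h2]
  rw [Finset.sum_range_sub (fun j => a (j + 1) - a j), Finset.sum_const, Finset.card_range,
    nsmul_eq_mul, mul_div_cancel₀ _ hK'.ne'] at h1
  have h2 : ∀ j, |a (j + 1) - a j| ≤ ‖v‖ := by
    intro j
    simp only [ha]
    refine (abs_norm_sub_norm_le _ _).trans (le_of_eq ?_)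
    congr 1
    push_cast
    module
  have h3 := (abs_le.1 (h2 K)).2
  have h4 := (abs_le.1 (h2 0)).1
  linarith only [h1, h3, h4]

variable [UniformConvexSpace E]

omit [UniformConvexSpace E] in
theorem dir_of_forall {z w : E}
    (h : ∀ m : ℕ, ∃ s : ℝ, 0 < s ∧ ‖z + s • w‖ + ‖z - s • w‖ - 2 * ‖z‖ < s / (m + 1)) :
    Dir z w := by
  apply le_antisymm _ (dd_neg_add_nonneg z w)
  apply le_of_forall_pos_le_add
  intro ε hε
  obtain ⟨m, hm⟩ := exists_nat_one_div_lt hε
  obtain ⟨s, hs, h1⟩ := h m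
  have h2 := dd_mul_le z w hs
  have h3 := dd_mul_le z (-w) hs
  rw [smul_neg, ← sub_eq_add_neg] at h3
  have h4 : (dd z w + dd z (-w)) * s < (1 / (m + 1)) * s := by
    calc (dd z w + dd z (-w)) * s ≤ ‖z + s • w‖ + ‖z - s • w‖ - 2 * ‖z‖ := by linarith only [h2, h3]
      _ < s / (m + 1) := h1
      _ = _ := by ring
  have h5 := lt_of_mul_lt_mul_right h4 hs.le
  linarith only [hm, h5]

end tele


end Vale.Agent.P084.UC
end

/- GenStar -/
section
/-!
# Stars, generic directional differentiability and the spanning lemma in general normed spaces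
-/

open Set Filter Topology Metric

namespace Vale.Agent.P084.Gen

open BadPoint UC

section star

variable {X Y : Type*} [NormedAddCommGroup X] [NormedSpace ℝ X]
    [NormedAddCommGroup Y] [NormedSpace ℝ Y]

/-- Surjective isometries between unit spheres preserve the relation `‖x + y‖ = 2`. -/
theorem star_neg (F : SphereEquiv X Y) {x y : X} (hx : ‖x‖ = 1) (hy : ‖y‖ = 1)
    (hxy : ‖x + y‖ = 2) : ‖F (-x) + F (-y)‖ = 2 := by
  obtain ⟨φ, hφ, hφx, hφy⟩ := exists_common hx hy hxy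
  have key : ∀ s : ℝ, 0 < s → s < 1 → ‖F (-((1 - s) • x + s • y)) + F (-y)‖ = 2 := by
    intro s hs hs1
    set c : X := (1 - s) • x + s • y with hc
    have hcn : ‖c‖ = 1 := by
      apply le_antisymm
      · calc ‖c‖ ≤ ‖(1 - s) • x‖ + ‖s • y‖ := norm_add_le _ _
          _ = 1 := by
            rw [norm_smul, norm_smul, hx, hy, Real.norm_of_nonneg hs.le,
              Real.norm_of_nonneg (show 0 ≤ 1 - s by linarith only [hs1])]
            ring
      · have h := hφ c
        rw [hc, map_add, map_smul, map_smul, hφx, hφy, ← hc, smul_eq_mul, smul_eq_mul] at h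
        linarith only [h]
    have hcn' : ‖-c‖ = 1 := by rw [norm_neg, hcn]
    set w : X := F.symm (-F (-c)) with hw
    have hwn : ‖w‖ = 1 := by rw [hw, F.symm.norm_map, norm_neg, F.norm_map, hcn']
    have hFw : F w = -F (-c) := by rw [hw, F.apply_symm]
    have h1 : ‖w + c‖ = 2 := by
      have h2 := F.iso_map hwn hcn'
      rw [hFw, sub_neg_eq_add] at h2
      rw [← h2]
      have : -F (-c) - F (-c) = (-2 : ℝ) • F (-c) := by module
      rw [this, norm_smul, F.norm_map, hcn']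
      norm_num
    obtain ⟨ψ, hψ, hψw, hψc⟩ := exists_common hwn hcn h1
    have hψx : ψ x ≤ 1 := by have := hψ x; rwa [hx] at this
    have hψy : ψ y ≤ 1 := by have := hψ y; rwa [hy] at this
    have hψy1 : ψ y = 1 := by
      rw [hc, map_add, map_smul, map_smul, smul_eq_mul, smul_eq_mul] at hψc
      nlinarith only [hψc, hs, hs1, hψx, hψy]
    have h3 : ‖w + y‖ = 2 := norm_add_eq_two hwn hy hψ hψw hψy1
    have h4 := F.iso_map hwn (y := -y) (by rw [norm_neg, hy])
    rw [sub_neg_eq_add, h3, hFw] at h4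
    rw [← h4]
    have : -F (-c) - F (-y) = -(F (-c) + F (-y)) := by abel
    rw [this, norm_neg]
  have h1 : Tendsto (fun s : ℝ => ‖F (-((1 - s) • x + s • y)) + F (-y)‖) (𝓝[>] 0)
      (𝓝 ‖F (-((1 - (0 : ℝ)) • x + (0 : ℝ) • y)) + F (-y)‖) := by
    apply tendsto_nhdsWithin_of_tendsto_nhds
    have : Continuous (fun s : ℝ => ‖F (-((1 - s) • x + s • y)) + F (-y)‖) := by
      have h2 := F.continuous
      fun_prop
    exact this.tendsto 0
  rw [sub_zero, one_smul, zero_smul, add_zero] at h1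
  refine tendsto_nhds_unique h1 (Tendsto.congr' ?_ tendsto_const_nhds)
  have h2 : ∀ᶠ s : ℝ in 𝓝[>] 0, s < 1 :=
    nhdsWithin_le_nhds (gt_mem_nhds one_pos)
  filter_upwards [h2, self_mem_nhdsWithin] with s hs hs0
  exact (key s hs0 hs).symm

theorem star (F : SphereEquiv X Y) {x y : X} (hx : ‖x‖ = 1) (hy : ‖y‖ = 1)
    (hxy : ‖x + y‖ = 2) : ‖F x + F y‖ = 2 := by
  have h := star_neg F (x := -x) (y := -y) (by rw [norm_neg, hx]) (by rw [norm_neg, hy]) (by
    rw [← neg_add, norm_neg, hxy])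
  rwa [neg_neg, neg_neg] at h

theorem star_iff (F : SphereEquiv X Y) {x y : X} (hx : ‖x‖ = 1) (hy : ‖y‖ = 1) :
    ‖F x + F y‖ = 2 ↔ ‖x + y‖ = 2 := by
  refine ⟨fun h => ?_, star F hx hy⟩
  have := star F.symm (x := F x) (y := F y) (by rw [F.norm_map, hx]) (by rw [F.norm_map, hy]) h
  rwa [F.symm_apply, F.symm_apply] at this

theorem region_iff (F : SphereEquiv X Y) {x y : X} (hx : ‖x‖ = 1) (hy : ‖y‖ = 1) :
    ‖F x + F y‖ < 2 ↔ ‖x + y‖ < 2 := by
  have h1 : ‖x + y‖ ≤ 2 := by
    refine (norm_add_le _ _).trans ?_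
    rw [hx, hy]; norm_num
  have h2 : ‖F x + F y‖ ≤ 2 := by
    refine (norm_add_le _ _).trans ?_
    rw [F.norm_map, F.norm_map, hx, hy]; norm_num
  rw [lt_iff_le_and_ne, lt_iff_le_and_ne, Ne, Ne, star_iff F hx hy]
  simp only [h2, true_and, h1]

end star

section dir

variable {E : Type*} [NormedAddCommGroup E] [NormedSpace ℝ E]

theorem dense_dir_region {q : E} (hq : ‖q‖ = 1) (w : E) (m : ℕ) {y₀ : E} (hy₀ : ‖y₀‖ = 1)
    (hreg : ‖q + y₀‖ < 2) {ε : ℝ} (hε : 0 < ε) :
    ∃ y : E, ‖y‖ = 1 ∧ ‖q + y‖ < 2 ∧ ‖y - y₀‖ < ε ∧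
      ∃ s : ℝ, 0 < s ∧ ‖q - y + s • w‖ + ‖q - y - s • w‖ - 2 * ‖q - y‖ < s / (m + 1) := by
  obtain ⟨ρ, hρ, hexit⟩ := exit_cont hq hy₀ hreg hε
  obtain ⟨K, hK⟩ := exists_nat_gt (2 * ‖w‖ * (m + 1))
  have hK0 : (0 : ℝ) < K := lt_of_le_of_lt (by (clear * -; positivity)) hK
  have hKn : 0 < K := by exact_mod_cast hK0
  obtain ⟨s, hs, hsρ⟩ : ∃ s : ℝ, 0 < s ∧ K * (s * ‖w‖) < ρ := by
    refine ⟨ρ / (2 * K * (‖w‖ + 1)), by (clear * - hρ hKn; positivity), ?_⟩
    rw [div_mul_eq_mul_div, ← mul_div_assoc, div_lt_iff₀ (by positivity)]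
    have : 0 ≤ ‖w‖ := norm_nonneg w
    linarith only [mul_pos (sub_pos.2 hK0) (sub_pos.2 hρ), mul_nonneg (mul_pos hK0 hρ).le this]
  obtain ⟨j, hj, hj2⟩ := telescope (q - y₀) (s • w) hKn
  have hnorm : ‖(j : ℝ) • s • w‖ < ρ := by
    rw [norm_smul, norm_smul, Real.norm_of_nonneg hs.le, Real.norm_of_nonneg (Nat.cast_nonneg j)]
    have hjK : (j : ℝ) ≤ K := by exact_mod_cast hj.le
    exact lt_of_le_of_lt (mul_le_mul_of_nonneg_right hjK (by (clear * - hs; positivity))) hsρ
  obtain ⟨c, hc, -, y, hy, hqy, hyy, hp⟩ := hexit (q - y₀ + (j : ℝ) • s • w) (by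
    rw [add_sub_cancel_left]; exact hnorm)
  refine ⟨y, hy, hqy, hyy, s / c, by (clear * - hs hc; positivity), ?_⟩
  rw [hp] at hj2
  have e1 : c • (q - y) + s • w = c • (q - y + (s / c) • w) := by
    rw [smul_add, smul_smul, mul_div_cancel₀ _ hc.ne']
  have e2 : c • (q - y) - s • w = c • (q - y - (s / c) • w) := by
    rw [smul_sub c (q - y), smul_smul, mul_div_cancel₀ _ hc.ne']
  rw [e1, e2, norm_smul, norm_smul, norm_smul c (q - y), Real.norm_of_nonneg hc.le, norm_smul,
    Real.norm_of_nonneg hs.le] at hj2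
  have h5 : 2 * (s * ‖w‖) / K < s / (m + 1) := by
    rw [div_lt_div_iff₀ hK0 (by (clear * -; positivity))]
    linarith only [mul_pos (sub_pos.2 hK) (sub_pos.2 hs)]
  rw [div_div, mul_comm c, ← div_div, lt_div_iff₀ hc]
  calc (‖q - y + (s / c) • w‖ + ‖q - y - (s / c) • w‖ - 2 * ‖q - y‖) * c
      = c * ‖q - y + (s / c) • w‖ + c * ‖q - y - (s / c) • w‖ - 2 * (c * ‖q - y‖) := by ring
    _ ≤ 2 * (s * ‖w‖) / K := hj2
    _ < s / (m + 1) := h5

/-- A countable intersection of relatively dense open sets. -/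
theorem residual_of_dense_in {S : Type*} [TopologicalSpace S] {Ω : Set S} {G : ℕ → Set S}
    (hG : ∀ m, IsOpen (G m)) (hd : ∀ m, Ω ⊆ closure (G m)) :
    ∀ᶠ y in residual S, y ∈ Ω → ∀ m, y ∈ G m := by
  have h1 : ∀ m, ∀ᶠ y in residual S, y ∈ G m ∪ (closure Ω)ᶜ := by
    intro m
    apply residual_of_dense_open
    · exact (hG m).union isClosed_closure.isOpen_compl
    · rw [dense_iff_closure_eq]
      change closure (G m ∪ (closure Ω)ᶜ) = univ
      rw [closure_union, eq_univ_iff_forall]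
      intro y
      by_cases hy : y ∈ closure (closure Ω)ᶜ
      · exact Or.inr hy
      · left
        have h2 : y ∈ closure Ω := by
          by_contra h3
          exact hy (subset_closure h3)
        have h3 := closure_mono (hd m) h2
        rwa [closure_closure] at h3
  rw [← eventually_countable_forall] at h1
  filter_upwards [h1] with y hy hΩ m
  rcases hy m with h | h
  · exact h
  · exact absurd (subset_closure hΩ) h

/-- Spanning. -/
theorem eq_zero_of_cone {q : E} (hq : ‖q‖ = 1) {v : E}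
    (h : ∀ p, dd q (-p) ≤ 0 → ∀ t : ℝ, ‖p‖ ≤ ‖p + t • v‖) : v = 0 := by
  have h1 : ∀ s : ℝ, dd q (-(q + s • v)) ≤ 0 → ‖q + s • v‖ ≤ 1 := by
    intro s hs
    have := h _ hs (-s)
    rwa [neg_smul, add_neg_cancel_right, hq] at this
  have h2 : ∀ s : ℝ, dd q (-(q + s • v)) = dd q ((-s) • v) - 1 := by
    intro s
    have : -(q + s • v) = (-s) • v + (-1 : ℝ) • q := by module
    rw [this, dd_add_smul_self hq]
    ring
  have h3 : ∀ u : E, (∃ r : ℝ, u = r • v) → dd q u ≤ 0 := by
    rintro u ⟨r, rfl⟩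
    -- small multiples
    obtain ⟨c, hc, hcn⟩ : ∃ c : ℝ, 0 < c ∧ c * ‖r • v‖ ≤ 1 := by
      refine ⟨1 / (‖r • v‖ + 1), by positivity, ?_⟩
      rw [div_mul_eq_mul_div, div_le_one (by positivity)]
      linarith only []
    have h4 : dd q (-(q + (c * r) • v)) ≤ 0 := by
      rw [h2]
      have h5 := dd_le_norm q ((-(c * r)) • v)
      have h6 : (-(c * r)) • v = -(c • (r • v)) := by module
      rw [h6, norm_neg, norm_smul, Real.norm_of_nonneg hc.le] at h5
      rw [h6]
      linarith only [hcn, h5]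
    have h5 := h1 _ h4
    have h6 := dd_le_sub q ((c * r) • v)
    rw [hq] at h6
    rw [mul_smul, dd_smul q _ hc] at h6
    rw [mul_smul] at h5
    have h7 : c * dd q (r • v) ≤ 0 := by linarith only [h5, h6]
    by_contra h8
    push Not at h8
    have := mul_pos hc h8
    linarith only [h5, h6, this]
  have h4 : ∀ s : ℝ, ‖q + s • v‖ ≤ 1 := by
    intro s
    apply h1
    rw [h2]
    have := h3 ((-s) • v) ⟨-s, rfl⟩
    linarith
  by_contra hv0
  have hvn : 0 < ‖v‖ := norm_pos_iff.2 hv0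
  have h6 := h4 (3 / ‖v‖)
  have h7 : ‖(3 / ‖v‖) • v‖ ≤ ‖q + (3 / ‖v‖) • v‖ + ‖q‖ := by
    have : (3 / ‖v‖) • v = (q + (3 / ‖v‖) • v) - q := by abel
    calc ‖(3 / ‖v‖) • v‖ = ‖(q + (3 / ‖v‖) • v) - q‖ := by rw [← this]
      _ ≤ _ := norm_sub_le _ _
  rw [hq, norm_smul, Real.norm_of_nonneg (by positivity), div_mul_cancel₀ _ hvn.ne'] at h7
  linarith

theorem norm_le_of_dd {z v : E} (h1 : 0 ≤ dd z v) (h2 : 0 ≤ dd z (-v)) (t : ℝ) :
    ‖z‖ ≤ ‖z + t • v‖ := by
  rcases le_total 0 t with ht | ht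
  · have h3 := dd_le_sub z (t • v)
    rw [dd_smul_nonneg z v ht] at h3
    linarith only [mul_nonneg (sub_nonneg.2 ht) (sub_nonneg.2 h1), h3]
  · have h3 := dd_le_sub z (t • v)
    have e1 : t • v = (-t) • (-v) := by module
    rw [e1, dd_smul_nonneg z (-v) (by linarith only [ht] : 0 ≤ -t)] at h3
    rw [e1]
    linarith only [mul_nonneg (sub_nonneg.2 ht) (sub_nonneg.2 h2), h3]

/-- Spanning lemma without convexity assumptions. -/
theorem spanning_dense {q : E} (hq : ‖q‖ = 1) {v : E}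
    (h : ∀ y₀ : E, ‖y₀‖ = 1 → ‖q + y₀‖ < 2 → ∀ ε > 0, ∃ y : E, ‖y - y₀‖ < ε ∧
      0 ≤ dd (q - y) v ∧ 0 ≤ dd (q - y) (-v)) : v = 0 := by
  apply eq_zero_of_cone hq
  intro p hp
  let ι : Type _ := {y : E // 0 ≤ dd (q - y) v ∧ 0 ≤ dd (q - y) (-v)}
  refine forall_cone hq (P := fun p => ∀ t : ℝ, ‖p‖ ≤ ‖p + t • v‖) ?_ ?_
    (fun y : ι => (y : E)) ?_ ?_ hp
  · rw [ofPred_forall]
    exact isClosed_iInter fun t => isClosed_le (by fun_prop) (by fun_prop)
  · intro c hc p hp t
    have h2 : c • p + t • v = c • (p + (c⁻¹ * t) • v) := by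
      rw [smul_add, smul_smul, ← mul_assoc, mul_inv_cancel₀ hc.ne', one_mul]
    rw [h2, norm_smul, norm_smul]
    gcongr
    exact hp _
  · intro y₀ hy₀ hreg ε hε
    obtain ⟨y, hy, h1, h2⟩ := h y₀ hy₀ hreg ε hε
    exact ⟨⟨y, h1, h2⟩, hy⟩
  · rintro ⟨y, h1, h2⟩ t
    exact norm_le_of_dd h1 h2 t

end dir

section residual

variable {X Y : Type*} [NormedAddCommGroup X] [NormedSpace ℝ X]
    [NormedAddCommGroup Y] [NormedSpace ℝ Y]

/-- Generic directional differentiability of the distance from `F q`, along the image of `F`. -/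
theorem residual_dir (F : SphereEquiv X Y) {q : X} (hq : ‖q‖ = 1) (w : Y) :
    ∀ᶠ y : sphere (0 : X) 1 in residual (sphere (0 : X) 1), ‖q + (y : X)‖ < 2 →
      Dir (F q - F (y : X)) w := by
  have hc : Continuous fun y : sphere (0 : X) 1 => F (y : X) :=
    F.continuous.comp continuous_subtype_val
  have h := residual_of_dense_in (S := sphere (0 : X) 1) (Ω := {y | ‖q + (y : X)‖ < 2})
    (G := fun m => {y : sphere (0 : X) 1 | ∃ s : ℝ, 0 < s ∧ ‖F q - F (y : X) + s • w‖ +
          ‖F q - F (y : X) - s • w‖ - 2 * ‖F q - F (y : X)‖ < s / (m + 1)}) (by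
      intro m
      have : {y : sphere (0 : X) 1 | ∃ s : ℝ, 0 < s ∧ ‖F q - F (y : X) + s • w‖ +
          ‖F q - F (y : X) - s • w‖ - 2 * ‖F q - F (y : X)‖ < s / (m + 1)} =
          ⋃ s ∈ Ioi (0 : ℝ), {y : sphere (0 : X) 1 | ‖F q - F (y : X) + s • w‖ +
          ‖F q - F (y : X) - s • w‖ - 2 * ‖F q - F (y : X)‖ < s / (m + 1)} := by
        ext y; simp only [mem_ofPred_eq, mem_Ioi, mem_iUnion, exists_prop]
      rw [this]
      exact isOpen_biUnion fun s _ => isOpen_lt (by (clear * - hc; fun_prop)) (by fun_prop)) (by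
      intro m y₀ hy₀
      rw [Metric.mem_closure_iff]
      intro r hr
      have hy₀n : ‖(y₀ : X)‖ = 1 := norm_eq_of_mem_sphere y₀
      obtain ⟨y, hy, hqy, hyy, hs⟩ := dense_dir_region (q := F q) (by rw [F.norm_map, hq]) w m
        (y₀ := F y₀) (by rw [F.norm_map, hy₀n]) ((region_iff F hq hy₀n).2 hy₀) hr
      have hyn : ‖F.symm y‖ = 1 := by rw [F.symm.norm_map, hy]
      refine ⟨⟨F.symm y, mem_sphere_zero_iff_norm.2 hyn⟩, ?_, ?_⟩
      · simp only [mem_ofPred_eq, F.apply_symm]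
        exact hs
      · rw [Subtype.dist_eq, dist_eq_norm, norm_sub_rev]
        have h3 := F.iso_map (x := F.symm y) (y := y₀) hyn hy₀n
        rw [F.apply_symm] at h3
        rw [← h3]
        exact hyy)
  filter_upwards [h] with y hy hreg
  exact dir_of_forall (hy hreg)

/-- The identity as a sphere equivalence. -/
def refl (X : Type*) [NormedAddCommGroup X] [NormedSpace ℝ X] : SphereEquiv X X where
  fn := id
  inv := id
  inv_fn := fun _ => rfl
  fn_inv := fun _ => rfl
  norm_fn := fun _ => rfl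
  fn_smul := fun _ _ _ => rfl
  fn_iso := fun _ _ _ _ => rfl

theorem residual_dir_id {q : X} (hq : ‖q‖ = 1) (w : X) :
    ∀ᶠ y : sphere (0 : X) 1 in residual (sphere (0 : X) 1), ‖q + (y : X)‖ < 2 →
      Dir (q - (y : X)) w :=
  residual_dir (refl X) hq w

/-- Spanning along a residual set of points. -/
theorem eq_zero_of_residual [CompleteSpace X] (F : SphereEquiv X Y) {q : X} (hq : ‖q‖ = 1) {v : Y}
    (h : ∀ᶠ y : sphere (0 : X) 1 in residual (sphere (0 : X) 1), ‖q + (y : X)‖ < 2 →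
      0 ≤ dd (F q - F (y : X)) v ∧ 0 ≤ dd (F q - F (y : X)) (-v)) : v = 0 := by
  have hcs : CompleteSpace (sphere (0 : X) 1) := isClosed_sphere.completeSpace_coe
  have hdense := dense_of_mem_residual h
  rw [Metric.dense_iff] at hdense
  apply spanning_dense (q := F q) (by rw [F.norm_map, hq])
  intro y₀ hy₀ hreg ε hε
  have hy₀' : ‖F.symm y₀‖ = 1 := by rw [F.symm.norm_map, hy₀]
  have hreg' : ‖q + F.symm y₀‖ < 2 := by
    rw [← region_iff F hq hy₀', F.apply_symm]; exact hreg
  obtain ⟨y, hy1, hy2⟩ := hdense ⟨F.symm y₀, mem_sphere_zero_iff_norm.2 hy₀'⟩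
    (min ε (2 - ‖q + F.symm y₀‖)) (lt_min hε (sub_pos.2 hreg'))
  rw [mem_ball, Subtype.dist_eq, dist_eq_norm] at hy1
  have hyn : ‖(y : X)‖ = 1 := norm_eq_of_mem_sphere y
  have h1 : ‖(y : X) - F.symm y₀‖ < ε := hy1.trans_le (min_le_left _ _)
  have h2 : ‖(y : X) - F.symm y₀‖ < 2 - ‖q + F.symm y₀‖ := hy1.trans_le (min_le_right _ _)
  have h3 : ‖q + (y : X)‖ < 2 := by
    calc ‖q + (y : X)‖ = ‖(q + F.symm y₀) + ((y : X) - F.symm y₀)‖ := by congr 1; abel
      _ ≤ ‖q + F.symm y₀‖ + ‖(y : X) - F.symm y₀‖ := norm_add_le _ _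
      _ < 2 := by linarith only [h2]
  refine ⟨F y, ?_, hy2 h3⟩
  have h4 := F.iso_map hyn hy₀'
  rw [F.apply_symm] at h4
  rw [h4]
  exact h1

end residual

end Vale.Agent.P084.Gen
end

/- GenTangent -/
section
/-!
# The tangent map at a point of the sphere of an arbitrary Banach space
-/

open Set Filter Topology Metric

namespace Vale.Agent.P084.Gen

open BadPoint UC

section ultra

variable {E : Type*} [NormedAddCommGroup E] [NormedSpace ℝ E]

/-- Ultralimits of numbers dominated by all finite slopes. -/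
theorem le_dd_cls {z w : ℕ → E} (bz : Bdd z) (bw : Bdd w) {a : ℕ → ℝ} {l : ℝ}
    (ha : Tendsto a UF (𝓝 l))
    (h : ∀ t : ℝ, 0 < t → ∀ᶠ k in (UF : Filter ℕ), a k ≤ (‖z k + t • w k‖ - ‖z k‖) / t) :
    l ≤ dd (cls z) (cls w) := by
  have key : ∀ t : ℝ, 0 < t → l ≤ (‖cls z + t • cls w‖ - ‖cls z‖) / t := by
    intro t ht
    have b1 : Bdd (fun k => z k + t • w k) := bz.add ((bdd_const t).smul bw)
    have h1 := tendsto_norm_cls b1
    have h2 := tendsto_norm_cls bz
    rw [cls_add bz ((bdd_const t).smul bw), cls_smul_const t bw] at h1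
    exact le_of_tendsto_of_tendsto ha ((h1.sub h2).div_const t) (h t ht)
  refine ge_of_tendsto (tendsto_dd (cls z) (cls w)) ?_
  filter_upwards [self_mem_nhdsWithin] with t ht
  exact key t ht

/-- monotonicity of slopes -/
theorem slope_mono (z w : E) {s t : ℝ} (hs : 0 < s) (hst : s ≤ t) :
    (‖z + s • w‖ - ‖z‖) / s ≤ (‖z + t • w‖ - ‖z‖) / t := by
  have ht : 0 < t := hs.trans_le hst
  have h := (convexOn_line z w).2 (mem_univ (0 : ℝ)) (mem_univ t)
    (show 0 ≤ 1 - s / t by rw [sub_nonneg, div_le_one ht]; exact hst)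
    (show 0 ≤ s / t by positivity) (by ring)
  have e : (1 - s / t) • (0 : ℝ) + (s / t) • t = s := by
    simp only [smul_eq_mul]; field_simp; ring
  rw [e] at h
  simp only [smul_eq_mul, zero_smul, add_zero] at h
  rw [div_le_div_iff₀ hs ht]
  have h2 : ‖z + s • w‖ * t ≤ ((1 - s / t) * ‖z‖ + s / t * ‖z + t • w‖) * t := by gcongr
  have h3 : ((1 - s / t) * ‖z‖ + s / t * ‖z + t • w‖) * t = (t - s) * ‖z‖ + s * ‖z + t • w‖ := by
    field_simp
  linarith only [h3, h2]

theorem slope_abs (z w : E) {s : ℝ} (hs : 0 < s) : |(‖z + s • w‖ - ‖z‖) / s| ≤ ‖w‖ := by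
  rw [abs_div, abs_of_pos hs, div_le_iff₀ hs]
  have h := abs_norm_sub_norm_le (z + s • w) z
  rw [add_sub_cancel_left, norm_smul, Real.norm_of_nonneg hs.le] at h
  linarith only [h]

/-- Slopes at an infinitesimal scale. -/
theorem slope_sandwich {z w : ℕ → E} (bz : Bdd z) (bw : Bdd w) {s : ℕ → ℝ} (hs : ∀ k, 0 < s k)
    (hs0 : Tendsto s UF (𝓝 0)) :
    ∃ l, Tendsto (fun k => (‖z k + s k • w k‖ - ‖z k‖) / s k) UF (𝓝 l) ∧
      l ≤ dd (cls z) (cls w) ∧ -l ≤ dd (cls z) (-cls w) := by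
  obtain ⟨C, hC⟩ := bw
  have bw : Bdd w := ⟨C, hC⟩
  obtain ⟨l, -, hl⟩ := exists_lim (a := fun k => (‖z k + s k • w k‖ - ‖z k‖) / s k) (C := C)
    (fun k => (slope_abs _ _ (hs k)).trans (hC k))
  refine ⟨l, hl, ?_, ?_⟩
  · refine le_dd_cls bz bw hl fun t ht => ?_
    filter_upwards [hs0.eventually (gt_mem_nhds ht)] with k hk
    exact slope_mono _ _ (hs k) hk.le
  · have e : -cls w = cls (fun k => - w k) := by
      have := cls_smul_const (-1 : ℝ) bw
      simp only [neg_smul, one_smul] at this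
      exact this.symm
    rw [e]
    refine le_dd_cls bz bw.neg hl.neg fun t ht => ?_
    filter_upwards [hs0.eventually (gt_mem_nhds ht)] with k hk
    refine le_trans ?_ (slope_mono (z k) (- w k) (hs k) hk.le)
    rw [← neg_div, div_le_div_iff_of_pos_right (hs k)]
    have h1 : 2 * ‖z k‖ ≤ ‖z k + s k • w k‖ + ‖z k + s k • (- w k)‖ := by
      have e2 : (2 : ℝ) • z k = (z k + s k • w k) + (z k + s k • (- w k)) := by module
      calc 2 * ‖z k‖ = ‖(2 : ℝ) • z k‖ := by rw [norm_smul]; norm_num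
        _ ≤ _ := by rw [e2]; exact norm_add_le _ _
    linarith only [h1]

theorem slope_eq_of_dir {z w : ℕ → E} (bz : Bdd z) (bw : Bdd w) {s : ℕ → ℝ} (hs : ∀ k, 0 < s k)
    (hs0 : Tendsto s UF (𝓝 0)) (hd : Dir (cls z) (cls w)) :
    Tendsto (fun k => (‖z k + s k • w k‖ - ‖z k‖) / s k) UF (𝓝 (dd (cls z) (cls w))) := by
  obtain ⟨l, hl, h1, h2⟩ := slope_sandwich bz bw hs hs0
  rw [hd.neg_eq] at h2
  have : l = dd (cls z) (cls w) := by linarith only [h2, h1]
  rwa [this] at hl

end ultra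

section tangent

variable {X Y : Type*} [NormedAddCommGroup X] [NormedSpace ℝ X]
    [NormedAddCommGroup Y] [NormedSpace ℝ Y]

/-- Existence of the one-sided tangent map. -/
theorem exists_tangent [CompleteSpace X] [CompleteSpace Y] (F : SphereEquiv X Y) {q : X}
    (hq : ‖q‖ = 1) {w : X} (hw : dd q w = 0) :
    ∃ w' : Y, Tendsto (fun t : ℝ => t⁻¹ • (F (curve q w t) - F q)) (𝓝[>] 0) (𝓝 w') := by
  set u : ℝ → Y := fun t => t⁻¹ • (F (curve q w t) - F q) with hu
  suffices h : Cauchy (map u (𝓝[>] 0)) by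
    obtain ⟨w', hw'⟩ := CompleteSpace.complete h
    exact ⟨w', hw'⟩
  rw [Metric.cauchy_iff]
  refine ⟨inferInstance, ?_⟩
  by_contra hcon
  push Not at hcon
  obtain ⟨ε, hε, hcon⟩ := hcon
  have h1 := curve_tendsto hq hw
  have h1' := (h1.norm).eventually (gt_mem_nhds (show ‖w‖ < ‖w‖ + 1 by linarith only []))
  have hch : ∀ k : ℕ, ∃ s t : ℝ, (0 < s ∧ s < 1 / ((k : ℝ) + 1) ∧ ‖q + s • w‖ ≠ 0 ∧
      ‖s⁻¹ • (curve q w s - q)‖ < ‖w‖ + 1) ∧ (0 < t ∧ t < 1 / ((k : ℝ) + 1) ∧ ‖q + t • w‖ ≠ 0 ∧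
      ‖t⁻¹ • (curve q w t - q)‖ < ‖w‖ + 1) ∧ ε ≤ ‖u s - u t‖ := by
    intro k
    have h2 : ∀ᶠ t in 𝓝[>] (0 : ℝ), 0 < t ∧ t < 1 / ((k : ℝ) + 1) ∧ ‖q + t • w‖ ≠ 0 ∧
        ‖t⁻¹ • (curve q w t - q)‖ < ‖w‖ + 1 := by
      filter_upwards [self_mem_nhdsWithin, nhdsWithin_le_nhds (gt_mem_nhds
        (show (0 : ℝ) < 1 / ((k : ℝ) + 1) by positivity)), eventually_ne hq w, h1'] with t a b c d
      exact ⟨a, b, c, d⟩
    obtain ⟨_, ⟨s, hs, rfl⟩, _, ⟨t, ht, rfl⟩, hst⟩ := hcon _ (image_mem_map h2)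
    rw [dist_eq_norm] at hst
    exact ⟨s, t, hs, ht, hst⟩
  choose s t hs ht hst using hch
  -- data of the two sequences
  have main : ∀ s : ℕ → ℝ, (∀ k, 0 < s k ∧ s k < 1 / ((k : ℝ) + 1) ∧ ‖q + s k • w‖ ≠ 0 ∧
      ‖(s k)⁻¹ • (curve q w (s k) - q)‖ < ‖w‖ + 1) → Bdd (fun k => u (s k)) ∧
      ∀ y : Ultra X, ‖y‖ = 1 → Dir (diag q - y) (diag w) →
        Dir (ultraEquiv F (diag q) - ultraEquiv F y) (cls (fun k => u (s k))) →
        dd (ultraEquiv F (diag q) - ultraEquiv F y) (cls (fun k => u (s k))) =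
          dd (diag q - y) (diag w) := by
    intro s hs
    have hs0 : Tendsto s UF (𝓝 0) := by
      refine squeeze_zero (fun k => (hs k).1.le) (fun k => (hs k).2.1.le) ?_
      exact tendsto_one_div_add_atTop_nhds_zero_nat.mono_left UF_le
    have hs0' : Tendsto s UF (𝓝[>] 0) := by
      rw [tendsto_nhdsWithin_iff]
      exact ⟨hs0, Eventually.of_forall fun k => (hs k).1⟩
    have hn : ∀ k, ‖u (s k)‖ ≤ ‖w‖ + 1 := by
      intro k
      obtain ⟨a, b, c, d⟩ := hs k
      have : ‖u (s k)‖ = ‖(s k)⁻¹ • (curve q w (s k) - q)‖ := by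
        rw [hu]; simp only
        rw [norm_smul, norm_smul, F.iso_map (curve_norm c) hq]
      rw [this]; exact d.le
    have bU : Bdd (fun k => u (s k)) := ⟨‖w‖ + 1, hn⟩
    refine ⟨bU, fun y hy hd hd' => ?_⟩
    obtain ⟨y, hyn, rfl⟩ := exists_rep_unit hy
    have by' : Bdd y := ⟨1, fun k => (hyn k).le⟩
    set W : ℕ → X := fun k => (s k)⁻¹ • (curve q w (s k) - q) with hW
    have bW : Bdd W := ⟨‖w‖ + 1, fun k => (hs k).2.2.2.le⟩
    have hWc : cls W = diag w := by
      rw [diag, cls_eq_cls_iff bW (bdd_const w)]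
      rw [← tendsto_iff_norm_sub_tendsto_zero]
      exact h1.comp hs0'
    have bz : Bdd (fun k => q - y k) := (bdd_const q).sub by'
    have bz' : Bdd (fun k => F q - F (y k)) := (bdd_const (F q)).sub (by'.map F)
    have ez : cls (fun k => q - y k) = diag q - cls y := cls_sub (bdd_const q) by'
    have ez' : cls (fun k => F q - F (y k)) = ultraEquiv F (diag q) - ultraEquiv F (cls y) := by
      rw [cls_sub (bdd_const (F q)) (by'.map F), ultraEquiv_diag, ultraEquiv_cls F by']
      rfl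
    rw [← ez, ← hWc] at hd
    rw [← ez'] at hd'
    have l1 := slope_eq_of_dir bz bW (fun k => (hs k).1) hs0 hd
    have l2 := slope_eq_of_dir bz' bU (fun k => (hs k).1) hs0 hd'
    rw [← ez', ← ez, ← hWc]
    refine tendsto_nhds_unique l2 (l1.congr fun k => ?_)
    obtain ⟨a, b, c, d⟩ := hs k
    have e1 : q - y k + s k • W k = curve q w (s k) - y k := by
      rw [hW]; simp only
      rw [smul_smul, mul_inv_cancel₀ a.ne', one_smul]; abel
    have e2 : F q - F (y k) + s k • u (s k) = F (curve q w (s k)) - F (y k) := by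
      rw [hu]; simp only
      rw [smul_smul, mul_inv_cancel₀ a.ne', one_smul]; abel
    rw [e1, e2, F.iso_map (curve_norm c) (hyn k), F.iso_map hq (hyn k)]
  obtain ⟨bS, mS⟩ := main s hs
  obtain ⟨bT, mT⟩ := main t ht
  set U : Ultra Y := cls (fun k => u (s k)) with hU
  set V : Ultra Y := cls (fun k => u (t k)) with hV
  have hqd : ‖(diag q : Ultra X)‖ = 1 := by rw [norm_diag, hq]
  have hUV : U - V = 0 := by
    apply eq_zero_of_residual (ultraEquiv F) hqd
    filter_upwards [residual_dir_id hqd (diag w), residual_dir (ultraEquiv F) hqd U,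
      residual_dir (ultraEquiv F) hqd V] with y h1 h2 h3 hreg
    have hyn : ‖(y : Ultra X)‖ = 1 := norm_eq_of_mem_sphere y
    have e1 := mS y hyn (h1 hreg) (h2 hreg)
    have e2 := mT y hyn (h1 hreg) (h3 hreg)
    have h4 := (h2 hreg).dd_sub (h3 hreg)
    have h5 := (h2 hreg).sub (h3 hreg)
    rw [h5.neg_eq, h4, e1, e2]
    simp
  have hfin := (cls_eq_cls_iff bS bT).1 (sub_eq_zero.1 hUV)
  have := ge_of_tendsto hfin (Eventually.of_forall hst)
  linarith only [hε, this]

open Classical in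
/-- the tangent map -/
noncomputable def tmap (F : SphereEquiv X Y) (q w : X) : Y :=
  if h : ∃ w' : Y, Tendsto (fun t : ℝ => t⁻¹ • (F (curve q w t) - F q)) (𝓝[>] 0) (𝓝 w')
    then h.choose else 0

variable [CompleteSpace X] [CompleteSpace Y] (F : SphereEquiv X Y) {q : X} (hq : ‖q‖ = 1)
  {w : X} (hw : dd q w = 0)

include hq hw in
theorem tendsto_tmap :
    Tendsto (fun t : ℝ => t⁻¹ • (F (curve q w t) - F q)) (𝓝[>] 0) (𝓝 (tmap F q w)) := by
  have h := exists_tangent F hq hw
  rw [tmap, dif_pos h]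
  exact h.choose_spec

include hq hw in
/-- The tangent map preserves one-sided derivatives of distances. -/
theorem dd_tmap {y : X} (hy : ‖y‖ = 1) : dd (F q - F y) (tmap F q w) = dd (q - y) w := by
  have h1 := dd_eq_of_curve (z := F q - F y) (tendsto_tmap F hq hw)
  have h2 := dd_eq_of_curve (z := q - y) (curve_tendsto hq hw)
  refine tendsto_nhds_unique h1 (h2.congr' ?_)
  filter_upwards [eventually_ne hq w] with t ht
  have e1 : F q - F y + (F (curve q w t) - F q) = F (curve q w t) - F y := by abel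
  have e2 : q - y + (curve q w t - q) = curve q w t - y := by abel
  rw [e1, e2, F.iso_map (curve_norm ht) hy, F.iso_map hq hy]

include hq hw in
theorem norm_tmap : ‖tmap F q w‖ = ‖w‖ := by
  have h1 := (tendsto_tmap F hq hw).norm
  have h2 := (curve_tendsto hq hw).norm
  refine tendsto_nhds_unique h1 (h2.congr' ?_)
  filter_upwards [eventually_ne hq w] with t ht
  rw [norm_smul, norm_smul, F.iso_map (curve_norm ht) hq]

include hq hw in
theorem norm_tmap_sub {w₂ : X} (hw₂ : dd q w₂ = 0) : ‖tmap F q w - tmap F q w₂‖ = ‖w - w₂‖ := by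
  have h1 := ((tendsto_tmap F hq hw).sub (tendsto_tmap F hq hw₂)).norm
  have h2 := ((curve_tendsto hq hw).sub (curve_tendsto hq hw₂)).norm
  refine tendsto_nhds_unique h1 (h2.congr' ?_)
  filter_upwards [eventually_ne hq w, eventually_ne hq w₂] with t ht ht2
  have e1 : t⁻¹ • (curve q w t - q) - t⁻¹ • (curve q w₂ t - q) =
      t⁻¹ • (curve q w t - curve q w₂ t) := by
    rw [← smul_sub]; congr 1; abel
  have e2 : t⁻¹ • (F (curve q w t) - F q) - t⁻¹ • (F (curve q w₂ t) - F q) =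
      t⁻¹ • (F (curve q w t) - F (curve q w₂ t)) := by
    rw [← smul_sub]; congr 1; abel
  rw [e1, e2, norm_smul, norm_smul, F.iso_map (curve_norm ht) (curve_norm ht2)]

include hq hw in
/-- The image of the tangent map. -/
theorem dd_map_tmap : dd (F q) (tmap F q w) = 0 := by
  have h1 := dd_eq_of_curve (z := F q) (tendsto_tmap F hq hw)
  refine tendsto_nhds_unique h1 (tendsto_const_nhds.congr' ?_)
  filter_upwards [eventually_ne hq w] with t ht
  have e1 : F q + (F (curve q w t) - F q) = F (curve q w t) := by abel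
  rw [e1, F.norm_map, F.norm_map, hq, curve_norm ht]; simp

include hq hw in
/-- The tangent map of the inverse is the inverse of the tangent map. -/
theorem tmap_symm_tmap : tmap F.symm (F q) (tmap F q w) = w := by
  have hq' : ‖F q‖ = 1 := by rw [F.norm_map, hq]
  have hw' := dd_map_tmap F hq hw
  have h1 := tendsto_tmap F.symm hq' hw'
  have h2 := curve_tendsto hq hw
  have h3 := curve_tendsto hq' hw'
  have h4 := tendsto_tmap F hq hw
  have h5 : Tendsto (fun t : ℝ => ‖t⁻¹ • (F.symm (curve (F q) (tmap F q w) t) - F.symm (F q)) -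
      t⁻¹ • (curve q w t - q)‖) (𝓝[>] 0) (𝓝 0) := by
    have h6 : Tendsto (fun t : ℝ => 3 * ‖t⁻¹ • (curve (F q) (tmap F q w) t - F q) -
      t⁻¹ • (F (curve q w t) - F q)‖) (𝓝[>] 0) (𝓝 0) := by
      have := ((h3.sub h4).norm).const_mul 3
      simpa only [sub_self, norm_zero, mul_zero] using this
    refine squeeze_zero' (Eventually.of_forall fun t => norm_nonneg _) ?_ h6
    filter_upwards [self_mem_nhdsWithin] with t ht
    rw [mem_Ioi] at ht
    rw [F.symm_apply, ← smul_sub, ← smul_sub, norm_smul, norm_smul, sub_sub_sub_cancel_right,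
      sub_sub_sub_cancel_right]
    have h7 := F.symm.lipschitz.dist_le_mul (curve (F q) (tmap F q w) t) (F (curve q w t))
    rw [dist_eq_norm, dist_eq_norm, F.symm_apply] at h7
    have h8 : ((3 : NNReal) : ℝ) = 3 := by norm_num
    rw [h8] at h7
    have h9 : 0 ≤ ‖t⁻¹‖ := norm_nonneg _
    linarith only [mul_nonneg (sub_nonneg.2 h7) (sub_nonneg.2 h9)]
  have h6 := h1.sub h2
  have h7 := h6.norm
  have h8 := tendsto_nhds_unique h7 h5
  exact sub_eq_zero.1 (norm_eq_zero.1 h8)

include hq in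
/-- The tangent map is onto. -/
theorem exists_tmap_eq {v : Y} (hv : dd (F q) v = 0) : ∃ w, dd q w = 0 ∧ tmap F q w = v := by
  have hq' : ‖F q‖ = 1 := by rw [F.norm_map, hq]
  refine ⟨tmap F.symm (F q) v, ?_, ?_⟩
  · have := dd_map_tmap F.symm hq' hv
    rwa [F.symm_apply] at this
  · have := tmap_symm_tmap F.symm hq' hv
    rw [F.symm_apply] at this
    exact this

end tangent

end Vale.Agent.P084.Gen
end

/- GenBK -/
section
/-!
# An isometry of the sphere which is tangentially trivial at a point fixes the point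
-/

open Set Filter Topology Metric

namespace Vale.Agent.P084.Gen

open BadPoint UC

section dd

variable {E : Type*} [NormedAddCommGroup E] [NormedSpace ℝ E]

theorem dd_neg_left (z v : E) : dd (-z) v = dd z (-v) := by
  refine tendsto_nhds_unique (tendsto_dd (-z) v) ((tendsto_dd z (-v)).congr fun t => ?_)
  have : -z + t • v = -(z + t • (-v)) := by module
  rw [this, norm_neg, norm_neg]

theorem dd_add_left_le {x y : E} (h : ‖x + y‖ = ‖x‖ + ‖y‖) (v : E) : dd (x + y) v ≤ dd x v := by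
  refine le_of_tendsto_of_tendsto (tendsto_dd (x + y) v) (tendsto_dd x v) ?_
  filter_upwards [self_mem_nhdsWithin] with t ht
  rw [mem_Ioi] at ht
  rw [div_le_div_iff_of_pos_right ht, h]
  have e : x + y + t • v = (x + t • v) + y := by abel
  rw [e]
  linarith only [norm_add_le (x + t • v) y]

theorem dd_add_left_le' {x y : E} (h : ‖x + y‖ = ‖x‖ + ‖y‖) (v : E) : dd (x + y) v ≤ dd y v := by
  rw [add_comm]
  apply dd_add_left_le
  rw [add_comm y x, h, add_comm]

theorem lemO {θ p : E} (hθ : ‖θ‖ = 1) (hp : ‖p‖ = 1) (hθp : ‖θ + p‖ = 2)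
    (h : ∀ w, dd θ w = 0 → dd (θ + p) w = 0) (v : E) : dd (θ + p) v = dd θ v := by
  have hs : ‖θ + p‖ = ‖θ‖ + ‖p‖ := by rw [hθp, hθ, hp]; norm_num
  have h1 : dd (θ + p) θ ≤ 1 := by
    have := dd_add_left_le hs θ
    rwa [dd_self, hθ] at this
  have h2 : dd (θ + p) (-θ) ≤ -1 := by
    have := dd_add_left_le hs (-θ)
    rwa [dd_neg_self, hθ] at this
  have h3 := dd_neg_add_nonneg (θ + p) θ
  have h4 : dd (θ + p) θ = 1 := by linarith only [h2, h3, h1]
  have h5 : Dir (θ + p) θ := by rw [Dir]; linarith only [h3, h1, h2]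
  have h6 : dd θ (v + (-(dd θ v)) • θ) = 0 := by
    rw [dd_add_smul_self hθ]; ring
  have h7 := h _ h6
  rw [add_comm v, (h5.smul _).dd_add, h5.dd_smul, h4] at h7
  linarith only [h7]

theorem lemO_le {θ p : E} (hθ : ‖θ‖ = 1) (hp : ‖p‖ = 1) (hθp : ‖θ + p‖ = 2)
    (h : ∀ w, dd θ w = 0 → dd (θ + p) w = 0) (v : E) : dd θ v ≤ dd p v := by
  rw [← lemO hθ hp hθp h v]
  exact dd_add_left_le' (by rw [hθp, hθ, hp]; norm_num) v

theorem norm_add_of_dd_eq {x y : E} (hx : ‖x‖ = 1) (hy : ‖y‖ = 1) (h : ∀ v, dd x v = dd y v) :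
    ‖x + y‖ = 2 := by
  apply le_antisymm
  · refine (norm_add_le _ _).trans ?_
    rw [hx, hy]; norm_num
  · have h1 := dd_le_sub x y
    rw [h, dd_self, hx, hy] at h1
    linarith only [h1]

theorem dd_add_of_dd_eq {x y : E} (hx : ‖x‖ = 1) (hy : ‖y‖ = 1) (h : ∀ v, dd x v = dd y v)
    (v : E) : dd (x + y) v = dd x v := by
  have hxy := norm_add_of_dd_eq hx hy h
  apply le_antisymm (dd_add_left_le (by rw [hxy, hx, hy]; norm_num) v)
  refine ge_of_tendsto (tendsto_dd (x + y) v) ?_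
  filter_upwards [self_mem_nhdsWithin] with t ht
  rw [mem_Ioi] at ht
  have h1 := dd_le_sub x (y + t • v)
  have e : y + t • v = t • v + (1 : ℝ) • y := by rw [one_smul]; abel
  rw [h, e, dd_add_smul_self hy, dd_smul y v ht, ← h v, hx] at h1
  rw [le_div_iff₀ ht, hxy]
  have e2 : x + (t • v + (1 : ℝ) • y) = x + y + t • v := by rw [one_smul]; abel
  rw [e2] at h1
  linarith only [h1]

/-- If all norming functionals of `x` norm `y`, then the derivatives are ordered. -/
theorem dd_le_of_norming {x y : E} {β : ℝ} (hβ : 0 < β) (hy : ‖y‖ = β) (h : dd x (-y) ≤ -β)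
    (v : E) : dd x v ≤ dd y v := by
  refine ge_of_tendsto (tendsto_dd y v) ?_
  filter_upwards [self_mem_nhdsWithin] with t ht
  rw [mem_Ioi] at ht
  rw [le_div_iff₀ ht]
  have h1 := dd_add_le x (y + t • v) (-y)
  have e : y + t • v + -y = t • v := by abel
  rw [e, dd_smul x v ht] at h1
  have h2 := dd_le_norm x (y + t • v)
  rw [hy]
  linarith only [h, h1, h2]

end dd

section iso

variable {X Y : Type*} [NormedAddCommGroup X] [NormedSpace ℝ X] [CompleteSpace X]
    [NormedAddCommGroup Y] [NormedSpace ℝ Y] [CompleteSpace Y]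

theorem dd_tmap_sub (F : SphereEquiv X Y) {p q : X} (hp : ‖p‖ = 1) (hq : ‖q‖ = 1) {w₁ w₂ : X}
    (h₁ : dd p w₁ = 0) (h₂ : dd q w₂ = 0) :
    dd (F q - F p) (tmap F q w₂ - tmap F p w₁) = dd (q - p) (w₂ - w₁) := by
  have a1 : Tendsto (fun t : ℝ => t⁻¹ • ((F (curve q w₂ t) - F q) - (F (curve p w₁ t) - F p)))
      (𝓝[>] 0) (𝓝 (tmap F q w₂ - tmap F p w₁)) := by
    refine ((tendsto_tmap F hq h₂).sub (tendsto_tmap F hp h₁)).congr fun t => ?_
    rw [smul_sub (t⁻¹) (F (curve q w₂ t) - F q)]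
  have a2 : Tendsto (fun t : ℝ => t⁻¹ • ((curve q w₂ t - q) - (curve p w₁ t - p)))
      (𝓝[>] 0) (𝓝 (w₂ - w₁)) := by
    refine ((curve_tendsto hq h₂).sub (curve_tendsto hp h₁)).congr fun t => ?_
    rw [smul_sub (t⁻¹) (curve q w₂ t - q)]
  have h1 := dd_eq_of_curve (z := F q - F p) a1
  have h2 := dd_eq_of_curve (z := q - p) a2
  refine tendsto_nhds_unique h1 (h2.congr' ?_)
  filter_upwards [eventually_ne hq w₂, eventually_ne hp w₁] with t ht ht'
  have e1 : F q - F p + ((F (curve q w₂ t) - F q) - (F (curve p w₁ t) - F p)) =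
      F (curve q w₂ t) - F (curve p w₁ t) := by abel
  have e2 : q - p + ((curve q w₂ t - q) - (curve p w₁ t - p)) =
      curve q w₂ t - curve p w₁ t := by abel
  rw [e1, e2, F.iso_map (curve_norm ht) (curve_norm ht'), F.iso_map hq hp]

theorem tmap_zero (F : SphereEquiv X Y) {q : X} (hq : ‖q‖ = 1) : tmap F q 0 = 0 := by
  have h := norm_tmap F hq (dd_zero q)
  rwa [norm_zero, norm_eq_zero] at h

/-- Oddness of the first order structure. -/
theorem dd_map_neg_le (F : SphereEquiv X Y) {θ : X} (hθ : ‖θ‖ = 1) (v : Y) :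
    dd (F θ) v ≤ dd (-F (-θ)) v := by
  have hθ' : ‖-θ‖ = 1 := by rw [norm_neg, hθ]
  apply lemO_le (by rw [F.norm_map, hθ]) (by rw [norm_neg, F.norm_map, hθ'])
  · rw [← sub_eq_add_neg, F.iso_map hθ hθ', sub_neg_eq_add, ← two_smul ℝ, norm_smul, hθ]
    norm_num
  · intro u hu
    obtain ⟨w, hw, rfl⟩ := exists_tmap_eq F hθ hu
    rw [← sub_eq_add_neg, dd_tmap F hθ hw hθ', sub_neg_eq_add, ← two_smul ℝ,
      dd_smul_left _ _ two_pos, hw]

theorem dd_map_neg (F : SphereEquiv X Y) {θ : X} (hθ : ‖θ‖ = 1) (v : Y) :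
    dd (F θ) v = dd (-F (-θ)) v := by
  apply le_antisymm (dd_map_neg_le F hθ v)
  have hθ' : ‖-θ‖ = 1 := by rw [norm_neg, hθ]
  have h := dd_map_neg_le F hθ' (-v)
  rw [neg_neg] at h
  rw [dd_neg_left] at h ⊢
  rwa [neg_neg] at h

theorem dd_map_le_of_eq (F : SphereEquiv X Y) {x y : X} (hx : ‖x‖ = 1) (hy : ‖y‖ = 1)
    (h : ∀ v, dd x v = dd y v) (v : Y) : dd (F x) v ≤ dd (F y) v := by
  have hxy := norm_add_of_dd_eq hx hy h
  have hy' : ‖-y‖ = 1 := by rw [norm_neg, hy]
  rw [dd_map_neg F hy]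
  apply lemO_le (by rw [F.norm_map, hx]) (by rw [norm_neg, F.norm_map, hy'])
  · rw [← sub_eq_add_neg, F.iso_map hx hy', sub_neg_eq_add, hxy]
  · intro u hu
    obtain ⟨w, hw, rfl⟩ := exists_tmap_eq F hx hu
    rw [← sub_eq_add_neg, dd_tmap F hx hw hy', sub_neg_eq_add, dd_add_of_dd_eq hx hy h, hw]

/-- The map preserves the relation of having the same norming functionals. -/
theorem dd_map_eq_of_eq (F : SphereEquiv X Y) {x y : X} (hx : ‖x‖ = 1) (hy : ‖y‖ = 1)
    (h : ∀ v, dd x v = dd y v) (v : Y) : dd (F x) v = dd (F y) v :=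
  le_antisymm (dd_map_le_of_eq F hx hy h v) (dd_map_le_of_eq F hy hx (fun v => (h v).symm) v)

/-- **Theorem BK.** -/
theorem fix_of_tangent (k : SphereEquiv X X) {q : X} (hq : ‖q‖ = 1)
    (hD : ∀ v, dd (k q) v = dd q v) (hT : ∀ w, dd q w = 0 → tmap k q w = w) : k q = q := by
  set p : ℕ → X := fun n => (k.fn)^[n] q with hp
  have hp0 : p 0 = q := rfl
  have hps : ∀ n, p (n + 1) = k (p n) := fun n => Function.iterate_succ_apply' _ _ _
  have hpn : ∀ n, ‖p n‖ = 1 := by
    intro n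
    induction n with
    | zero => exact hq
    | succ n ih => rw [hps, k.norm_map, ih]
  have hDs : ∀ n v, dd (p (n + 1)) v = dd (p n) v := by
    intro n
    induction n with
    | zero => intro v; rw [hps, hp0]; exact hD v
    | succ n ih =>
      intro v
      rw [hps (n + 1), hps n]
      refine dd_map_eq_of_eq k (by rw [← hps n]; exact hpn _) (hpn n) (fun v => ?_) v
      rw [← hps n]; exact ih v
  have hDn : ∀ n v, dd (p n) v = dd q v := by
    intro n
    induction n with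
    | zero => intro v; rfl
    | succ n ih => intro v; rw [hDs, ih]
  set b : ℕ → X := fun n => p (n + 1) - p n with hb
  set β := ‖b 0‖ with hβ
  have hbn : ∀ n, ‖b n‖ = β := by
    intro n
    induction n with
    | zero => rfl
    | succ n ih =>
      have : b (n + 1) = k (p (n + 1)) - k (p n) := by
        simp only [hb]; rw [hps (n + 1), hps n]
      rw [this, k.iso_map (hpn _) (hpn _)]
      exact ih
  have hbT : ∀ n, dd q (b n) = 0 := by
    intro n
    have h1 : dd (p n) (p (n + 1) + (-1 : ℝ) • p n) = dd (p n) (p (n + 1)) + -1 :=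
      dd_add_smul_self (hpn n) _ _
    have h2 : dd (p n) (p (n + 1)) = 1 := by
      rw [← hDs n, dd_self, hpn]
    have h3 : b n = p (n + 1) + (-1 : ℝ) • p n := by simp only [hb]; module
    rw [← hDn n, h3, h1, h2]; ring
  -- the tangent maps
  set M : ℕ → X → X := fun n => tmap k (p n) with hM
  have hM0 : ∀ w, dd q w = 0 → M 0 w = w := hT
  have honto : ∀ n v, dd q v = 0 → ∃ w, dd q w = 0 ∧ M n w = v := by
    intro n v hv
    have h1 : dd (k (p n)) v = 0 := by rw [← hps, hDn, hv]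
    obtain ⟨w, hw, hwv⟩ := exists_tmap_eq k (hpn n) h1
    exact ⟨w, by rw [← hDn n, hw], hwv⟩
  have dagger : ∀ n w₁ w₂, dd q w₁ = 0 → dd q w₂ = 0 →
      dd (b (n + 1)) (M (n + 1) w₂ - M n w₁) = dd (b n) (w₂ - w₁) := by
    intro n w₁ w₂ h₁ h₂
    have h := dd_tmap_sub k (hpn n) (hpn (n + 1)) (w₁ := w₁) (w₂ := w₂)
      (by rw [hDn, h₁]) (by rw [hDn, h₂])
    have e : b (n + 1) = k (p (n + 1)) - k (p n) := by
      simp only [hb]; rw [hps (n + 1), hps n]
    rw [e]
    exact h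
  have hE : ∀ n u, dd q u = 0 → dd (b n) (M n u - u) = 0 := by
    intro n
    induction n with
    | zero => intro u hu; rw [hM0 u hu, sub_self, dd_zero]
    | succ n ih =>
      intro u hu
      obtain ⟨w, hw, hwu⟩ := honto n u hu
      have h1 := dagger n w u hw hu
      rw [hwu] at h1
      rw [h1, ← hwu]
      exact ih w hw
  have hMz : ∀ n, M n 0 = 0 := fun n => tmap_zero k (hpn n)
  have hF : ∀ n, dd (b (n + 1)) (-(b n)) ≤ -β := by
    intro n
    obtain ⟨w, hw, hwb⟩ := honto n (b n) (hbT n)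
    have h1 := dagger n w 0 hw (dd_zero q)
    rw [hMz, zero_sub, zero_sub, hwb] at h1
    rw [h1]
    have h2 := dd_add_le (b n) (M n w - w) (-(M n w))
    have e : M n w - w + -(M n w) = -w := by abel
    rw [e, hE n w hw, hwb, dd_neg_self, hbn] at h2
    linarith only [h2]
  by_contra hne
  have hβ0 : 0 < β := by
    rw [hβ, norm_pos_iff]
    intro h0
    apply hne
    have : p 1 - p 0 = 0 := h0
    rw [sub_eq_zero, hps 0, hp0] at this
    exact this
  have hmono : ∀ n v, dd (b (n + 1)) v ≤ dd (b n) v := fun n v =>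
    dd_le_of_norming hβ0 (hbn n) (hF n) v
  have hall : ∀ n j, j ≤ n → dd (b n) (-(b j)) ≤ -β := by
    intro n
    induction n with
    | zero =>
      intro j hj
      obtain rfl : j = 0 := by omega
      rw [dd_neg_self]
    | succ n ih =>
      intro j hj
      rcases Nat.lt_or_ge j (n + 1) with h | h
      · exact (hmono n _).trans (ih j (by omega))
      · obtain rfl : j = n + 1 := by omega
        rw [dd_neg_self, hbn]
  have hsum : ∀ n m, m ≤ n + 1 → dd (b n) (-(p m - p 0)) ≤ -(m * β) := by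
    intro n m
    induction m with
    | zero => intro _; simp [dd_zero]
    | succ m ih =>
      intro hm
      have e : -(p (m + 1) - p 0) = -(p m - p 0) + -(b m) := by simp only [hb]; abel
      rw [e]
      have h1 := dd_add_le (b n) (-(p m - p 0)) (-(b m))
      have h2 := ih (by omega)
      have h3 := hall n m (by omega)
      push_cast
      linarith only [h1, h2, h3]
  obtain ⟨n, hn⟩ := exists_nat_gt (2 / β)
  rw [div_lt_iff₀ hβ0] at hn
  have h1 := hsum n (n + 1) le_rfl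
  have h2 := neg_norm_le_dd (b n) (-(p (n + 1) - p 0))
  have h3 : ‖-(p (n + 1) - p 0)‖ ≤ 2 := by
    rw [norm_neg]
    refine (norm_sub_le _ _).trans ?_
    rw [hpn, hpn]; norm_num
  push_cast at h1
  nlinarith only [hn, h2, h3, h1]

end iso

end Vale.Agent.P084.Gen
end

/- GenOdd -/
section
/-!
# Surjective isometries between unit spheres of Banach spaces are odd
-/

open Set Filter Topology Metric

namespace Vale.Agent.P084.Gen

open BadPoint UC

variable {X Y : Type*} [NormedAddCommGroup X] [NormedSpace ℝ X] [CompleteSpace X]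
    [NormedAddCommGroup Y] [NormedSpace ℝ Y] [CompleteSpace Y]

/-- A point at which the displacement is infinitesimally maximal is fixed. -/
theorem fix_of_max (k : SphereEquiv X X) {q : X} (hq : ‖q‖ = 1)
    (hD : ∀ v, dd (k q) v = dd q v)
    (hT : ∀ w, dd q w = 0 → dd (k q - q) (tmap k q w - w) ≤ 0) : k q = q := by
  set p : ℕ → X := fun n => (k.fn)^[n] q with hp
  have hp0 : p 0 = q := rfl
  have hps : ∀ n, p (n + 1) = k (p n) := fun n => Function.iterate_succ_apply' _ _ _
  have hpn : ∀ n, ‖p n‖ = 1 := by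
    intro n
    induction n with
    | zero => exact hq
    | succ n ih => rw [hps, k.norm_map, ih]
  have hDs : ∀ n v, dd (p (n + 1)) v = dd (p n) v := by
    intro n
    induction n with
    | zero => intro v; rw [hps, hp0]; exact hD v
    | succ n ih =>
      intro v
      rw [hps (n + 1), hps n]
      refine dd_map_eq_of_eq k (by rw [← hps n]; exact hpn _) (hpn n) (fun v => ?_) v
      rw [← hps n]; exact ih v
  have hDn : ∀ n v, dd (p n) v = dd q v := by
    intro n
    induction n with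
    | zero => intro v; rfl
    | succ n ih => intro v; rw [hDs, ih]
  set b : ℕ → X := fun n => p (n + 1) - p n with hb
  set β := ‖b 0‖ with hβ
  have hbn : ∀ n, ‖b n‖ = β := by
    intro n
    induction n with
    | zero => rfl
    | succ n ih =>
      have : b (n + 1) = k (p (n + 1)) - k (p n) := by
        simp only [hb]; rw [hps (n + 1), hps n]
      rw [this, k.iso_map (hpn _) (hpn _)]
      exact ih
  have hbT : ∀ n, dd q (b n) = 0 := by
    intro n
    have h1 : dd (p n) (p (n + 1) + (-1 : ℝ) • p n) = dd (p n) (p (n + 1)) + -1 :=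
      dd_add_smul_self (hpn n) _ _
    have h2 : dd (p n) (p (n + 1)) = 1 := by
      rw [← hDs n, dd_self, hpn]
    have h3 : b n = p (n + 1) + (-1 : ℝ) • p n := by simp only [hb]; module
    rw [← hDn n, h3, h1, h2]; ring
  -- the tangent maps
  set M : ℕ → X → X := fun n => tmap k (p n) with hM
  have honto : ∀ n v, dd q v = 0 → ∃ w, dd q w = 0 ∧ M n w = v := by
    intro n v hv
    have h1 : dd (k (p n)) v = 0 := by rw [← hps, hDn, hv]
    obtain ⟨w, hw, hwv⟩ := exists_tmap_eq k (hpn n) h1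
    exact ⟨w, by rw [← hDn n, hw], hwv⟩
  have dagger : ∀ n w₁ w₂, dd q w₁ = 0 → dd q w₂ = 0 →
      dd (b (n + 1)) (M (n + 1) w₂ - M n w₁) = dd (b n) (w₂ - w₁) := by
    intro n w₁ w₂ h₁ h₂
    have h := dd_tmap_sub k (hpn n) (hpn (n + 1)) (w₁ := w₁) (w₂ := w₂)
      (by rw [hDn, h₁]) (by rw [hDn, h₂])
    have e : b (n + 1) = k (p (n + 1)) - k (p n) := by
      simp only [hb]; rw [hps (n + 1), hps n]
    rw [e]
    exact h
  have hE : ∀ n u, dd q u = 0 → dd (b n) (M n u - u) ≤ 0 := by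
    intro n
    induction n with
    | zero => intro u hu; exact hT u hu
    | succ n ih =>
      intro u hu
      obtain ⟨w, hw, hwu⟩ := honto n u hu
      have h1 := dagger n w u hw hu
      rw [hwu] at h1
      rw [h1, ← hwu]
      exact ih w hw
  have hMz : ∀ n, M n 0 = 0 := fun n => tmap_zero k (hpn n)
  have hF : ∀ n, dd (b (n + 1)) (-(b n)) ≤ -β := by
    intro n
    obtain ⟨w, hw, hwb⟩ := honto n (b n) (hbT n)
    have h1 := dagger n w 0 hw (dd_zero q)
    rw [hMz, zero_sub, zero_sub, hwb] at h1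
    rw [h1]
    have h2 := dd_add_le (b n) (M n w - w) (-(M n w))
    have e : M n w - w + -(M n w) = -w := by abel
    have h3 := hE n w hw
    rw [e, hwb, dd_neg_self, hbn] at h2
    rw [hwb] at h3
    linarith only [h2, h3]
  by_contra hne
  have hβ0 : 0 < β := by
    rw [hβ, norm_pos_iff]
    intro h0
    apply hne
    have : p 1 - p 0 = 0 := h0
    rw [sub_eq_zero, hps 0, hp0] at this
    exact this
  have hmono : ∀ n v, dd (b (n + 1)) v ≤ dd (b n) v := fun n v =>
    dd_le_of_norming hβ0 (hbn n) (hF n) v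
  have hall : ∀ n j, j ≤ n → dd (b n) (-(b j)) ≤ -β := by
    intro n
    induction n with
    | zero =>
      intro j hj
      obtain rfl : j = 0 := by omega
      rw [dd_neg_self]
    | succ n ih =>
      intro j hj
      rcases Nat.lt_or_ge j (n + 1) with h | h
      · exact (hmono n _).trans (ih j (by omega))
      · obtain rfl : j = n + 1 := by omega
        rw [dd_neg_self, hbn]
  have hsum : ∀ n m, m ≤ n + 1 → dd (b n) (-(p m - p 0)) ≤ -(m * β) := by
    intro n m
    induction m with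
    | zero => intro _; simp only [sub_self, neg_zero, dd_zero, CharP.cast_eq_zero, zero_mul, Std.le_refl]
    | succ m ih =>
      intro hm
      have e : -(p (m + 1) - p 0) = -(p m - p 0) + -(b m) := by simp only [hb]; abel
      rw [e]
      have h1 := dd_add_le (b n) (-(p m - p 0)) (-(b m))
      have h2 := ih (by omega)
      have h3 := hall n m (by omega)
      push_cast
      linarith only [h1, h2, h3]
  obtain ⟨n, hn⟩ := exists_nat_gt (2 / β)
  rw [div_lt_iff₀ hβ0] at hn
  have h1 := hsum n (n + 1) le_rfl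
  have h2 := neg_norm_le_dd (b n) (-(p (n + 1) - p 0))
  have h3 : ‖-(p (n + 1) - p 0)‖ ≤ 2 := by
    rw [norm_neg]
    refine (norm_sub_le _ _).trans ?_
    rw [hpn, hpn]; norm_num
  push_cast at h1
  linarith

/-- A point of maximal displacement is fixed. -/
theorem fix_of_isMax (k : SphereEquiv X X) {q : X} (hq : ‖q‖ = 1)
    (hD : ∀ v, dd (k q) v = dd q v)
    (hmax : ∀ y, ‖y‖ = 1 → ‖k y - y‖ ≤ ‖k q - q‖) : k q = q := by
  refine fix_of_max k hq hD fun w hw => ?_
  have h1 : Tendsto (fun t : ℝ => t⁻¹ • ((k (curve q w t) - k q) - (curve q w t - q))) (𝓝[>] 0)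
      (𝓝 (tmap k q w - w)) := by
    refine ((tendsto_tmap k hq hw).sub (curve_tendsto hq hw)).congr fun t => ?_
    rw [smul_sub (t⁻¹) (k (curve q w t) - k q)]
  have h2 := dd_eq_of_curve (z := k q - q) h1
  refine le_of_tendsto h2 ?_
  filter_upwards [self_mem_nhdsWithin, eventually_ne hq w] with t ht ht'
  rw [mem_Ioi] at ht
  have e1 : k q - q + ((k (curve q w t) - k q) - (curve q w t - q)) =
      k (curve q w t) - curve q w t := by abel
  rw [e1]
  have h3 := hmax (curve q w t) (curve_norm ht')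
  apply div_nonpos_of_nonpos_of_nonneg _ ht.le
  linarith only [h3]

/-- **Oddness.** A surjective isometry between unit spheres of Banach spaces is odd. -/
theorem odd (F : SphereEquiv X Y) (x : X) : F (-x) = -F x := by
  -- the comparison map
  let k : SphereEquiv X X :=
    { fn := fun x => F.neg.inv (F x)
      inv := fun x => F.inv (F.neg x)
      inv_fn := fun x => by
        rw [F.neg.fn_inv, F.inv_fn]
      fn_inv := fun x => by
        rw [F.fn_inv, F.neg.inv_fn]
      norm_fn := fun x => by rw [F.neg.norm_inv, F.norm_map]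
      fn_smul := fun c hc x => by
        rw [F.smul_map hc]
        exact F.neg.symm.smul_map hc (F x)
      fn_iso := fun x y hx hy => by
        have h := F.neg.symm.iso_map (x := F x) (y := F y) (by rw [F.norm_map, hx])
          (by rw [F.norm_map, hy])
        exact h.trans (F.iso_map hx hy) }
  have hk : ∀ x, F.neg (k x) = F x := fun x => F.neg.fn_inv (F x)
  -- in the ultrapower
  set K : SphereEquiv (Ultra X) (Ultra X) := ultraEquiv k with hK
  have hG : ∀ θ : Ultra X, (ultraEquiv F.neg) (K θ) = ultraEquiv F θ := by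
    intro θ
    obtain ⟨a, ha, rfl⟩ := exists_rep θ
    rw [hK, ultraEquiv_cls k ha, ultraEquiv_cls F.neg (ha.map k), ultraEquiv_cls F ha]
    congr 1
    ext n
    exact hk (a n)
  have hneg : ∀ θ : Ultra X, ultraEquiv F.neg θ = -(ultraEquiv F (-θ)) := by
    intro θ
    obtain ⟨a, ha, rfl⟩ := exists_rep θ
    have e1 : -(cls a) = cls (fun n => -(a n)) := by
      have := cls_smul_const (-1 : ℝ) ha
      simp only [neg_smul, one_smul] at this
      exact this.symm
    rw [e1, ultraEquiv_cls F.neg ha, ultraEquiv_cls F ha.neg]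
    have := cls_smul_const (-1 : ℝ) (ha.neg.map F)
    simp only [neg_smul, one_smul] at this
    rw [← this]
    rfl
  have hD : ∀ θ : Ultra X, ‖θ‖ = 1 → ∀ v, dd (K θ) v = dd θ v := by
    intro θ hθ v
    have hKθ : ‖K θ‖ = 1 := by rw [K.norm_map, hθ]
    have h1 : ∀ v, dd (ultraEquiv F.neg (K θ)) v = dd (ultraEquiv F.neg θ) v := by
      intro v
      rw [hG, hneg]
      exact dd_map_neg (ultraEquiv F) hθ v
    have h2 := dd_map_eq_of_eq (ultraEquiv F.neg).symm (x := ultraEquiv F.neg (K θ))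
      (y := ultraEquiv F.neg θ) (by rw [SphereEquiv.norm_map, hKθ])
      (by rw [SphereEquiv.norm_map, hθ]) h1 v
    rwa [SphereEquiv.symm_apply, SphereEquiv.symm_apply] at h2
  -- the maximal displacement
  set S : Set ℝ := (fun y => ‖k y - y‖) '' {y : X | ‖y‖ = 1} with hS
  have hbdd : BddAbove S := by
    refine ⟨2, ?_⟩
    rintro _ ⟨y, hy, rfl⟩
    refine (norm_sub_le _ _).trans ?_
    rw [k.norm_map, hy]; norm_num
  by_contra hne
  have hx0 : x ≠ 0 := by
    rintro rfl
    apply hne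
    rw [neg_zero, F.map_zero, neg_zero]
  have hkx : k x ≠ x := by
    intro h
    apply hne
    have h1 := hk x
    rw [h, SphereEquiv.neg_apply] at h1
    rw [← h1, neg_neg]
  have hxn : 0 < ‖x‖ := norm_pos_iff.2 hx0
  have hne' : (S).Nonempty := ⟨_, ⟨‖x‖⁻¹ • x, norm_inv_smul_eq_one hx0, rfl⟩⟩
  set β := sSup S with hβ
  have hle : ∀ y : X, ‖y‖ = 1 → ‖k y - y‖ ≤ β := fun y hy => le_csSup hbdd ⟨y, hy, rfl⟩
  have hβ0 : 0 < β := by
    refine lt_of_lt_of_le ?_ (hle (‖x‖⁻¹ • x) (norm_inv_smul_eq_one hx0))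
    rw [norm_pos_iff, k.smul_map (inv_nonneg.2 hxn.le), ← smul_sub]
    exact smul_ne_zero (inv_ne_zero hxn.ne') (sub_ne_zero.2 hkx)
  have hseq : ∀ n : ℕ, ∃ y : X, ‖y‖ = 1 ∧ β - 1 / ((n : ℝ) + 1) < ‖k y - y‖ := by
    intro n
    obtain ⟨_, ⟨y, hy, rfl⟩, h⟩ := exists_lt_of_lt_csSup hne'
      (show β - 1 / ((n : ℝ) + 1) < sSup S by
        have : (0 : ℝ) < 1 / ((n : ℝ) + 1) := Nat.one_div_pos_of_nat
        linarith)
    exact ⟨y, hy, h⟩
  choose y hy hyb using hseq
  have by' : Bdd y := ⟨1, fun n => (hy n).le⟩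
  have hq : ‖cls y‖ = 1 := norm_cls_eq hy
  have hlim : ‖K (cls y) - cls y‖ = β := by
    rw [hK, ultraEquiv_cls k by', ← cls_sub (by'.map k) by']
    refine tendsto_nhds_unique (tendsto_norm_cls ((by'.map k).sub by')) ?_
    have h1 : Tendsto (fun n : ℕ => β - 1 / ((n : ℝ) + 1)) UF (𝓝 (β - 0)) :=
      (tendsto_one_div_add_atTop_nhds_zero_nat.const_sub β).mono_left UF_le
    rw [sub_zero] at h1
    exact tendsto_of_tendsto_of_tendsto_of_le_of_le h1 tendsto_const_nhds
      (fun n => (hyb n).le) (fun n => hle _ (hy n))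
  have hfix := fix_of_isMax K hq (hD _ hq) (fun θ hθ => by
    rw [hlim]
    obtain ⟨a, ha, rfl⟩ := exists_rep_unit hθ
    have ba : Bdd a := ⟨1, fun n => (ha n).le⟩
    rw [hK, ultraEquiv_cls k ba, ← cls_sub (ba.map k) ba]
    exact norm_cls_le fun n => hle _ (ha n))
  rw [hfix, sub_self, norm_zero] at hlim
  exact hβ0.ne hlim

end Vale.Agent.P084.Gen
end

/- GenCompl -/
section
/-!
Reduction of Tingley's problem for normed spaces to Banach spaces.
-/

open Set Filter Topology Metric UniformSpace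

noncomputable section

namespace Vale.Agent.P084.Compl

variable {X Y : Type*} [NormedAddCommGroup X] [NormedSpace ℝ X]
  [NormedAddCommGroup Y] [NormedSpace ℝ Y]

/-- The inclusion of the unit spheres. -/
def inc (X : Type*) [NormedAddCommGroup X] [NormedSpace ℝ X] :
    sphere (0 : X) 1 → sphere (0 : Completion X) 1 :=
  fun x => ⟨((x : X) : Completion X), by
    rw [mem_sphere_zero_iff_norm, Completion.norm_coe]
    exact mem_sphere_zero_iff_norm.mp x.2⟩

theorem inc_coe (x : sphere (0 : X) 1) : ((inc X x : sphere (0 : Completion X) 1) : Completion X) =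
    ((x : X) : Completion X) := rfl

theorem isometry_inc : Isometry (inc X) := by
  refine Isometry.of_dist_eq fun x y => ?_
  rw [Subtype.dist_eq, inc_coe, inc_coe, Completion.dist_eq, Subtype.dist_eq]

theorem denseRange_inc : DenseRange (inc X) := by
  intro u
  rw [Metric.mem_closure_iff]
  intro ε hε
  have hu : ‖(u : Completion X)‖ = 1 := mem_sphere_zero_iff_norm.mp u.2
  obtain ⟨x, hx⟩ := Completion.denseRange_coe.exists_dist_lt (u : Completion X)
    (show 0 < min (ε / 2) (1 / 2) by positivity)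
  rw [dist_eq_norm] at hx
  have h1 : |1 - ‖x‖| ≤ ‖(u : Completion X) - (x : Completion X)‖ := by
    have := abs_norm_sub_norm_le (u : Completion X) (x : Completion X)
    rwa [hu, Completion.norm_coe] at this
  have h2 : ‖(u : Completion X) - (x : Completion X)‖ < 1 / 2 := hx.trans_le (min_le_right _ _)
  have h3 : ‖(u : Completion X) - (x : Completion X)‖ < ε / 2 := hx.trans_le (min_le_left _ _)
  have hx0 : 0 < ‖x‖ := by
    have := (abs_le.mp h1).2
    linarith only [h2, this]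
  have hn : ‖‖x‖⁻¹ • x‖ = 1 := by
    rw [norm_smul, norm_inv, norm_norm, inv_mul_cancel₀ hx0.ne']
  refine ⟨inc X ⟨‖x‖⁻¹ • x, mem_sphere_zero_iff_norm.mpr hn⟩, mem_range_self _, ?_⟩
  rw [Subtype.dist_eq, inc_coe, dist_eq_norm]
  have h4 : ‖(x : Completion X) - ((‖x‖⁻¹ • x : X) : Completion X)‖ = |1 - ‖x‖| := by
    rw [← Completion.coe_sub, Completion.norm_coe]
    have e : x - ‖x‖⁻¹ • x = (1 - ‖x‖⁻¹) • x := by rw [sub_smul, one_smul]
    rw [e, norm_smul, Real.norm_eq_abs]
    conv_lhs => rw [← abs_of_pos hx0, ← abs_mul, abs_of_pos hx0]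
    rw [sub_mul, one_mul, inv_mul_cancel₀ hx0.ne', abs_sub_comm]
  calc ‖(u : Completion X) - ((‖x‖⁻¹ • x : X) : Completion X)‖
      = ‖((u : Completion X) - (x : Completion X)) +
        ((x : Completion X) - ((‖x‖⁻¹ • x : X) : Completion X))‖ := by congr 1; abel
    _ ≤ ‖(u : Completion X) - (x : Completion X)‖ +
        ‖(x : Completion X) - ((‖x‖⁻¹ • x : X) : Completion X)‖ := norm_add_le _ _
    _ < ε := by rw [h4]; linarith only [h1, h3]

/-- **Reduction to complete spaces.** -/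
theorem exists_linear_of_completion
    (H : ∀ g : sphere (0 : Completion X) 1 → sphere (0 : Completion Y) 1, Isometry g →
      Function.Surjective g → ∃ T : Completion X ≃ₗᵢ[ℝ] Completion Y,
        ∀ x : sphere (0 : Completion X) 1, T (x : Completion X) = (g x : Completion Y))
    (f : sphere (0 : X) 1 → sphere (0 : Y) 1) (hf : Isometry f) (hs : Function.Surjective f) :
    ∃ T : X ≃ₗᵢ[ℝ] Y, ∀ x : sphere (0 : X) 1, T (x : X) = (f x : Y) := by
  have cX : CompleteSpace (sphere (0 : Completion X) 1) := isClosed_sphere.completeSpace_coe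
  have cY : CompleteSpace (sphere (0 : Completion Y) 1) := isClosed_sphere.completeSpace_coe
  have hjf : Isometry (fun x => inc Y (f x)) := isometry_inc.comp hf
  have hu := isometry_inc (X := X) |>.isUniformInducing
  set g : sphere (0 : Completion X) 1 → sphere (0 : Completion Y) 1 :=
    (hu.isDenseInducing denseRange_inc).extend (fun x => inc Y (f x)) with hg
  have hgc : UniformContinuous g :=
    uniformContinuous_uniformly_extend hu denseRange_inc hjf.uniformContinuous
  have hgi : ∀ x, g (inc X x) = inc Y (f x) := fun x =>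
    uniformly_extend_of_ind hu denseRange_inc hjf.uniformContinuous x
  have hgiso : Isometry g := by
    refine Isometry.of_dist_eq fun u v => ?_
    refine denseRange_inc.induction_on₂ (p := fun u v => dist (g u) (g v) = dist u v)
      (isClosed_eq (by
        have := hgc.continuous
        fun_prop) continuous_dist) (fun a b => ?_) u v
    rw [hgi, hgi, (isometry_inc (X := Y)).dist_eq, (isometry_inc (X := X)).dist_eq, hf.dist_eq]
  have hgs : Function.Surjective g := by
    rw [← range_eq_univ]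
    have hcl : IsClosed (range g) := hgiso.isUniformInducing.isComplete_range.isClosed
    rw [← hcl.closure_eq]
    refine eq_univ_of_univ_subset ?_
    rw [← (denseRange_inc (X := Y)).closure_range]
    refine closure_mono ?_
    rintro _ ⟨y, rfl⟩
    obtain ⟨x, rfl⟩ := hs y
    exact ⟨inc X x, hgi x⟩
  obtain ⟨T, hT⟩ := H g hgiso hgs
  have hTf : ∀ x : sphere (0 : X) 1, T ((x : X) : Completion X) = ((f x : Y) : Completion Y) := by
    intro x
    have := hT (inc X x)
    rw [hgi, inc_coe, inc_coe] at this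
    exact this
  -- the restriction of `T`
  have hex : ∀ x : X, ∃ y : Y, T (x : Completion X) = (y : Completion Y) := by
    intro x
    by_cases hx : x = 0
    · exact ⟨0, by rw [hx, Completion.coe_zero, Completion.coe_zero, map_zero]⟩
    have hn : ‖x‖ ≠ 0 := norm_ne_zero_iff.mpr hx
    have hn1 : ‖‖x‖⁻¹ • x‖ = 1 := by
      rw [norm_smul, norm_inv, norm_norm, inv_mul_cancel₀ hn]
    set u : sphere (0 : X) 1 := ⟨‖x‖⁻¹ • x, mem_sphere_zero_iff_norm.mpr hn1⟩ with hu'
    refine ⟨‖x‖ • (f u : Y), ?_⟩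
    have e : x = ‖x‖ • (u : X) := by
      rw [hu']
      change x = ‖x‖ • (‖x‖⁻¹ • x)
      rw [smul_smul, mul_inv_cancel₀ hn, one_smul]
    conv_lhs => rw [e]
    rw [Completion.coe_smul, map_smul, hTf, Completion.coe_smul]
  choose S hS using hex
  have hinj : ∀ a b : Y, (a : Completion Y) = (b : Completion Y) → a = b := fun a b h =>
    Completion.coe_injective _ h
  have hnorm : ∀ x, ‖S x‖ = ‖x‖ := by
    intro x
    rw [← Completion.norm_coe (S x), ← hS, T.norm_map, Completion.norm_coe]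
  have hadd : ∀ x y, S (x + y) = S x + S y := by
    intro x y
    apply hinj
    rw [← hS, Completion.coe_add, map_add, hS, hS, Completion.coe_add]
  have hsmul : ∀ (c : ℝ) x, S (c • x) = c • S x := by
    intro c x
    apply hinj
    rw [← hS, Completion.coe_smul, map_smul, hS, Completion.coe_smul]
  have hSf : ∀ x : sphere (0 : X) 1, S (x : X) = (f x : Y) := by
    intro x
    apply hinj
    rw [← hS, hTf]
  have hsurj : Function.Surjective S := by
    intro y
    by_cases hy : y = 0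
    · refine ⟨0, ?_⟩
      have := hnorm 0
      rw [norm_zero, norm_eq_zero] at this
      rw [this, hy]
    have hn : ‖y‖ ≠ 0 := norm_ne_zero_iff.mpr hy
    have hn1 : ‖‖y‖⁻¹ • y‖ = 1 := by
      rw [norm_smul, norm_inv, norm_norm, inv_mul_cancel₀ hn]
    obtain ⟨x, hx⟩ := hs ⟨‖y‖⁻¹ • y, mem_sphere_zero_iff_norm.mpr hn1⟩
    refine ⟨‖y‖ • (x : X), ?_⟩
    rw [hsmul, hSf, hx]
    change ‖y‖ • (‖y‖⁻¹ • y) = y
    rw [smul_smul, mul_inv_cancel₀ hn, one_smul]
  let L : X →ₗᵢ[ℝ] Y :=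
    { toFun := S
      map_add' := hadd
      map_smul' := hsmul
      norm_map' := hnorm }
  exact ⟨LinearIsometryEquiv.ofSurjective L hsurj, fun x => hSf x⟩

end Vale.Agent.P084.Compl
end 
end
end
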