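import Vale.Agent.P084.MathlibUsed

set_option linter.all false

section

/- EpIBP -/
section
/-!
Integration by parts for Lipschitz functions: very weak form of the Hessian determinant.
-/

open MeasureTheory Set Topology Filter Metric
open scoped NNReal ENNReal

namespace P084.Ep

variable {E : Type*} [NormedAddCommGroup E] [NormedSpace ℝ E] [FiniteDimensional ℝ E]
  [MeasurableSpace E] [BorelSpace E] {μ : Measure E} [μ.IsAddHaarMeasure]

omit [NormedSpace ℝ E] [FiniteDimensional ℝ E] in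
lemma integrable_cc {c F : E → ℝ} (hc : Continuous c) (hcs : HasCompactSupport c)
    (hF : AEStronglyMeasurable F μ) {B : ℝ} (hB : ∀ x, |F x| ≤ B) :
    Integrable (fun x => c x * F x) μ :=
  (hc.integrable_of_hasCompactSupport hcs).mul_bdd hF (c := B) (Eventually.of_forall hB)

omit [FiniteDimensional ℝ E] [MeasurableSpace E] [BorelSpace E] in
lemma lineDeriv_bound {f : E → ℝ} {C : ℝ≥0} (hf : LipschitzWith C f) (v x : E) :
    |lineDeriv ℝ f x v| ≤ C * ‖v‖ := norm_lineDeriv_le_of_lipschitz ℝ hf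

omit [FiniteDimensional ℝ E] [MeasurableSpace E] [BorelSpace E] in
lemma lineDeriv_mul {f g : E → ℝ} {x v : E} (hf : LineDifferentiableAt ℝ f x v)
    (hg : LineDifferentiableAt ℝ g x v) :
    lineDeriv ℝ (fun y => f y * g y) x v = lineDeriv ℝ f x v * g x + f x * lineDeriv ℝ g x v := by
  have h1 := hf.hasLineDerivAt
  have h2 := hg.hasLineDerivAt
  unfold HasLineDerivAt at h1 h2
  have h3 := h1.mul h2
  simp only [zero_smul, add_zero] at h3
  exact HasLineDerivAt.lineDeriv h3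

omit [FiniteDimensional ℝ E] [MeasurableSpace E] [BorelSpace E] in
lemma lineDeriv_eq_zero_of_notMem {f : E → ℝ} {x v : E} (hx : x ∉ tsupport f) :
    lineDeriv ℝ f x v = 0 := by
  have h0 : f =ᶠ[𝓝 x] 0 := notMem_tsupport_iff_eventuallyEq.1 hx
  rw [h0.lineDeriv_eq]
  simp only [lineDeriv, Pi.zero_apply, deriv_const']

/-- the symmetry `∫ f_v g_w = ∫ f_w g_v` for Lipschitz functions, `f` compactly supported -/
lemma integral_lineDeriv_comm {f g : E → ℝ} {C D : ℝ≥0} (hf : LipschitzWith C f)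
    (hfc : HasCompactSupport f) (hg : LipschitzWith D g) (v w : E) :
    ∫ x, lineDeriv ℝ f x v * lineDeriv ℝ g x w ∂μ =
      ∫ x, lineDeriv ℝ f x w * lineDeriv ℝ g x v ∂μ := by
  -- integrability of `f_v`
  have hfv : Integrable (fun x => lineDeriv ℝ f x v) μ := by
    have hs : Function.support (fun x => lineDeriv ℝ f x v) ⊆ tsupport f := by
      intro x hx
      by_contra h
      exact hx (lineDeriv_eq_zero_of_notMem h)
    exact (integrableOn_iff_integrable_of_support_subset hs).1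
      ((hf.locallyIntegrable_lineDeriv v).integrableOn_isCompact hfc)
  have A := hg.integral_inv_smul_sub_mul_tendsto_integral_lineDeriv_mul hfv w
  -- cut-off of `g_v`
  let K := cthickening ‖w‖ (tsupport f)
  have hK : IsCompact K := IsCompact.cthickening hfc
  have hgK : Integrable (K.indicator (fun x => lineDeriv ℝ g x v)) μ :=
    (integrable_indicator_iff hK.measurableSet).2
      ((hg.locallyIntegrable_lineDeriv v).integrableOn_isCompact hK)
  have B := hf.integral_inv_smul_sub_mul_tendsto_integral_lineDeriv_mul hgK (-w)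
  have key : ∀ᶠ t : ℝ in 𝓝[>] 0,
      ∫ x, (t⁻¹ • (g (x + t • w) - g x)) * lineDeriv ℝ f x v ∂μ =
      - ∫ x, (t⁻¹ • (f (x + t • (-w)) - f x)) * K.indicator (fun x => lineDeriv ℝ g x v) x ∂μ := by
    filter_upwards [Ioc_mem_nhdsGT zero_lt_one] with t ht
    have t_pos : 0 < t := ht.1
    -- difference quotient
    let b : E → ℝ := fun x => t⁻¹ • (g (x + t • w) - g x)
    have hb : LipschitzWith (Real.toNNReal (t⁻¹ * (D + D))) b := by
      apply LipschitzWith.of_dist_le'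
      intro x y
      have h1 := hg.dist_le_mul (x + t • w) (y + t • w)
      have h2 := hg.dist_le_mul x y
      rw [dist_add_right] at h1
      rw [Real.dist_eq] at h1 h2 ⊢
      have h3 : b x - b y = t⁻¹ * ((g (x + t • w) - g (y + t • w)) - (g x - g y)) := by
        simp only [b, smul_eq_mul]; ring
      rw [h3, abs_mul, abs_of_pos (inv_pos.2 t_pos), mul_assoc]
      gcongr
      calc _ ≤ |g (x + t • w) - g (y + t • w)| + |g x - g y| := abs_sub _ _
        _ ≤ _ := by rw [add_mul]; linarith only [h1, h2]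
    have h2 := hb.integral_lineDeriv_mul_eq (μ := μ) hf hfc v
    have h3 : ∫ x, b x * lineDeriv ℝ f x v ∂μ = - ∫ x, lineDeriv ℝ b x v * f x ∂μ := by
      rw [h2, ← integral_neg]
      congr 1
      ext x
      rw [lineDeriv_neg]
      ring
    have h4 : ∀ᵐ x ∂μ, lineDeriv ℝ b x v =
        t⁻¹ * (lineDeriv ℝ g (x + t • w) v - lineDeriv ℝ g x v) := by
      have h5 := hg.ae_lineDifferentiableAt (μ := μ) v
      have h6 := (quasiMeasurePreserving_add_right μ (t • w)).ae h5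
      filter_upwards [h5, h6] with x hx1 hx2
      have h7 := hx1.hasLineDerivAt
      have h8 := hx2.hasLineDerivAt
      unfold HasLineDerivAt at h7 h8
      have h9 := (h8.sub h7).const_mul t⁻¹
      have h10 : HasLineDerivAt ℝ b (t⁻¹ * (lineDeriv ℝ g (x + t • w) v - lineDeriv ℝ g x v))
          x v := by
        unfold HasLineDerivAt
        refine h9.congr_of_eventuallyEq (Eventually.of_forall fun s => ?_)
        simp only [b, smul_eq_mul, Pi.sub_apply]
        rw [add_right_comm]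
      exact h10.lineDeriv
    have h5 : ∫ x, lineDeriv ℝ b x v * f x ∂μ =
        ∫ x, t⁻¹ * (lineDeriv ℝ g (x + t • w) v * f x - lineDeriv ℝ g x v * f x) ∂μ := by
      apply integral_congr_ae
      filter_upwards [h4] with x hx
      rw [hx]; ring
    have h6 : ∫ x, lineDeriv ℝ g (x + t • w) v * f x ∂μ =
        ∫ x, lineDeriv ℝ g x v * f (x + t • (-w)) ∂μ := by
      rw [← integral_add_right_eq_self _ (t • (-w))]; simp only [smul_neg, neg_add_cancel_right]
    have h7 : ∀ x, (t⁻¹ • (f (x + t • (-w)) - f x)) * K.indicator (fun x => lineDeriv ℝ g x v) x =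
        t⁻¹ * (lineDeriv ℝ g x v * f (x + t • (-w)) - lineDeriv ℝ g x v * f x) := by
      intro x
      by_cases hx : x ∈ K
      · rw [indicator_of_mem hx, smul_eq_mul]; ring
      · have A : f x = 0 := by
          rw [← Function.notMem_support]
          contrapose hx
          exact self_subset_cthickening _ (subset_tsupport _ hx)
        have B : f (x + t • (-w)) = 0 := by
          rw [← Function.notMem_support]
          contrapose hx
          apply mem_cthickening_of_dist_le _ _ (‖w‖) (tsupport f) (subset_tsupport _ hx)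
          simp only [dist_eq_norm, sub_add_cancel_left, norm_neg, norm_smul, Real.norm_eq_abs,
            abs_of_nonneg t_pos.le]
          exact mul_le_of_le_one_left (norm_nonneg w) ht.2
        rw [indicator_of_notMem hx, A, B]; ring
    change ∫ x, b x * lineDeriv ℝ f x v ∂μ = _
    rw [h3, h5]
    simp only [h7]
    have i1 : Integrable (fun x => lineDeriv ℝ g x v * f x) μ := by
      have := integrable_cc (μ := μ) hf.continuous hfc
        (aestronglyMeasurable_lineDeriv hg.continuous (v := v) μ) (fun x => lineDeriv_bound hg v x)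
      simpa only [mul_comm] using this
    have i2 : Integrable (fun x => lineDeriv ℝ g x v * f (x + t • (-w))) μ := by
      have := integrable_cc (μ := μ) (c := fun x => f (x + t • (-w)))
        (hf.continuous.comp (continuous_add_const _))
        (hfc.comp_homeomorph (Homeomorph.addRight (t • (-w))))
        (aestronglyMeasurable_lineDeriv hg.continuous (v := v) μ) (fun x => lineDeriv_bound hg v x)
      simpa only [mul_comm] using this
    have i3 : Integrable (fun x => lineDeriv ℝ g (x + t • w) v * f x) μ := by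
      have h8 : AEStronglyMeasurable (fun x => lineDeriv ℝ g (x + t • w) v) μ :=
        ((measurable_lineDeriv hg.continuous).comp
          (measurable_add_const (t • w))).aestronglyMeasurable
      have := integrable_cc (μ := μ) hf.continuous hfc h8
        (fun x => lineDeriv_bound hg v (x + t • w))
      simpa only [mul_comm] using this
    rw [integral_const_mul, integral_const_mul, integral_sub i3 i1, integral_sub i2 i1, h6]
  have A' := A.congr' key
  have B' := B.neg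
  have h1 := tendsto_nhds_unique A' B'
  have h2 : ∫ x, lineDeriv ℝ f x (-w) * K.indicator (fun x => lineDeriv ℝ g x v) x ∂μ =
      - ∫ x, lineDeriv ℝ f x w * lineDeriv ℝ g x v ∂μ := by
    rw [← integral_neg]
    congr 1
    ext x
    by_cases hx : x ∈ K
    · rw [indicator_of_mem hx, lineDeriv_neg]; ring
    · have : x ∉ tsupport f := fun h => hx (self_subset_cthickening _ h)
      rw [lineDeriv_eq_zero_of_notMem this, lineDeriv_eq_zero_of_notMem this]; ring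
  rw [h2, neg_neg] at h1
  rw [← h1]
  congr 1
  ext x
  ring

omit [FiniteDimensional ℝ E] [MeasurableSpace E] [BorelSpace E] [NormedSpace ℝ E] in
lemma lip_mul {f g : E → ℝ} {C D : ℝ≥0} (hf : LipschitzWith C f) (hg : LipschitzWith D g)
    {A B : ℝ} (hA : ∀ x, |f x| ≤ A) (hB : ∀ x, |g x| ≤ B) :
    LipschitzWith (Real.toNNReal (A * D + B * C)) (fun x => f x * g x) := by
  apply LipschitzWith.of_dist_le'
  intro x y
  have h1 := hf.dist_le_mul x y
  have h2 := hg.dist_le_mul x y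
  rw [Real.dist_eq] at h1 h2 ⊢
  have h3 : f x * g x - f y * g y = f x * (g x - g y) + g y * (f x - f y) := by ring
  rw [h3]
  have hA0 : 0 ≤ A := (abs_nonneg _).trans (hA x)
  have hB0 : 0 ≤ B := (abs_nonneg _).trans (hB x)
  calc _ ≤ |f x * (g x - g y)| + |g y * (f x - f y)| := abs_add_le _ _
    _ = |f x| * |g x - g y| + |g y| * |f x - f y| := by rw [abs_mul, abs_mul]
    _ ≤ A * (D * dist x y) + B * (C * dist x y) := by
        gcongr
        · exact hA x
        · exact hB y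
    _ = _ := by ring

/-- test functions -/
structure Tst (c : E → ℝ) : Prop where
  diff : ContDiff ℝ 1 c
  supp : HasCompactSupport c

omit [FiniteDimensional ℝ E] [MeasurableSpace E] [BorelSpace E] in
lemma Tst.lineDeriv_eq {c : E → ℝ} (hc : Tst c) (x v : E) :
    lineDeriv ℝ c x v = fderiv ℝ c x v :=
  (hc.diff.differentiable one_ne_zero x).lineDeriv_eq_fderiv

omit [FiniteDimensional ℝ E] [MeasurableSpace E] [BorelSpace E] in
lemma Tst.bdd {c : E → ℝ} (hc : Tst c) : ∃ A, ∀ x, |c x| ≤ A :=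
  hc.diff.continuous.bounded_above_of_compact_support hc.supp

omit [FiniteDimensional ℝ E] [MeasurableSpace E] [BorelSpace E] in
lemma Tst.lip {c : E → ℝ} (hc : Tst c) : ∃ C, LipschitzWith C c :=
  ContDiff.lipschitzWith_of_hasCompactSupport hc.supp hc.diff one_ne_zero

omit [FiniteDimensional ℝ E] [MeasurableSpace E] [BorelSpace E] in
lemma Tst.cont_fderiv {c : E → ℝ} (hc : Tst c) (v : E) : Continuous (fun x => fderiv ℝ c x v) :=
  (hc.diff.continuous_fderiv one_ne_zero).clm_apply continuous_const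

omit [FiniteDimensional ℝ E] [MeasurableSpace E] [BorelSpace E] in
lemma Tst.supp_fderiv {c : E → ℝ} (hc : Tst c) (v : E) :
    HasCompactSupport (fun x => fderiv ℝ c x v) :=
  (hc.supp.fderiv (𝕜 := ℝ)).comp_left (g := fun L : E →L[ℝ] ℝ => L v) (by simp)

lemma ibp {c a b : E → ℝ} (hc : Tst c) {Ca Cb : ℝ≥0} (ha : LipschitzWith Ca a)
    (hb : LipschitzWith Cb b) {B : ℝ} (haB : ∀ x, |a x| ≤ B) (hbB : ∀ x, |b x| ≤ B) (v : E) :
    ∫ x, c x * (b x * lineDeriv ℝ a x v) ∂μ =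
      - ∫ x, fderiv ℝ c x v * (a x * b x) ∂μ - ∫ x, c x * (a x * lineDeriv ℝ b x v) ∂μ := by
  obtain ⟨A, hA⟩ := hc.bdd
  obtain ⟨C, hC⟩ := hc.lip
  have h1 := ha.integral_lineDeriv_mul_eq (μ := μ) (lip_mul hC hb hA hbB) hc.supp.mul_right v
  have h2 : ∀ᵐ x ∂μ, lineDeriv ℝ (fun y => c y * b y) x (-v) * a x =
      -(fderiv ℝ c x v * (a x * b x) + c x * (a x * lineDeriv ℝ b x v)) := by
    filter_upwards [hC.ae_lineDifferentiableAt v, hb.ae_lineDifferentiableAt v] with x h3 h4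
    rw [lineDeriv_neg, lineDeriv_mul h3 h4, hc.lineDeriv_eq]
    ring
  have i1 : Integrable (fun x => fderiv ℝ c x v * (a x * b x)) μ :=
    integrable_cc (hc.cont_fderiv v) (hc.supp_fderiv v)
      (ha.continuous.mul hb.continuous).aestronglyMeasurable (B := B * B) (by
        intro x
        rw [abs_mul]
        have := (abs_nonneg _).trans (haB x)
        gcongr
        · exact haB x
        · exact hbB x)
  have i2 : Integrable (fun x => c x * (a x * lineDeriv ℝ b x v)) μ :=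
    integrable_cc hc.diff.continuous hc.supp
      (ha.continuous.aestronglyMeasurable.mul (aestronglyMeasurable_lineDeriv hb.continuous μ))
      (B := B * (Cb * ‖v‖)) (by
        intro x
        rw [abs_mul]
        have := (abs_nonneg _).trans (haB x)
        gcongr
        · exact haB x
        · exact lineDeriv_bound hb v x)
  rw [integral_congr_ae h2, integral_neg, integral_add i1 i2] at h1
  have h5 : ∀ x, c x * (b x * lineDeriv ℝ a x v) = lineDeriv ℝ a x v * (c x * b x) := by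
    intro x; ring
  simp only [h5]
  rw [h1]
  ring

lemma ibp_self {c b : E → ℝ} (hc : Tst c) {Cb : ℝ≥0}
    (hb : LipschitzWith Cb b) {B : ℝ} (hbB : ∀ x, |b x| ≤ B) (v : E) :
    ∫ x, c x * (b x * lineDeriv ℝ b x v) ∂μ =
      - (1/2) * ∫ x, fderiv ℝ c x v * (b x * b x) ∂μ := by
  have := ibp (μ := μ) hc hb hb hbB hbB v
  linarith

lemma very_weak {c a b : E → ℝ} (hc : ContDiff ℝ 2 c) (hcs : HasCompactSupport c)
    {Ca Cb : ℝ≥0} (ha : LipschitzWith Ca a)
    (hb : LipschitzWith Cb b) {B : ℝ} (haB : ∀ x, |a x| ≤ B) (hbB : ∀ x, |b x| ≤ B) (v w : E)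
    (hab : ∀ᵐ x ∂μ, lineDeriv ℝ a x w = lineDeriv ℝ b x v) :
    ∫ x, c x * (lineDeriv ℝ a x v * lineDeriv ℝ b x w -
        lineDeriv ℝ a x w * lineDeriv ℝ b x v) ∂μ =
      - (1/2) * ∫ x, fderiv ℝ (fun y => fderiv ℝ c y v) x v * (b x * b x) ∂μ
      + ∫ x, fderiv ℝ (fun y => fderiv ℝ c y w) x v * (a x * b x) ∂μ
      - (1/2) * ∫ x, fderiv ℝ (fun y => fderiv ℝ c y w) x w * (a x * a x) ∂μ := by
  have hc1 : Tst c := ⟨hc.of_le (by (clear * -; norm_num)), hcs⟩
  have hcv : ∀ u : E, Tst (fun y => fderiv ℝ c y u) := fun u =>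
    ⟨(hc.fderiv_right (m := 1) (by (clear * -; norm_num))).clm_apply contDiff_const, hc1.supp_fderiv u⟩
  obtain ⟨A, hA⟩ := hc1.bdd
  obtain ⟨C, hC⟩ := hc1.lip
  have mb : ∀ {f : E → ℝ} {D : ℝ≥0} (_ : LipschitzWith D f) (u : E),
      AEStronglyMeasurable (fun x => lineDeriv ℝ f x u) μ :=
    fun hf u => aestronglyMeasurable_lineDeriv hf.continuous μ
  -- first integration
  have h1 := integral_lineDeriv_comm (μ := μ) (lip_mul hC hb hA hbB) hcs.mul_right ha w v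
  have h2 : ∀ u u' : E, ∀ᵐ x ∂μ, lineDeriv ℝ (fun y => c y * b y) x u * lineDeriv ℝ a x u' =
      fderiv ℝ c x u * (b x * lineDeriv ℝ a x u') +
        c x * (lineDeriv ℝ a x u' * lineDeriv ℝ b x u) := by
    intro u u'
    filter_upwards [hC.ae_lineDifferentiableAt u, hb.ae_lineDifferentiableAt u] with x h3 h4
    rw [lineDeriv_mul h3 h4, hc1.lineDeriv_eq]
    ring
  have i1 : ∀ u u' : E, Integrable (fun x => fderiv ℝ c x u * (b x * lineDeriv ℝ a x u')) μ :=
    fun u u' => integrable_cc (hc1.cont_fderiv u) (hc1.supp_fderiv u)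
      (hb.continuous.aestronglyMeasurable.mul (mb ha u')) (B := B * (Ca * ‖u'‖)) (by
        intro x
        rw [abs_mul]
        have := (abs_nonneg _).trans (haB x)
        gcongr
        · exact hbB x
        · exact lineDeriv_bound ha u' x)
  have i2 : ∀ u u' : E, Integrable (fun x => c x * (lineDeriv ℝ a x u' * lineDeriv ℝ b x u)) μ :=
    fun u u' => integrable_cc hc.continuous hcs
      ((mb ha u').mul (mb hb u)) (B := (Ca * ‖u'‖) * (Cb * ‖u‖)) (by
        intro x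
        rw [abs_mul]
        gcongr
        · exact lineDeriv_bound ha u' x
        · exact lineDeriv_bound hb u x)
  rw [integral_congr_ae (h2 w v), integral_congr_ae (h2 v w), integral_add (i1 w v) (i2 w v),
    integral_add (i1 v w) (i2 v w)] at h1
  have h3 : ∫ x, c x * (lineDeriv ℝ a x v * lineDeriv ℝ b x w -
        lineDeriv ℝ a x w * lineDeriv ℝ b x v) ∂μ =
      ∫ x, fderiv ℝ c x v * (b x * lineDeriv ℝ a x w) ∂μ -
        ∫ x, fderiv ℝ c x w * (b x * lineDeriv ℝ a x v) ∂μ := by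
    simp only [mul_sub]
    rw [integral_sub (i2 w v) (i2 v w)]
    linarith only [h1]
  -- the first term
  have h4 : ∫ x, fderiv ℝ c x v * (b x * lineDeriv ℝ a x w) ∂μ =
      ∫ x, fderiv ℝ c x v * (b x * lineDeriv ℝ b x v) ∂μ := by
    apply integral_congr_ae
    filter_upwards [hab] with x hx
    rw [hx]
  have h5 := ibp_self (μ := μ) (hcv v) hb hbB v
  -- the second term
  have h6 := ibp (μ := μ) (hcv w) ha hb haB hbB v
  have h7 : ∫ x, fderiv ℝ c x w * (a x * lineDeriv ℝ b x v) ∂μ =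
      ∫ x, fderiv ℝ c x w * (a x * lineDeriv ℝ a x w) ∂μ := by
    apply integral_congr_ae
    filter_upwards [hab] with x hx
    rw [hx]
  have h8 := ibp_self (μ := μ) (hcv w) ha haB w
  rw [h3, h4, h5, h6, h7, h8]
  ring

end P084.Ep
end

/- EpLimit -/
section
/-!
The limiting argument in the plane.
-/

open MeasureTheory Set Topology Filter Metric
open scoped NNReal ENNReal ContDiff

namespace P084.Ep

/-- 1D bump -/
noncomputable def rho : ContDiffBump (0:ℝ) := ⟨1, 2, zero_lt_one, one_lt_two⟩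

lemma rho_smooth : ContDiff ℝ ∞ (rho : ℝ → ℝ) := rho.contDiff

lemma rho_zero : rho (0:ℝ) = 1 := rho.one_of_mem_closedBall (by simp only [rho, mem_closedBall, dist_self, zero_le_one])

lemma rho_supp : HasCompactSupport (rho : ℝ → ℝ) := rho.hasCompactSupport

lemma rho_deriv_smooth : ContDiff ℝ ∞ (deriv (rho : ℝ → ℝ)) :=
  (contDiff_infty_iff_deriv.1 rho_smooth).2

lemma rho_deriv2_smooth : ContDiff ℝ ∞ (deriv (deriv (rho : ℝ → ℝ))) :=
  (contDiff_infty_iff_deriv.1 rho_deriv_smooth).2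

lemma rho_deriv_supp : HasCompactSupport (deriv (rho : ℝ → ℝ)) := rho_supp.deriv

lemma rho_deriv2_supp : HasCompactSupport (deriv (deriv (rho : ℝ → ℝ))) := rho_deriv_supp.deriv

lemma rho_eq_zero {x : ℝ} (hx : 2 < |x|) : rho x = 0 := by
  apply rho.zero_of_le_dist
  simpa only [rho, dist_zero_right, Real.norm_eq_abs] using hx.le

lemma rho_deriv_eq_zero {x : ℝ} (hx : 2 < |x|) : deriv (rho : ℝ → ℝ) x = 0 := by
  have : (rho : ℝ → ℝ) =ᶠ[𝓝 x] fun _ => 0 := by
    have h : ∀ᶠ y in 𝓝 x, 2 < |y| := (isOpen_lt continuous_const continuous_abs).mem_nhds hx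
    filter_upwards [h] with y hy using rho_eq_zero hy
  rw [this.deriv_eq]; simp only [deriv_const']

lemma rho_deriv2_eq_zero {x : ℝ} (hx : 2 < |x|) : deriv (deriv (rho : ℝ → ℝ)) x = 0 := by
  have : deriv (rho : ℝ → ℝ) =ᶠ[𝓝 x] fun _ => 0 := by
    have h : ∀ᶠ y in 𝓝 x, 2 < |y| := (isOpen_lt continuous_const continuous_abs).mem_nhds hx
    filter_upwards [h] with y hy using rho_deriv_eq_zero hy
  rw [this.deriv_eq]; simp only [deriv_const']

/-- `∫ ρ''(σ) |σ| dσ = 2` -/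
lemma integral_rho_abs : ∫ x : ℝ, deriv (deriv (rho : ℝ → ℝ)) x * |x| = 2 := by
  have hd1 : ∀ x, HasDerivAt (rho : ℝ → ℝ) (deriv (rho : ℝ → ℝ) x) x := fun x =>
    ((rho_smooth.differentiable (by simp)) x).hasDerivAt
  have hd2 : ∀ x, HasDerivAt (deriv (rho : ℝ → ℝ)) (deriv (deriv (rho : ℝ → ℝ)) x) x := fun x =>
    ((rho_deriv_smooth.differentiable (by simp)) x).hasDerivAt
  have hF : ∀ x, HasDerivAt (fun x => deriv (rho : ℝ → ℝ) x * x - rho x)
      (deriv (deriv (rho : ℝ → ℝ)) x * x) x := by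
    intro x
    have := ((hd2 x).mul (hasDerivAt_id x)).sub (hd1 x)
    refine this.congr_deriv ?_
    simp only [id_eq, mul_one, add_sub_cancel_right]
  have hcont : Continuous (fun x => deriv (deriv (rho : ℝ → ℝ)) x * x) :=
    rho_deriv2_smooth.continuous.mul continuous_id
  have hint : Integrable (fun x => deriv (deriv (rho : ℝ → ℝ)) x * x) :=
    hcont.integrable_of_hasCompactSupport rho_deriv2_supp.mul_right
  have hcont' : Continuous (fun x => deriv (deriv (rho : ℝ → ℝ)) x * |x|) :=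
    rho_deriv2_smooth.continuous.mul continuous_abs
  have hint' : Integrable (fun x => deriv (deriv (rho : ℝ → ℝ)) x * |x|) :=
    hcont'.integrable_of_hasCompactSupport rho_deriv2_supp.mul_right
  have ht : Tendsto (fun x => deriv (rho : ℝ → ℝ) x * x - rho x) atTop (𝓝 0) := by
    refine tendsto_const_nhds.congr' ?_
    filter_upwards [eventually_gt_atTop 2] with x hx
    have : 2 < |x| := hx.trans_le (le_abs_self x)
    rw [rho_eq_zero this, rho_deriv_eq_zero this]; ring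
  have hb : Tendsto (fun x => deriv (rho : ℝ → ℝ) x * x - rho x) atBot (𝓝 0) := by
    refine tendsto_const_nhds.congr' ?_
    filter_upwards [eventually_lt_atBot (-2)] with x hx
    have : 2 < |x| := by rw [abs_of_neg (by linarith only [hx])]; linarith only [hx]
    rw [rho_eq_zero this, rho_deriv_eq_zero this]; ring
  have h1 : ∫ x in Ioi (0:ℝ), deriv (deriv (rho : ℝ → ℝ)) x * x = 1 := by
    rw [integral_Ioi_of_hasDerivAt_of_tendsto' (fun x _ => hF x) hint.integrableOn ht, rho_zero]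
    ring
  have h2 : ∫ x in Iic (0:ℝ), deriv (deriv (rho : ℝ → ℝ)) x * x = -1 := by
    rw [integral_Iic_of_hasDerivAt_of_tendsto' (fun x _ => hF x) hint.integrableOn hb, rho_zero]
    ring
  rw [← integral_add_compl (measurableSet_Iic (a := (0:ℝ))) hint', compl_Iic]
  have h3 : ∫ x in Ioi (0:ℝ), deriv (deriv (rho : ℝ → ℝ)) x * |x| = 1 := by
    rw [← h1]
    apply setIntegral_congr_fun measurableSet_Ioi
    intro x hx
    simp only [abs_of_pos (mem_Ioi.1 hx)]
  have h4 : ∫ x in Iic (0:ℝ), deriv (deriv (rho : ℝ → ℝ)) x * |x| = 1 := by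
    have : ∫ x in Iic (0:ℝ), deriv (deriv (rho : ℝ → ℝ)) x * |x| =
        ∫ x in Iic (0:ℝ), -(deriv (deriv (rho : ℝ → ℝ)) x * x) := by
      apply setIntegral_congr_fun measurableSet_Iic
      intro x hx
      simp only [abs_of_nonpos (mem_Iic.1 hx)]
      ring
    rw [this, integral_neg, h2]; ring
  rw [h3, h4]; norm_num

variable {X : Type*} [NormedAddCommGroup X] [NormedSpace ℝ X] [FiniteDimensional ℝ X]

lemma hasFDerivAt_prod {p q : ℝ → ℝ} (hp : Differentiable ℝ p) (hq : Differentiable ℝ q)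
    (s : ℝ × ℝ) : HasFDerivAt (fun z : ℝ × ℝ => p z.1 * q z.2)
      (p s.1 • (deriv q s.2 • ContinuousLinearMap.snd ℝ ℝ ℝ) +
        q s.2 • (deriv p s.1 • ContinuousLinearMap.fst ℝ ℝ ℝ)) s := by
  have h1 : HasFDerivAt (fun z : ℝ × ℝ => p z.1) (deriv p s.1 • ContinuousLinearMap.fst ℝ ℝ ℝ) s :=
    (hp s.1).hasDerivAt.comp_hasFDerivAt s (ContinuousLinearMap.fst ℝ ℝ ℝ).hasFDerivAt
  have h2 : HasFDerivAt (fun z : ℝ × ℝ => q z.2) (deriv q s.2 • ContinuousLinearMap.snd ℝ ℝ ℝ) s :=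
    (hq s.2).hasDerivAt.comp_hasFDerivAt s (ContinuousLinearMap.snd ℝ ℝ ℝ).hasFDerivAt
  exact h1.mul h2

lemma fderiv_prod_left {p q : ℝ → ℝ} (hp : Differentiable ℝ p) (hq : Differentiable ℝ q)
    (s : ℝ × ℝ) : fderiv ℝ (fun z : ℝ × ℝ => p z.1 * q z.2) s (1, 0) = deriv p s.1 * q s.2 := by
  rw [(hasFDerivAt_prod hp hq s).fderiv]
  simp [mul_comm]

lemma fderiv_prod_right {p q : ℝ → ℝ} (hp : Differentiable ℝ p) (hq : Differentiable ℝ q)
    (s : ℝ × ℝ) : fderiv ℝ (fun z : ℝ × ℝ => p z.1 * q z.2) s (0, 1) = p s.1 * deriv q s.2 := by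
  rw [(hasFDerivAt_prod hp hq s).fderiv]
  simp

lemma contDiff_prod {p q : ℝ → ℝ} (hp : ContDiff ℝ ∞ p) (hq : ContDiff ℝ ∞ q) :
    ContDiff ℝ 2 (fun z : ℝ × ℝ => p z.1 * q z.2) := by
  have h1 : ContDiff ℝ ∞ (fun z : ℝ × ℝ => p z.1 * q z.2) :=
    (hp.comp contDiff_fst).mul (hq.comp contDiff_snd)
  exact contDiff_infty.1 h1 2

lemma supp_prod {p q : ℝ → ℝ} (hp : HasCompactSupport p) (hq : HasCompactSupport q) :
    HasCompactSupport (fun z : ℝ × ℝ => p z.1 * q z.2) := by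
  apply HasCompactSupport.intro (K := tsupport p ×ˢ tsupport q) (hp.prod hq)
  intro z hz
  rw [mem_prod, not_and_or] at hz
  rcases hz with h | h
  · rw [image_eq_zero_of_notMem_tsupport h, zero_mul]
  · rw [image_eq_zero_of_notMem_tsupport h, mul_zero]

/-- scaled bump -/
noncomputable def qm (m : ℕ) (t : ℝ) : ℝ := rho (t * ((m:ℝ) + 1)⁻¹)

lemma deriv_scale {f : ℝ → ℝ} (hf : Differentiable ℝ f) (c : ℝ) :
    deriv (fun t => f (t * c)) = fun t => deriv f (t * c) * c := by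
  funext t
  have h1 : HasDerivAt (fun t : ℝ => t * c) c t := by
    simpa only [id_eq, one_mul] using (hasDerivAt_id t).mul_const c
  exact ((hf (t * c)).hasDerivAt.comp t h1).deriv

lemma qm_smooth (m : ℕ) : ContDiff ℝ ∞ (qm m) :=
  rho_smooth.comp (contDiff_id.mul contDiff_const)

lemma qm_deriv (m : ℕ) : deriv (qm m) = fun t => deriv (rho : ℝ → ℝ) (t * ((m:ℝ) + 1)⁻¹) *
    ((m:ℝ) + 1)⁻¹ := deriv_scale (rho_smooth.differentiable (by simp)) _

lemma qm_deriv2 (m : ℕ) : deriv (deriv (qm m)) =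
    fun t => deriv (deriv (rho : ℝ → ℝ)) (t * ((m:ℝ) + 1)⁻¹) * ((m:ℝ) + 1)⁻¹ * ((m:ℝ) + 1)⁻¹ := by
  rw [qm_deriv]
  funext t
  have h0 : Differentiable ℝ (deriv (rho : ℝ → ℝ)) := rho_deriv_smooth.differentiable (by simp)
  have h1 : Differentiable ℝ (fun t => deriv (rho : ℝ → ℝ) (t * ((m:ℝ) + 1)⁻¹)) :=
    h0.comp (differentiable_id.mul_const _)
  rw [deriv_mul_const (h1 t), deriv_scale h0]

lemma qm_supp (m : ℕ) : HasCompactSupport (qm m) := by
  have hm : ((m:ℝ) + 1)⁻¹ ≠ 0 := by (clear * -; positivity)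
  have := rho_supp.comp_homeomorph (Homeomorph.mulRight₀ _ hm)
  exact this

lemma abs_mul_le_of_sq {x y K : ℝ} (hx : x ^ 2 ≤ K) (hy : y ^ 2 ≤ K) : |x * y| ≤ K := by
  rw [abs_mul]
  nlinarith only [hx, hy, sq_abs x, sq_abs y]

lemma integrable_bound {h : ℝ → ℝ} (hc : Continuous h) (hs : HasCompactSupport h) (K : ℝ) :
    Integrable (fun s : ℝ × ℝ => |h s.1| * (K * (1 + s.2 ^ 2)⁻¹)) := by
  rw [Measure.volume_eq_prod]
  have h1 : Integrable (fun x => |h x|) :=
    (hc.integrable_of_hasCompactSupport hs).abs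
  exact h1.mul_prod (integrable_inv_one_add_sq.const_mul K)

end P084.Ep
end

/- EndPlane -/
section
/-!
The endgame: an odd homogeneous `C^{1,1}` function all of whose Hessian minors are nonnegative is
linear.
-/

open MeasureTheory Set Topology Filter Metric
open scoped NNReal ENNReal ContDiff

namespace P084.Ep

variable {X : Type*} [NormedAddCommGroup X] [NormedSpace ℝ X] [FiniteDimensional ℝ X]

/-- parametrization of the plane -/
noncomputable def LL (e₁ e₂ : X) : ℝ × ℝ →L[ℝ] X :=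
  (ContinuousLinearMap.fst ℝ ℝ ℝ).smulRight e₁ + (ContinuousLinearMap.snd ℝ ℝ ℝ).smulRight e₂

omit [FiniteDimensional ℝ X] in
@[simp] lemma LL_apply (e₁ e₂ : X) (s : ℝ × ℝ) : LL e₁ e₂ s = s.1 • e₁ + s.2 • e₂ := rfl

omit [FiniteDimensional ℝ X] in
lemma LL_dist (e₁ e₂ : X) (s t : ℝ × ℝ) :
    ‖LL e₁ e₂ s - LL e₁ e₂ t‖ ≤ (‖e₁‖ + ‖e₂‖) * dist s t := by
  have : LL e₁ e₂ s - LL e₁ e₂ t = (s.1 - t.1) • e₁ + (s.2 - t.2) • e₂ := by
    simp only [LL_apply]; module
  rw [this]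
  have h1 : |s.1 - t.1| ≤ dist s t := by
    rw [Prod.dist_eq, ← Real.dist_eq]; exact le_max_left _ _
  have h2 : |s.2 - t.2| ≤ dist s t := by
    rw [Prod.dist_eq, ← Real.dist_eq]; exact le_max_right _ _
  calc _ ≤ ‖(s.1 - t.1) • e₁‖ + ‖(s.2 - t.2) • e₂‖ := norm_add_le _ _
    _ = |s.1 - t.1| * ‖e₁‖ + |s.2 - t.2| * ‖e₂‖ := by rw [norm_smul, norm_smul]; rfl
    _ ≤ dist s t * ‖e₁‖ + dist s t * ‖e₂‖ := by gcongr
    _ = _ := by ring

section Core

variable {G : X → (X →L[ℝ] ℝ)} {e₁ e₂ : X} {C : ℝ}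

omit [FiniteDimensional ℝ X] in
lemma core_bound (hC0 : 0 ≤ C) (he2 : e₂ ≠ 0) (hG0 : G e₂ = 0)
    (hGs : ∀ t : ℝ, t ≠ 0 → ∀ x, G (t • x) = G x)
    (hGC : ∀ x y, x ≠ 0 → y ≠ 0 → ‖x‖ * ‖G x - G y‖ ≤ C * ‖x - y‖) {x : X} (hx : x ≠ 0) :
    ‖G x‖ ≤ C := by
  by_contra hcon
  push Not at hcon
  have hx' : 0 < ‖x‖ := norm_pos_iff.2 hx
  have he' : 0 < ‖e₂‖ := norm_pos_iff.2 he2
  set δ := ‖x‖ * ‖G x‖ - C * ‖x‖ with hδ
  have hδ0 : 0 < δ := by rw [hδ]; nlinarith only [hcon, hx']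
  set t := δ / (2 * (C * ‖e₂‖ + 1)) with ht
  have ht0 : 0 < t := by (clear * - hδ0 hC0 he2; positivity)
  have h1 := hGC x (t • e₂) hx (smul_ne_zero ht0.ne' he2)
  rw [hGs t ht0.ne', hG0, sub_zero] at h1
  have h2 : ‖x - t • e₂‖ ≤ ‖x‖ + t * ‖e₂‖ := by
    calc _ ≤ ‖x‖ + ‖t • e₂‖ := norm_sub_le _ _
      _ = _ := by rw [norm_smul, Real.norm_of_nonneg ht0.le]
  have h3 : t * (C * ‖e₂‖ + 1) = δ / 2 := by
    rw [ht]; (clear * - hC0 he2 hδ0; field_simp)
  linarith only [mul_nonneg (sub_nonneg.2 hC0) (sub_nonneg.2 h2), h3, h1, ht0, hδ0]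

omit [FiniteDimensional ℝ X] in
lemma core_bound2 (hC0 : 0 ≤ C) (he2 : e₂ ≠ 0) (hG0 : G e₂ = 0)
    (hGs : ∀ t : ℝ, t ≠ 0 → ∀ x, G (t • x) = G x)
    (hGC : ∀ x y, x ≠ 0 → y ≠ 0 → ‖x‖ * ‖G x - G y‖ ≤ C * ‖x - y‖) {x : X} (hx : x ≠ 0) (t : ℝ) :
    ‖x‖ * ‖G x‖ ≤ C * ‖x - t • e₂‖ := by
  by_cases ht : t = 0
  · have := core_bound hC0 he2 hG0 hGs hGC hx
    rw [ht, zero_smul, sub_zero, mul_comm]
    (clear * - this hx; gcongr)
  · have h1 := hGC x (t • e₂) hx (smul_ne_zero ht he2)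
    rwa [hGs t ht, hG0, sub_zero] at h1

omit [FiniteDimensional ℝ X] in
lemma core_decay (hC0 : 0 ≤ C) (he2 : e₂ ≠ 0) (hG0 : G e₂ = 0)
    (hGs : ∀ t : ℝ, t ≠ 0 → ∀ x, G (t • x) = G x)
    (hGC : ∀ x y, x ≠ 0 → y ≠ 0 → ‖x‖ * ‖G x - G y‖ ≤ C * ‖x - y‖) {c : X} (hc : ‖c‖ ≤ 1)
    {s : ℝ × ℝ} (hs : |s.1| ≤ 2) (hx : c + LL e₁ e₂ s ≠ 0) :
    ‖G (c + LL e₁ e₂ s)‖ ^ 2 ≤
      (C ^ 2 + (2 * C * (1 + 2 * ‖e₁‖) / ‖e₂‖) ^ 2) * (1 + s.2 ^ 2)⁻¹ := by
  set x := c + LL e₁ e₂ s with hxdef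
  set A := 1 + 2 * ‖e₁‖ with hA
  have he' : 0 < ‖e₂‖ := norm_pos_iff.2 he2
  have h1 := core_bound hC0 he2 hG0 hGs hGC hx
  have h2 := core_bound2 hC0 he2 hG0 hGs hGC hx s.2
  have h3 : ‖x - s.2 • e₂‖ ≤ A := by
    have : x - s.2 • e₂ = c + s.1 • e₁ := by rw [hxdef, LL_apply]; abel
    rw [this]
    calc _ ≤ ‖c‖ + ‖s.1 • e₁‖ := norm_add_le _ _
      _ = ‖c‖ + |s.1| * ‖e₁‖ := by rw [norm_smul]; rfl
      _ ≤ 1 + 2 * ‖e₁‖ := by (clear * - hc hs; gcongr)
  have h4 : |s.2| * ‖e₂‖ ≤ ‖x‖ + A := by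
    have h5 : s.2 • e₂ = x - (x - s.2 • e₂) := by abel
    calc |s.2| * ‖e₂‖ = ‖s.2 • e₂‖ := by rw [norm_smul]; rfl
      _ = ‖x - (x - s.2 • e₂)‖ := by rw [← h5]
      _ ≤ ‖x‖ + ‖x - s.2 • e₂‖ := norm_sub_le _ _
      _ ≤ _ := by gcongr
  have h5 : ‖G x‖ * (|s.2| * ‖e₂‖) ≤ 2 * C * A := by
    calc _ ≤ ‖G x‖ * (‖x‖ + A) := by (clear * - h4; gcongr)
      _ = ‖x‖ * ‖G x‖ + ‖G x‖ * A := by ring
      _ ≤ C * A + C * A := by
          have hA0 : 0 ≤ A := by (clear * -; positivity)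
          have h9 : ‖x‖ * ‖G x‖ ≤ C * A := h2.trans (mul_le_mul_of_nonneg_left h3 hC0)
          have h10 : ‖G x‖ * A ≤ C * A := mul_le_mul_of_nonneg_right h1 hA0
          linarith only [h9, h10]
      _ = _ := by ring
  have h6 : ‖G x‖ * |s.2| ≤ 2 * C * A / ‖e₂‖ := by
    rw [le_div_iff₀ he', mul_assoc]; exact h5
  have h7 : ‖G x‖ ^ 2 * (1 + s.2 ^ 2) ≤ C ^ 2 + (2 * C * A / ‖e₂‖) ^ 2 := by
    have h8 : ‖G x‖ ^ 2 * (1 + s.2 ^ 2) = ‖G x‖ ^ 2 + (‖G x‖ * |s.2|) ^ 2 := by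
      rw [mul_pow, sq_abs]; ring
    rw [h8]
    (clear * - h1 h6; gcongr)
  rw [← div_eq_mul_inv, le_div_iff₀ (by (clear * -; positivity))]
  exact h7

end Core

section Lin

variable {u : X → ℝ}

omit [FiniteDimensional ℝ X] in
lemma fderiv_hom (hhom : ∀ (t : ℝ) x, u (t • x) = t * u x) (hu : ∀ x, x ≠ 0 → DifferentiableAt ℝ u x)
    {t : ℝ} (ht : t ≠ 0) (x : X) : fderiv ℝ u (t • x) = fderiv ℝ u x := by
  by_cases hx : x = 0
  · rw [hx, smul_zero]
  have h1 : HasFDerivAt (fun y : X => t • y) (t • ContinuousLinearMap.id ℝ X) x :=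
    (t • ContinuousLinearMap.id ℝ X).hasFDerivAt
  have h2 := (hu _ (smul_ne_zero ht hx)).hasFDerivAt.comp x h1
  have h3 : HasFDerivAt (fun y => u (t • y)) (t • fderiv ℝ u x) x := by
    simp only [hhom]
    exact (hu x hx).hasFDerivAt.const_mul t
  have h4 := h2.unique h3
  rw [ContinuousLinearMap.comp_smul, ContinuousLinearMap.comp_id] at h4
  exact smul_right_injective _ ht h4

omit [FiniteDimensional ℝ X] in
lemma fderiv_euler (hhom : ∀ (t : ℝ) x, u (t • x) = t * u x)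
    (hu : ∀ x, x ≠ 0 → DifferentiableAt ℝ u x) {x : X} (hx : x ≠ 0) : fderiv ℝ u x x = u x := by
  have h1 : HasDerivAt (fun t : ℝ => t • x) x 1 := by
    simpa using (hasDerivAt_id (1:ℝ)).smul_const x
  have h0 : HasFDerivAt u (fderiv ℝ u x) ((1:ℝ) • x) := by
    rw [one_smul]; exact (hu x hx).hasFDerivAt
  have h2 : HasDerivAt (fun t : ℝ => u (t • x)) (fderiv ℝ u x x) 1 := h0.comp_hasDerivAt (1:ℝ) h1
  have h3 : HasDerivAt (fun t : ℝ => u (t • x)) (u x) 1 := by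
    simp only [hhom]
    simpa only [id_eq, one_mul] using (hasDerivAt_id (1 : ℝ)).mul_const (u x)
  exact h2.unique h3

end Lin

end P084.Ep
end

/- UCEndA -/
section
/-!
The endgame in infinite dimensions: approximate nonnegativity of Hessian determinants on affine
planes near the origin.
-/

open MeasureTheory Set Topology Filter Metric
open scoped NNReal ENNReal ContDiff

namespace P084.Ep

lemma integral_test (m : ℕ) : ∫ s : ℝ × ℝ, rho s.1 * qm m s.2 =
    (∫ x : ℝ, rho x) * (((m:ℝ) + 1) * ∫ x : ℝ, rho x) := by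
  rw [Measure.volume_eq_prod, integral_prod_mul]
  congr 1
  have h := Measure.integral_comp_mul_right (fun x : ℝ => rho x) ((m:ℝ) + 1)⁻¹
  rw [inv_inv, abs_of_pos (by positivity), smul_eq_mul] at h
  exact h

/-- the basic inequality in an affine plane, approximate version -/
lemma plane_ineq_approx (m : ℕ) {a b : ℝ × ℝ → ℝ} {Ca Cb : ℝ≥0} (ha : LipschitzWith Ca a)
    (hb : LipschitzWith Cb b) {B : ℝ} (haB : ∀ x, |a x| ≤ B) (hbB : ∀ x, |b x| ≤ B)
    (hab : ∀ᵐ x : ℝ × ℝ, lineDeriv ℝ a x (0, 1) = lineDeriv ℝ b x (1, 0)) {δ : ℝ}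
    (hdet : ∀ᵐ x : ℝ × ℝ, |x.1| ≤ 2 → |x.2| ≤ 2 * ((m:ℝ) + 1) →
      -δ ≤ lineDeriv ℝ a x (1, 0) * lineDeriv ℝ b x (0, 1) -
      lineDeriv ℝ a x (0, 1) * lineDeriv ℝ b x (1, 0)) :
    -δ * ((∫ x : ℝ, rho x) * (((m:ℝ) + 1) * ∫ x : ℝ, rho x)) ≤
      - (1/2) * (∫ s : ℝ × ℝ, (deriv (deriv (rho : ℝ → ℝ)) s.1 * qm m s.2) * (b s * b s))
      + (∫ s : ℝ × ℝ, (deriv (rho : ℝ → ℝ) s.1 * deriv (qm m) s.2) * (a s * b s))
      - (1/2) * (∫ s : ℝ × ℝ, (rho s.1 * deriv (deriv (qm m)) s.2) * (a s * a s)) := by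
  have hp := rho_smooth
  have hq := qm_smooth m
  have hcs := supp_prod rho_supp (qm_supp m)
  have h1 := very_weak (μ := (volume : Measure (ℝ × ℝ))) (contDiff_prod hp hq) hcs
    ha hb haB hbB (1, 0) (0, 1) hab
  have hp1 : Differentiable ℝ (rho : ℝ → ℝ) := hp.differentiable (by simp)
  have hq1 : Differentiable ℝ (qm m) := hq.differentiable (by simp)
  have hp2 : Differentiable ℝ (deriv (rho : ℝ → ℝ)) :=
    ((contDiff_infty_iff_deriv.1 hp).2).differentiable (by simp)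
  have hq2 : Differentiable ℝ (deriv (qm m)) :=
    ((contDiff_infty_iff_deriv.1 hq).2).differentiable (by simp)
  simp only [fderiv_prod_left hp1 hq1, fderiv_prod_right hp1 hq1, fderiv_prod_left hp2 hq1,
    fderiv_prod_left hp1 hq2, fderiv_prod_right hp1 hq2] at h1
  rw [← h1, ← integral_test, ← integral_const_mul]
  have hcc : Continuous (fun z : ℝ × ℝ => rho z.1 * qm m z.2) := (contDiff_prod hp hq).continuous
  refine integral_mono_ae ((hcc.integrable_of_hasCompactSupport hcs).const_mul _) ?_ ?_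
  · refine integrable_cc hcc hcs (B := (Ca * ‖((1:ℝ), (0:ℝ))‖) * (Cb * ‖((0:ℝ), (1:ℝ))‖) +
      (Ca * ‖((0:ℝ), (1:ℝ))‖) * (Cb * ‖((1:ℝ), (0:ℝ))‖)) ?_ ?_
    · exact ((aestronglyMeasurable_lineDeriv ha.continuous volume).mul
        (aestronglyMeasurable_lineDeriv hb.continuous volume)).sub
        ((aestronglyMeasurable_lineDeriv ha.continuous volume).mul
        (aestronglyMeasurable_lineDeriv hb.continuous volume))
    · intro x
      refine (abs_sub _ _).trans ?_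
      rw [abs_mul, abs_mul]
      gcongr
      · exact lineDeriv_bound ha _ x
      · exact lineDeriv_bound hb _ x
      · exact lineDeriv_bound ha _ x
      · exact lineDeriv_bound hb _ x
  · filter_upwards [hdet] with x hx
    by_cases h2 : |x.1| ≤ 2
    · by_cases h3 : |x.2| ≤ 2 * ((m:ℝ) + 1)
      · have h4 := hx h2 h3
        have h5 : 0 ≤ rho x.1 * qm m x.2 := mul_nonneg rho.nonneg rho.nonneg
        calc -δ * (rho x.1 * qm m x.2) = (rho x.1 * qm m x.2) * (-δ) := by ring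
          _ ≤ _ := mul_le_mul_of_nonneg_left h4 h5
      · have h4 : qm m x.2 = 0 := by
          apply rho_eq_zero
          rw [abs_mul, abs_of_pos (show (0:ℝ) < ((m:ℝ) + 1)⁻¹ by (clear * -; positivity))]
          rw [not_le] at h3
          rw [lt_mul_inv_iff₀ (by positivity)]
          exact h3
        simp only [h4]
        simp
    · have h4 : rho x.1 = 0 := rho_eq_zero (not_le.1 h2)
      simp only [h4]
      simp only [zero_mul, mul_zero, Std.le_refl]

/-- the limiting inequality, approximate version -/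
lemma limit_ineq_approx {a b : ℕ → ℝ × ℝ → ℝ} (ha : ∀ m, ∃ C, LipschitzWith C (a m))
    (hb : ∀ m, ∃ C, LipschitzWith C (b m)) {B : ℝ} (haB : ∀ m x, |a m x| ≤ B)
    (hbB : ∀ m x, |b m x| ≤ B)
    (hab : ∀ m, ∀ᵐ x : ℝ × ℝ, lineDeriv ℝ (a m) x (0, 1) = lineDeriv ℝ (b m) x (1, 0))
    (hdet : ∀ m : ℕ, ∀ᵐ x : ℝ × ℝ, |x.1| ≤ 2 → |x.2| ≤ 2 * ((m:ℝ) + 1) →
      -(((m:ℝ) + 1)⁻¹ * ((m:ℝ) + 1)⁻¹) ≤
      lineDeriv ℝ (a m) x (1, 0) * lineDeriv ℝ (b m) x (0, 1) -
      lineDeriv ℝ (a m) x (0, 1) * lineDeriv ℝ (b m) x (1, 0))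
    {K : ℝ} (haK : ∀ m (s : ℝ × ℝ), |s.1| ≤ 2 → (a m s) ^ 2 ≤ K * (1 + s.2 ^ 2)⁻¹)
    (hbK : ∀ m (s : ℝ × ℝ), |s.1| ≤ 2 → (b m s) ^ 2 ≤ K * (1 + s.2 ^ 2)⁻¹)
    {bi : ℝ × ℝ → ℝ} (hlim : ∀ᵐ s : ℝ × ℝ, Tendsto (fun m => b m s) atTop (𝓝 (bi s))) :
    ∫ s : ℝ × ℝ, deriv (deriv (rho : ℝ → ℝ)) s.1 * (bi s) ^ 2 ≤ 0 := by
  have hinv : Tendsto (fun m : ℕ => ((m:ℝ) + 1)⁻¹) atTop (𝓝 0) := by
    simpa only [one_div] using tendsto_one_div_add_atTop_nhds_zero_nat (𝕜 := ℝ)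
  have hinv1 : ∀ m : ℕ, ((m:ℝ) + 1)⁻¹ ≤ 1 := fun m => inv_le_one_of_one_le₀ (by simp only [le_add_iff_nonneg_left, Nat.cast_nonneg])
  have hinv0 : ∀ m : ℕ, 0 ≤ ((m:ℝ) + 1)⁻¹ := fun m => by (clear * -; positivity)
  obtain ⟨M1, hM1⟩ := rho_deriv_smooth.continuous.bounded_above_of_compact_support rho_deriv_supp
  obtain ⟨M2, hM2⟩ := rho_deriv2_smooth.continuous.bounded_above_of_compact_support rho_deriv2_supp
  -- main inequality
  have hmain : ∀ m : ℕ, -((((m:ℝ) + 1)⁻¹) * ((∫ x : ℝ, rho x) * ∫ x : ℝ, rho x)) ≤ - (1/2) * (∫ s : ℝ × ℝ, (deriv (deriv (rho : ℝ → ℝ)) s.1 * qm m s.2) *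
        (b m s * b m s))
      + (∫ s : ℝ × ℝ, (deriv (rho : ℝ → ℝ) s.1 * deriv (qm m) s.2) * (a m s * b m s))
      - (1/2) * (∫ s : ℝ × ℝ, (rho s.1 * deriv (deriv (qm m)) s.2) * (a m s * a m s)) := by
    intro m
    obtain ⟨Ca, hCa⟩ := ha m
    obtain ⟨Cb, hCb⟩ := hb m
    have h := plane_ineq_approx m hCa hCb (haB m) (hbB m) (hab m) (hdet m)
    refine le_trans (le_of_eq ?_) h
    have h0 : ((m:ℝ) + 1) ≠ 0 := by (clear * -; positivity)
    (clear * - h0; field_simp)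
  -- first integral
  have t1 : Tendsto (fun m : ℕ => ∫ s : ℝ × ℝ, (deriv (deriv (rho : ℝ → ℝ)) s.1 * qm m s.2) *
        (b m s * b m s)) atTop
      (𝓝 (∫ s : ℝ × ℝ, deriv (deriv (rho : ℝ → ℝ)) s.1 * (bi s) ^ 2)) := by
    apply tendsto_integral_of_dominated_convergence
      (fun s : ℝ × ℝ => |deriv (deriv (rho : ℝ → ℝ)) s.1| * (K * (1 + s.2 ^ 2)⁻¹))
    · intro m
      obtain ⟨Cb, hCb⟩ := hb m
      have h1 := rho_deriv2_smooth.continuous
      have h2 := (qm_smooth m).continuous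
      have h3 := hCb.continuous
      exact Continuous.aestronglyMeasurable (by (clear * - h1 h2 h3; fun_prop))
    · exact integrable_bound rho_deriv2_smooth.continuous rho_deriv2_supp K
    · intro m
      refine Eventually.of_forall fun s => ?_
      rw [Real.norm_eq_abs, abs_mul, abs_mul]
      by_cases hs : |s.1| ≤ 2
      · have h1 : |qm m s.2| ≤ 1 := by
          rw [abs_of_nonneg (show (0:ℝ) ≤ qm m s.2 from rho.nonneg)]
          exact rho.le_one
        have h2 := abs_mul_le_of_sq (hbK m s hs) (hbK m s hs)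
        calc _ ≤ |deriv (deriv (rho : ℝ → ℝ)) s.1| * 1 * (K * (1 + s.2 ^ 2)⁻¹) := by (clear * - h1 h2; gcongr)
          _ = _ := by ring
      · rw [rho_deriv2_eq_zero (not_le.1 hs)]; simp
    · filter_upwards [hlim] with s hs
      have h1 : Tendsto (fun m : ℕ => qm m s.2) atTop (𝓝 1) := by
        have h2 : Tendsto (fun m : ℕ => s.2 * ((m:ℝ) + 1)⁻¹) atTop (𝓝 0) := by
          simpa only [mul_zero] using hinv.const_mul s.2
        have h3 := (rho_smooth.continuous.tendsto 0).comp h2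
        rw [rho_zero] at h3
        exact h3
      have h4 := (h1.const_mul (deriv (deriv (rho : ℝ → ℝ)) s.1)).mul (hs.mul hs)
      simpa only [sq, mul_one] using h4
  -- second integral
  have t2 : Tendsto (fun m : ℕ => ∫ s : ℝ × ℝ, (deriv (rho : ℝ → ℝ) s.1 * deriv (qm m) s.2) *
        (a m s * b m s)) atTop (𝓝 0) := by
    have hI := integrable_bound rho_deriv_smooth.continuous rho_deriv_supp (M1 * K)
    have hle : ∀ m : ℕ, ‖∫ s : ℝ × ℝ, (deriv (rho : ℝ → ℝ) s.1 * deriv (qm m) s.2) *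
        (a m s * b m s)‖ ≤ ((m:ℝ) + 1)⁻¹ *
          ∫ s : ℝ × ℝ, |deriv (rho : ℝ → ℝ) s.1| * ((M1 * K) * (1 + s.2 ^ 2)⁻¹) := by
      intro m
      rw [← integral_const_mul]
      apply norm_integral_le_of_norm_le (hI.const_mul _)
      refine Eventually.of_forall fun s => ?_
      rw [Real.norm_eq_abs, abs_mul, abs_mul, qm_deriv]
      simp only
      by_cases hs : |s.1| ≤ 2
      · have h2 := abs_mul_le_of_sq (haK m s hs) (hbK m s hs)
        have h3 : |deriv (rho : ℝ → ℝ) (s.2 * ((m:ℝ) + 1)⁻¹) * ((m:ℝ) + 1)⁻¹| ≤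
            M1 * ((m:ℝ) + 1)⁻¹ := by
          rw [abs_mul, abs_of_nonneg (hinv0 m)]
          gcongr
          exact hM1 _
        have h4 : 0 ≤ M1 := (norm_nonneg _).trans (hM1 0)
        calc _ ≤ |deriv (rho : ℝ → ℝ) s.1| * (M1 * ((m:ℝ) + 1)⁻¹) * (K * (1 + s.2 ^ 2)⁻¹) := by
              (clear * - h3 h2 h4; gcongr)
          _ = _ := by ring
      · rw [rho_deriv_eq_zero (not_le.1 hs)]; simp only [abs_zero, abs_mul, abs_inv, zero_mul, mul_zero, Std.le_refl]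
    refine squeeze_zero_norm hle ?_
    simpa only [zero_mul] using     hinv.mul_const (∫ s : ℝ × ℝ, |deriv (rho : ℝ → ℝ) s.1| * ((M1 * K) * (1 + s.2 ^ 2)⁻¹))
  -- third integral
  have t3 : Tendsto (fun m : ℕ => ∫ s : ℝ × ℝ, (rho s.1 * deriv (deriv (qm m)) s.2) *
        (a m s * a m s)) atTop (𝓝 0) := by
    have hI := integrable_bound rho_smooth.continuous rho_supp (M2 * K)
    have hle : ∀ m : ℕ, ‖∫ s : ℝ × ℝ, (rho s.1 * deriv (deriv (qm m)) s.2) *
        (a m s * a m s)‖ ≤ ((m:ℝ) + 1)⁻¹ *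
          ∫ s : ℝ × ℝ, |rho s.1| * ((M2 * K) * (1 + s.2 ^ 2)⁻¹) := by
      intro m
      rw [← integral_const_mul]
      apply norm_integral_le_of_norm_le (hI.const_mul _)
      refine Eventually.of_forall fun s => ?_
      rw [Real.norm_eq_abs, abs_mul, abs_mul, qm_deriv2]
      simp only
      by_cases hs : |s.1| ≤ 2
      · have h2 := abs_mul_le_of_sq (haK m s hs) (haK m s hs)
        have h4 : 0 ≤ M2 := (norm_nonneg _).trans (hM2 0)
        have h3 : |deriv (deriv (rho : ℝ → ℝ)) (s.2 * ((m:ℝ) + 1)⁻¹) * ((m:ℝ) + 1)⁻¹ *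
            ((m:ℝ) + 1)⁻¹| ≤ M2 * ((m:ℝ) + 1)⁻¹ * 1 := by
          rw [abs_mul, abs_mul, abs_of_nonneg (hinv0 m)]
          have h6 := hinv0 m
          gcongr
          · exact hM2 _
          · exact hinv1 m
        calc _ ≤ |rho s.1| * (M2 * ((m:ℝ) + 1)⁻¹ * 1) * (K * (1 + s.2 ^ 2)⁻¹) := by
              (clear * - h3 h2 h4; gcongr)
          _ = _ := by ring
      · rw [rho_eq_zero (not_le.1 hs)]; simp only [abs_zero, abs_mul, abs_inv, zero_mul, abs_mul_abs_self, mul_zero, Std.le_refl]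
    refine squeeze_zero_norm hle ?_
    simpa only [zero_mul] using hinv.mul_const (∫ s : ℝ × ℝ, |rho s.1| * ((M2 * K) * (1 + s.2 ^ 2)⁻¹))
  have t4 := ((t1.const_mul (-(1/2))).add t2).sub (t3.const_mul (1/2))
  have t5 : Tendsto (fun m : ℕ => -((((m:ℝ) + 1)⁻¹) * ((∫ x : ℝ, rho x) * ∫ x : ℝ, rho x))) atTop
      (𝓝 0) := by
    simpa only [zero_mul, neg_zero] using (hinv.mul_const ((∫ x : ℝ, rho x) * ∫ x : ℝ, rho x)).neg
  have h5 := le_of_tendsto_of_tendsto' t5 t4 hmain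
  linarith only [h5]

end P084.Ep
end

/- UCEndB -/
section
/-!
The endgame in arbitrary normed spaces: the core inequality with approximate base points.
-/

open MeasureTheory Set Topology Filter Metric
open scoped NNReal ENNReal ContDiff

namespace P084.Ep

variable {X : Type*} [NormedAddCommGroup X] [NormedSpace ℝ X]

section CoreInf

variable {G : X → (X →L[ℝ] ℝ)} {e₁ e₂ : X} {C : ℝ}

/-- the core statement, for arbitrary normed spaces, with approximate base points -/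
theorem core_inf
    (hind : ∀ s t : ℝ, s • e₁ + t • e₂ = 0 → s = 0 ∧ t = 0)
    (hC0 : 0 ≤ C) (hG0 : G e₂ = 0)
    (hGs : ∀ t : ℝ, t ≠ 0 → ∀ x, G (t • x) = G x)
    (hGC : ∀ x y, x ≠ 0 → y ≠ 0 → ‖x‖ * ‖G x - G y‖ ≤ C * ‖x - y‖)
    (hbase : ∀ m : ℕ, ∃ c : X, ‖c‖ < ((m:ℝ) + 1)⁻¹ ∧ c ∉ Submodule.span ℝ {e₁, e₂} ∧
      (∀ᵐ s : ℝ × ℝ, lineDeriv ℝ (fun s => G (c + LL e₁ e₂ s) e₁) s (0, 1) =
        lineDeriv ℝ (fun s => G (c + LL e₁ e₂ s) e₂) s (1, 0)) ∧
      ∀ᵐ s : ℝ × ℝ, |s.1| ≤ 2 → |s.2| ≤ 2 * ((m:ℝ) + 1) →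
        -(((m:ℝ) + 1)⁻¹ * ((m:ℝ) + 1)⁻¹) ≤
        lineDeriv ℝ (fun s => G (c + LL e₁ e₂ s) e₁) s (1, 0) *
          lineDeriv ℝ (fun s => G (c + LL e₁ e₂ s) e₂) s (0, 1) -
        lineDeriv ℝ (fun s => G (c + LL e₁ e₂ s) e₁) s (0, 1) *
          lineDeriv ℝ (fun s => G (c + LL e₁ e₂ s) e₂) s (1, 0)) (t : ℝ) :
    G (e₁ + t • e₂) e₂ = 0 := by
  have he2 : e₂ ≠ 0 := by
    rintro rfl
    have := (hind 0 1 (by simp)).2
    norm_num at this
  have hLL : ∀ s : ℝ × ℝ, s ≠ 0 → LL e₁ e₂ s ≠ 0 := by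
    intro s hs h
    have := hind s.1 s.2 h
    exact hs (Prod.ext this.1 this.2)
  have hLP : ∀ s : ℝ × ℝ, LL e₁ e₂ s ∈ Submodule.span ℝ {e₁, e₂} := by
    intro s
    rw [LL_apply]
    exact Submodule.add_mem _ (Submodule.smul_mem _ _ (Submodule.subset_span (by simp)))
      (Submodule.smul_mem _ _ (Submodule.subset_span (by simp)))
  choose c hc1 hc2 hc3 hc4 using hbase
  have hinv1 : ∀ m : ℕ, ((m:ℝ) + 1)⁻¹ ≤ 1 := fun m => inv_le_one_of_one_le₀ (by simp only [le_add_iff_nonneg_left, Nat.cast_nonneg])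
  have hc1' : ∀ m, ‖c m‖ ≤ 1 := fun m => (hc1 m).le.trans (hinv1 m)
  have hx0 : ∀ m s, c m + LL e₁ e₂ s ≠ 0 := by
    intro m s h
    apply hc2 m
    rw [eq_neg_of_add_eq_zero_left h]
    exact Submodule.neg_mem _ (hLP s)
  -- lower bound
  have hlow : ∀ m, ∃ δ > 0, ∀ s, δ ≤ ‖c m + LL e₁ e₂ s‖ := by
    intro m
    have : FiniteDimensional ℝ (Submodule.span ℝ {e₁, e₂}) :=
      FiniteDimensional.span_of_finite ℝ (Set.toFinite _)
    have hcl : IsClosed (Submodule.span ℝ {e₁, e₂} : Set X) :=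
      Submodule.closed_of_finiteDimensional _
    have hne : (Submodule.span ℝ {e₁, e₂} : Set X).Nonempty := ⟨0, Submodule.zero_mem _⟩
    refine ⟨infDist (c m) (Submodule.span ℝ {e₁, e₂} : Set X),
      (hcl.notMem_iff_infDist_pos hne).1 (hc2 m), fun s => ?_⟩
    have := infDist_le_dist_of_mem (x := c m) (Submodule.neg_mem _ (hLP s))
    rw [dist_eq_norm, sub_neg_eq_add] at this
    exact this
  have hGlip : ∀ m (w : X), ∃ K : ℝ≥0, LipschitzWith K (fun s => G (c m + LL e₁ e₂ s) w) := by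
    intro m w
    obtain ⟨δ, hδ, hδl⟩ := hlow m
    refine ⟨_, LipschitzWith.of_dist_le' (K := (C / δ) * (‖e₁‖ + ‖e₂‖) * ‖w‖) fun s s' => ?_⟩
    have h1 := hGC _ _ (hx0 m s) (hx0 m s')
    have h2 : ‖G (c m + LL e₁ e₂ s) - G (c m + LL e₁ e₂ s')‖ ≤
        (C / δ) * (‖e₁‖ + ‖e₂‖) * dist s s' := by
      have h3 : δ * ‖G (c m + LL e₁ e₂ s) - G (c m + LL e₁ e₂ s')‖ ≤
          C * ((‖e₁‖ + ‖e₂‖) * dist s s') := by
        calc _ ≤ ‖c m + LL e₁ e₂ s‖ * ‖G (c m + LL e₁ e₂ s) - G (c m + LL e₁ e₂ s')‖ := by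
              gcongr; exact hδl s
          _ ≤ _ := h1
          _ ≤ _ := by
              gcongr
              rw [add_sub_add_left_eq_sub]
              exact LL_dist _ _ _ _
      rw [div_mul_eq_mul_div, div_mul_eq_mul_div, le_div_iff₀ hδ]
      linarith
    rw [Real.dist_eq]
    calc |G (c m + LL e₁ e₂ s) w - G (c m + LL e₁ e₂ s') w| =
        ‖(G (c m + LL e₁ e₂ s) - G (c m + LL e₁ e₂ s')) w‖ := rfl
      _ ≤ ‖G (c m + LL e₁ e₂ s) - G (c m + LL e₁ e₂ s')‖ * ‖w‖ :=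
          ContinuousLinearMap.le_opNorm _ _
      _ ≤ (C / δ) * (‖e₁‖ + ‖e₂‖) * dist s s' * ‖w‖ := by (clear * - h2; gcongr)
      _ = _ := by ring
  have hl10 : LL e₁ e₂ (1, 0) = e₁ := by simp
  have hl01 : LL e₁ e₂ (0, 1) = e₂ := by simp only [LL_apply, zero_smul, one_smul, zero_add]
  set K := (C ^ 2 + (2 * C * (1 + 2 * ‖e₁‖) / ‖e₂‖) ^ 2) * (‖e₁‖ ^ 2 + ‖e₂‖ ^ 2) with hK
  have hdec : ∀ (x w : X) (r : ℝ), 0 ≤ r → ‖w‖ ^ 2 ≤ ‖e₁‖ ^ 2 + ‖e₂‖ ^ 2 →
      ‖G x‖ ^ 2 ≤ (C ^ 2 + (2 * C * (1 + 2 * ‖e₁‖) / ‖e₂‖) ^ 2) * r → (G x w) ^ 2 ≤ K * r := by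
    intro x w r hr hw h
    have h1 : |G x w| ≤ ‖G x‖ * ‖w‖ := (G x).le_opNorm w
    calc (G x w) ^ 2 = |G x w| ^ 2 := (sq_abs _).symm
      _ ≤ (‖G x‖ * ‖w‖) ^ 2 := by (clear * - h1; gcongr)
      _ = ‖G x‖ ^ 2 * ‖w‖ ^ 2 := by ring
      _ ≤ ((C ^ 2 + (2 * C * (1 + 2 * ‖e₁‖) / ‖e₂‖) ^ 2) * r) * (‖e₁‖ ^ 2 + ‖e₂‖ ^ 2) := by
          (clear * - h hw hr; gcongr)
      _ = _ := by rw [hK]; ring
  have he1s : ‖e₁‖ ^ 2 ≤ ‖e₁‖ ^ 2 + ‖e₂‖ ^ 2 := by nlinarith only []
  have he2s : ‖e₂‖ ^ 2 ≤ ‖e₁‖ ^ 2 + ‖e₂‖ ^ 2 := by nlinarith only []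
  have hbd : ∀ (w : X), ‖w‖ ≤ ‖e₁‖ + ‖e₂‖ → ∀ m s,
      |G (c m + LL e₁ e₂ s) w| ≤ C * (‖e₁‖ + ‖e₂‖) := by
    intro w hw m s
    calc _ ≤ ‖G (c m + LL e₁ e₂ s)‖ * ‖w‖ := (G (c m + LL e₁ e₂ s)).le_opNorm w
      _ ≤ _ := by
        have := core_bound hC0 he2 hG0 hGs hGC (hx0 m s)
        (clear * - this hw hC0; gcongr)
  -- pointwise limit
  have hpt : ∀ s : ℝ × ℝ, s ≠ 0 → Tendsto (fun m => G (c m + LL e₁ e₂ s) e₂) atTop
      (𝓝 (G (LL e₁ e₂ s) e₂)) := by
    intro s hs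
    have hLs := hLL s hs
    have hinv : Tendsto (fun m : ℕ => ((m:ℝ) + 1)⁻¹) atTop (𝓝 0) := by
      simpa only [one_div] using tendsto_one_div_add_atTop_nhds_zero_nat (𝕜 := ℝ)
    rw [tendsto_iff_norm_sub_tendsto_zero]
    have hn : 0 < ‖LL e₁ e₂ s‖ := norm_pos_iff.2 hLs
    have hbb : ∀ m : ℕ, ‖G (c m + LL e₁ e₂ s) e₂ - G (LL e₁ e₂ s) e₂‖ ≤
        (C / ‖LL e₁ e₂ s‖ * ‖e₂‖) * ((m:ℝ) + 1)⁻¹ := by
      intro m
      have h1 := hGC _ _ hLs (hx0 m s)
      have h2 : ‖LL e₁ e₂ s - (c m + LL e₁ e₂ s)‖ ≤ ((m:ℝ) + 1)⁻¹ := by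
        rw [show LL e₁ e₂ s - (c m + LL e₁ e₂ s) = - c m by abel, norm_neg]
        exact (hc1 m).le
      have h4 : ‖G (c m + LL e₁ e₂ s) - G (LL e₁ e₂ s)‖ ≤
          C / ‖LL e₁ e₂ s‖ * ((m:ℝ) + 1)⁻¹ := by
        rw [norm_sub_rev, div_mul_eq_mul_div, le_div_iff₀ hn, mul_comm]
        exact h1.trans (mul_le_mul_of_nonneg_left h2 hC0)
      calc _ = ‖(G (c m + LL e₁ e₂ s) - G (LL e₁ e₂ s)) e₂‖ := rfl
        _ ≤ ‖G (c m + LL e₁ e₂ s) - G (LL e₁ e₂ s)‖ * ‖e₂‖ := ContinuousLinearMap.le_opNorm _ _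
        _ ≤ (C / ‖LL e₁ e₂ s‖ * ((m:ℝ) + 1)⁻¹) * ‖e₂‖ := by (clear * - h4 he2; gcongr)
        _ = _ := by ring
    refine squeeze_zero (fun m => norm_nonneg _) hbb ?_
    simpa only [LL_apply, mul_zero] using hinv.const_mul (C / ‖LL e₁ e₂ s‖ * ‖e₂‖)
  have hae0 : ∀ᵐ s : ℝ × ℝ, s ≠ 0 := by
    have : (volume : Measure (ℝ × ℝ)) {(0 : ℝ × ℝ)} = 0 := measure_singleton _
    exact measure_eq_zero_iff_ae_notMem.1 this
  have hlimineq := limit_ineq_approx
    (a := fun m s => G (c m + LL e₁ e₂ s) e₁) (b := fun m s => G (c m + LL e₁ e₂ s) e₂)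
    (fun m => hGlip m e₁) (fun m => hGlip m e₂)
    (fun m s => hbd e₁ (by linarith only [norm_nonneg e₂]) m s)
    (fun m s => hbd e₂ (by linarith only [norm_nonneg e₁]) m s)
    hc3 hc4
    (K := K)
    (fun m s hs => hdec _ _ _ (by (clear * -; positivity)) he1s
      (core_decay hC0 he2 hG0 hGs hGC (hc1' m) hs (hx0 m s)))
    (fun m s hs => hdec _ _ _ (by (clear * -; positivity)) he2s
      (core_decay hC0 he2 hG0 hGs hGC (hc1' m) hs (hx0 m s)))
    (bi := fun s => G (LL e₁ e₂ s) e₂)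
    (by filter_upwards [hae0] with s hs using hpt s hs)
  -- decay of the limit
  have hbi : ∀ s : ℝ × ℝ, s ≠ 0 → |s.1| ≤ 2 → (G (LL e₁ e₂ s) e₂) ^ 2 ≤ K * (1 + s.2 ^ 2)⁻¹ := by
    intro s hs hs2
    have := core_decay (e₁ := e₁) (e₂ := e₂) hC0 he2 hG0 hGs hGC (c := 0) (by simp only [norm_zero, zero_le_one]) hs2
      (by rw [zero_add]; exact hLL s hs)
    rw [zero_add] at this
    exact hdec _ _ _ (by (clear * -; positivity)) he2s this
  -- continuity
  have hGcont : ∀ x, x ≠ 0 → ContinuousAt G x := by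
    intro x hx
    have hn : 0 < ‖x‖ := norm_pos_iff.2 hx
    rw [ContinuousAt, tendsto_iff_norm_sub_tendsto_zero]
    have h1 : Tendsto (fun y => C / ‖x‖ * ‖y - x‖) (𝓝 x) (𝓝 0) := by
      have : Tendsto (fun y => ‖y - x‖) (𝓝 x) (𝓝 0) := by
        have h2 := tendsto_iff_norm_sub_tendsto_zero.1 (tendsto_id (x := 𝓝 x))
        simpa only [id_eq] using h2
      simpa only [mul_zero] using this.const_mul (C / ‖x‖)
    refine squeeze_zero' (Eventually.of_forall fun y => norm_nonneg _) ?_ h1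
    filter_upwards [isOpen_ne.mem_nhds hx] with y hy
    have h2 := hGC x y hx hy
    rw [norm_sub_rev (G y), norm_sub_rev y, div_mul_eq_mul_div, le_div_iff₀ hn, mul_comm]
    exact h2
  have hbcont : ContinuousOn (fun s => G (LL e₁ e₂ s) e₂) {0}ᶜ := by
    intro s hs
    have h1 : ContinuousAt (fun s => G (LL e₁ e₂ s)) s :=
      ContinuousAt.comp (hGcont _ (hLL s hs)) (LL e₁ e₂).continuous.continuousAt
    exact (h1.clm_apply continuousAt_const).continuousWithinAt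
  have hβcont : Continuous (fun t : ℝ => G (LL e₁ e₂ (1, t)) e₂) := by
    rw [continuous_iff_continuousAt]
    intro t
    have hne : ((1:ℝ), t) ≠ 0 := by
      intro h
      have := congrArg Prod.fst h
      norm_num at this
    have h1 : ContinuousAt (fun s => G (LL e₁ e₂ s) e₂) (1, t) :=
      (hbcont _ hne).continuousAt (isOpen_compl_singleton.mem_nhds hne)
    have h2 : ContinuousAt (fun t : ℝ => ((1:ℝ), t)) t := by fun_prop
    exact h1.comp (f := fun t : ℝ => ((1:ℝ), t)) h2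
  have hne1 : ∀ t : ℝ, ((1:ℝ), t) ≠ 0 := by
    intro t h
    have := congrArg Prod.fst h
    norm_num at this
  have hβle : ∀ t : ℝ, (G (LL e₁ e₂ (1, t)) e₂) ^ 2 ≤ K * (1 + t ^ 2)⁻¹ := fun t =>
    hbi (1, t) (hne1 t) (by norm_num)
  have hβint : Integrable (fun t : ℝ => (G (LL e₁ e₂ (1, t)) e₂) ^ 2) := by
    refine (integrable_inv_one_add_sq.const_mul K).mono' (hβcont.pow 2).aestronglyMeasurable
      (Eventually.of_forall fun t => ?_)
    rw [Real.norm_of_nonneg (sq_nonneg _)]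
    exact hβle t
  -- integrability on the plane
  have hfint : Integrable (fun s : ℝ × ℝ => deriv (deriv (rho : ℝ → ℝ)) s.1 *
      (G (LL e₁ e₂ s) e₂) ^ 2) := by
    refine (integrable_bound rho_deriv2_smooth.continuous rho_deriv2_supp K).mono' ?_ ?_
    · have h1 : ContinuousOn (fun s : ℝ × ℝ => deriv (deriv (rho : ℝ → ℝ)) s.1 *
          (G (LL e₁ e₂ s) e₂) ^ 2) {0}ᶜ :=
        ((rho_deriv2_smooth.continuous.comp continuous_fst).continuousOn).mul (hbcont.pow 2)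
      have h2 := h1.aestronglyMeasurable (μ := (volume : Measure (ℝ × ℝ)))
        (measurableSet_singleton 0).compl
      have hae0' : ∀ᵐ s : ℝ × ℝ, s ∈ ({0}ᶜ : Set (ℝ × ℝ)) := hae0
      rwa [Measure.restrict_eq_self_of_ae_mem hae0'] at h2
    · filter_upwards [hae0] with s hs
      rw [Real.norm_eq_abs, abs_mul, abs_of_nonneg (sq_nonneg (G (LL e₁ e₂ s) e₂))]
      by_cases hs2 : |s.1| ≤ 2
      · exact mul_le_mul_of_nonneg_left (hbi s hs hs2) (abs_nonneg _)
      · rw [rho_deriv2_eq_zero (not_le.1 hs2)]; simp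
  -- the computation
  set J := ∫ t : ℝ, (G (LL e₁ e₂ (1, t)) e₂) ^ 2 with hJ
  have hslice : ∀ σ : ℝ, σ ≠ 0 → ∫ t : ℝ, deriv (deriv (rho : ℝ → ℝ)) σ *
      (G (LL e₁ e₂ (σ, t)) e₂) ^ 2 = deriv (deriv (rho : ℝ → ℝ)) σ * |σ| * J := by
    intro σ hσ
    have h1 : ∀ t : ℝ, (G (LL e₁ e₂ (σ, t)) e₂) ^ 2 =
        (fun r : ℝ => (G (LL e₁ e₂ (1, r)) e₂) ^ 2) (t / σ) := by
      intro t
      have h2 : LL e₁ e₂ (σ, t) = σ • LL e₁ e₂ (1, t / σ) := by
        rw [← map_smul]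
        congr 1
        ext
        · simp
        · simp only [Prod.smul_mk, smul_eq_mul]
          (clear * - hσ; field_simp)
      simp only
      rw [h2, hGs σ hσ]
    have h5 := Measure.integral_comp_div (fun r : ℝ => (G (LL e₁ e₂ (1, r)) e₂) ^ 2) σ
    have h6 : ∫ t : ℝ, (G (LL e₁ e₂ (σ, t)) e₂) ^ 2 = |σ| * J := by
      rw [hJ, ← smul_eq_mul, ← h5]
      exact integral_congr_ae (Eventually.of_forall h1)
    rw [integral_const_mul, h6, mul_assoc]
  have hfub : ∫ s : ℝ × ℝ, deriv (deriv (rho : ℝ → ℝ)) s.1 * (G (LL e₁ e₂ s) e₂) ^ 2 = 2 * J := by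
    rw [Measure.volume_eq_prod] at hfint ⊢
    rw [integral_prod _ hfint]
    have h1 : ∀ᵐ σ : ℝ, ∫ t : ℝ, deriv (deriv (rho : ℝ → ℝ)) σ *
        (G (LL e₁ e₂ (σ, t)) e₂) ^ 2 = deriv (deriv (rho : ℝ → ℝ)) σ * |σ| * J := by
      have : ∀ᵐ σ : ℝ, σ ≠ 0 :=
        measure_eq_zero_iff_ae_notMem.1 (measure_singleton (μ := (volume : Measure ℝ)) 0)
      filter_upwards [this] with σ hσ using hslice σ hσ
    rw [integral_congr_ae h1, integral_mul_const, integral_rho_abs]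
  rw [hfub] at hlimineq
  have hJ0 : J = 0 := le_antisymm (by linarith only [hlimineq]) (integral_nonneg fun t => sq_nonneg _)
  have hz := (integral_eq_zero_iff_of_nonneg (fun t => sq_nonneg _) hβint).1 hJ0
  have hz2 := (hβcont.pow 2).ae_eq_iff_eq volume continuous_const |>.1 hz
  have hz3 := congrFun hz2 t
  simp only [LL_apply, one_smul] at hz3
  exact pow_eq_zero_iff (two_ne_zero) |>.1 hz3

end CoreInf

section LinInf

variable {u : X → ℝ}

/-- additivity from approximate base points -/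
theorem linear_of_base (hhom : ∀ (t : ℝ) x, u (t • x) = t * u x)
    (hu : ∀ x, x ≠ 0 → DifferentiableAt ℝ u x) {C : ℝ} (hC0 : 0 ≤ C)
    (hC : ∀ x y, x ≠ 0 → y ≠ 0 → ‖x‖ * ‖fderiv ℝ u x - fderiv ℝ u y‖ ≤ C * ‖x - y‖)
    (hbase : ∀ e₁ e₂ : X, (∀ s t : ℝ, s • e₁ + t • e₂ = 0 → s = 0 ∧ t = 0) → ∀ m : ℕ,
      ∃ c : X, ‖c‖ < ((m:ℝ) + 1)⁻¹ ∧ c ∉ Submodule.span ℝ {e₁, e₂} ∧
      (∀ᵐ s : ℝ × ℝ, lineDeriv ℝ (fun s => fderiv ℝ u (c + LL e₁ e₂ s) e₁) s (0, 1) =
        lineDeriv ℝ (fun s => fderiv ℝ u (c + LL e₁ e₂ s) e₂) s (1, 0)) ∧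
      ∀ᵐ s : ℝ × ℝ, |s.1| ≤ 2 → |s.2| ≤ 2 * ((m:ℝ) + 1) →
        -(((m:ℝ) + 1)⁻¹ * ((m:ℝ) + 1)⁻¹) ≤
        lineDeriv ℝ (fun s => fderiv ℝ u (c + LL e₁ e₂ s) e₁) s (1, 0) *
          lineDeriv ℝ (fun s => fderiv ℝ u (c + LL e₁ e₂ s) e₂) s (0, 1) -
        lineDeriv ℝ (fun s => fderiv ℝ u (c + LL e₁ e₂ s) e₁) s (0, 1) *
          lineDeriv ℝ (fun s => fderiv ℝ u (c + LL e₁ e₂ s) e₂) s (1, 0)) (x y : X) :
    u (x + y) = u x + u y := by
  -- reduction to independent vectors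
  by_cases hind : ∀ s t : ℝ, s • x + t • y = 0 → s = 0 ∧ t = 0
  swap
  · push Not at hind
    obtain ⟨s, t, h0, h1⟩ := hind
    by_cases hs : s = 0
    · have ht := h1 hs
      have hy : y = 0 := by
        rw [hs, zero_smul, zero_add] at h0
        exact (smul_eq_zero.1 h0).resolve_left ht
      have hu0 : u 0 = 0 := by
        have := hhom 0 0
        simpa using this
      rw [hy, add_zero, hu0, add_zero]
    · have hx : x = (-(t / s)) • y := by
        have : s • x = (-t) • y := by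
          rw [neg_smul]; exact eq_neg_of_add_eq_zero_left h0
        calc x = s⁻¹ • s • x := by rw [smul_smul, inv_mul_cancel₀ hs, one_smul]
          _ = _ := by rw [this, smul_smul]; congr 1; field_simp
      have h5 : x + y = (-(t / s) + 1) • y := by rw [add_smul, one_smul, ← hx]
      rw [h5, hhom, hx, hhom]; ring
  · have hy : y ≠ 0 := by
      rintro rfl
      have := (hind 0 1 (by simp)).2
      norm_num at this
    have hld : ∀ (c w : X) (s v : ℝ × ℝ),
        lineDeriv ℝ (fun s => (fderiv ℝ u (c + LL x y s) - fderiv ℝ u y) w) s v =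
        lineDeriv ℝ (fun s => fderiv ℝ u (c + LL x y s) w) s v := by
      intro c w s v
      unfold lineDeriv
      simp only [sub_apply]
      rw [deriv_sub_const]
    have hcore := core_inf (G := fun z => fderiv ℝ u z - fderiv ℝ u y) (e₁ := x) (e₂ := y)
      hind hC0 (sub_self _) (fun t ht z => by simp only [fderiv_hom hhom hu ht z])
      (fun a b ha hb => by
        rw [sub_sub_sub_cancel_right]; exact hC a b ha hb)
      (by
        intro m
        obtain ⟨c, h1, h2, h3, h4⟩ := hbase x y hind m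
        refine ⟨c, h1, h2, ?_, ?_⟩
        · filter_upwards [h3] with s hs
          rw [hld, hld]; exact hs
        · filter_upwards [h4] with s hs
          rw [hld, hld, hld, hld]; exact hs)
    -- conclusion
    have hxy : ∀ t : ℝ, x + t • y ≠ 0 := by
      intro t h
      have := (hind 1 t (by rwa [one_smul])).1
      norm_num at this
    have hd : ∀ t : ℝ, HasDerivAt (fun t : ℝ => u (x + t • y) - t * u y) 0 t := by
      intro t
      have h1 : HasDerivAt (fun t : ℝ => x + t • y) y t := by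
        simpa only [hasDerivAt_const_add_iff, id_eq, one_smul] using ((hasDerivAt_id t).smul_const y).const_add x
      have h2 := (hu _ (hxy t)).hasFDerivAt.comp_hasDerivAt t h1
      have h4 := h2.sub ((hasDerivAt_id t).mul_const (u y))
      refine h4.congr_deriv ?_
      have h5 := hcore t
      simp only [sub_apply] at h5
      rw [fderiv_euler hhom hu hy] at h5
      rw [one_mul]
      exact h5
    have h6 := is_const_of_deriv_eq_zero (f := fun t : ℝ => u (x + t • y) - t * u y)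
      (fun t => (hd t).differentiableAt) (fun t => (hd t).deriv) 1 0
    simp only [one_smul, one_mul, zero_smul, add_zero, zero_mul, sub_zero] at h6
    linarith only [h6]

end LinInf

end P084.Ep
end
end
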