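import Vale.Agent.P084.MathlibUsed
import Vale.Agent.P084.Bdl.B2
import Vale.Agent.P084.Bdl.B1

set_option linter.all false

section

/- SmAlg -/
section
/-!
The algebraic lemma on second order jets.
-/

open Set Filter Topology Metric

noncomputable section

namespace P084


theorem tendsto_clm_apply {α E F : Type*} [NormedAddCommGroup E] [NormedSpace ℝ E]
    [NormedAddCommGroup F] [NormedSpace ℝ F] {l : Filter α} {f : α → E →L[ℝ] F} {x : α → E}
    {f₀ : E →L[ℝ] F} {x₀ : E} (hf : Tendsto f l (𝓝 f₀)) (hx : Tendsto x l (𝓝 x₀)) :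
    Tendsto (fun i => f i (x i)) l (𝓝 (f₀ x₀)) :=
  ((isBoundedBilinearMap_apply (𝕜 := ℝ) (E := E) (F := F)).continuous.tendsto (f₀, x₀)).comp
    (hf.prodMk_nhds hx)

variable {T : Type*} [NormedAddCommGroup T] [NormedSpace ℝ T]

/-- Linear flow: a nilpotent infinitesimal isometry vanishes. -/
theorem SmoothNorm.lin_flow (hT : SmoothNorm T) (u v : T)
    (h : ∀ t : ℝ, u + t • v ≠ 0 → dn (u + t • v) v = 0) (hne : ∀ t : ℝ, u + t • v ≠ 0) :
    v = 0 := by
  have hd : ∀ t : ℝ, HasDerivAt (fun t : ℝ => ‖u + t • v‖) 0 t := by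
    intro t
    have h1 : HasDerivAt (fun t : ℝ => u + t • v) v t := by
      have := ((hasDerivAt_id t).smul_const v).const_add u
      simpa using this
    have h3 := (hT.hasFDerivAt (hne t)).comp_hasDerivAt t h1
    rw [h t (hne t)] at h3
    exact h3
  have hc : ∀ t : ℝ, ‖u + t • v‖ = ‖u‖ := by
    intro t
    have h5 := is_const_of_deriv_eq_zero (f := fun t : ℝ => ‖u + t • v‖)
      (fun t => (hd t).differentiableAt) (fun t => (hd t).deriv) t 0
    simpa using h5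
  by_contra hv
  have hv' : 0 < ‖v‖ := norm_pos_iff.mpr hv
  have h1 := hc ((2 * ‖u‖ + 1) / ‖v‖)
  have h2 : ‖((2 * ‖u‖ + 1) / ‖v‖) • v‖ = 2 * ‖u‖ + 1 := by
    rw [norm_smul, Real.norm_eq_abs, abs_of_pos (by (clear * - hv; positivity))]
    field_simp
  have h3 : ‖((2 * ‖u‖ + 1) / ‖v‖) • v‖ ≤ ‖u + ((2 * ‖u‖ + 1) / ‖v‖) • v‖ + ‖u‖ := by
    have : ((2 * ‖u‖ + 1) / ‖v‖) • v = (u + ((2 * ‖u‖ + 1) / ‖v‖) • v) - u := by abel
    calc ‖((2 * ‖u‖ + 1) / ‖v‖) • v‖ = ‖(u + ((2 * ‖u‖ + 1) / ‖v‖) • v) - u‖ := by rw [← this]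
      _ ≤ _ := norm_sub_le _ _
  rw [h1, h2] at h3
  linarith only [h3]

variable [FiniteDimensional ℝ T]

end P084
end 
end

/- SmAlgInf -/
section
/-!
The algebraic lemma on second order jets, without compactness.
-/

open Set Filter Topology Metric

noncomputable section

namespace P084

variable {T : Type*} [NormedAddCommGroup T] [NormedSpace ℝ T]

/-- Cauchy-Schwarz. -/
theorem psd_cs (g : T →L[ℝ] T →L[ℝ] ℝ) (gs : ∀ u v, g u v = g v u) (gp : ∀ u, 0 ≤ g u u)
    (u v : T) : g u v ^ 2 ≤ g u u * g v v := by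
  have key : ∀ t : ℝ, 0 ≤ g v v * (t * t) + (2 * g u v) * t + g u u := by
    intro t
    have := gp (u + t • v)
    simp only [map_add, map_smul, _root_.add_apply, _root_.smul_apply, smul_eq_mul, gs v u] at this
    linarith only [this]
  have := discrim_le_zero key
  rw [discrim] at this
  linarith

theorem psd_zero' (g : T →L[ℝ] T →L[ℝ] ℝ) (gs : ∀ u v, g u v = g v u) (gp : ∀ u, 0 ≤ g u u)
    {w : T} (hw : g w w = 0) (v : T) : g w v = 0 := by
  have := psd_cs g gs gp w v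
  rw [hw, zero_mul] at this
  exact pow_eq_zero_iff two_ne_zero |>.mp (le_antisymm this (sq_nonneg _))

/-- If `z + t S z` never changes its length then `S z` vanishes. -/
theorem SmoothNorm.nilp_zero (hT : SmoothNorm T) (S : T →L[ℝ] T) (W : Submodule ℝ T)
    (hW : ∀ u ∈ W, S u ∈ W) (hdn : ∀ u ∈ W, u ≠ 0 → dn u (S u) = 0) {u : T} (hu : u ∈ W)
    (h2 : S (S u) = 0) : S u = 0 := by
  by_contra hSu
  have hSt : ∀ t : ℝ, S (u + t • S u) = S u := by
    intro t
    rw [map_add, map_smul, h2, smul_zero, add_zero]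
  have hne : ∀ t : ℝ, u + t • S u ≠ 0 := by
    intro t h0
    have := hSt t
    rw [h0, map_zero] at this
    exact hSu this.symm
  apply hSu
  refine hT.lin_flow u (S u) (fun t ht => ?_) hne
  have := hdn (u + t • S u) (W.add_mem hu (W.smul_mem t (hW u hu))) ht
  rwa [hSt] at this

end P084
end 
end

/- SmAL -/
section
/-!
The algebraic lemma on second order jets without total symmetry.
-/

open Set Filter Topology Metric

noncomputable section

namespace P084

variable {T : Type*} [NormedAddCommGroup T] [NormedSpace ℝ T]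

/-- The flow of a bounded operator. -/
def flow (G : T →L[ℝ] T) (s : ℝ) : T →L[ℝ] T := NormedSpace.exp (s • G)

theorem flow_zero (G : T →L[ℝ] T) (w : T) : flow G 0 w = w := by
  rw [flow, zero_smul, NormedSpace.exp_zero]
  rfl

theorem hasDerivAt_flow [CompleteSpace T] (G : T →L[ℝ] T) (w : T) (s : ℝ) :
    HasDerivAt (fun s => flow G s w) (G (flow G s w)) s := by
  have h1 : HasDerivAt (fun s : ℝ => NormedSpace.exp (s • G)) (G * NormedSpace.exp (s • G)) s :=
    hasDerivAt_exp_smul_const' G s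
  have h2 := h1.clm_apply (hasDerivAt_const s w)
  simp only [map_zero, add_zero] at h2
  exact h2

theorem flow_ne_zero [CompleteSpace T] (G : T →L[ℝ] T) {w : T} (hw : w ≠ 0) (s : ℝ) :
    flow G s w ≠ 0 := by
  intro h0
  obtain ⟨U, hU⟩ : IsUnit (NormedSpace.exp (s • G)) :=
    NormedSpace.isUnit_exp_of_mem_ball (𝕂 := ℝ)
      ((NormedSpace.expSeries_radius_eq_top ℝ (T →L[ℝ] T)).symm ▸ edist_lt_top _ _)
  have h1 : ((↑U⁻¹ : T →L[ℝ] T) * (U : T →L[ℝ] T)) w = w := by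
    rw [Units.inv_mul]; rfl
  rw [hU] at h1
  have h2 : (↑U⁻¹ : T →L[ℝ] T) (NormedSpace.exp (s • G) w) = w := h1
  have h3 : NormedSpace.exp (s • G) w = 0 := h0
  rw [h3, map_zero] at h2
  exact hw h2.symm

/-- The expansions of the identity near the maximum point. -/
theorem SmoothNorm.al_exp [CompleteSpace T] (hT : SmoothNorm T)
    (h : T →L[ℝ] T →L[ℝ] ℝ) (hs : ∀ u v, h u v = h v u)
    (G : T →L[ℝ] T →L[ℝ] T) (Gs : ∀ u v, G u v = G v u) (d : T → ℝ)
    (starG : ∀ v w, v ≠ 0 → dn v (G v w) = h v w * d v)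
    {v₀ : T} (hv₀ : ‖v₀‖ = 1) {μ : ℝ} (hμ : 0 < μ) (hmax : ∀ w, h v₀ w = μ * dn v₀ w)
    (hG00 : G v₀ v₀ = 0) :
    (∀ (ε : ℝ) (w : T), dn v₀ w = 0 → v₀ + ε • w ≠ 0) ∧
    (∀ (ε : ℝ) (w : T), dn v₀ w = 0 →
      μ * d (v₀ + ε • w) = ε * dn (v₀ + ε • w) (G v₀ w)) ∧
    (∀ (ε : ℝ) (w u : T), dn v₀ w = 0 → dn v₀ u = 0 →
      dn (v₀ + ε • w) (G v₀ u) =
        ε * (h w u * d (v₀ + ε • w) - dn (v₀ + ε • w) (G w u))) ∧
    (∀ w u, dn v₀ w = 0 → dn v₀ u = 0 →
      Tendsto (fun ε : ℝ => dn (v₀ + ε • w) (G v₀ u) / ε) (𝓝[>] 0) (𝓝 (- dn v₀ (G w u)))) := by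
  have hv0 : v₀ ≠ 0 := by rintro rfl; simp at hv₀
  have hψ0 : dn v₀ v₀ = 1 := by rw [hT.dn_self hv0, hv₀]
  have hh0 : h v₀ v₀ = μ := by rw [hmax, hψ0, mul_one]
  have hd0 : d v₀ = 0 := by
    have := starG v₀ v₀ hv0
    rw [hG00, map_zero, hh0] at this
    exact (mul_eq_zero.mp this.symm).resolve_left hμ.ne'
  obtain ⟨G₀, hG₀⟩ : ∃ G₀ : T →L[ℝ] T, G₀ = G v₀ := ⟨_, rfl⟩
  have hψG₀ : ∀ w, dn v₀ (G₀ w) = 0 := by
    intro w
    rw [hG₀, starG v₀ w hv0, hd0, mul_zero]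
  -- the hyperplane
  have htan : ∀ w, dn v₀ w = 0 → w ≠ 0 → dn w (G₀ w) = 0 := by
    intro w hw hw0
    rw [hG₀, Gs, starG w v₀ hw0, hs, hmax, hw, mul_zero, zero_mul]
  -- expansions near `v₀`
  have hne : ∀ (ε : ℝ) (w : T), dn v₀ w = 0 → v₀ + ε • w ≠ 0 := by
    intro ε w hw h0
    have : dn v₀ (v₀ + ε • w) = 0 := by rw [h0, map_zero]
    rw [map_add, map_smul, hw, smul_zero, add_zero, hψ0] at this
    exact one_ne_zero this
  have hdv : ∀ (ε : ℝ) (w : T), dn v₀ w = 0 →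
      μ * d (v₀ + ε • w) = ε * dn (v₀ + ε • w) (G₀ w) := by
    intro ε w hw
    have h1 := starG (v₀ + ε • w) v₀ (hne ε w hw)
    have h2 : G (v₀ + ε • w) v₀ = ε • G₀ w := by
      rw [Gs, map_add, map_smul, hG00, zero_add, hG₀]
    have h3 : h (v₀ + ε • w) v₀ = μ := by
      rw [hs, hmax, map_add, map_smul, hw, smul_zero, add_zero, hψ0, mul_one]
    rw [h2, h3, map_smul, smul_eq_mul] at h1
    exact h1.symm
  have hstar : ∀ (ε : ℝ) (w u : T), dn v₀ w = 0 → dn v₀ u = 0 →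
      dn (v₀ + ε • w) (G₀ u) = ε * (h w u * d (v₀ + ε • w) - dn (v₀ + ε • w) (G w u)) := by
    intro ε w u hw hu
    have h1 := starG (v₀ + ε • w) u (hne ε w hw)
    rw [map_add, _root_.add_apply, map_smul, _root_.smul_apply, map_add, map_smul, smul_eq_mul,
      map_add, _root_.add_apply, map_smul, _root_.smul_apply, hmax, hu, mul_zero, zero_add,
      smul_eq_mul, ← hG₀] at h1
    linear_combination h1
  have hcont : ContinuousAt (dn : T → T →L[ℝ] ℝ) v₀ := hT.continuousAt_dn hv0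
  have htv : ∀ w : T, Tendsto (fun ε : ℝ => v₀ + ε • w) (𝓝[>] 0) (𝓝 v₀) := by
    intro w
    have : Continuous fun ε : ℝ => v₀ + ε • w := by fun_prop
    have h2 := this.tendsto 0
    rw [zero_smul, add_zero] at h2
    exact h2.mono_left nhdsWithin_le_nhds
  have htd : ∀ w : T, dn v₀ w = 0 → Tendsto (fun ε : ℝ => d (v₀ + ε • w)) (𝓝[>] 0) (𝓝 0) := by
    intro w hw
    have h1 : Tendsto (fun ε : ℝ => dn (v₀ + ε • w) (G₀ w)) (𝓝[>] 0) (𝓝 (dn v₀ (G₀ w))) :=
      tendsto_clm_apply (hcont.tendsto.comp (htv w)) tendsto_const_nhds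
    have h2 : Tendsto (fun ε : ℝ => μ⁻¹ * (ε * dn (v₀ + ε • w) (G₀ w))) (𝓝[>] 0)
        (𝓝 (μ⁻¹ * (0 * dn v₀ (G₀ w)))) :=
      ((tendsto_id.mono_left nhdsWithin_le_nhds).mul h1).const_mul _
    rw [zero_mul, mul_zero] at h2
    refine h2.congr fun ε => ?_
    rw [← hdv ε w hw, ← mul_assoc, inv_mul_cancel₀ hμ.ne', one_mul]
  -- the quadratic form
  have hQlim : ∀ w u, dn v₀ w = 0 → dn v₀ u = 0 →
      Tendsto (fun ε : ℝ => dn (v₀ + ε • w) (G₀ u) / ε) (𝓝[>] 0) (𝓝 (- dn v₀ (G w u))) := by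
    intro w u hw hu
    have h1 : Tendsto (fun ε : ℝ => dn (v₀ + ε • w) (G w u)) (𝓝[>] 0) (𝓝 (dn v₀ (G w u))) :=
      tendsto_clm_apply (hcont.tendsto.comp (htv w)) tendsto_const_nhds
    have h2 := ((htd w hw).const_mul (h w u)).sub h1
    rw [mul_zero, zero_sub] at h2
    refine h2.congr' ?_
    filter_upwards [self_mem_nhdsWithin] with ε hε
    have hε0 : (ε : ℝ) ≠ 0 := ne_of_gt hε
    rw [hstar ε w u hw hu]
    (clear * - hε0; field_simp)
  rw [hG₀] at hdv hstar hQlim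
  exact ⟨hne, hdv, hstar, hQlim⟩

/-- The lower bound. -/
theorem SmoothNorm.al_pos [CompleteSpace T] (hT : SmoothNorm T)
    (h : T →L[ℝ] T →L[ℝ] ℝ) (hs : ∀ u v, h u v = h v u)
    (G : T →L[ℝ] T →L[ℝ] T) (Gs : ∀ u v, G u v = G v u) (d : T → ℝ)
    (starG : ∀ v w, v ≠ 0 → dn v (G v w) = h v w * d v)
    {v₀ : T} (hv₀ : ‖v₀‖ = 1) {μ : ℝ} (hμ : 0 < μ) (hmax : ∀ w, h v₀ w = μ * dn v₀ w)
    (hle : ∀ v, h v v ≤ μ * ‖v‖ ^ 2) (hlip : LipAt (dn : T → T →L[ℝ] ℝ) v₀)
    (hG00 : G v₀ v₀ = 0) {w : T} (hw : dn v₀ w = 0) :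
    h (G v₀ w) (G v₀ w) ≤ 2 * μ * (- dn v₀ (G (G v₀ w) w)) := by
  have hv0 : v₀ ≠ 0 := by rintro rfl; simp at hv₀
  have hψ0 : dn v₀ v₀ = 1 := by rw [hT.dn_self hv0, hv₀]
  have hh0 : h v₀ v₀ = μ := by rw [hmax, hψ0, mul_one]
  have hd0 : d v₀ = 0 := by
    have := starG v₀ v₀ hv0
    rw [hG00, map_zero, hh0] at this
    exact (mul_eq_zero.mp this.symm).resolve_left hμ.ne'
  obtain ⟨G₀, hG₀⟩ : ∃ G₀ : T →L[ℝ] T, G₀ = G v₀ := ⟨_, rfl⟩
  have hψG₀ : ∀ w, dn v₀ (G₀ w) = 0 := by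
    intro w
    rw [hG₀, starG v₀ w hv0, hd0, mul_zero]
  obtain ⟨hne, hdv, hstar, hQlim⟩ :=
    hT.al_exp h hs G Gs d starG hv₀ hμ hmax hG00
  obtain ⟨Q, hQ⟩ : ∃ Q : T → T → ℝ, ∀ w u, Q w u = - dn v₀ (G w u) := ⟨_, fun _ _ => rfl⟩
  simp only [← hQ] at hQlim
  rw [← hG₀] at hQlim hdv hstar
  have hcont : ContinuousAt (dn : T → T →L[ℝ] ℝ) v₀ := hT.continuousAt_dn hv0
  have htv : ∀ w : T, Tendsto (fun ε : ℝ => v₀ + ε • w) (𝓝[>] 0) (𝓝 v₀) := by
    intro w
    have : Continuous fun ε : ℝ => v₀ + ε • w := by fun_prop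
    have h2 := this.tendsto 0
    rw [zero_smul, add_zero] at h2
    exact h2.mono_left nhdsWithin_le_nhds
  rw [← hG₀, ← hQ]
  -- lower bound for the derivative of `Q`
  have hQpos : ∀ w, dn v₀ w = 0 → h (G₀ w) (G₀ w) ≤ 2 * μ * Q (G₀ w) w := by
    clear hw w
    intro w hw
    set w' := G₀ w with hw'
    have hw't : dn v₀ w' = 0 := hψG₀ w
    have h1 := hQlim w' w hw't hw
    have hnl : Tendsto (fun ε : ℝ => ‖v₀ + ε • w'‖) (𝓝[>] 0) (𝓝 1) := by
      have := (htv w').norm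
      rwa [hv₀] at this
    have h2 : Tendsto (fun ε : ℝ => dn (v₀ + ε • w') (G₀ w) / ε * (μ * (‖v₀ + ε • w'‖ + 1)))
        (𝓝[>] 0) (𝓝 (Q w' w * (μ * (1 + 1)))) := h1.mul ((hnl.add_const 1).const_mul μ)
    have h3 : Q w' w * (μ * (1 + 1)) = 2 * μ * Q w' w := by ring
    rw [h3] at h2
    refine ge_of_tendsto h2 ?_
    filter_upwards [self_mem_nhdsWithin] with ε hε
    have hε0 : (0 : ℝ) < ε := hε
    set v := v₀ + ε • w' with hv
    have hvne : v ≠ 0 := hne ε w' hw't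
    -- `‖v‖² ≥ 1 + ε² h/μ`
    have e1 : h v v = μ + ε ^ 2 * h w' w' := by
      have : h w' v₀ = 0 := by rw [hs, hmax, hw't, mul_zero]
      rw [hv]
      simp only [map_add, map_smul, _root_.add_apply, _root_.smul_apply, smul_eq_mul, hh0,
        hmax w', hw't, this]
      ring
    have e2 := hle v
    rw [e1] at e2
    -- `dn v (ε w') ≥ ‖v‖ - 1`
    have e3 : ‖v‖ - 1 ≤ ε * dn v (G₀ w) := by
      have a1 := hT.dn_self hvne
      have a2 := dn_apply_le v v₀
      rw [hv₀] at a2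
      have a3 : dn v v = dn v v₀ + ε * dn v w' := by
        nth_rewrite 2 [hv]
        rw [map_add, map_smul, smul_eq_mul]
      rw [← hw']
      linarith only [a1, a2, a3]
    have e4 : 0 ≤ ‖v‖ := norm_nonneg v
    have e5 : ε ^ 2 * h w' w' ≤ (‖v‖ - 1) * (μ * (‖v‖ + 1)) := by
      have : μ * ‖v‖ ^ 2 - μ = (‖v‖ - 1) * (μ * (‖v‖ + 1)) := by ring
      linarith only [e2]
    have e6 : (‖v‖ - 1) * (μ * (‖v‖ + 1)) ≤ (ε * dn v (G₀ w)) * (μ * (‖v‖ + 1)) := by
      (clear * - e3 hμ hvne; gcongr)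
    have e7 : dn v (G₀ w) / ε * (μ * (‖v‖ + 1)) = (ε * dn v (G₀ w)) * (μ * (‖v‖ + 1)) / ε ^ 2 := by
      (clear * - hvne hμ hε0; field_simp)
    rw [e7, le_div_iff₀ (by (clear * - hε0; positivity))]
    linarith only [e2, e6]
  exact hQpos w hw

/-- The quadratic form vanishes along the flow. -/
theorem SmoothNorm.al_flow [CompleteSpace T] (hT : SmoothNorm T)
    (h : T →L[ℝ] T →L[ℝ] ℝ) (hs : ∀ u v, h u v = h v u) (hp : ∀ u, 0 ≤ h u u)
    (G : T →L[ℝ] T →L[ℝ] T) (Gs : ∀ u v, G u v = G v u) (d : T → ℝ)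
    (starG : ∀ v w, v ≠ 0 → dn v (G v w) = h v w * d v)
    {v₀ : T} (hv₀ : ‖v₀‖ = 1) {μ : ℝ} (hμ : 0 < μ) (hmax : ∀ w, h v₀ w = μ * dn v₀ w)
    (hle : ∀ v, h v v ≤ μ * ‖v‖ ^ 2) (hlip : LipAt (dn : T → T →L[ℝ] ℝ) v₀)
    (hG00 : G v₀ v₀ = 0) {w : T} (hw : dn v₀ w = 0) (s : ℝ) :
    dn v₀ (G (flow (G v₀) s w) (flow (G v₀) s w)) = 0 := by
  have hv0 : v₀ ≠ 0 := by rintro rfl; simp at hv₀
  have hψ0 : dn v₀ v₀ = 1 := by rw [hT.dn_self hv0, hv₀]
  have hh0 : h v₀ v₀ = μ := by rw [hmax, hψ0, mul_one]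
  have hd0 : d v₀ = 0 := by
    have := starG v₀ v₀ hv0
    rw [hG00, map_zero, hh0] at this
    exact (mul_eq_zero.mp this.symm).resolve_left hμ.ne'
  obtain ⟨G₀, hG₀⟩ : ∃ G₀ : T →L[ℝ] T, G₀ = G v₀ := ⟨_, rfl⟩
  have hψG₀ : ∀ w, dn v₀ (G₀ w) = 0 := by
    intro w
    rw [hG₀, starG v₀ w hv0, hd0, mul_zero]
  obtain ⟨hne, hdv, hstar, hQlim⟩ :=
    hT.al_exp h hs G Gs d starG hv₀ hμ hmax hG00
  obtain ⟨Q, hQ⟩ : ∃ Q : T → T → ℝ, ∀ w u, Q w u = - dn v₀ (G w u) := ⟨_, fun _ _ => rfl⟩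
  have hQpos : ∀ w, dn v₀ w = 0 → h (G v₀ w) (G v₀ w) ≤ 2 * μ * Q (G v₀ w) w := by
    intro w hw
    rw [hQ]
    exact hT.al_pos h hs G Gs d starG hv₀ hμ hmax hle hlip hG00 hw
  simp only [← hQ] at hQlim
  rw [← hG₀] at hQlim hdv hstar hQpos
  -- the hyperplane
  have htan : ∀ w, dn v₀ w = 0 → w ≠ 0 → dn w (G₀ w) = 0 := by
    intro w hw hw0
    rw [hG₀, Gs, starG w v₀ hw0, hs, hmax, hw, mul_zero, zero_mul]
  rw [← hG₀, ← neg_eq_zero, ← hQ]
  revert s
  revert hw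
  revert w
  -- bounded flow
  have hflowT : ∀ w, dn v₀ w = 0 → ∀ s, dn v₀ (flow G₀ s w) = 0 := by
    intro w hw s
    have hd1 : ∀ s, HasDerivAt (fun s => dn v₀ (flow G₀ s w)) 0 s := by
      intro s
      have := (dn v₀).hasFDerivAt.comp_hasDerivAt s (hasDerivAt_flow G₀ w s)
      rw [hψG₀] at this
      exact this
    have hc := is_const_of_deriv_eq_zero (fun s => (hd1 s).differentiableAt)
      (fun s => (hd1 s).deriv) s 0
    rw [hc, flow_zero, hw]
  have hflowN : ∀ w, dn v₀ w = 0 → ∀ s, ‖flow G₀ s w‖ = ‖w‖ := by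
    intro w hw s
    by_cases hw0 : w = 0
    · rw [hw0, map_zero]
    have hd1 : ∀ s, HasDerivAt (fun s => ‖flow G₀ s w‖) 0 s := by
      intro s
      have hne' := flow_ne_zero G₀ hw0 s
      have := (hT.hasFDerivAt hne').comp_hasDerivAt s (hasDerivAt_flow G₀ w s)
      rw [htan _ (hflowT w hw s) hne'] at this
      exact this
    have hc := is_const_of_deriv_eq_zero (fun s => (hd1 s).differentiableAt)
      (fun s => (hd1 s).deriv) s 0
    rw [hc, flow_zero]
  -- Lipschitz constant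
  obtain ⟨L, U, hU, hL⟩ := lipAt_iff.mp hlip
  obtain ⟨r, hr, hball⟩ := Metric.mem_nhds_iff.mp hU
  have hLd : ∀ v, ‖v - v₀‖ < r → ‖dn v - dn v₀‖ ≤ L * ‖v - v₀‖ := by
    intro v hv
    have := hL.dist_le_mul v (hball (by rwa [mem_ball, dist_eq_norm])) v₀
      (hball (mem_ball_self hr))
    rwa [dist_eq_norm, dist_eq_norm] at this
  -- main claim : `Q (w_s, w_s) = 0`
  have hQzero : ∀ w, dn v₀ w = 0 → ∀ s, Q (flow G₀ s w) (flow G₀ s w) = 0 := by
    intro w hw
    set W : ℝ → T := fun s => flow G₀ s w with hW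
    have hWt : ∀ s, dn v₀ (W s) = 0 := hflowT w hw
    have hWn : ∀ s, ‖W s‖ = ‖w‖ := hflowN w hw
    have hWd : ∀ s, HasDerivAt W (G₀ (W s)) s := hasDerivAt_flow G₀ w
    have hqd : ∀ s, HasDerivAt (fun s => Q (W s) (W s)) (2 * Q (G₀ (W s)) (W s)) s := by
      intro s
      have h1 : HasDerivAt (fun s => G (W s)) (G (G₀ (W s))) s :=
        G.hasFDerivAt.comp_hasDerivAt s (hWd s)
      have h2 := h1.clm_apply (hWd s)
      have h3 := ((dn v₀).hasFDerivAt.comp_hasDerivAt s h2).neg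
      have h4 : (fun s => Q (W s) (W s)) = -((dn v₀ : T → ℝ) ∘ fun y => (G (W y)) (W y)) := by
        funext t
        rw [hQ]
        rfl
      rw [h4]
      refine h3.congr_deriv ?_
      rw [map_add, Gs (W s) (G₀ (W s)), hQ]
      ring
    have hmono : Monotone fun s => Q (W s) (W s) := by
      apply monotone_of_deriv_nonneg (fun s => (hqd s).differentiableAt)
      intro s
      rw [(hqd s).deriv]
      have h1 := hQpos (W s) (hWt s)
      have h2 := hp (G₀ (W s))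
      have h3 : 0 ≤ 2 * μ * Q (G₀ (W s)) (W s) := h2.trans h1
      have h4 : 0 ≤ μ * (2 * Q (G₀ (W s)) (W s)) := by linarith only [h1, h2]
      exact nonneg_of_mul_nonneg_right h4 hμ
    -- approximations
    set K : ℝ := ‖h‖ * ‖w‖ ^ 2 * (‖G₀‖ * ‖w‖ / μ) + L * ‖w‖ * (‖G‖ * ‖w‖ ^ 2) with hK
    have hK0 : 0 ≤ K := by (clear * - hμ; positivity)
    have happ : ∀ ε : ℝ, 0 < ε → ε * ‖w‖ < r → ∀ s,
        |dn (v₀ + ε • W s) (G₀ (W s)) / ε - Q (W s) (W s)| ≤ K * ε := by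
      intro ε hε hεr s
      have hst := hstar ε (W s) (W s) (hWt s) (hWt s)
      have e1 : dn (v₀ + ε • W s) (G₀ (W s)) / ε - Q (W s) (W s) =
          h (W s) (W s) * d (v₀ + ε • W s) -
            (dn (v₀ + ε • W s) - dn v₀) (G (W s) (W s)) := by
        rw [hst, _root_.sub_apply]
        simp only [hQ]
        field_simp
        ring
      rw [e1]
      have a1 : |h (W s) (W s)| ≤ ‖h‖ * ‖w‖ ^ 2 := by
        have := h.le_opNorm₂ (W s) (W s)
        rw [hWn s, Real.norm_eq_abs] at this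
        linarith only [this]
      have a2 : |d (v₀ + ε • W s)| ≤ ε * (‖G₀‖ * ‖w‖ / μ) := by
        have b1 := hdv ε (W s) (hWt s)
        have b2 : |dn (v₀ + ε • W s) (G₀ (W s))| ≤ ‖G₀‖ * ‖w‖ := by
          refine (dn_apply_abs_le _ _).trans ?_
          have := G₀.le_opNorm (W s)
          rwa [hWn s] at this
        have b3 : d (v₀ + ε • W s) = ε * dn (v₀ + ε • W s) (G₀ (W s)) / μ := by
          field_simp
          linarith only [b1]
        rw [b3, abs_div, abs_mul, abs_of_pos hε, abs_of_pos hμ, mul_div_assoc]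
        (clear * - b2 hμ hε; gcongr)
      have a3 : ‖dn (v₀ + ε • W s) - dn v₀‖ ≤ L * (ε * ‖w‖) := by
        have b1 : ‖v₀ + ε • W s - v₀‖ = ε * ‖w‖ := by
          rw [add_sub_cancel_left, norm_smul, Real.norm_eq_abs, abs_of_pos hε, hWn s]
        have := hLd (v₀ + ε • W s) (by rw [b1]; exact hεr)
        rwa [b1] at this
      have a4 : ‖G (W s) (W s)‖ ≤ ‖G‖ * ‖w‖ ^ 2 := by
        have := G.le_opNorm₂ (W s) (W s)
        rw [hWn s] at this
        linarith only [this]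
      have a5 : |(dn (v₀ + ε • W s) - dn v₀) (G (W s) (W s))| ≤
          (L * (ε * ‖w‖)) * (‖G‖ * ‖w‖ ^ 2) := by
        have := (dn (v₀ + ε • W s) - dn v₀).le_opNorm (G (W s) (W s))
        exact this.trans (mul_le_mul a3 a4 (norm_nonneg _) (by (clear * - hε; positivity)))
      calc |h (W s) (W s) * d (v₀ + ε • W s) -
            (dn (v₀ + ε • W s) - dn v₀) (G (W s) (W s))|
          ≤ |h (W s) (W s) * d (v₀ + ε • W s)| +
            |(dn (v₀ + ε • W s) - dn v₀) (G (W s) (W s))| := abs_sub _ _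
        _ ≤ ‖h‖ * ‖w‖ ^ 2 * (ε * (‖G₀‖ * ‖w‖ / μ)) + (L * (ε * ‖w‖)) * (‖G‖ * ‖w‖ ^ 2) := by
            rw [abs_mul]
            (clear * - a1 a2 a5; gcongr)
        _ = K * ε := by rw [hK]; ring
    -- the auxiliary function
    have hmd : ∀ ε : ℝ, 0 < ε → ∀ s, HasDerivAt (fun s => (‖v₀ + ε • W s‖ - 1) / ε ^ 2)
        (dn (v₀ + ε • W s) (G₀ (W s)) / ε) s := by
      intro ε hε s
      have h1 : HasDerivAt (fun s => v₀ + ε • W s) (ε • G₀ (W s)) s :=
        ((hWd s).const_smul ε).const_add v₀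
      have h2 := (hT.hasFDerivAt (hne ε (W s) (hWt s))).comp_hasDerivAt s h1
      have h3 := (h2.sub_const 1).div_const (ε ^ 2)
      refine h3.congr_deriv ?_
      rw [map_smul, smul_eq_mul]
      field_simp
    have hm0 : ∀ ε : ℝ, 0 < ε → ∀ s, 0 ≤ (‖v₀ + ε • W s‖ - 1) / ε ^ 2 := by
      intro ε hε s
      apply div_nonneg _ (by (clear * - hε; positivity))
      have := dn_apply_le v₀ (v₀ + ε • W s)
      rw [map_add, map_smul, hWt s, smul_zero, add_zero, hψ0] at this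
      linarith only [this]
    have hmC : ∀ ε : ℝ, 0 < ε → ε * ‖w‖ < r → ∀ s,
        (‖v₀ + ε • W s‖ - 1) / ε ^ 2 ≤ L * ‖w‖ ^ 2 := by
      intro ε hε hεr s
      rw [div_le_iff₀ (by (clear * - hε; positivity))]
      set v := v₀ + ε • W s with hv
      have b1 : ‖v - v₀‖ = ε * ‖w‖ := by
        rw [hv, add_sub_cancel_left, norm_smul, Real.norm_eq_abs, abs_of_pos hε, hWn s]
      have b2 := hLd v (by rw [b1]; exact hεr)
      rw [b1] at b2
      have b3 := hT.dn_self (hne ε (W s) (hWt s))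
      rw [← hv] at b3
      have b4 := dn_apply_le v v₀
      rw [hv₀] at b4
      have b5 : dn v v = dn v v₀ + (dn v - dn v₀) (ε • W s) := by
        nth_rewrite 2 [hv]
        rw [map_add, _root_.sub_apply, map_smul (dn v₀), hWt s, smul_zero, sub_zero]
      have b6 : (dn v - dn v₀) (ε • W s) ≤ (L * (ε * ‖w‖)) * (ε * ‖w‖) := by
        have c1 := (dn v - dn v₀).le_opNorm (ε • W s)
        have c2 : ‖ε • W s‖ = ε * ‖w‖ := by
          rw [norm_smul, Real.norm_eq_abs, abs_of_pos hε, hWn s]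
        rw [c2] at c1
        exact (le_abs_self _).trans (c1.trans (by (clear * - b2 hε; gcongr)))
      have : L * ‖w‖ ^ 2 * ε ^ 2 = (L * (ε * ‖w‖)) * (ε * ‖w‖) := by ring
      rw [this]
      linarith only [b3, b4, b5, b6]
    -- choice of small `ε`
    have hsmall : ∀ η : ℝ, 0 < η → ∃ ε : ℝ, 0 < ε ∧ ε * ‖w‖ < r ∧ K * ε ≤ η := by
      intro η hη
      refine ⟨min (r / (‖w‖ + 1)) (η / (K + 1)) / 2, by (clear * - hr hη hμ; (clear * - hr hη hμ; positivity)), ?_, ?_⟩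
      · have h1 : min (r / (‖w‖ + 1)) (η / (K + 1)) / 2 ≤ r / (‖w‖ + 1) / 2 := by
          gcongr; exact min_le_left _ _
        calc min (r / (‖w‖ + 1)) (η / (K + 1)) / 2 * ‖w‖ ≤ r / (‖w‖ + 1) / 2 * ‖w‖ := by (clear * - h1; gcongr)
          _ = r * (‖w‖ / (‖w‖ + 1)) / 2 := by ring
          _ ≤ r * 1 / 2 := by
              gcongr
              rw [div_le_one (by (clear * -; positivity))]; linarith only []
          _ < r := by linarith only [hr]
      · have h1 : min (r / (‖w‖ + 1)) (η / (K + 1)) / 2 ≤ η / (K + 1) := by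
          have a := min_le_right (r / (‖w‖ + 1)) (η / (K + 1))
          have b : 0 < min (r / (‖w‖ + 1)) (η / (K + 1)) := by (clear * - hr hη hμ; (clear * - hr hη hμ; positivity))
          linarith only [b, a]
        calc K * (min (r / (‖w‖ + 1)) (η / (K + 1)) / 2) ≤ K * (η / (K + 1)) := by (clear * - h1 hμ; gcongr)
          _ = η * (K / (K + 1)) := by ring
          _ ≤ η * 1 := by
              gcongr
              rw [div_le_one (by (clear * - hμ; (clear * - hμ; positivity)))]; linarith only []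
          _ = η := mul_one η
    intro s₀
    by_contra hne0
    rcases lt_or_gt_of_ne hne0 with hneg | hpos
    · -- negative value: go to `-∞`
      set κ : ℝ := -Q (W s₀) (W s₀) with hκ
      have hκ0 : 0 < κ := by linarith only [hneg]
      obtain ⟨ε, hε, hεr, hεK⟩ := hsmall (κ / 2) (half_pos hκ0)
      set m : ℝ → ℝ := fun s => (‖v₀ + ε • W s‖ - 1) / ε ^ 2 with hm
      have hder : ∀ s, s ≤ s₀ → deriv m s ≤ -(κ / 2) := by
        intro s hs
        rw [(hmd ε hε s).deriv]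
        have h1 := (abs_le.mp (happ ε hε hεr s)).2
        have h2 : Q (W s) (W s) ≤ Q (W s₀) (W s₀) := hmono hs
        linarith only [hεK, h1, h2]
      have hmd' : Differentiable ℝ m := fun s => (hmd ε hε s).differentiableAt
      set s₁ : ℝ := s₀ - (2 * (L * ‖w‖ ^ 2 + 1) / κ) with hs₁
      have hs₁₀ : s₁ ≤ s₀ := by rw [hs₁]; (clear * - hκ0; linarith [show 0 ≤ 2 * (L * ‖w‖ ^ 2 + 1) / κ by positivity])
      have h1 := (convex_Iic s₀).image_sub_le_mul_sub_of_deriv_le hmd'.continuous.continuousOn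
        hmd'.differentiableOn (C := -(κ / 2)) (by
          rw [interior_Iic]
          intro x hx
          exact hder x (le_of_lt hx)) s₁ hs₁₀ s₀ (mem_Iic.mpr le_rfl) hs₁₀
      have h2 := hm0 ε hε s₀
      have h3 := hmC ε hε hεr s₁
      have h4 : s₀ - s₁ = 2 * (L * ‖w‖ ^ 2 + 1) / κ := by rw [hs₁]; ring
      rw [h4] at h1
      have h5 : -(κ / 2) * (2 * (L * ‖w‖ ^ 2 + 1) / κ) = -(L * ‖w‖ ^ 2 + 1) := by (clear * - hκ0; field_simp)
      rw [h5] at h1
      simp only [hm] at h1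
      linarith only [h2, h3, h1]
    · set κ : ℝ := Q (W s₀) (W s₀) with hκ
      have hκ0 : 0 < κ := hpos
      obtain ⟨ε, hε, hεr, hεK⟩ := hsmall (κ / 2) (half_pos hκ0)
      set m : ℝ → ℝ := fun s => (‖v₀ + ε • W s‖ - 1) / ε ^ 2 with hm
      have hder : ∀ s, s₀ ≤ s → κ / 2 ≤ deriv m s := by
        intro s hs
        rw [(hmd ε hε s).deriv]
        have h1 := (abs_le.mp (happ ε hε hεr s)).1
        have h2 : Q (W s₀) (W s₀) ≤ Q (W s) (W s) := hmono hs
        linarith only [h2, h1, hεK]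
      have hmd' : Differentiable ℝ m := fun s => (hmd ε hε s).differentiableAt
      set s₁ : ℝ := s₀ + (2 * (L * ‖w‖ ^ 2 + 1) / κ) with hs₁
      have hs₁₀ : s₀ ≤ s₁ := by rw [hs₁]; (clear * - hpos; linarith [show 0 ≤ 2 * (L * ‖w‖ ^ 2 + 1) / κ by positivity])
      have h1 := (convex_Ici s₀).mul_sub_le_image_sub_of_le_deriv hmd'.continuous.continuousOn
        hmd'.differentiableOn (C := κ / 2) (by
          rw [interior_Ici]
          intro x hx
          exact hder x (le_of_lt hx)) s₀ (mem_Ici.mpr le_rfl) s₁ hs₁₀ hs₁₀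
      have h2 := hm0 ε hε s₀
      have h3 := hmC ε hε hεr s₁
      have h4 : s₁ - s₀ = 2 * (L * ‖w‖ ^ 2 + 1) / κ := by rw [hs₁]; ring
      rw [h4] at h1
      have h5 : κ / 2 * (2 * (L * ‖w‖ ^ 2 + 1) / κ) = L * ‖w‖ ^ 2 + 1 := by (clear * - hne0; field_simp)
      rw [h5] at h1
      simp only [hm] at h1
      linarith only [h2, h3, h1]
  exact fun {w} hw s => hQzero w hw s

end P084
end 
end

/- SmALU -/
section
/-!
The algebraic lemma on second order jets in uniformly convex spaces (via ultrapowers).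
-/

open Set Filter Topology Metric
open Vale.Agent.P084.UC

noncomputable section

namespace P084

/-! ### Limits along the ultrafilter -/

section lim

/-- The limit of a bounded real sequence along the ultrafilter. -/
def ulim (a : ℕ → ℝ) : ℝ :=
  open Classical in if h : Bdd a then (exists_lim (fun n => h.choose_spec n)).choose else 0

theorem tendsto_ulim {a : ℕ → ℝ} (h : Bdd a) : Tendsto a UF (𝓝 (ulim a)) := by
  rw [ulim, dif_pos h]
  exact (exists_lim (fun n => h.choose_spec n)).choose_spec.2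

theorem ulim_eq {a : ℕ → ℝ} {l : ℝ} (h : Bdd a) (hl : Tendsto a UF (𝓝 l)) : ulim a = l :=
  tendsto_nhds_unique (tendsto_ulim h) hl

end lim

variable {E F G : Type*} [NormedAddCommGroup E] [NormedSpace ℝ E]
  [NormedAddCommGroup F] [NormedSpace ℝ F] [NormedAddCommGroup G] [NormedSpace ℝ G]

theorem _root_.Vale.Agent.P084.UC.Bdd.bilin {x : ℕ → E} {y : ℕ → F} (hx : Bdd x)
    (B : E →L[ℝ] F →L[ℝ] G) (hy : Bdd y) :
    Bdd (fun n => B (x n) (y n)) := by
  obtain ⟨C, hC⟩ := hx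
  obtain ⟨D, hD⟩ := hy
  refine ⟨‖B‖ * C * D, fun n => ?_⟩
  have h1 := B.le_opNorm₂ (x n) (y n)
  have hC0 : 0 ≤ C := (norm_nonneg _).trans (hC n)
  calc ‖B (x n) (y n)‖ ≤ ‖B‖ * ‖x n‖ * ‖y n‖ := h1
    _ ≤ ‖B‖ * C * D := by
      gcongr
      · exact hC n
      · exact hD n

theorem tendsto_bilin_sub (B : E →L[ℝ] F →L[ℝ] G) {x x' : ℕ → E} {y y' : ℕ → F}
    (hx : Bdd x) (hy' : Bdd y')
    (h1 : Tendsto (fun n => ‖x n - x' n‖) UF (𝓝 0))
    (h2 : Tendsto (fun n => ‖y n - y' n‖) UF (𝓝 0)) :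
    Tendsto (fun n => ‖B (x n) (y n) - B (x' n) (y' n)‖) UF (𝓝 0) := by
  obtain ⟨C, hC⟩ := hx
  obtain ⟨D, hD⟩ := hy'
  have h3 : Tendsto (fun n => ‖B‖ * C * ‖y n - y' n‖ + ‖B‖ * ‖x n - x' n‖ * D) UF (𝓝 0) := by
    have := (h2.const_mul (‖B‖ * C)).add ((h1.const_mul ‖B‖).mul_const D)
    simpa only [mul_zero, zero_mul, add_zero] using this
  refine squeeze_zero (fun n => norm_nonneg _) (fun n => ?_) h3
  have e : B (x n) (y n) - B (x' n) (y' n) = B (x n) (y n - y' n) + B (x n - x' n) (y' n) := by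
    rw [map_sub, map_sub, _root_.sub_apply]
    abel
  rw [e]
  refine (norm_add_le _ _).trans ?_
  have a1 := B.le_opNorm₂ (x n) (y n - y' n)
  have a2 := B.le_opNorm₂ (x n - x' n) (y' n)
  have a3 : ‖B‖ * ‖x n‖ * ‖y n - y' n‖ ≤ ‖B‖ * C * ‖y n - y' n‖ := by
    gcongr; exact hC n
  have a4 : ‖B‖ * ‖x n - x' n‖ * ‖y' n‖ ≤ ‖B‖ * ‖x n - x' n‖ * D := by
    gcongr; exact hD n
  (clear * - a1 a2 a3 a4; linarith)

theorem cls_bilin_congr (B : E →L[ℝ] F →L[ℝ] G) {x x' : ℕ → E} {y y' : ℕ → F}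
    (hx : Bdd x) (hy : Bdd y) (hx' : Bdd x') (hy' : Bdd y')
    (h1 : cls x = cls x') (h2 : cls y = cls y') :
    cls (fun n => B (x n) (y n)) = cls (fun n => B (x' n) (y' n)) := by
  rw [cls_eq_cls_iff (hx.bilin B hy) (hx'.bilin B hy')]
  exact tendsto_bilin_sub B hx hy' ((cls_eq_cls_iff hx hx').mp h1) ((cls_eq_cls_iff hy hy').mp h2)

/-- The extension of a bounded bilinear map to the ultrapowers. -/
def ultraBilin (B : E →L[ℝ] F →L[ℝ] G) : Ultra E →L[ℝ] Ultra F →L[ℝ] Ultra G :=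
  LinearMap.mkContinuous₂
    (LinearMap.mk₂ ℝ (fun u v => cls (fun n => B (rep u n) (rep v n)))
      (fun u u' v => by
        rw [← cls_add ((bdd_rep u).bilin B (bdd_rep v)) ((bdd_rep u').bilin B (bdd_rep v))]
        rw [cls_bilin_congr B (bdd_rep (u + u')) (bdd_rep v) ((bdd_rep u).add (bdd_rep u'))
          (bdd_rep v) (by rw [cls_rep, cls_add (bdd_rep u) (bdd_rep u'), cls_rep, cls_rep]) rfl]
        simp only [map_add, _root_.add_apply])
      (fun c u v => by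
        rw [← cls_smul_const c ((bdd_rep u).bilin B (bdd_rep v))]
        rw [cls_bilin_congr B (bdd_rep (c • u)) (bdd_rep v) ((bdd_const c).smul (bdd_rep u))
          (bdd_rep v) (by rw [cls_rep, cls_smul_const c (bdd_rep u), cls_rep]) rfl]
        simp only [map_smul, _root_.smul_apply])
      (fun u v v' => by
        rw [← cls_add ((bdd_rep u).bilin B (bdd_rep v)) ((bdd_rep u).bilin B (bdd_rep v'))]
        rw [cls_bilin_congr B (bdd_rep u) (bdd_rep (v + v')) (bdd_rep u)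
          ((bdd_rep v).add (bdd_rep v')) rfl
          (by rw [cls_rep, cls_add (bdd_rep v) (bdd_rep v'), cls_rep, cls_rep])]
        simp only [map_add])
      (fun c u v => by
        rw [← cls_smul_const c ((bdd_rep u).bilin B (bdd_rep v))]
        rw [cls_bilin_congr B (bdd_rep u) (bdd_rep (c • v)) (bdd_rep u)
          ((bdd_const c).smul (bdd_rep v)) rfl
          (by rw [cls_rep, cls_smul_const c (bdd_rep v), cls_rep])]
        simp only [map_smul]))
    ‖B‖ (fun u v => by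
      rw [LinearMap.mk₂_apply]
      have h1 := tendsto_norm_cls ((bdd_rep u).bilin B (bdd_rep v))
      have h2 := (((tendsto_norm_cls (bdd_rep u)).const_mul ‖B‖).mul
        (tendsto_norm_cls (bdd_rep v)))
      rw [cls_rep, cls_rep] at h2
      exact le_of_tendsto_of_tendsto' h1 h2 fun n => B.le_opNorm₂ _ _)

theorem ultraBilin_cls (B : E →L[ℝ] F →L[ℝ] G) {x : ℕ → E} {y : ℕ → F} (hx : Bdd x)
    (hy : Bdd y) : ultraBilin B (cls x) (cls y) = cls (fun n => B (x n) (y n)) := by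
  have : ultraBilin B (cls x) (cls y) =
      cls (fun n => B (rep (cls x) n) (rep (cls y) n)) := rfl
  rw [this]
  exact cls_bilin_congr B (bdd_rep _) (bdd_rep _) hx hy (cls_rep _) (cls_rep _)

/-- The standard part. -/
def stdPart : Ultra ℝ →L[ℝ] ℝ :=
  LinearMap.mkContinuous
    { toFun := fun u => ulim (rep u)
      map_add' := fun u v => by
        have h1 := tendsto_ulim (bdd_rep u)
        have h2 := tendsto_ulim (bdd_rep v)
        refine ulim_eq (bdd_rep _) ?_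
        have h3 : Tendsto (fun n => ‖rep (u + v) n - (rep u n + rep v n)‖) UF (𝓝 0) := by
          rw [← cls_eq_cls_iff (bdd_rep _) ((bdd_rep u).add (bdd_rep v)), cls_rep,
            cls_add (bdd_rep u) (bdd_rep v), cls_rep, cls_rep]
        have h4 := (tendsto_zero_iff_norm_tendsto_zero.mpr h3).add (h1.add h2)
        rw [zero_add] at h4
        exact h4.congr fun n => by ring
      map_smul' := fun c u => by
        have h1 := tendsto_ulim (bdd_rep u)
        refine ulim_eq (bdd_rep _) ?_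
        have h3 : Tendsto (fun n => ‖rep (c • u) n - c • rep u n‖) UF (𝓝 0) := by
          rw [← cls_eq_cls_iff (bdd_rep _) ((bdd_const c).smul (bdd_rep u)), cls_rep,
            cls_smul_const c (bdd_rep u), cls_rep]
        have h4 := (tendsto_zero_iff_norm_tendsto_zero.mpr h3).add (h1.const_mul c)
        rw [zero_add] at h4
        exact h4.congr fun n => by simp only [smul_eq_mul]; ring }
    1 (fun u => by
      rw [one_mul]
      have h1 := (tendsto_ulim (bdd_rep u)).norm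
      have h2 := tendsto_norm_cls (bdd_rep u)
      rw [cls_rep] at h2
      exact (tendsto_nhds_unique h1 h2).le)

theorem tendsto_stdPart {a : ℕ → ℝ} (ha : Bdd a) : Tendsto a UF (𝓝 (stdPart (cls a))) := by
  have h0 : stdPart (cls a) = ulim (rep (cls a)) := rfl
  rw [h0]
  have h1 := tendsto_ulim (bdd_rep (cls a))
  have h3 : Tendsto (fun n => ‖a n - rep (cls a) n‖) UF (𝓝 0) := by
    rw [← cls_eq_cls_iff ha (bdd_rep _), cls_rep]
  have h4 := (tendsto_zero_iff_norm_tendsto_zero.mpr h3).add h1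
  rw [zero_add] at h4
  exact h4.congr fun n => by ring

/-- The extension of a bounded bilinear form to the ultrapowers. -/
def ultraForm (h : E →L[ℝ] F →L[ℝ] ℝ) : Ultra E →L[ℝ] Ultra F →L[ℝ] ℝ :=
  (ContinuousLinearMap.compL ℝ (Ultra F) (Ultra ℝ) ℝ stdPart) ∘L (ultraBilin h)

theorem tendsto_ultraForm (h : E →L[ℝ] F →L[ℝ] ℝ) {x : ℕ → E} {y : ℕ → F} (hx : Bdd x)
    (hy : Bdd y) : Tendsto (fun n => h (x n) (y n)) UF (𝓝 (ultraForm h (cls x) (cls y))) := by
  have : ultraForm h (cls x) (cls y) = stdPart (ultraBilin h (cls x) (cls y)) := rfl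
  rw [this, ultraBilin_cls h hx hy]
  exact tendsto_stdPart (hx.bilin h hy)

/-! ### The norm of the ultrapower -/

theorem UC11.ultra (hE : UC11 E) : UC11 (Ultra E) := by
  obtain ⟨C, hC⟩ := hE
  refine ⟨C, fun q h hq => ?_⟩
  obtain ⟨x, hx, rfl⟩ := exists_rep_unit hq
  obtain ⟨y, hy, rfl⟩ := exists_rep h
  have bx : Bdd x := ⟨1, fun n => (hx n).le⟩
  rw [← cls_add bx hy, ← cls_sub bx hy]
  have h1 := ((tendsto_norm_cls (bx.add hy)).add (tendsto_norm_cls (bx.sub hy))).sub_const 2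
  have h2 := ((tendsto_norm_cls hy).pow 2).const_mul C
  exact le_of_tendsto_of_tendsto' h1 h2 fun n => hC (x n) (y n) (hx n)

/-- The derivative of the norm of the ultrapower. -/
theorem tendsto_dn_ultra (hE : SmoothNorm E) (hU : SmoothNorm (Ultra E)) {x v : ℕ → E}
    (hx : Bdd x) (hv : Bdd v) (h0 : cls x ≠ 0) :
    Tendsto (fun n => dn (x n) (v n)) UF (𝓝 (dn (cls x) (cls v))) := by
  have hb : Bdd (fun n => dn (x n) (v n)) := by
    obtain ⟨C, hC⟩ := hv
    exact ⟨C, fun n => (dn_apply_abs_le _ _).trans (hC n)⟩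
  have hl := tendsto_ulim hb
  set L := ulim (fun n => dn (x n) (v n)) with hL
  have hx0 : ∀ᶠ n in (UF : Filter ℕ), x n ≠ 0 := by
    have h1 := tendsto_norm_cls hx
    have h2 : 0 < ‖cls x‖ := norm_pos_iff.mpr h0
    filter_upwards [h1.eventually (lt_mem_nhds h2)] with n hn
    exact norm_pos_iff.mp hn
  -- the linear bound
  have key : ∀ t : ℝ, ‖cls x‖ + t * L ≤ ‖cls x + t • cls v‖ := by
    intro t
    rw [← cls_smul_const t hv, ← cls_add hx ((bdd_const t).smul hv)]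
    have h1 := (tendsto_norm_cls hx).add (hl.const_mul t)
    have h2 := tendsto_norm_cls (hx.add ((bdd_const t).smul hv))
    refine le_of_tendsto_of_tendsto h1 h2 ?_
    filter_upwards [hx0] with n hn
    have := hE.le_norm_add hn (t • v n)
    rwa [map_smul, smul_eq_mul] at this
  have hd : HasDerivAt (fun t : ℝ => ‖cls x + t • cls v‖) (dn (cls x) (cls v)) 0 := by
    have h1 : HasDerivAt (fun t : ℝ => cls x + t • cls v) (cls v) 0 := by
      have := ((hasDerivAt_id (0 : ℝ)).smul_const (cls v)).const_add (cls x)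
      rwa [one_smul] at this
    have h2 : HasFDerivAt (fun y : Ultra E => ‖y‖) (dn (cls x)) (cls x + (0 : ℝ) • cls v) := by
      rw [zero_smul, add_zero]
      exact hU.hasFDerivAt h0
    exact h2.comp_hasDerivAt (0 : ℝ) h1
  have hd2 : HasDerivAt (fun t : ℝ => ‖cls x + t • cls v‖ - (‖cls x‖ + t * L))
      (dn (cls x) (cls v) - L) 0 := by
    have h1 : HasDerivAt (fun t : ℝ => ‖cls x‖ + t * L) L 0 := by
      have := ((hasDerivAt_id (0 : ℝ)).mul_const L).const_add ‖cls x‖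
      rwa [one_mul] at this
    exact hd.sub h1
  have hmin : IsLocalMin (fun t : ℝ => ‖cls x + t • cls v‖ - (‖cls x‖ + t * L)) 0 := by
    refine Filter.Eventually.of_forall fun t => ?_
    simp only [zero_smul, add_zero, zero_mul, sub_self]
    linarith [key t]
  have h3 := hmin.hasDerivAt_eq_zero hd2
  have h4 : dn (cls x) (cls v) = L := by linarith
  rw [h4]
  exact hl

/-! ### The algebraic lemma -/

variable {T : Type*} [NormedAddCommGroup T] [NormedSpace ℝ T]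

end P084
end 
end

/- SmALG -/
section
/-!
The algebraic lemma on second order jets without any convexity assumption.
-/

open Set Filter Topology Metric
open Vale.Agent.P084.UC

noncomputable section

namespace P084

section mu

variable {W : Type*} [NormedAddCommGroup W] [NormedSpace ℝ W]

theorem hasDerivAt_norm_line (hW : SmoothNorm W) {b : W} (hb : b ≠ 0) (c : W) :
    HasDerivAt (fun t : ℝ => ‖b + t • c‖) (dn b c) 0 := by
  have h1 : HasDerivAt (fun t : ℝ => b + t • c) c 0 := by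
    have := ((hasDerivAt_id (0 : ℝ)).smul_const c).const_add b
    rwa [one_smul] at this
  have h2 : HasFDerivAt (fun y : W => ‖y‖) (dn b) (b + (0 : ℝ) • c) := by
    rw [zero_smul, add_zero]
    exact hW.hasFDerivAt hb
  exact h2.comp_hasDerivAt (0 : ℝ) h1

/-- The lemma on infinitesimal spherical isometries, when the maximum is attained. -/
theorem SmoothNorm.mu_max [CompleteSpace W] (hW : SmoothNorm W) (Γ : W →L[ℝ] W →L[ℝ] W)
    (Γs : ∀ u v, Γ u v = Γ v u) (hΓ : ∀ w z, w ≠ 0 → dn w (Γ w z) = 0) {D : ℝ}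
    (hD : ∀ v, ‖Γ v v‖ ≤ D * ‖v‖ ^ 2) {w : W} (hw : ‖w‖ = 1) (hmax : ‖Γ w w‖ = D) : D = 0 := by
  have hw0 : w ≠ 0 := by
    rintro rfl
    simp only [norm_zero, zero_ne_one] at hw
  by_contra hD0
  set b : W := Γ w w with hb
  have hb0 : b ≠ 0 := by
    intro h0
    rw [h0, norm_zero] at hmax
    exact hD0 hmax.symm
  -- the first order condition
  have hfirst : ∀ w', dn b (Γ w w') = D * dn w w' := by
    intro w'
    have e : ∀ t : ℝ, Γ (w + t • w') (w + t • w') = b + t • ((2 : ℝ) • Γ w w' + t • Γ w' w') := by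
      intro t
      simp only [map_add, map_smul, add_apply, smul_apply]
      rw [Γs w' w, ← hb]
      module
    have h1 : HasDerivAt (fun t : ℝ => ‖Γ (w + t • w') (w + t • w')‖) (dn b ((2 : ℝ) • Γ w w'))
        0 := by
      have a1 : HasDerivAt (fun t : ℝ => b + t • ((2 : ℝ) • Γ w w' + t • Γ w' w'))
          ((2 : ℝ) • Γ w w') 0 := by
        have b1 : HasDerivAt (fun t : ℝ => (2 : ℝ) • Γ w w' + t • Γ w' w') (Γ w' w') 0 := by
          have := ((hasDerivAt_id (0 : ℝ)).smul_const (Γ w' w')).const_add ((2 : ℝ) • Γ w w')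
          rwa [one_smul] at this
        have b2 := ((hasDerivAt_id (0 : ℝ)).smul b1).const_add b
        refine b2.congr_deriv ?_
        simp
      have a2 : HasFDerivAt (fun y : W => ‖y‖) (dn b)
          (b + (0 : ℝ) • ((2 : ℝ) • Γ w w' + (0 : ℝ) • Γ w' w')) := by
        rw [zero_smul ℝ ((2 : ℝ) • Γ w w' + (0 : ℝ) • Γ w' w'), add_zero]
        exact hW.hasFDerivAt hb0
      have a3 := a2.comp_hasDerivAt (0 : ℝ) a1
      refine a3.congr_of_eventuallyEq (Eventually.of_forall fun t => ?_)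
      simp only [Function.comp_apply]
      rw [e t]
    have h2 := ((hasDerivAt_norm_line hW hw0 w').pow 2).const_mul D
    have h3 := h2.sub h1
    have hmin : IsLocalMin ((fun t : ℝ => D * ‖w + t • w'‖ ^ 2) -
        fun t : ℝ => ‖Γ (w + t • w') (w + t • w')‖) 0 := by
      refine Filter.Eventually.of_forall fun t => ?_
      simp only [Pi.sub_apply, zero_smul, add_zero]
      rw [← hb, hmax, hw]
      have := hD (w + t • w')
      linarith only [this]
    have h4 := hmin.hasDerivAt_eq_zero h3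
    rw [map_smul, smul_eq_mul, zero_smul, add_zero, hw] at h4
    norm_num at h4
    linarith only [h4]
  -- the flow
  set ws : ℝ → W := fun s => flow (Γ w) s w with hws
  have hd : ∀ s, HasDerivAt ws (Γ w (ws s)) s := hasDerivAt_flow (Γ w) w
  have h00 : ws 0 = w := flow_zero _ _
  have hnorm : ∀ s, ‖ws s‖ = 1 := by
    intro s
    have hd1 : ∀ s, HasDerivAt (fun s => ‖ws s‖) 0 s := by
      intro s
      have hne' : ws s ≠ 0 := flow_ne_zero (Γ w) hw0 s
      have := (hW.hasFDerivAt hne').comp_hasDerivAt s (hd s)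
      rw [Γs, hΓ _ _ hne'] at this
      exact this
    have hc := is_const_of_deriv_eq_zero (fun s => (hd1 s).differentiableAt)
      (fun s => (hd1 s).deriv) s 0
    rw [hc, h00, hw]
  have hdw : ∀ s, dn w (ws s) = 1 := by
    intro s
    have hd1 : ∀ s, HasDerivAt (fun s => dn w (ws s)) 0 s := by
      intro s
      have := (dn w).hasFDerivAt.comp_hasDerivAt s (hd s)
      rw [hΓ w _ hw0] at this
      exact this
    have hc := is_const_of_deriv_eq_zero (fun s => (hd1 s).differentiableAt)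
      (fun s => (hd1 s).deriv) s 0
    rw [hc, h00, hW.dn_self hw0, hw]
  have hdb : ∀ s, HasDerivAt (fun s => dn b (ws s) - s * D) 0 s := by
    intro s
    have h1 := (dn b).hasFDerivAt.comp_hasDerivAt s (hd s)
    rw [hfirst, hdw, mul_one] at h1
    have h2 := h1.sub ((hasDerivAt_id s).mul_const D)
    rw [one_mul, sub_self] at h2
    exact h2
  have hlin : ∀ s, dn b (ws s) = dn b w + s * D := by
    intro s
    have hc := is_const_of_deriv_eq_zero (fun s => (hdb s).differentiableAt)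
      (fun s => (hdb s).deriv) s 0
    simp only [zero_mul, sub_zero] at hc
    have h0 : ws 0 = w := flow_zero _ _
    rw [h0] at hc
    linarith only [hc]
  have hbd : ∀ s, dn b w + s * D ≤ 1 := by
    intro s
    rw [← hlin, ← hnorm s]
    exact dn_apply_le _ _
  have h1 := hbd ((2 - dn b w) / D)
  rw [div_mul_cancel₀ _ hD0] at h1
  linarith only [h1]

/-- **The lemma on infinitesimal spherical isometries.** -/
theorem mu_lemma [CompleteSpace W] (hW : UC11 W) (Γ : W →L[ℝ] W →L[ℝ] W)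
    (Γs : ∀ u v, Γ u v = Γ v u) (hΓ : ∀ w z, w ≠ 0 → dn w (Γ w z) = 0) (u v : W) :
    Γ u v = 0 := by
  have hsm := hW.smooth
  have hdiag : ∀ u, Γ u u = 0 := by
    by_contra hcon
    push Not at hcon
    obtain ⟨v₁, hv₁⟩ := hcon
    have hv₁0 : v₁ ≠ 0 := by
      rintro rfl
      exact hv₁ (by rw [map_zero])
    set S : Set ℝ := (fun v : W => ‖Γ v v‖) '' {v | ‖v‖ = 1} with hS
    have hSb : BddAbove S := by
      refine ⟨‖Γ‖, ?_⟩
      rintro _ ⟨v, hv, rfl⟩
      have hv' : ‖v‖ = 1 := hv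
      have := Γ.le_opNorm₂ v v
      rwa [hv', mul_one, mul_one] at this
    have hunit : ‖‖v₁‖⁻¹ • v₁‖ = 1 := by
      rw [norm_smul, norm_inv, norm_norm, inv_mul_cancel₀ (norm_ne_zero_iff.mpr hv₁0)]
    have hSne : S.Nonempty := ⟨_, ⟨‖v₁‖⁻¹ • v₁, hunit, rfl⟩⟩
    set D : ℝ := sSup S with hDdef
    have hle : ∀ v : W, ‖Γ v v‖ ≤ D * ‖v‖ ^ 2 := by
      intro v
      by_cases hv : v = 0
      · rw [hv]; simp
      · have hn : ‖v‖ ≠ 0 := norm_ne_zero_iff.mpr hv
        have h1 : ‖Γ (‖v‖⁻¹ • v) (‖v‖⁻¹ • v)‖ ≤ D := le_csSup hSb ⟨‖v‖⁻¹ • v, by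
          change ‖‖v‖⁻¹ • v‖ = 1
          rw [norm_smul, norm_inv, norm_norm, inv_mul_cancel₀ hn], rfl⟩
        have h2 : ‖Γ v v‖ = ‖v‖ ^ 2 * ‖Γ (‖v‖⁻¹ • v) (‖v‖⁻¹ • v)‖ := by
          simp only [map_smul, _root_.smul_apply, norm_smul, norm_inv, norm_norm]
          field_simp
        rw [h2, mul_comm D]
        (clear * - h1 hv; gcongr)
    have hD : 0 < D := by
      have h1 := hle v₁
      have h2 : 0 < D * ‖v₁‖ ^ 2 := (norm_pos_iff.mpr hv₁).trans_le h1
      exact (mul_pos_iff_of_pos_right (by positivity)).mp h2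
    have hseq : ∀ n : ℕ, ∃ v : W, ‖v‖ = 1 ∧ D - 1 / ((n : ℝ) + 1) < ‖Γ v v‖ := by
      intro n
      obtain ⟨_, ⟨v, hv, rfl⟩, hlt⟩ := exists_lt_of_lt_csSup hSne
        (show D - 1 / ((n : ℝ) + 1) < sSup S by
          have : 0 < 1 / ((n : ℝ) + 1) := by (clear * -; positivity)
          linarith only [this])
      exact ⟨v, hv, hlt⟩
    choose x hx1 hx2 using hseq
    have bx : Bdd x := ⟨1, fun n => (hx1 n).le⟩
    have hxD : Tendsto (fun n => ‖Γ (x n) (x n)‖) UF (𝓝 D) := by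
      have h1 : Tendsto (fun n : ℕ => D - 1 / ((n : ℝ) + 1)) UF (𝓝 D) := by
        have := (tendsto_one_div_add_atTop_nhds_zero_nat (𝕜 := ℝ)).const_sub D
        rw [sub_zero] at this
        exact this.mono_left UF_le
      refine tendsto_of_tendsto_of_tendsto_of_le_of_le h1 tendsto_const_nhds
        (fun n => (hx2 n).le) (fun n => ?_)
      have := hle (x n)
      rwa [hx1 n, one_pow, mul_one] at this
    have hWU : UC11 (Ultra W) := hW.ultra
    have hsmU := hWU.smooth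
    obtain ⟨Δ, hΔ⟩ : ∃ Δ, Δ = ultraBilin Γ := ⟨_, rfl⟩
    have Δcls : ∀ {y z : ℕ → W}, Bdd y → Bdd z →
        Δ (cls y) (cls z) = cls (fun n => Γ (y n) (z n)) := by
      intro y z hy hz
      rw [hΔ]
      exact ultraBilin_cls Γ hy hz
    have Δs : ∀ u v, Δ u v = Δ v u := by
      intro u v
      obtain ⟨y, hy, rfl⟩ := exists_rep u
      obtain ⟨z, hz, rfl⟩ := exists_rep v
      rw [Δcls hy hz, Δcls hz hy]
      congr 1
      funext n
      exact Γs _ _
    have hΔ0 : ∀ w z, w ≠ 0 → dn w (Δ w z) = 0 := by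
      intro w z hw
      obtain ⟨y, hy, rfl⟩ := exists_rep w
      obtain ⟨z, hz, rfl⟩ := exists_rep z
      rw [Δcls hy hz]
      have h1 := tendsto_dn_ultra hsm hsmU hy (hy.bilin Γ hz) hw
      refine tendsto_nhds_unique h1 (tendsto_const_nhds.congr' ?_)
      have h2 : 0 < ‖cls y‖ := norm_pos_iff.mpr hw
      filter_upwards [(tendsto_norm_cls hy).eventually (lt_mem_nhds h2)] with n hn
      exact (hΓ _ _ (norm_pos_iff.mp hn)).symm
    have hDU : ∀ v, ‖Δ v v‖ ≤ D * ‖v‖ ^ 2 := by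
      intro v
      obtain ⟨y, hy, rfl⟩ := exists_rep v
      rw [Δcls hy hy]
      exact le_of_tendsto_of_tendsto' (tendsto_norm_cls (hy.bilin Γ hy))
        (((tendsto_norm_cls hy).pow 2).const_mul D) fun n => hle _
    have hmax : ‖Δ (cls x) (cls x)‖ = D := by
      rw [Δcls bx bx]
      exact tendsto_nhds_unique (tendsto_norm_cls (bx.bilin Γ bx)) hxD
    have := hsmU.mu_max Δ Δs hΔ0 hDU (norm_cls_eq hx1) hmax
    exact hD.ne' this
  have h1 := hdiag (u + v)
  simp only [map_add, add_apply, hdiag, Γs v u, zero_add, add_zero] at h1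
  have h2 : (2 : ℝ) • Γ u v = 0 := by rw [two_smul]; exact h1
  exact (smul_eq_zero.mp h2).resolve_left two_ne_zero

end mu

/-! ### Subspaces -/

section sub

variable {T : Type*} [NormedAddCommGroup T] [NormedSpace ℝ T]

theorem UC11.submodule (hT : UC11 T) (W : Submodule ℝ T) : UC11 W := by
  obtain ⟨C, hC⟩ := hT
  exact ⟨C, fun q h hq => hC q h hq⟩

theorem SmoothNorm.dn_submodule (hT : SmoothNorm T) (W : Submodule ℝ T) {w : W} (hw : w ≠ 0)
    (z : W) : dn w z = dn (w : T) (z : T) := by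
  have hw' : (w : T) ≠ 0 := fun h => hw (Subtype.ext h)
  have h1 : HasFDerivAt (fun y : W => ‖(y : T)‖) ((dn (w : T)).comp W.subtypeL) w :=
    (hT.hasFDerivAt hw').comp w W.subtypeL.hasFDerivAt
  have h2 : dn w = (dn (w : T)).comp W.subtypeL := h1.fderiv
  rw [h2]
  rfl

/-- Restriction of a bilinear map to a subspace. -/
def restrictBilin (W : Submodule ℝ T) (Γ : T →L[ℝ] T →L[ℝ] T)
    (h : ∀ u ∈ W, ∀ v ∈ W, Γ u v ∈ W) : W →L[ℝ] W →L[ℝ] W :=
  LinearMap.mkContinuous₂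
    (LinearMap.mk₂ ℝ (fun u v : W => (⟨Γ u v, h u u.2 v v.2⟩ : W))
      (fun u u' v => Subtype.ext (by simp)) (fun c u v => Subtype.ext (by simp))
      (fun u v v' => Subtype.ext (by simp)) (fun c u v => Subtype.ext (by simp)))
    ‖Γ‖ (fun u v => Γ.le_opNorm₂ (u : T) (v : T))

theorem restrictBilin_apply (W : Submodule ℝ T) (Γ : T →L[ℝ] T →L[ℝ] T)
    (h : ∀ u ∈ W, ∀ v ∈ W, Γ u v ∈ W) (u v : W) :
    ((restrictBilin W Γ h u v : W) : T) = Γ u v := rfl

end sub

section al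

variable {T : Type*} [NormedAddCommGroup T] [NormedSpace ℝ T]

/-- Invariance of a closed subspace generated by a set under a bounded operator. -/
theorem mapsTo_closure_span (S : Set T) (L : T →L[ℝ] T)
    (hL : ∀ m ∈ S, L m ∈ (Submodule.span ℝ S).topologicalClosure) {z : T}
    (hz : z ∈ (Submodule.span ℝ S).topologicalClosure) :
    L z ∈ (Submodule.span ℝ S).topologicalClosure := by
  have h1 : Submodule.span ℝ S ≤
      ((Submodule.span ℝ S).topologicalClosure).comap (L : T →ₗ[ℝ] T) := by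
    rw [Submodule.span_le]
    intro m hm
    exact hL m hm
  have hcl : IsClosed ((((Submodule.span ℝ S).topologicalClosure).comap
      (L : T →ₗ[ℝ] T) : Submodule ℝ T) : Set T) := by
    exact (Submodule.isClosed_topologicalClosure _).preimage L.continuous
  exact Submodule.topologicalClosure_minimal _ h1 hcl hz

/-- The normalized algebraic lemma, without convexity. -/
theorem UC11.al_zero [CompleteSpace T] (hC : UC11 T)
    (h : T →L[ℝ] T →L[ℝ] ℝ) (hs : ∀ u v, h u v = h v u) (hp : ∀ u, 0 ≤ h u u)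
    (G : T →L[ℝ] T →L[ℝ] T) (Gs : ∀ u v, G u v = G v u) (d : T → ℝ)
    (starG : ∀ v w, v ≠ 0 → dn v (G v w) = h v w * d v)
    {v₀ : T} (hv₀ : ‖v₀‖ = 1) {μ : ℝ} (hμ : 0 < μ) (hmax : ∀ w, h v₀ w = μ * dn v₀ w)
    (hle : ∀ v, h v v ≤ μ * ‖v‖ ^ 2) (hlip : LipAt (dn : T → T →L[ℝ] ℝ) v₀)
    (hG00 : G v₀ v₀ = 0) (w u : T) :
    G w u = 0 := by
  have hT := hC.smooth
  have hv0 : v₀ ≠ 0 := by rintro rfl; simp at hv₀
  have hψ0 : dn v₀ v₀ = 1 := by rw [hT.dn_self hv0, hv₀]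
  have hh0 : h v₀ v₀ = μ := by rw [hmax, hψ0, mul_one]
  have hd0 : d v₀ = 0 := by
    have := starG v₀ v₀ hv0
    rw [hG00, map_zero, hh0] at this
    exact (mul_eq_zero.mp this.symm).resolve_left hμ.ne'
  obtain ⟨G₀, hG₀⟩ : ∃ G₀ : T →L[ℝ] T, G₀ = G v₀ := ⟨_, rfl⟩
  have hψG₀ : ∀ w, dn v₀ (G₀ w) = 0 := by
    intro w
    rw [hG₀, starG v₀ w hv0, hd0, mul_zero]
  have hQpos : ∀ w, dn v₀ w = 0 → h (G v₀ w) (G v₀ w) ≤ 2 * μ * (- dn v₀ (G (G v₀ w) w)) := by
    intro w hw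
    exact hT.al_pos h hs G Gs d starG hv₀ hμ hmax hle hlip hG00 hw
  have hQzero : ∀ w, dn v₀ w = 0 → ∀ s, dn v₀ (G (flow G₀ s w) (flow G₀ s w)) = 0 := by
    intro w hw s
    rw [hG₀]
    exact hT.al_flow h hs hp G Gs d starG hv₀ hμ hmax hle hlip hG00 hw s
  rw [← hG₀] at hQpos
  -- the hyperplane
  have htan : ∀ w, dn v₀ w = 0 → w ≠ 0 → dn w (G₀ w) = 0 := by
    intro w hw hw0
    rw [hG₀, Gs, starG w v₀ hw0, hs, hmax, hw, mul_zero, zero_mul]
  -- consequences
  have hQ0 : ∀ w, dn v₀ w = 0 → dn v₀ (G w w) = 0 := by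
    intro w hw
    have := hQzero w hw 0
    rwa [flow_zero] at this
  have hGrad : ∀ w, dn v₀ w = 0 → h (G₀ w) (G₀ w) = 0 := by
    intro w hw
    have hqd : HasDerivAt (fun s => dn v₀ (G (flow G₀ s w) (flow G₀ s w)))
        (2 * dn v₀ (G (G₀ w) w)) 0 := by
      have h1 : HasDerivAt (fun s => G (flow G₀ s w)) (G (G₀ (flow G₀ 0 w))) 0 :=
        G.hasFDerivAt.comp_hasDerivAt 0 (hasDerivAt_flow G₀ w 0)
      have h2 := h1.clm_apply (hasDerivAt_flow G₀ w 0)
      have h3 := ((dn v₀).hasFDerivAt.comp_hasDerivAt (0 : ℝ) h2)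
      refine h3.congr_deriv ?_
      simp only [flow_zero]
      rw [map_add, Gs w (G₀ w)]
      ring
    have h0 : HasDerivAt (fun s => dn v₀ (G (flow G₀ s w) (flow G₀ s w))) 0 0 := by
      have : (fun s => dn v₀ (G (flow G₀ s w) (flow G₀ s w))) = fun _ => (0 : ℝ) := by
        funext s
        exact hQzero w hw s
      rw [this]
      exact hasDerivAt_const _ _
    have h1 := hqd.unique h0
    have h2 := hQpos w hw
    have h3 := hp (G₀ w)
    have h4 : dn v₀ (G (G₀ w) w) = 0 := by linarith only [h1]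
    rw [h4, neg_zero, mul_zero] at h2
    exact le_antisymm h2 h3
  -- decomposition
  have dec : ∀ w : T, w = (dn v₀ w) • v₀ + (w - (dn v₀ w) • v₀) := fun w => by abel
  have dect : ∀ w : T, dn v₀ (w - (dn v₀ w) • v₀) = 0 := fun w => by
    rw [map_sub, map_smul, smul_eq_mul, hψ0, mul_one, sub_self]
  have hψG : ∀ w u, dn v₀ (G w u) = 0 := by
    have h1 := hQ0
    have h2 : ∀ w u, dn v₀ w = 0 → dn v₀ u = 0 → dn v₀ (G w u) = 0 := by
      intro w u hw hu
      have a := h1 (w + u) (by rw [map_add, hw, hu, add_zero])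
      simp only [map_add, _root_.add_apply, h1 w hw, h1 u hu, Gs u w, zero_add, add_zero] at a
      linarith only [a]
    intro w u
    rw [dec w, dec u]
    simp only [map_add, map_smul, add_apply, smul_apply, smul_eq_mul]
    rw [← hG₀, hψG₀, hψG₀, h2 _ _ (dect w) (dect u), Gs _ v₀, ← hG₀, hψG₀]
    ring
  have hG₀rad : ∀ w, h (G₀ w) (G₀ w) = 0 := by
    intro w
    have e : G₀ w = G₀ (w - (dn v₀ w) • v₀) := by
      rw [map_sub, map_smul, hG₀, hG00, smul_zero, sub_zero]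
    rw [e]
    exact hGrad _ (dect w)
  -- the face of maximum points
  have hZ : ∀ {z}, h z z = 0 → ∀ y, h z y = 0 := fun {z} hz y => psd_zero' h hs hp hz y
  have hZψ : ∀ {z}, h z z = 0 → dn v₀ z = 0 := by
    intro z hz
    have h1 := hmax z
    rw [hs, hZ hz] at h1
    exact (mul_eq_zero.mp h1.symm).resolve_left hμ.ne'
  set M : Set T := {m | ‖v₀ + m‖ = 1 ∧ h m m = 0} with hM
  have h0M : (0 : T) ∈ M := ⟨by rw [add_zero, hv₀], by rw [map_zero]⟩
  set Z₀ : Submodule ℝ T := (Submodule.span ℝ M).topologicalClosure with hZ₀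
  have hZ₀cl : IsClosed (Z₀ : Set T) := Submodule.isClosed_topologicalClosure _
  have hMZ₀ : ∀ m ∈ M, m ∈ Z₀ := fun m hm =>
    Submodule.le_topologicalClosure _ (Submodule.subset_span hm)
  have hZ₀rad : ∀ z ∈ Z₀, h z z = 0 := by
    have h1 : Submodule.span ℝ M ≤ LinearMap.ker (h : T →ₗ[ℝ] (T →L[ℝ] ℝ)) := by
      rw [Submodule.span_le]
      intro m hm
      rw [SetLike.mem_coe, LinearMap.mem_ker]
      ext y
      exact hZ hm.2 y
    have h2 : IsClosed (LinearMap.ker (h : T →ₗ[ℝ] (T →L[ℝ] ℝ)) : Set T) := h.isClosed_ker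
    intro z hz
    have h3 := Submodule.topologicalClosure_minimal _ h1 h2 hz
    rw [LinearMap.mem_ker] at h3
    have h4 : h z = 0 := h3
    rw [h4]
    rfl
  -- flows of radical vectors preserve the face
  have hface : ∀ z, h z z = 0 → ∀ m ∈ M, G z (v₀ + m) ∈ Z₀ := by
    intro z hz m hm
    set v : T := v₀ + m with hv
    have hvn : ‖v‖ = 1 := hm.1
    have hv0' : v ≠ 0 := by
      intro h0
      rw [h0, norm_zero] at hvn
      exact zero_ne_one hvn
    have hdn : ∀ y, y ≠ 0 → dn y (G z y) = 0 := by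
      intro y hy
      rw [Gs, starG y z hy, hs, hZ hz, zero_mul]
    set vs : ℝ → T := fun s => flow (G z) s v with hvs
    have hd : ∀ s, HasDerivAt vs (G z (vs s)) s := hasDerivAt_flow (G z) v
    have h00 : vs 0 = v := flow_zero _ _
    have hnorm : ∀ s, ‖vs s‖ = 1 := by
      intro s
      have hd1 : ∀ s, HasDerivAt (fun s => ‖vs s‖) 0 s := by
        intro s
        have hne' : vs s ≠ 0 := flow_ne_zero (G z) hv0' s
        have := (hT.hasFDerivAt hne').comp_hasDerivAt s (hd s)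
        rw [hdn _ hne'] at this
        exact this
      have hc := is_const_of_deriv_eq_zero (fun s => (hd1 s).differentiableAt)
        (fun s => (hd1 s).deriv) s 0
      rw [hc, h00, hvn]
    have hψ : ∀ s, dn v₀ (vs s) = 1 := by
      intro s
      have hd1 : ∀ s, HasDerivAt (fun s => dn v₀ (vs s)) 0 s := by
        intro s
        have := (dn v₀).hasFDerivAt.comp_hasDerivAt s (hd s)
        rw [hψG] at this
        exact this
      have hc := is_const_of_deriv_eq_zero (fun s => (hd1 s).differentiableAt)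
        (fun s => (hd1 s).deriv) s 0
      rw [hc, h00, hv, map_add, hψ0, hZψ hm.2, add_zero]
    have hin : ∀ s, vs s - v₀ ∈ M := by
      intro s
      refine ⟨by rw [add_sub_cancel, hnorm], ?_⟩
      have h1 := hle (vs s)
      rw [hnorm, one_pow, mul_one] at h1
      have h2 : h (vs s - v₀) (vs s - v₀) = h (vs s) (vs s) - 2 * h v₀ (vs s) + h v₀ v₀ := by
        simp only [map_sub, sub_apply]
        rw [hs (vs s) v₀]
        ring
      rw [hmax, hψ, hh0] at h2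
      exact le_antisymm (by rw [h2]; linarith only [h1]) (hp _)
    have hsub : ∀ s, vs s - v ∈ Z₀ := by
      intro s
      have e : vs s - v = (vs s - v₀) - m := by rw [hv]; abel
      rw [e]
      exact Z₀.sub_mem (hMZ₀ _ (hin s)) (hMZ₀ _ hm)
    have hlim := hasDerivAt_iff_tendsto_slope_zero.mp (hd 0)
    rw [h00] at hlim
    simp only [zero_add] at hlim
    refine hZ₀cl.mem_of_tendsto hlim (Eventually.of_forall fun t => ?_)
    exact Z₀.smul_mem _ (hsub t)
  have hinv : ∀ z, h z z = 0 → ∀ y ∈ Z₀, G z y ∈ Z₀ := by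
    intro z hz y hy
    refine mapsTo_closure_span M (G z) (fun m hm => ?_) hy
    have e : G z m = G z (v₀ + m) - G z (v₀ + 0) := by
      rw [← map_sub]
      congr 1
      abel
    rw [e]
    exact Z₀.sub_mem (hface z hz m hm) (hface z hz 0 h0M)
  -- the lemma on infinitesimal isometries on `Z₀`
  have hGZ : ∀ z ∈ Z₀, ∀ y ∈ Z₀, G z y = 0 := by
    intro z hz y hy
    have hcomp : CompleteSpace Z₀ := hZ₀cl.completeSpace_coe
    set Γ' := restrictBilin Z₀ G (fun u hu v hv => hinv u (hZ₀rad u hu) v hv) with hΓ'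
    have h1 := mu_lemma (hC.submodule Z₀) Γ' (fun a b => Subtype.ext (Gs _ _)) (fun a b ha => by
      rw [hT.dn_submodule Z₀ ha, hΓ', restrictBilin_apply]
      have ha' : (a : T) ≠ 0 := fun h => ha (Subtype.ext h)
      rw [starG _ _ ha', hZ (hZ₀rad a a.2), zero_mul]) ⟨z, hz⟩ ⟨y, hy⟩
    exact congrArg Subtype.val h1
  have hG₀Z₀ : ∀ z ∈ Z₀, G₀ z = 0 := by
    intro z hz
    have hzr := hZ₀rad z hz
    rw [hG₀, Gs]
    refine hT.nilp_zero (G z) ⊤ (fun _ _ => trivial) (fun y _ hy => ?_) trivial ?_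
    · rw [Gs, starG y z hy, hs, hZ hzr, zero_mul]
    · refine hGZ z hz _ ?_
      have := hface z hzr 0 h0M
      rwa [add_zero] at this
  have hrad : ∀ z, h z z = 0 → G₀ z = 0 := by
    intro z hz
    have h1 : G₀ z ∈ Z₀ := by
      have := hface z hz 0 h0M
      rw [add_zero, Gs] at this
      rwa [hG₀]
    set W : Submodule ℝ T := LinearMap.ker (dn v₀ : T →ₗ[ℝ] ℝ) with hWd
    have memW : ∀ u, u ∈ W ↔ dn v₀ u = 0 := fun u => LinearMap.mem_ker
    exact hT.nilp_zero G₀ W (fun u _ => (memW _).mpr (hψG₀ u)) (fun u hu hu0 =>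
      htan u ((memW u).mp hu) hu0) ((memW z).mpr (hZψ hz)) (hG₀Z₀ _ h1)
  have hG₀zero : ∀ w, G₀ w = 0 := by
    have hW : ∀ w, dn v₀ w = 0 → G₀ w = 0 := by
      intro w hw
      set W : Submodule ℝ T := LinearMap.ker (dn v₀ : T →ₗ[ℝ] ℝ) with hWd
      have memW : ∀ u, u ∈ W ↔ dn v₀ u = 0 := fun u => LinearMap.mem_ker
      refine hT.nilp_zero G₀ W (fun u _ => (memW _).mpr (hψG₀ u)) (fun u hu hu0 =>
        htan u ((memW u).mp hu) hu0) ((memW w).mpr hw) ?_
      exact hrad _ (hG₀rad w)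
    intro w
    rw [dec w, map_add, map_smul, hW _ (dect w), add_zero, hG₀, hG00, smul_zero]
  -- step 5
  have hfin1 : ∀ v w, v ≠ 0 → dn v₀ v ≠ 0 → dn v (G v w) = 0 := by
    intro v w hv hψv
    have h1 := starG v v₀ hv
    rw [Gs, ← hG₀, hG₀zero, map_zero, hs, hmax] at h1
    have h2 : d v = 0 := (mul_eq_zero.mp h1.symm).resolve_left (mul_ne_zero hμ.ne' hψv)
    rw [starG v w hv, h2, mul_zero]
  have hfin2 : ∀ v w, v ≠ 0 → dn v (G v w) = 0 := by
    intro v w hv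
    by_cases hψv : dn v₀ v = 0
    · have h1 : Tendsto (fun t : ℝ => v + t • v₀) (𝓝[≠] 0) (𝓝 v) := by
        have : Continuous fun t : ℝ => v + t • v₀ := by fun_prop
        have h2 := this.tendsto 0
        rw [zero_smul, add_zero] at h2
        exact h2.mono_left nhdsWithin_le_nhds
      have h2 : Tendsto (fun t : ℝ => dn (v + t • v₀)) (𝓝[≠] 0) (𝓝 (dn v)) :=
        (hT.continuousAt_dn hv).tendsto.comp h1
      have h3 : Tendsto (fun t : ℝ => G (v + t • v₀) w) (𝓝[≠] 0) (𝓝 (G v w)) :=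
        tendsto_clm_apply ((G.continuous.tendsto v).comp h1) tendsto_const_nhds
      have h4 := tendsto_clm_apply h2 h3
      have h5 : Tendsto (fun t : ℝ => dn (v + t • v₀) (G (v + t • v₀) w)) (𝓝[≠] 0) (𝓝 0) := by
        refine tendsto_const_nhds.congr' ?_
        filter_upwards [self_mem_nhdsWithin, h1.eventually (isOpen_ne.mem_nhds hv)] with t ht ht2
        have ht0 : t ≠ 0 := ht
        refine (hfin1 _ w ht2 ?_).symm
        rw [map_add, map_smul, hψv, zero_add, smul_eq_mul, hψ0, mul_one]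
        exact ht0
      exact tendsto_nhds_unique h4 h5
    · exact hfin1 v w hv hψv
  exact mu_lemma hC G Gs hfin2 w u

/-- The algebraic lemma at a maximum of the quadratic form, without convexity. -/
theorem UC11.al_max [CompleteSpace T] (hC : UC11 T)
    (h : T →L[ℝ] T →L[ℝ] ℝ) (hs : ∀ u v, h u v = h v u) (hp : ∀ u, 0 ≤ h u u)
    (Γ : T →L[ℝ] T →L[ℝ] T) (Γs : ∀ u v, Γ u v = Γ v u) (c : T → ℝ)
    (star : ∀ v w, v ≠ 0 → dn v (Γ v w) = h v w * c v)
    {v₀ : T} (hv₀ : ‖v₀‖ = 1) {μ : ℝ} (hμ : 0 < μ) (hmax : ∀ w, h v₀ w = μ * dn v₀ w)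
    (hle : ∀ v, h v v ≤ μ * ‖v‖ ^ 2) (hlip : LipAt (dn : T → T →L[ℝ] ℝ) v₀) :
    ∃ b : T, ∀ v w, Γ v w = h v w • b := by
  have hT := hC.smooth
  have hv0 : v₀ ≠ 0 := by rintro rfl; simp at hv₀
  have hψ0 : dn v₀ v₀ = 1 := by rw [hT.dn_self hv0, hv₀]
  have hh0 : h v₀ v₀ = μ := by rw [hmax, hψ0, mul_one]
  obtain ⟨β, hβ⟩ : ∃ β : T, β = μ⁻¹ • Γ v₀ v₀ := ⟨_, rfl⟩
  obtain ⟨G, hG⟩ : ∃ G : T →L[ℝ] T →L[ℝ] T, ∀ w u, G w u = Γ w u - h w u • β :=
    ⟨Γ - (ContinuousLinearMap.smulRightL ℝ T T).flip β ∘L h, fun w u => rfl⟩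
  have Gs : ∀ w u, G w u = G u w := fun w u => by rw [hG, hG, Γs, hs]
  have starG : ∀ v w, v ≠ 0 → dn v (G v w) = h v w * (c v - dn v β) := by
    intro v w hv
    rw [hG, map_sub, map_smul, star v w hv, smul_eq_mul]
    ring
  have hG00 : G v₀ v₀ = 0 := by
    rw [hG, hh0, hβ, smul_smul, mul_inv_cancel₀ hμ.ne', one_smul, sub_self]
  refine ⟨β, fun v w => ?_⟩
  have h1 := hC.al_zero h hs hp G Gs (fun v => c v - dn v β) starG hv₀ hμ hmax hle hlip hG00 v w
  rw [hG] at h1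
  exact sub_eq_zero.mp h1

/-- **The algebraic lemma, without convexity.** -/
theorem al_lemma_gen [CompleteSpace T] (hT : UC11 T)
    (h : T →L[ℝ] T →L[ℝ] ℝ) (hs : ∀ u v, h u v = h v u) (hp : ∀ u, 0 ≤ h u u)
    (Γ : T →L[ℝ] T →L[ℝ] T) (Γs : ∀ u v, Γ u v = Γ v u) (c : T → ℝ) {K : ℝ}
    (hc : ∀ v, |c v| ≤ K)
    (star : ∀ v w, v ≠ 0 → dn v (Γ v w) = h v w * c v) :
    ∃ b : T, ∀ v w, Γ v w = h v w • b := by
  have hsm := hT.smooth
  by_cases hdeg : ∀ v, h v v = 0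
  · have h0 : ∀ v w, h v w = 0 := fun v w => psd_zero' h hs hp (hdeg v) w
    refine ⟨0, fun v w => ?_⟩
    rw [smul_zero]
    exact mu_lemma hT Γ Γs (fun v w hv => by rw [star v w hv, h0, zero_mul]) v w
  push Not at hdeg
  obtain ⟨v₁, hv₁⟩ := hdeg
  have hv₁0 : v₁ ≠ 0 := by
    rintro rfl
    exact hv₁ (by rw [map_zero])
  have hpos₁ : 0 < h v₁ v₁ := lt_of_le_of_ne (hp v₁) (Ne.symm hv₁)
  -- the supremum
  set S : Set ℝ := (fun v : T => h v v) '' {v | ‖v‖ = 1} with hS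
  have hSb : BddAbove S := by
    refine ⟨‖h‖, ?_⟩
    rintro _ ⟨v, hv, rfl⟩
    have hv' : ‖v‖ = 1 := hv
    have := h.le_opNorm₂ v v
    rw [hv', mul_one, mul_one, Real.norm_eq_abs] at this
    exact (le_abs_self _).trans this
  have hunit : ‖‖v₁‖⁻¹ • v₁‖ = 1 := by
    rw [norm_smul, norm_inv, norm_norm, inv_mul_cancel₀ (norm_ne_zero_iff.mpr hv₁0)]
  have hSne : S.Nonempty := ⟨_, ⟨‖v₁‖⁻¹ • v₁, hunit, rfl⟩⟩
  set μ : ℝ := sSup S with hμdef
  have hleμ : ∀ v : T, h v v ≤ μ * ‖v‖ ^ 2 := by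
    intro v
    by_cases hv : v = 0
    · rw [hv]; simp
    · have hn : ‖v‖ ≠ 0 := norm_ne_zero_iff.mpr hv
      have h1 : h (‖v‖⁻¹ • v) (‖v‖⁻¹ • v) ≤ μ := le_csSup hSb ⟨‖v‖⁻¹ • v, by
        change ‖‖v‖⁻¹ • v‖ = 1
        rw [norm_smul, norm_inv, norm_norm, inv_mul_cancel₀ hn], rfl⟩
      have h2 : h v v = ‖v‖ ^ 2 * h (‖v‖⁻¹ • v) (‖v‖⁻¹ • v) := by
        simp only [map_smul, smul_apply, smul_eq_mul]
        field_simp
      rw [h2, mul_comm μ]
      gcongr
  have hμ : 0 < μ := by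
    have h1 := hleμ v₁
    have h2 : 0 < μ * ‖v₁‖ ^ 2 := hpos₁.trans_le h1
    exact (mul_pos_iff_of_pos_right (by positivity)).mp h2
  -- a maximizing sequence
  have hseq : ∀ n : ℕ, ∃ v : T, ‖v‖ = 1 ∧ μ - 1 / ((n : ℝ) + 1) < h v v := by
    intro n
    obtain ⟨_, ⟨v, hv, rfl⟩, hlt⟩ := exists_lt_of_lt_csSup hSne
      (show μ - 1 / ((n : ℝ) + 1) < sSup S by
        have : 0 < 1 / ((n : ℝ) + 1) := by (clear * -; positivity)
        linarith only [this])
    exact ⟨v, hv, hlt⟩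
  choose x hx1 hx2 using hseq
  have bx : Bdd x := ⟨1, fun n => (hx1 n).le⟩
  have hxμ : Tendsto (fun n => h (x n) (x n)) UF (𝓝 μ) := by
    have h1 : Tendsto (fun n : ℕ => μ - 1 / ((n : ℝ) + 1)) UF (𝓝 μ) := by
      have := (tendsto_one_div_add_atTop_nhds_zero_nat (𝕜 := ℝ)).const_sub μ
      rw [sub_zero] at this
      exact this.mono_left UF_le
    refine tendsto_of_tendsto_of_tendsto_of_le_of_le h1 tendsto_const_nhds
      (fun n => (hx2 n).le) (fun n => ?_)
    have := hleμ (x n)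
    rwa [hx1 n, one_pow, mul_one] at this
  -- pass to the ultrapower
  have hTU : UC11 (Ultra T) := hT.ultra
  have hsmU := hTU.smooth
  obtain ⟨H, hH⟩ : ∃ H, H = ultraForm h := ⟨_, rfl⟩
  obtain ⟨Δ, hΔ⟩ : ∃ Δ, Δ = ultraBilin Γ := ⟨_, rfl⟩
  have Ht : ∀ {y z : ℕ → T}, Bdd y → Bdd z →
      Tendsto (fun n => h (y n) (z n)) UF (𝓝 (H (cls y) (cls z))) := by
    intro y z hy hz
    rw [hH]
    exact tendsto_ultraForm h hy hz
  have Hs : ∀ u v, H u v = H v u := by
    intro u v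
    obtain ⟨y, hy, rfl⟩ := exists_rep u
    obtain ⟨z, hz, rfl⟩ := exists_rep v
    refine tendsto_nhds_unique (Ht hy hz) ?_
    exact (Ht hz hy).congr fun n => hs _ _
  have Hp : ∀ u, 0 ≤ H u u := by
    intro u
    obtain ⟨y, hy, rfl⟩ := exists_rep u
    exact ge_of_tendsto' (Ht hy hy) fun n => hp _
  have Δs : ∀ u v, Δ u v = Δ v u := by
    intro u v
    obtain ⟨y, hy, rfl⟩ := exists_rep u
    obtain ⟨z, hz, rfl⟩ := exists_rep v
    rw [hΔ, ultraBilin_cls Γ hy hz, ultraBilin_cls Γ hz hy]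
    congr 1
    funext n
    exact Γs _ _
  have HleU : ∀ u, H u u ≤ μ * ‖u‖ ^ 2 := by
    intro u
    obtain ⟨y, hy, rfl⟩ := exists_rep u
    exact le_of_tendsto_of_tendsto' (Ht hy hy) (((tendsto_norm_cls hy).pow 2).const_mul μ)
      fun n => hleμ _
  obtain ⟨v₀, hv₀def⟩ : ∃ v₀ : Ultra T, v₀ = cls x := ⟨_, rfl⟩
  have hv₀ : ‖v₀‖ = 1 := by rw [hv₀def]; exact norm_cls_eq hx1
  have hv₀0 : v₀ ≠ 0 := by
    intro h0
    rw [h0, norm_zero] at hv₀
    exact zero_ne_one hv₀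
  have hHv₀ : H v₀ v₀ = μ := by
    rw [hv₀def]
    exact tendsto_nhds_unique (Ht bx bx) hxμ
  have Hmax : ∀ w, H v₀ w = μ * dn v₀ w := by
    intro w
    have hd : HasDerivAt (fun t : ℝ => μ * ‖v₀ + t • w‖ ^ 2 - H (v₀ + t • w) (v₀ + t • w))
        (μ * (2 * dn v₀ w) - 2 * H v₀ w) 0 := by
      have h1 : HasDerivAt (fun t : ℝ => v₀ + t • w) w 0 := by
        have := ((hasDerivAt_id (0 : ℝ)).smul_const w).const_add v₀
        rwa [one_smul] at this
      have h2 : HasFDerivAt (fun y : Ultra T => ‖y‖) (dn v₀) (v₀ + (0 : ℝ) • w) := by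
        rw [zero_smul, add_zero]
        exact hsmU.hasFDerivAt hv₀0
      have h3 := h2.comp_hasDerivAt (0 : ℝ) h1
      have h4 := (h3.pow 2).const_mul μ
      have h5 : HasDerivAt (fun t : ℝ => H (v₀ + t • w) (v₀ + t • w)) (2 * H v₀ w) 0 := by
        have e : (fun t : ℝ => H (v₀ + t • w) (v₀ + t • w)) =
            fun t : ℝ => H v₀ v₀ + t * (2 * H v₀ w) + t ^ 2 * H w w := by
          funext t
          simp only [map_add, map_smul, add_apply, smul_apply, smul_eq_mul]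
          rw [Hs w v₀]
          ring
        rw [e]
        have a1 := ((hasDerivAt_id (0 : ℝ)).mul_const (2 * H v₀ w)).const_add (H v₀ v₀)
        have a2 := ((hasDerivAt_id (0 : ℝ)).pow 2).mul_const (H w w)
        have a3 := a1.add a2
        refine (a3.congr_deriv ?_)
        simp only [one_mul, Nat.cast_ofNat, id_eq, Nat.add_one_sub_one, pow_one, mul_zero, mul_one, zero_mul, add_zero]
      refine (h4.sub h5).congr_deriv ?_
      simp only [Function.comp_apply, zero_smul, add_zero, hv₀]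
      norm_num
    have hmin : IsLocalMin
        (fun t : ℝ => μ * ‖v₀ + t • w‖ ^ 2 - H (v₀ + t • w) (v₀ + t • w)) 0 := by
      refine Filter.Eventually.of_forall fun t => ?_
      simp only [zero_smul, add_zero, hv₀, hHv₀]
      have := HleU (v₀ + t • w)
      linarith only [this]
    have := hmin.hasDerivAt_eq_zero hd
    linarith only [this]
  have hlip : LipAt (dn : Ultra T → Ultra T →L[ℝ] ℝ) v₀ := by
    obtain ⟨C, hC0, hC⟩ := hTU.exists_pos
    rw [lipAt_iff]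
    refine ⟨⟨8 * C, by (clear * - hC0; positivity)⟩, ball v₀ (1 / 2), ball_mem_nhds _ (by norm_num), ?_⟩
    refine LipschitzOnWith.of_dist_le_mul fun y hy z hz => ?_
    have hn : ∀ y ∈ ball v₀ (1 / 2), 1 / 2 ≤ ‖y‖ := by
      intro y hy
      rw [mem_ball, dist_eq_norm] at hy
      have : ‖v₀‖ ≤ ‖y‖ + ‖y - v₀‖ := by
        have e : v₀ = y - (y - v₀) := by abel
        calc ‖v₀‖ = ‖y - (y - v₀)‖ := by rw [← e]
          _ ≤ _ := norm_sub_le _ _
      rw [hv₀] at this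
      linarith only [this, hy]
    have hy' := hn y hy
    have hz' := hn z hz
    have h1 := UC11.dn_lip hC0.le hC (x := y) (y := z) (norm_pos_iff.mp (by linarith only [hy']))
      (norm_pos_iff.mp (by linarith only [hz']))
    rw [dist_eq_norm, dist_eq_norm]
    refine h1.trans ?_
    change _ ≤ 8 * C * ‖y - z‖
    rw [div_le_iff₀ (by linarith only [hy'])]
    have h2 : 0 ≤ C * ‖y - z‖ := by (clear * - hC0; positivity)
    linarith only [mul_nonneg (sub_nonneg.2 hy') (sub_nonneg.2 h2)]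
  have hstar : ∀ v w, v ≠ 0 → dn v (Δ v w) = H v w * ulim (fun n => c (rep v n)) := by
    intro v w hv
    have bv := bdd_rep v
    have bw := bdd_rep w
    have bc : Bdd (fun n => c (rep v n)) := ⟨K, fun n => hc _⟩
    have e1 : Δ v w = cls (fun n => Γ (rep v n) (rep w n)) := by
      rw [hΔ]
      conv_lhs => rw [← cls_rep v, ← cls_rep w]
      exact ultraBilin_cls Γ bv bw
    have hv' : cls (rep v) ≠ 0 := by rwa [cls_rep]
    have h1 := tendsto_dn_ultra hsm hsmU bv (bv.bilin Γ bw) hv'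
    rw [cls_rep, ← e1] at h1
    have h2 := Ht bv bw
    rw [cls_rep, cls_rep] at h2
    have h3 := h2.mul (tendsto_ulim bc)
    refine tendsto_nhds_unique h1 (h3.congr' ?_)
    have hx0 : ∀ᶠ n in (UF : Filter ℕ), rep v n ≠ 0 := by
      have h1 := tendsto_norm_cls bv
      have h2 : 0 < ‖cls (rep v)‖ := norm_pos_iff.mpr hv'
      filter_upwards [h1.eventually (lt_mem_nhds h2)] with n hn
      exact norm_pos_iff.mp hn
    filter_upwards [hx0] with n hn
    exact (star _ _ hn).symm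
  obtain ⟨bU, hbU⟩ := hTU.al_max H Hs Hp Δ Δs _ hstar hv₀ hμ Hmax HleU hlip
  -- back to `T`
  have hdiag : ∀ v w : T, diag (Γ v w) = h v w • bU := by
    intro v w
    have e1 : Δ (diag v) (diag w) = diag (Γ v w) := by
      rw [hΔ]
      exact ultraBilin_cls Γ (bdd_const v) (bdd_const w)
    have e2 : H (diag v) (diag w) = h v w :=
      tendsto_nhds_unique (Ht (bdd_const v) (bdd_const w)) tendsto_const_nhds
    rw [← e1, hbU, e2]
  refine ⟨(h v₁ v₁)⁻¹ • Γ v₁ v₁, fun v w => diag_injective ?_⟩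
  rw [diag_smul, diag_smul, hdiag v₁ v₁, hdiag, smul_smul (h v₁ v₁)⁻¹, inv_mul_cancel₀ hv₁,
    one_smul]

end al

end P084
end 
end
end

section

/- SmTwoA -/
section
/-!
Two-dimensional case: parametrisation of the unit sphere.
-/

open Set Filter Topology Metric Asymptotics
open scoped NNReal

noncomputable section

set_option linter.unusedSectionVars false

namespace P084

/-- A periodic locally Lipschitz function on the line is Lipschitz. -/
theorem lipschitz_of_periodic {E : Type*} [NormedAddCommGroup E] [NormedSpace ℝ E] {f : ℝ → E}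
    {T : ℝ} (hT : 0 < T) (hper : Function.Periodic f T) (h : ∀ t, LipAt f t) :
    ∃ K : ℝ≥0, LipschitzWith K f := by
  have hloc : LocallyLipschitzOn (Icc (0 : ℝ) (2 * T)) f := by
    intro t _
    obtain ⟨K, U, hU, hK⟩ := lipAt_iff.mp (h t)
    exact ⟨K, U, mem_nhdsWithin_of_mem_nhds hU, hK⟩
  obtain ⟨K, hK⟩ := hloc.exists_lipschitzOnWith_of_compact isCompact_Icc
  refine ⟨K, ?_⟩
  -- short steps
  have hA : ∀ s t : ℝ, s ≤ t → t ≤ s + T → dist (f s) (f t) ≤ K * (t - s) := by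
    intro s t hst hts
    set n : ℤ := ⌊s / T⌋ with hn
    have h1 : (n : ℝ) ≤ s / T := Int.floor_le _
    have h2 : s / T < n + 1 := Int.lt_floor_add_one _
    rw [le_div_iff₀ hT] at h1
    rw [div_lt_iff₀ hT] at h2
    have e1 : f (s - n * T) = f s := hper.sub_int_mul_eq n
    have e2 : f (t - n * T) = f t := hper.sub_int_mul_eq n
    rw [← e1, ← e2]
    have h3 := hK.dist_le_mul (s - n * T) ⟨by linarith only [h1], by linarith only [hT, h2]⟩ (t - n * T)
      ⟨by linarith only [hst, h1], by linarith only [hts, h2]⟩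
    refine h3.trans (le_of_eq ?_)
    rw [Real.dist_eq, abs_sub_comm, abs_of_nonneg (by linarith only [hst])]
    ring
  have hB : ∀ s t : ℝ, s ≤ t → dist (f s) (f t) ≤ K * (t - s) := by
    intro s t hst
    set j : ℤ := ⌊(t - s) / T⌋ with hj
    have h1 : (j : ℝ) ≤ (t - s) / T := Int.floor_le _
    have h2 : (t - s) / T < j + 1 := Int.lt_floor_add_one _
    have h0 : (0 : ℝ) ≤ j := by
      have : 0 ≤ j := Int.floor_nonneg.mpr (div_nonneg (by linarith only [hst]) hT.le)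
      exact_mod_cast this
    rw [le_div_iff₀ hT] at h1
    rw [div_lt_iff₀ hT] at h2
    have e2 : f (t - j * T) = f t := hper.sub_int_mul_eq j
    rw [← e2]
    refine (hA s (t - j * T) (by linarith only [h1]) (by linarith only [h2])).trans ?_
    have : t - j * T - s ≤ t - s := by
      have := mul_nonneg h0 hT.le
      linarith only [this]
    (clear * - this; gcongr)
  refine LipschitzWith.of_dist_le_mul fun s t => ?_
  rcases le_total s t with hst | hst
  · refine (hB s t hst).trans (le_of_eq ?_)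
    rw [Real.dist_eq, abs_sub_comm, abs_of_nonneg (by linarith only [hst])]
  · rw [dist_comm]
    refine (hB t s hst).trans (le_of_eq ?_)
    rw [Real.dist_eq, abs_of_nonneg (by linarith)]

/-- A non-degenerate alternating form on a plane. -/
theorem exists_area {Y : Type*} [NormedAddCommGroup Y] [NormedSpace ℝ Y] [FiniteDimensional ℝ Y]
    (hdim : Module.finrank ℝ Y = 2) : ∃ ω : Y →L[ℝ] Y →L[ℝ] ℝ, (∀ v, ω v v = 0) ∧
      ∀ u v, u ≠ 0 → ω u v = 0 → ∃ c : ℝ, v = c • u := by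
  let S : Y ≃L[ℝ] ℂ := ContinuousLinearEquiv.ofFinrankEq (by rw [hdim, Complex.finrank_real_complex])
  let ω₀ : ℂ →L[ℝ] ℂ →L[ℝ] ℝ := Complex.reCLM.smulRight Complex.imCLM -
    Complex.imCLM.smulRight Complex.reCLM
  have hω₀ : ∀ z w : ℂ, ω₀ z w = z.re * w.im - z.im * w.re := fun z w => by
    simp [ω₀]
  refine ⟨ω₀.bilinearComp (S : Y →L[ℝ] ℂ) (S : Y →L[ℝ] ℂ), fun v => ?_, fun u v hu huv => ?_⟩
  · rw [ContinuousLinearMap.bilinearComp_apply, hω₀]
    ring
  · rw [ContinuousLinearMap.bilinearComp_apply, hω₀] at huv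
    have hu' : S u ≠ 0 := by
      intro h
      exact hu (by simpa using h)
    have huv' : (S u).re * (S v).im - (S u).im * (S v).re = 0 := huv
    have hn : (S u).re ^ 2 + (S u).im ^ 2 ≠ 0 := by
      intro h
      apply hu'
      apply Complex.ext
      · simp only [Complex.zero_re]; nlinarith only [h]
      · simp only [Complex.zero_im]; nlinarith only [h]
    set c : ℝ := ((S u).re * (S v).re + (S u).im * (S v).im) / ((S u).re ^ 2 + (S u).im ^ 2) with hc
    refine ⟨c, S.injective ?_⟩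
    rw [map_smul]
    apply Complex.ext
    · rw [Complex.real_smul, Complex.re_ofReal_mul, hc]
      field_simp
      linear_combination (-(S u).im) * huv'
    · rw [Complex.real_smul, Complex.im_ofReal_mul, hc]
      field_simp
      linear_combination ((S u).re) * huv'

/-- The data of a `C^{1,1}` parametrisation of the unit sphere of a plane. -/
structure TCurve {Y : Type*} [NormedAddCommGroup Y] [NormedSpace ℝ Y] (P P₁ : ℝ → Y)
    (ω : Y →L[ℝ] Y →L[ℝ] ℝ) (σ : ℝ → ℝ → ℝ) (L w₀ δ : ℝ) : Prop where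
  L_nonneg : 0 ≤ L
  w₀_pos : 0 < w₀
  δ_pos : 0 < δ
  smooth : SmoothNorm Y
  alt : ∀ v, ω v v = 0
  nondeg : ∀ u v, u ≠ 0 → ω u v = 0 → ∃ c : ℝ, v = c • u
  norm : ∀ t, ‖P t‖ = 1
  deriv : ∀ t, HasDerivAt P (P₁ t) t
  lip : ∀ s t, ‖P₁ s - P₁ t‖ ≤ L * |s - t|
  bound : ∀ t, ‖P₁ t‖ ≤ L
  pos : ∀ t, w₀ ≤ ω (P t) (P₁ t)
  per : ∀ t, P (t + 2 * Real.pi) = P t
  per₁ : ∀ t, P₁ (t + 2 * Real.pi) = P₁ t
  dlip : ∀ s t, ‖dn (P s) - dn (P t)‖ ≤ L * |s - t|
  dir : ∀ a b, |a - b| ≤ δ → P a + P b = ‖P a + P b‖ • P (σ a b)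
  close : ∀ a b, |a - b| ≤ δ → |σ a b - (a + b) / 2| ≤ L * (a - b) ^ 2
  diff : ∀ a b, |a - b| ≤ δ → DifferentiableAt ℝ (fun q : ℝ × ℝ => σ q.1 q.2) (a, b)

section curve

variable {X Y : Type*} [NormedAddCommGroup X] [NormedSpace ℝ X]
  [NormedAddCommGroup Y] [NormedSpace ℝ Y] {F : X → Y}

theorem lipAt_of_contDiffAt {E G : Type*} [NormedAddCommGroup E] [NormedSpace ℝ E]
    [NormedAddCommGroup G] [NormedSpace ℝ G] {f : E → G} {x : E} (h : ContDiffAt ℝ 1 f x) :
    LipAt f x := by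
  obtain ⟨K, U, hU, hK⟩ := h.exists_lipschitzOnWith
  exact lipAt_iff.mpr ⟨K, U, hU, hK⟩

/-- The unit circle transported to `X`. -/
def cc (T : ℂ ≃L[ℝ] X) (t : ℝ) : X := T (Complex.exp (t * Complex.I))

/-- Derivative of `cc`. -/
def cc₁ (T : ℂ ≃L[ℝ] X) (t : ℝ) : X := T (Complex.exp (t * Complex.I) * Complex.I)

theorem hasDerivAt_cexp (t : ℝ) : HasDerivAt (fun t : ℝ => Complex.exp (t * Complex.I))
    (Complex.exp (t * Complex.I) * Complex.I) t := by
  have h1 : HasDerivAt (fun t : ℝ => (t : ℂ) * Complex.I) (1 * Complex.I) t :=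
    (Complex.ofRealCLM.hasDerivAt).mul_const _
  have h2 := h1.cexp
  simpa only [one_mul] using h2

theorem hasDerivAt_cc (T : ℂ ≃L[ℝ] X) (t : ℝ) : HasDerivAt (cc T) (cc₁ T t) t :=
  T.toContinuousLinearMap.hasFDerivAt.comp_hasDerivAt t (hasDerivAt_cexp t)

theorem cc_ne_zero (T : ℂ ≃L[ℝ] X) (t : ℝ) : cc T t ≠ 0 := by
  intro h
  have : Complex.exp (t * Complex.I) = 0 := by
    apply T.injective
    rw [map_zero]
    exact h
  exact Complex.exp_ne_zero _ this

theorem contDiff_cexp_real : ContDiff ℝ 1 (fun t : ℝ => Complex.exp (t * Complex.I)) := by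
  have h : ContDiff ℝ 1 (fun t : ℝ => (t : ℂ)) := Complex.ofRealCLM.contDiff
  exact (h.mul contDiff_const).cexp

theorem lipAt_cc (T : ℂ ≃L[ℝ] X) (t : ℝ) : LipAt (cc T) t := by
  apply lipAt_of_contDiffAt
  exact (T.contDiff.comp contDiff_cexp_real).contDiffAt

theorem lipAt_cc₁ (T : ℂ ≃L[ℝ] X) (t : ℝ) : LipAt (cc₁ T) t := by
  apply lipAt_of_contDiffAt
  exact (T.contDiff.comp (contDiff_cexp_real.mul contDiff_const)).contDiffAt

theorem cc_per (T : ℂ ≃L[ℝ] X) (t : ℝ) : cc T (t + 2 * Real.pi) = cc T t := by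
  unfold cc
  congr 1
  push_cast
  rw [add_mul]
  exact Complex.exp_periodic _

theorem cc₁_per (T : ℂ ≃L[ℝ] X) (t : ℝ) : cc₁ T (t + 2 * Real.pi) = cc₁ T t := by
  unfold cc₁
  congr 2
  push_cast
  rw [add_mul]
  exact Complex.exp_periodic _

/-- The curve on the unit sphere. -/
def pp (T : ℂ ≃L[ℝ] X) (t : ℝ) : X := ‖cc T t‖⁻¹ • cc T t

/-- Its derivative. -/
def pp₁ (T : ℂ ≃L[ℝ] X) (t : ℝ) : X :=
  ‖cc T t‖⁻¹ • cc₁ T t + (-(dn (cc T t) (cc₁ T t)) * (‖cc T t‖⁻¹ * ‖cc T t‖⁻¹)) • cc T t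

theorem norm_pp (T : ℂ ≃L[ℝ] X) (t : ℝ) : ‖pp T t‖ = 1 := by
  have h : 0 < ‖cc T t‖ := norm_pos_iff.mpr (cc_ne_zero T t)
  rw [pp, norm_smul, norm_inv, norm_norm, inv_mul_cancel₀ h.ne']

theorem pp_ne_zero (T : ℂ ≃L[ℝ] X) (t : ℝ) : pp T t ≠ 0 := by
  intro h
  have := norm_pp T t
  rw [h, norm_zero] at this
  exact zero_ne_one this

theorem hasDerivAt_pp (hX : SmoothNorm X) (T : ℂ ≃L[ℝ] X) (t : ℝ) :
    HasDerivAt (pp T) (pp₁ T t) t := by
  have h0 : ‖cc T t‖ ≠ 0 := norm_ne_zero_iff.mpr (cc_ne_zero T t)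
  have h1 : HasDerivAt (fun t => ‖cc T t‖) (dn (cc T t) (cc₁ T t)) t :=
    (hX.hasFDerivAt (cc_ne_zero T t)).comp_hasDerivAt t (hasDerivAt_cc T t)
  have h2 := (h1.inv h0).smul (hasDerivAt_cc T t)
  refine h2.congr_deriv ?_
  rw [pp₁]
  congr 2
  rw [div_eq_mul_inv, pow_two, mul_inv]

theorem lipAt_inv_norm_cc (T : ℂ ≃L[ℝ] X) (t : ℝ) : LipAt (fun t => ‖cc T t‖⁻¹) t := by
  have h0 : ‖cc T t‖ ≠ 0 := norm_ne_zero_iff.mpr (cc_ne_zero T t)
  have h1 : LipAt (fun r : ℝ => r⁻¹) ‖cc T t‖ := (hasStrictDerivAt_inv h0).hasStrictFDerivAt.lipAt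
  exact LipAt.comp (f := fun r : ℝ => r⁻¹) (g := fun t => ‖cc T t‖) h1
    (LipAt.comp (lipAt_norm _) (lipAt_cc T t))

theorem lipAt_pp (T : ℂ ≃L[ℝ] X) (t : ℝ) : LipAt (pp T) t :=
  (lipAt_inv_norm_cc T t).smul (lipAt_cc T t)

theorem lipAt_pp₁ (hX : C11Norm X) (T : ℂ ≃L[ℝ] X) (t : ℝ) : LipAt (pp₁ T) t := by
  have h1 : LipAt (fun t => dn (cc T t)) t := (hX.lip _ (cc_ne_zero T t)).comp (lipAt_cc T t)
  have h2 := (h1.clm_apply (lipAt_cc₁ T t)).neg
  have h3 := h2.mul ((lipAt_inv_norm_cc T t).mul (lipAt_inv_norm_cc T t))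
  exact ((lipAt_inv_norm_cc T t).smul (lipAt_cc₁ T t)).add (h3.smul (lipAt_cc T t))

theorem pp_per (T : ℂ ≃L[ℝ] X) (t : ℝ) : pp T (t + 2 * Real.pi) = pp T t := by
  unfold pp
  rw [cc_per]

theorem pp₁_per (T : ℂ ≃L[ℝ] X) (t : ℝ) : pp₁ T (t + 2 * Real.pi) = pp₁ T t := by
  unfold pp₁
  rw [cc_per, cc₁_per]

theorem pp₁_ne_zero (T : ℂ ≃L[ℝ] X) (t : ℝ) : pp₁ T t ≠ 0 := by
  intro h
  have h0 : ‖cc T t‖ ≠ 0 := norm_ne_zero_iff.mpr (cc_ne_zero T t)
  rw [pp₁] at h
  have h1 := congrArg (fun v => ‖cc T t‖ • v) h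
  simp only [smul_add, smul_smul, mul_inv_cancel₀ h0, one_smul, smul_zero] at h1
  set a : ℝ := ‖cc T t‖ * (-(dn (cc T t) (cc₁ T t)) * (‖cc T t‖⁻¹ * ‖cc T t‖⁻¹)) with ha
  rw [cc₁, cc, ← map_smul, ← map_add] at h1
  have h2 : Complex.exp (t * Complex.I) * Complex.I + a • Complex.exp (t * Complex.I) = 0 := by
    apply T.injective
    rw [h1, map_zero]
  rw [Complex.real_smul] at h2
  have h3 : Complex.exp (t * Complex.I) * (Complex.I + a) = 0 := by
    rw [← h2]; ring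
  rcases mul_eq_zero.mp h3 with h4 | h4
  · exact Complex.exp_ne_zero _ h4
  · have := congrArg Complex.im h4
    simp at this

theorem exists_sign {W : ℝ → ℝ} (hc : Continuous W) (h0 : ∀ t, W t ≠ 0) {T : ℝ} (hT : 0 < T)
    (hper : Function.Periodic W T) : ∃ ε w₀ : ℝ, 0 < w₀ ∧ ∀ t, w₀ ≤ ε * W t := by
  obtain ⟨t₀, _, ht₀⟩ := isCompact_Icc.exists_isMinOn (s := Icc (0 : ℝ) T) ⟨0, by simp only [mem_Icc, Std.le_refl, hT.le, and_self]⟩
    (f := fun t => |W t|) (by (clear * - hc; fun_prop))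
  have hmin : ∀ t, |W t₀| ≤ |W t| := by
    intro t
    obtain ⟨y, hy, hty⟩ := hper.exists_mem_Ico₀ hT t
    rw [hty]
    exact ht₀ (Ico_subset_Icc_self hy)
  have hpos : 0 < |W t₀| := abs_pos.mpr (h0 t₀)
  by_cases hs : 0 < W 0
  · refine ⟨1, |W t₀|, hpos, fun t => ?_⟩
    have : 0 < W t := by
      by_contra hneg
      push Not at hneg
      have := mem_range_of_exists_le_of_exists_ge hc ⟨t, hneg⟩ ⟨0, hs.le⟩
      obtain ⟨s, hs⟩ := this
      exact h0 s hs
    rw [one_mul, ← abs_of_pos this]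
    exact hmin t
  · refine ⟨-1, |W t₀|, hpos, fun t => ?_⟩
    have hs' : W 0 < 0 := lt_of_le_of_ne (not_lt.mp hs) (h0 0)
    have : W t < 0 := by
      by_contra hneg
      push Not at hneg
      have := mem_range_of_exists_le_of_exists_ge hc ⟨0, hs'.le⟩ ⟨t, hneg⟩
      obtain ⟨s, hs⟩ := this
      exact h0 s hs
    rw [neg_one_mul, ← abs_of_neg this]
    exact hmin t

end curve

end P084
end 
end

/- SmTwoB -/
section
/-!
Two-dimensional case: existence of the parametrisation data.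
-/

open Set Filter Topology Metric Asymptotics
open scoped NNReal

noncomputable section

set_option linter.unusedSectionVars false

namespace P084

variable {X Y : Type*} [NormedAddCommGroup X] [NormedSpace ℝ X] [FiniteDimensional ℝ X]
  [NormedAddCommGroup Y] [NormedSpace ℝ Y] {F : X → Y}

/-- The image curve. -/
def PP (F : X → Y) (T : ℂ ≃L[ℝ] X) (t : ℝ) : Y := F (pp T t)

/-- Its derivative. -/
def PP₁ (F : X → Y) (T : ℂ ≃L[ℝ] X) (t : ℝ) : Y := fderiv ℝ F (pp T t) (pp₁ T t)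

theorem norm_PP (hF : SphIso F) (T : ℂ ≃L[ℝ] X) (t : ℝ) : ‖PP F T t‖ = 1 := by
  rw [PP, hF.norm, norm_pp]

theorem PP_ne_zero (hF : SphIso F) (T : ℂ ≃L[ℝ] X) (t : ℝ) : PP F T t ≠ 0 := by
  intro h
  have := norm_PP hF T t
  rw [h, norm_zero] at this
  exact zero_ne_one this

theorem hasDerivAt_PP (hF : SphIso F) (hX : SmoothNorm X) (hY : SmoothNorm Y) (T : ℂ ≃L[ℝ] X)
    (t : ℝ) : HasDerivAt (PP F T) (PP₁ F T t) t :=
  (hF.hasFDerivAt hX hY (pp_ne_zero T t)).comp_hasDerivAt t (hasDerivAt_pp hX T t)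

theorem lipAt_PP (hF : SphIso F) (T : ℂ ≃L[ℝ] X) (t : ℝ) : LipAt (PP F T) t :=
  LipAt.comp (f := F) (g := pp T) (hF.lipschitz.lipAt _) (lipAt_pp T t)

theorem lipAt_PP₁ (hF : SphIso F) (hX : C11Norm X) (hY : C11Norm Y) (T : ℂ ≃L[ℝ] X) (t : ℝ) :
    LipAt (PP₁ F T) t :=
  (LipAt.comp (hF.lipAt_fderiv hX hY (pp_ne_zero T t)) (lipAt_pp T t)).clm_apply
    (lipAt_pp₁ hX T t)

theorem PP_per (F : X → Y) (T : ℂ ≃L[ℝ] X) (t : ℝ) : PP F T (t + 2 * Real.pi) = PP F T t := by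
  rw [PP, pp_per, PP]

theorem PP₁_per (F : X → Y) (T : ℂ ≃L[ℝ] X) (t : ℝ) :
    PP₁ F T (t + 2 * Real.pi) = PP₁ F T t := by
  rw [PP₁, pp_per, pp₁_per, PP₁]

theorem dn_PP₁ (hF : SphIso F) (hX : SmoothNorm X) (hY : SmoothNorm Y) (T : ℂ ≃L[ℝ] X)
    (t : ℝ) : dn (PP F T t) (PP₁ F T t) = 0 := by
  have h1 : HasDerivAt (fun t => ‖PP F T t‖) (dn (PP F T t) (PP₁ F T t)) t :=
    (hY.hasFDerivAt (PP_ne_zero hF T t)).comp_hasDerivAt t (hasDerivAt_PP hF hX hY T t)
  have h2 : HasDerivAt (fun t => ‖PP F T t‖) 0 t := by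
    have : (fun t => ‖PP F T t‖) = fun _ => (1 : ℝ) := by
      funext s
      exact norm_PP hF T s
    rw [this]
    exact hasDerivAt_const _ _
  exact h1.unique h2

theorem PP₁_ne_zero (hF : SphIso F) (hX : SmoothNorm X) (hY : SmoothNorm Y) (T : ℂ ≃L[ℝ] X)
    (t : ℝ) : PP₁ F T t ≠ 0 := by
  intro h
  apply pp₁_ne_zero T t
  apply Vale.Agent.P084.fderiv_injective hF hX hY (pp_ne_zero T t)
  rw [map_zero]
  exact h

theorem area_ne_zero (hF : SphIso F) (hX : SmoothNorm X) (hY : SmoothNorm Y) (T : ℂ ≃L[ℝ] X)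
    {ω : Y →L[ℝ] Y →L[ℝ] ℝ} (hω : ∀ u v, u ≠ 0 → ω u v = 0 → ∃ c : ℝ, v = c • u)
    (t : ℝ) : ω (PP F T t) (PP₁ F T t) ≠ 0 := by
  intro h
  obtain ⟨c, hc⟩ := hω _ _ (PP_ne_zero hF T t) h
  have h1 := dn_PP₁ hF hX hY T t
  rw [hc, map_smul, hY.dn_self (PP_ne_zero hF T t), norm_PP hF, smul_eq_mul, mul_one] at h1
  rw [h1, zero_smul] at hc
  exact PP₁_ne_zero hF hX hY T t hc

theorem abs_le_abs_tan {θ : ℝ} (h : |θ| < Real.pi / 2) : |θ| ≤ |Real.tan θ| := by
  rcases le_total 0 θ with h0 | h0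
  · rw [abs_of_nonneg h0] at h ⊢
    exact (Real.le_tan h0 h).trans (le_abs_self _)
  · rw [abs_of_nonpos h0] at h ⊢
    have := Real.le_tan (neg_nonneg.mpr h0) h
    rw [Real.tan_neg] at this
    exact this.trans (neg_le_abs _)

/-- Second differences of a curve with Lipschitz derivative. -/
theorem second_diff_le {E : Type*} [NormedAddCommGroup E] [NormedSpace ℝ E] {P P₁ : ℝ → E}
    (hd : ∀ t, HasDerivAt P (P₁ t) t) {L : ℝ} (hl : ∀ s t, ‖P₁ s - P₁ t‖ ≤ L * |s - t|)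
    (m τ : ℝ) : ‖P (m + τ) + P (m - τ) - (2 : ℝ) • P m‖ ≤ 2 * L * τ ^ 2 := by
  have hL : 0 ≤ L := by
    have := hl 1 0
    simp only [sub_zero, abs_one, mul_one] at this
    exact (norm_nonneg _).trans this
  have hg : ∀ r ∈ closedBall (0 : ℝ) |τ|, HasDerivWithinAt (fun r => P (m + r) + P (m - r))
      (P₁ (m + r) - P₁ (m - r)) (closedBall (0 : ℝ) |τ|) r := by
    intro r _
    have h1 : HasDerivAt (fun r => P (m + r)) (P₁ (m + r)) r := (hd (m + r)).comp_const_add m r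
    have h2 : HasDerivAt (fun r => P (m - r)) (-P₁ (m - r)) r := (hd (m - r)).comp_const_sub m r
    have := (h1.add h2).hasDerivWithinAt (s := closedBall (0 : ℝ) |τ|)
    rw [← sub_eq_add_neg] at this
    exact this
  have hb : ∀ r ∈ closedBall (0 : ℝ) |τ|, ‖P₁ (m + r) - P₁ (m - r)‖ ≤ L * (2 * |τ|) := by
    intro r hr
    refine (hl _ _).trans ?_
    rw [mem_closedBall_zero_iff, Real.norm_eq_abs] at hr
    have : |m + r - (m - r)| = 2 * |r| := by
      rw [show m + r - (m - r) = 2 * r by ring, abs_mul, abs_two]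
    rw [this]
    gcongr
  have := (convex_closedBall (0 : ℝ) |τ|).norm_image_sub_le_of_norm_hasDerivWithin_le hg hb
    (show (0 : ℝ) ∈ closedBall (0 : ℝ) |τ| from mem_closedBall_self (abs_nonneg _))
    (show τ ∈ closedBall (0 : ℝ) |τ| by rw [mem_closedBall_zero_iff, Real.norm_eq_abs])
  simp only [add_zero, sub_zero] at this
  rw [two_smul]
  refine this.trans (le_of_eq ?_)
  rw [Real.norm_eq_abs, ← sq_abs τ]
  ring

/-- Pulled back chord sum, rotated to the positive axis. -/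
def ww (hF : SphIso F) (T : ℂ ≃L[ℝ] X) (a b : ℝ) : ℂ :=
  T.symm (hF.inv (PP F T a + PP F T b)) * Complex.exp (-(((a + b) / 2 : ℝ) * Complex.I))

/-- The direction of the chord sum. -/
def sg (hF : SphIso F) (T : ℂ ≃L[ℝ] X) (a b : ℝ) : ℝ := (a + b) / 2 + (ww hF T a b).arg

theorem sg_dir (hF : SphIso F) (T : ℂ ≃L[ℝ] X) (a b : ℝ) :
    PP F T a + PP F T b = ‖PP F T a + PP F T b‖ • PP F T (sg hF T a b) := by
  set z := PP F T a + PP F T b with hz
  set w := ww hF T a b with hw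
  have h1 : T.symm (hF.inv z) = ‖w‖ • Complex.exp (sg hF T a b * Complex.I) := by
    have e1 : T.symm (hF.inv z) = w * Complex.exp (((a + b) / 2 : ℝ) * Complex.I) := by
      rw [hw, ww, mul_assoc, ← Complex.exp_add, neg_add_cancel, Complex.exp_zero, mul_one]
    have e2 : (‖w‖ : ℂ) * Complex.exp (w.arg * Complex.I) = w := Complex.norm_mul_exp_arg_mul_I w
    rw [e1, ← e2, Complex.real_smul, sg, ← hw, mul_assoc, ← Complex.exp_add]
    rw [e2]
    congr 2
    push_cast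
    ring
  have h2 : hF.inv z = (‖w‖ * ‖cc T (sg hF T a b)‖) • pp T (sg hF T a b) := by
    have hc : ‖cc T (sg hF T a b)‖ ≠ 0 := norm_ne_zero_iff.mpr (cc_ne_zero T _)
    have e3 := congrArg T h1
    rw [T.apply_symm_apply, map_smul] at e3
    rw [e3, pp, smul_smul, mul_assoc, mul_inv_cancel₀ hc, mul_one]
    rfl
  have h3 : z = (‖w‖ * ‖cc T (sg hF T a b)‖) • PP F T (sg hF T a b) := by
    have := congrArg F h2
    rwa [hF.apply_inv, hF.smul] at this
  have h4 : ‖z‖ = ‖w‖ * ‖cc T (sg hF T a b)‖ := by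
    have := congrArg norm h3
    rwa [norm_smul, norm_PP hF, mul_one, Real.norm_eq_abs,
      abs_of_nonneg (mul_nonneg (norm_nonneg _) (norm_nonneg _))] at this
  rw [h4]
  exact h3

theorem norm_cc_le (T : ℂ ≃L[ℝ] X) (t : ℝ) : ‖cc T t‖ ≤ ‖(T : ℂ →L[ℝ] X)‖ := by
  have := (T : ℂ →L[ℝ] X).le_opNorm (Complex.exp (t * Complex.I))
  rwa [Complex.norm_exp_ofReal_mul_I, mul_one] at this

theorem ww_close (hF : SphIso F) (hX : SmoothNorm X) (hY : SmoothNorm Y) (T : ℂ ≃L[ℝ] X) {L : ℝ}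
    (hl : ∀ s t, ‖PP₁ F T s - PP₁ F T t‖ ≤ L * |s - t|) (a b : ℝ) :
    ‖ww hF T a b - ((2 * ‖cc T ((a + b) / 2)‖⁻¹ : ℝ) : ℂ)‖ ≤
      ‖(T.symm : X →L[ℝ] ℂ)‖ * (3 * (2 * L * ((a - b) / 2) ^ 2)) := by
  set m := (a + b) / 2 with hm
  have hc : ‖cc T m‖ ≠ 0 := norm_ne_zero_iff.mpr (cc_ne_zero T _)
  have e1 : ww hF T a b - ((2 * ‖cc T m‖⁻¹ : ℝ) : ℂ) =
      (T.symm (hF.inv (PP F T a + PP F T b) - hF.inv ((2 : ℝ) • PP F T m))) *
        Complex.exp (-((m : ℝ) * Complex.I)) := by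
    have e2 : hF.inv ((2 : ℝ) • PP F T m) = (2 : ℝ) • pp T m := by
      rw [hF.sphIso_inv.smul, PP, hF.inv_apply]
    have e3 : T.symm ((2 : ℝ) • pp T m) = (2 * ‖cc T m‖⁻¹) • Complex.exp (m * Complex.I) := by
      rw [pp, smul_smul, map_smul, cc, T.symm_apply_apply]
    rw [map_sub, e2, e3, sub_mul, ww, ← hm]
    congr 1
    rw [Complex.real_smul, mul_assoc, ← Complex.exp_add, add_neg_cancel, Complex.exp_zero, mul_one]
  rw [e1, norm_mul]
  have e4 : ‖Complex.exp (-((m : ℝ) * Complex.I))‖ = 1 := by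
    have : -((m : ℝ) * Complex.I) = ((-m : ℝ) : ℂ) * Complex.I := by push_cast; ring
    rw [this, Complex.norm_exp_ofReal_mul_I]
  rw [e4, mul_one]
  refine ((T.symm : X →L[ℝ] ℂ).le_opNorm _).trans ?_
  gcongr
  refine (hF.sphIso_inv.dist_le _ _).trans ?_
  gcongr
  have := second_diff_le (hasDerivAt_PP hF hX hY T) hl m ((a - b) / 2)
  have ea : m + (a - b) / 2 = a := by rw [hm]; ring
  have eb : m - (a - b) / 2 = b := by rw [hm]; ring
  rwa [ea, eb] at this

theorem exists_tcurve (hdim : Module.finrank ℝ X = 2) (hF : SphIso F) (hX : C11Norm X)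
    (hY : C11Norm Y) (T : ℂ ≃L[ℝ] X) : ∃ (ω : Y →L[ℝ] Y →L[ℝ] ℝ) (L w₀ δ : ℝ),
      TCurve (PP F T) (PP₁ F T) ω (sg hF T) L w₀ δ := by
  have : FiniteDimensional ℝ Y := hF.finiteDimensional
  obtain ⟨ω, halt, hnd⟩ := exists_area (Y := Y) (by rw [← hF.finrank_eq, hdim])
  have h2π : 0 < 2 * Real.pi := by positivity
  obtain ⟨K₁, hK₁⟩ := lipschitz_of_periodic h2π (PP₁_per F T) (lipAt_PP₁ hF hX hY T)
  obtain ⟨K₂, hK₂⟩ := lipschitz_of_periodic h2π (f := PP F T) (PP_per F T) (lipAt_PP hF T)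
  have hdnP : ∀ t, LipAt (fun t => dn (PP F T t)) t := fun t =>
    (hY.lip _ (PP_ne_zero hF T t)).comp (lipAt_PP hF T t)
  obtain ⟨K₃, hK₃⟩ := lipschitz_of_periodic h2π (f := fun t => dn (PP F T t))
    (fun t => by beta_reduce; rw [PP_per]) hdnP
  have hPc : Continuous (PP F T) := hK₂.continuous
  have hP₁c : Continuous (PP₁ F T) := hK₁.continuous
  -- the sign of the area
  have hWc : Continuous fun t => ω (PP F T t) (PP₁ F T t) := by
    exact (ω.continuous.comp hPc).clm_apply hP₁c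
  obtain ⟨ε, w₀, hw₀, hsg⟩ := exists_sign hWc (area_ne_zero hF hX.smooth hY.smooth T hnd) h2π
    (fun t => by rw [PP_per, PP₁_per])
  have hε : ε ≠ 0 := by
    rintro rfl
    have := hsg 0
    rw [zero_mul] at this
    linarith only [hw₀, this]
  have hlip₁ : ∀ s t, ‖PP₁ F T s - PP₁ F T t‖ ≤ K₁ * |s - t| := fun s t => by
    have := hK₁.dist_le_mul s t
    rwa [dist_eq_norm, Real.dist_eq] at this
  have hlip₂ : ∀ s t, ‖PP F T s - PP F T t‖ ≤ K₂ * |s - t| := fun s t => by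
    have := hK₂.dist_le_mul s t
    rwa [dist_eq_norm, Real.dist_eq] at this
  have hlip₃ : ∀ s t, ‖dn (PP F T s) - dn (PP F T t)‖ ≤ K₃ * |s - t| := fun s t => by
    have := hK₃.dist_le_mul s t
    rwa [dist_eq_norm, Real.dist_eq] at this
  have hbd : ∀ t, ‖PP₁ F T t‖ ≤ K₂ := fun t =>
    (hasDerivAt_PP hF hX.smooth hY.smooth T t).le_of_lipschitz hK₂
  -- constants for the direction
  set r : ℝ := (‖(T : ℂ →L[ℝ] X)‖ + 1)⁻¹ with hr
  have hr0 : 0 < r := by (clear * -; positivity)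
  set C₁ : ℝ := ‖(T.symm : X →L[ℝ] ℂ)‖ * (3 * (2 * K₁)) / 4 with hC₁
  have hC₁0 : 0 ≤ C₁ := by (clear * -; positivity)
  have hclose : ∀ a b, ‖ww hF T a b - ((2 * ‖cc T ((a + b) / 2)‖⁻¹ : ℝ) : ℂ)‖ ≤
      C₁ * (a - b) ^ 2 := fun a b => by
    refine (ww_close hF hX.smooth hY.smooth T hlip₁ a b).trans (le_of_eq ?_)
    rw [hC₁]
    ring
  have hrc : ∀ t, 2 * r ≤ 2 * ‖cc T t‖⁻¹ := fun t => by
    have h1 : 0 < ‖cc T t‖ := norm_pos_iff.mpr (cc_ne_zero T t)
    have h2 := norm_cc_le T t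
    have : r ≤ ‖cc T t‖⁻¹ := by
      rw [hr]
      apply inv_anti₀ h1
      linarith only [h2]
    (clear * - this; linarith)
  set δ : ℝ := min 1 (Real.sqrt (r / (C₁ + 1))) with hδ
  have hδ0 : 0 < δ := by (clear * -; positivity)
  have hδC : ∀ a b, |a - b| ≤ δ → C₁ * (a - b) ^ 2 ≤ r := by
    intro a b hab
    have h1 : |a - b| ≤ Real.sqrt (r / (C₁ + 1)) := hab.trans (min_le_right _ _)
    have h2 : (a - b) ^ 2 ≤ r / (C₁ + 1) := by
      rw [← sq_abs]
      have := pow_le_pow_left₀ (abs_nonneg _) h1 2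
      rwa [Real.sq_sqrt (by (clear * -; positivity))] at this
    rw [le_div_iff₀ (by (clear * -; positivity))] at h2
    nlinarith only [h2]
  have hre : ∀ a b, |a - b| ≤ δ → r ≤ (ww hF T a b).re := by
    intro a b hab
    have h1 := (hclose a b).trans (hδC a b hab)
    have h2 := (Complex.abs_re_le_norm _).trans h1
    rw [Complex.sub_re, Complex.ofReal_re] at h2
    have h3 := neg_le_of_abs_le h2
    have h4 := hrc ((a + b) / 2)
    linarith only [h3, h4]
  have him : ∀ a b, |(ww hF T a b).im| ≤ C₁ * (a - b) ^ 2 := by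
    intro a b
    have h2 := (Complex.abs_im_le_norm _).trans (hclose a b)
    rwa [Complex.sub_im, Complex.ofReal_im, sub_zero] at h2
  have hargc : ∀ a b, |a - b| ≤ δ → |(ww hF T a b).arg| ≤ C₁ / r * (a - b) ^ 2 := by
    intro a b hab
    have h1 := hre a b hab
    have h2 : |(ww hF T a b).arg| < Real.pi / 2 :=
      Complex.abs_arg_lt_pi_div_two_iff.mpr (Or.inl (hr0.trans_le h1))
    refine (abs_le_abs_tan h2).trans ?_
    rw [Complex.tan_arg, abs_div, abs_of_pos (hr0.trans_le h1)]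
    calc |(ww hF T a b).im| / (ww hF T a b).re ≤ (C₁ * (a - b) ^ 2) / r := by
          gcongr
          exact him a b
      _ = _ := by ring
  refine ⟨ε • ω, max (max K₁ K₂) (max K₃ (C₁ / r)), w₀, δ, ?_⟩
  refine ⟨?_, hw₀, hδ0, hY.smooth, fun v => ?_, fun u v hu huv => ?_, norm_PP hF T,
    hasDerivAt_PP hF hX.smooth hY.smooth T, fun s t => ?_, fun t => ?_, fun t => ?_,
    PP_per F T, PP₁_per F T, fun s t => ?_, fun a b _ => sg_dir hF T a b, fun a b hab => ?_,
    fun a b hab => ?_⟩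
  · exact le_max_of_le_left (le_max_of_le_left K₁.2)
  · rw [smul_apply, smul_apply, halt, smul_zero]
  · rw [smul_apply, smul_apply, smul_eq_mul] at huv
    exact hnd u v hu ((mul_eq_zero.mp huv).resolve_left hε)
  · refine (hlip₁ s t).trans ?_
    gcongr
    exact le_max_of_le_left (le_max_left _ _)
  · exact (hbd t).trans (le_max_of_le_left (le_max_right _ _))
  · rw [smul_apply, smul_apply, smul_eq_mul]
    exact hsg t
  · refine (hlip₃ s t).trans ?_
    gcongr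
    exact le_max_of_le_right (le_max_left _ _)
  · have : sg hF T a b - (a + b) / 2 = (ww hF T a b).arg := by rw [sg]; ring
    rw [this]
    refine (hargc a b hab).trans ?_
    gcongr
    exact le_max_of_le_right (le_max_right _ _)
  · have hne : PP F T a + PP F T b ≠ 0 := by
      intro h0
      have h1 := hre a b hab
      rw [ww, h0, hF.sphIso_inv.zero, map_zero, zero_mul, Complex.zero_re] at h1
      linarith only [hr0, h1]
    have hsl : ww hF T a b ∈ Complex.slitPlane := Or.inl (hr0.trans_le (hre a b hab))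
    have d1 : DifferentiableAt ℝ (fun q : ℝ × ℝ => PP F T q.1 + PP F T q.2) (a, b) := by
      have e1 : DifferentiableAt ℝ (fun q : ℝ × ℝ => PP F T q.1) (a, b) :=
        DifferentiableAt.comp (g := PP F T) (f := fun q : ℝ × ℝ => q.1) (a, b)
          (hasDerivAt_PP hF hX.smooth hY.smooth T a).differentiableAt differentiableAt_fst
      have e2 : DifferentiableAt ℝ (fun q : ℝ × ℝ => PP F T q.2) (a, b) :=
        DifferentiableAt.comp (g := PP F T) (f := fun q : ℝ × ℝ => q.2) (a, b)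
          (hasDerivAt_PP hF hX.smooth hY.smooth T b).differentiableAt differentiableAt_snd
      exact e1.add e2
    have d2 : DifferentiableAt ℝ (fun q : ℝ × ℝ => hF.inv (PP F T q.1 + PP F T q.2)) (a, b) :=
      DifferentiableAt.comp (a, b)
        (hF.sphIso_inv.hasFDerivAt hY.smooth hX.smooth hne).differentiableAt d1
    have d3 : DifferentiableAt ℝ
        (fun q : ℝ × ℝ => T.symm (hF.inv (PP F T q.1 + PP F T q.2))) (a, b) :=
      T.symm.differentiableAt.comp (a, b) d2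
    have d4 : DifferentiableAt ℝ
        (fun q : ℝ × ℝ => Complex.exp (-(((q.1 + q.2) / 2 : ℝ) * Complex.I))) (a, b) := by
      have e1 : DifferentiableAt ℝ (fun q : ℝ × ℝ => (((q.1 + q.2) / 2 : ℝ) : ℂ)) (a, b) := by
        have : DifferentiableAt ℝ (fun q : ℝ × ℝ => (q.1 + q.2) / 2) (a, b) := by (clear * -; fun_prop)
        exact Complex.ofRealCLM.differentiableAt.comp (a, b) this
      exact ((e1.mul_const _).neg).cexp
    have d5 : DifferentiableAt ℝ (fun q : ℝ × ℝ => ww hF T q.1 q.2) (a, b) := d3.mul d4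
    have d6 : DifferentiableAt ℝ (fun q : ℝ × ℝ => (Complex.log (ww hF T q.1 q.2)).im) (a, b) := by
      have e1 : DifferentiableAt ℝ Complex.log (ww hF T a b) :=
        (Complex.differentiableAt_log hsl).restrictScalars ℝ
      have e2 : DifferentiableAt ℝ (fun q : ℝ × ℝ => Complex.log (ww hF T q.1 q.2)) (a, b) :=
        DifferentiableAt.comp (g := Complex.log) (f := fun q : ℝ × ℝ => ww hF T q.1 q.2) (a, b)
          e1 d5
      exact Complex.imCLM.differentiableAt.comp (a, b) e2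
    have d7 : DifferentiableAt ℝ (fun q : ℝ × ℝ => (q.1 + q.2) / 2) (a, b) := by fun_prop
    have e : (fun q : ℝ × ℝ => sg hF T q.1 q.2) =
        fun q : ℝ × ℝ => (q.1 + q.2) / 2 + (Complex.log (ww hF T q.1 q.2)).im := by
      funext q
      rw [sg, Complex.log_im]
    rw [e]
    exact d7.add d6

end P084
end 
end

/- SmTwoC -/
section
/-!
Two-dimensional case: differential identities for the parametrisation data.
-/

open Set Filter Topology Metric Asymptotics MeasureTheory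
open scoped NNReal ENNReal

noncomputable section

set_option linter.unusedSectionVars false

namespace P084

namespace TCurve

variable {Y : Type*} [NormedAddCommGroup Y] [NormedSpace ℝ Y] {P P₁ : ℝ → Y}
  {ω : Y →L[ℝ] Y →L[ℝ] ℝ} {σ : ℝ → ℝ → ℝ} {L w₀ δ : ℝ}

theorem mono (h : TCurve P P₁ ω σ L w₀ δ) {δ' : ℝ} (h0 : 0 < δ') (hδ : δ' ≤ δ) :
    TCurve P P₁ ω σ L w₀ δ' where
  L_nonneg := h.L_nonneg
  w₀_pos := h.w₀_pos
  δ_pos := h0
  smooth := h.smooth
  alt := h.alt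
  nondeg := h.nondeg
  norm := h.norm
  deriv := h.deriv
  lip := h.lip
  bound := h.bound
  pos := h.pos
  per := h.per
  per₁ := h.per₁
  dlip := h.dlip
  dir := fun a b hab => h.dir a b (hab.trans hδ)
  close := fun a b hab => h.close a b (hab.trans hδ)
  diff := fun a b hab => h.diff a b (hab.trans hδ)

theorem anti (h : TCurve P P₁ ω σ L w₀ δ) (u v : Y) : ω u v = - ω v u := by
  have := h.alt (u + v)
  simp only [map_add, add_apply, h.alt, zero_add, add_zero] at this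
  linarith only [this]

theorem ne_zero (h : TCurve P P₁ ω σ L w₀ δ) (t : ℝ) : P t ≠ 0 := by
  intro h0
  have := h.norm t
  rw [h0, norm_zero] at this
  exact zero_ne_one this

theorem dn_self (h : TCurve P P₁ ω σ L w₀ δ) (t : ℝ) : dn (P t) (P t) = 1 := by
  rw [h.smooth.dn_self (h.ne_zero t), h.norm]

theorem dn_deriv (h : TCurve P P₁ ω σ L w₀ δ) (t : ℝ) : dn (P t) (P₁ t) = 0 := by
  have h1 : HasDerivAt (fun t => ‖P t‖) (dn (P t) (P₁ t)) t :=
    (h.smooth.hasFDerivAt (h.ne_zero t)).comp_hasDerivAt t (h.deriv t)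
  have h2 : HasDerivAt (fun t => ‖P t‖) 0 t := by
    have : (fun t => ‖P t‖) = fun _ => (1 : ℝ) := by
      funext s
      exact h.norm s
    rw [this]
    exact hasDerivAt_const _ _
  exact h1.unique h2

theorem lipschitz (h : TCurve P P₁ ω σ L w₀ δ) (s t : ℝ) : ‖P s - P t‖ ≤ L * |s - t| := by
  have := convex_univ.norm_image_sub_le_of_norm_hasDerivWithin_le
    (fun x (_ : x ∈ (univ : Set ℝ)) => (h.deriv x).hasDerivWithinAt)
    (fun x _ => h.bound x) (mem_univ t) (mem_univ s)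
  rwa [Real.norm_eq_abs] at this

theorem continuous₁ (h : TCurve P P₁ ω σ L w₀ δ) : Continuous P₁ := by
  have : LipschitzWith ⟨L, h.L_nonneg⟩ P₁ := LipschitzWith.of_dist_le_mul fun s t => by
    rw [dist_eq_norm, Real.dist_eq]
    exact h.lip s t
  exact this.continuous

/-- A lower bound for the sum of two nearby points. -/
theorem nu_pos (h : TCurve P P₁ ω σ L w₀ δ) (hδ : L * δ ≤ 1) {a b : ℝ} (hab : |a - b| ≤ δ) :
    1 ≤ ‖P a + P b‖ := by
  have h1 : ‖P a - P b‖ ≤ 1 := (h.lipschitz a b).trans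
    ((mul_le_mul_of_nonneg_left hab h.L_nonneg).trans hδ)
  have e : (2 : ℝ) • P a = (P a + P b) + (P a - P b) := by rw [two_smul]; abel
  have h2 : ‖(2 : ℝ) • P a‖ = 2 := by rw [norm_smul, h.norm, Real.norm_ofNat, mul_one]
  have h3 := norm_add_le (P a + P b) (P a - P b)
  rw [← e, h2] at h3
  linarith only [h1, h3]

theorem nu_le (h : TCurve P P₁ ω σ L w₀ δ) (a b : ℝ) : ‖P a + P b‖ ≤ 2 := by
  have := norm_add_le (P a) (P b)
  rw [h.norm, h.norm] at this
  linarith only [this]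

theorem area_pos (h : TCurve P P₁ ω σ L w₀ δ) (t : ℝ) : 0 < ω (P t) (P₁ t) :=
  h.w₀_pos.trans_le (h.pos t)

theorem area_eq_zero (h : TCurve P P₁ ω σ L w₀ δ) {a b : ℝ} (hab : |a - b| ≤ δ) :
    ω (P (σ a b)) (P a + P b) = 0 := by
  rw [h.dir a b hab, map_smul, h.alt, smul_zero]

/-- Derivative of the direction of the chord sum along a path. -/
theorem hasDerivAt_dir (h : TCurve P P₁ ω σ L w₀ δ) (hδ : L * δ ≤ 1) {a b : ℝ → ℝ} {a' b' r : ℝ}
    (ha : HasDerivAt a a' r) (hb : HasDerivAt b b' r) (hab : |a r - b r| < δ) :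
    HasDerivAt (fun r => σ (a r) (b r))
      (ω (P (σ (a r) (b r))) (a' • P₁ (a r) + b' • P₁ (b r)) /
        (‖P (a r) + P (b r)‖ * ω (P (σ (a r) (b r))) (P₁ (σ (a r) (b r))))) r := by
  have hd : DifferentiableAt ℝ (fun r => σ (a r) (b r)) r := by
    have h1 : DifferentiableAt ℝ (fun r => (a r, b r)) r :=
      ha.differentiableAt.prodMk hb.differentiableAt
    exact DifferentiableAt.comp (g := fun q : ℝ × ℝ => σ q.1 q.2) (f := fun r => (a r, b r)) r
      (h.diff (a r) (b r) hab.le) h1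
  have hs := hd.hasDerivAt
  set s' := _root_.deriv (fun r => σ (a r) (b r)) r with hs'
  have hz : HasDerivAt (fun r => P (a r) + P (b r)) (a' • P₁ (a r) + b' • P₁ (b r)) r :=
    ((h.deriv (a r)).scomp r ha).add ((h.deriv (b r)).scomp r hb)
  have hPs : HasDerivAt (fun r => P (σ (a r) (b r))) (s' • P₁ (σ (a r) (b r))) r :=
    (h.deriv (σ (a r) (b r))).scomp r hs
  have hω : HasDerivAt (fun r => ω (P (σ (a r) (b r))) (P (a r) + P (b r)))
      (ω (s' • P₁ (σ (a r) (b r))) (P (a r) + P (b r)) +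
        ω (P (σ (a r) (b r))) (a' • P₁ (a r) + b' • P₁ (b r))) r := by
    have h1 : HasDerivAt (fun r => ω (P (σ (a r) (b r)))) (ω (s' • P₁ (σ (a r) (b r)))) r :=
      ω.hasFDerivAt.comp_hasDerivAt r hPs
    exact h1.clm_apply hz
  have h0 : (fun r => ω (P (σ (a r) (b r))) (P (a r) + P (b r))) =ᶠ[𝓝 r] fun _ => 0 := by
    have hc : ContinuousAt (fun r => |a r - b r|) r :=
      (ha.continuousAt.sub hb.continuousAt).abs
    filter_upwards [hc.eventually (gt_mem_nhds hab)] with x hx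
    exact h.area_eq_zero hx.le
  have h1 := hω.unique ((hasDerivAt_const r (0 : ℝ)).congr_of_eventuallyEq h0)
  set s := σ (a r) (b r) with hsdef
  rw [h.dir (a r) (b r) hab.le, ← hsdef, map_smul, map_smul, _root_.smul_apply, smul_eq_mul,
    smul_eq_mul, h.anti (P₁ s) (P s)] at h1
  have hν : 0 < ‖P (a r) + P (b r)‖ := lt_of_lt_of_le one_pos (h.nu_pos hδ hab.le)
  have hW := h.area_pos s
  have e : ω (P s) (a' • P₁ (a r) + b' • P₁ (b r)) / (‖P (a r) + P (b r)‖ * ω (P s) (P₁ s)) = s' := by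
    rw [div_eq_iff (by (clear * - hν hW; positivity))]
    linear_combination h1
  rw [e]
  exact hs

/-- The derivative of the gradient curve kills the position. -/
theorem grad_deriv_self (h : TCurve P P₁ ω σ L w₀ δ) {s : ℝ} {D' : Y →L[ℝ] ℝ}
    (hD : HasDerivAt (fun t => dn (P t)) D' s) : D' (P s) = 0 := by
  have h1 : HasDerivAt (fun t => dn (P t) (P t)) (D' (P s) + dn (P s) (P₁ s)) s :=
    hD.clm_apply (h.deriv s)
  have h2 : HasDerivAt (fun t => dn (P t) (P t)) 0 s := by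
    have : (fun t => dn (P t) (P t)) = fun _ => (1 : ℝ) := by
      funext s
      exact h.dn_self s
    rw [this]
    exact hasDerivAt_const _ _
  have := h1.unique h2
  rwa [h.dn_deriv, add_zero] at this

theorem decomp (h : TCurve P P₁ ω σ L w₀ δ) (s : ℝ) (v : Y) :
    ∃ c : ℝ, v = c • P s + (ω (P s) v / ω (P s) (P₁ s)) • P₁ s := by
  have hW := h.area_pos s
  obtain ⟨c, hc⟩ := h.nondeg (P s) (v - (ω (P s) v / ω (P s) (P₁ s)) • P₁ s) (h.ne_zero s) (by
    rw [map_sub, map_smul, smul_eq_mul, div_mul_cancel₀ _ hW.ne', sub_self])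
  exact ⟨c, by rw [← hc]; abel⟩

theorem grad_deriv_apply (h : TCurve P P₁ ω σ L w₀ δ) {s : ℝ} {D' : Y →L[ℝ] ℝ}
    (hD : HasDerivAt (fun t => dn (P t)) D' s) (v : Y) :
    D' v = D' (P₁ s) * (ω (P s) v / ω (P s) (P₁ s)) := by
  obtain ⟨c, hc⟩ := h.decomp s v
  have h1 := congrArg D' hc
  rw [map_add, map_smul, map_smul, h.grad_deriv_self hD, smul_zero, zero_add, smul_eq_mul] at h1
  rw [h1]
  ring

theorem dn_sum (h : TCurve P P₁ ω σ L w₀ δ) (hδ : L * δ ≤ 1) {a b : ℝ} (hab : |a - b| ≤ δ) :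
    dn (P a + P b) = dn (P (σ a b)) := by
  have h1 := h.nu_pos hδ hab
  conv_lhs => rw [h.dir a b hab]
  exact dn_smul_pos (by linarith only [h1]) _

/-- First derivative of the length of the chord sum. -/
theorem hasDerivAt_nu (h : TCurve P P₁ ω σ L w₀ δ) (hδ : L * δ ≤ 1) {a b : ℝ}
    (hab : |a - b| ≤ δ) :
    HasDerivAt (fun b => ‖P a + P b‖) (dn (P a + P b) (P₁ b)) b := by
  have hne : P a + P b ≠ 0 := by
    rw [← norm_pos_iff]
    linarith only [h.nu_pos hδ hab]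
  exact (h.smooth.hasFDerivAt hne).comp_hasDerivAt b ((h.deriv b).const_add (P a))

/-- Mixed second derivative of the length of the chord sum. -/
theorem hasDerivAt_mixed (h : TCurve P P₁ ω σ L w₀ δ) (hδ : L * δ ≤ 1) {a b : ℝ}
    (hab : |a - b| < δ) {D' : Y →L[ℝ] ℝ} (hD : HasDerivAt (fun t => dn (P t)) D' (σ a b)) :
    HasDerivAt (fun a => dn (P a + P b) (P₁ b))
      (‖P a + P b‖ * (D' (P₁ (σ a b)) *
        (ω (P (σ a b)) (P₁ a) / (‖P a + P b‖ * ω (P (σ a b)) (P₁ (σ a b)))) *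
        (ω (P (σ a b)) (P₁ b) / (‖P a + P b‖ * ω (P (σ a b)) (P₁ (σ a b)))))) a := by
  have h1 := h.hasDerivAt_dir hδ (a := fun r => r) (b := fun _ => b) (r := a)
    (hasDerivAt_id a) (hasDerivAt_const a b) hab
  simp only [one_smul, zero_smul, add_zero] at h1
  have h2 : HasDerivAt (fun r => dn (P (σ r b)))
      ((ω (P (σ a b)) (P₁ a) / (‖P a + P b‖ * ω (P (σ a b)) (P₁ (σ a b)))) • D') a :=
    HasDerivAt.scomp (g₁ := fun t => dn (P t)) (h := fun r => σ r b) a hD h1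
  have h3 : HasDerivAt (fun r => dn (P (σ r b)) (P₁ b))
      (((ω (P (σ a b)) (P₁ a) / (‖P a + P b‖ * ω (P (σ a b)) (P₁ (σ a b)))) • D') (P₁ b)) a := by
    have := h2.clm_apply (hasDerivAt_const a (P₁ b))
    simpa only [smul_apply, smul_eq_mul, map_zero, add_zero] using this
  have h4 : (fun a => dn (P a + P b) (P₁ b)) =ᶠ[𝓝 a] fun r => dn (P (σ r b)) (P₁ b) := by
    have hc : ContinuousAt (fun r => |r - b|) a := by fun_prop
    filter_upwards [hc.eventually (gt_mem_nhds hab)] with x hx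
    rw [h.dn_sum hδ hx.le]
  refine (h3.congr_of_eventuallyEq h4).congr_deriv ?_
  rw [_root_.smul_apply, smul_eq_mul, h.grad_deriv_apply hD (P₁ b)]
  have hν : 0 < ‖P a + P b‖ := lt_of_lt_of_le one_pos (h.nu_pos hδ hab.le)
  have hW := h.area_pos (σ a b)
  (clear * - hW hν; field_simp)

end TCurve

end P084
end 
end

/- TwoLimit -/
section
open MeasureTheory Set Filter Topology Asymptotics
open scoped NNReal Real

namespace Vale.Agent.P084

section pointwise

variable {Y : Type*} [NormedAddCommGroup Y] [NormedSpace ℝ Y]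

/-- Second order Taylor expansion at a point of twice differentiability. -/
theorem taylor2_isLittleO {P P₁ : ℝ → Y} (hP : ∀ t, HasDerivAt P (P₁ t) t) {y : ℝ} {q : Y}
    (hq : HasDerivAt P₁ q y) :
    (fun h : ℝ => P (y + h) - P y - h • P₁ y - (h ^ 2 / 2) • q) =o[𝓝 0] fun h => h ^ 2 := by
  rw [isLittleO_iff]
  intro ε hε
  have h1 := (hasDerivAt_iff_isLittleO_nhds_zero.1 hq)
  rw [isLittleO_iff] at h1
  have h2 := h1 hε
  obtain ⟨δ, hδ, hball⟩ := Metric.eventually_nhds_iff.1 h2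
  rw [Metric.eventually_nhds_iff]
  refine ⟨δ, hδ, fun h hh => ?_⟩
  have hder : ∀ x ∈ segment ℝ (0:ℝ) h, HasDerivWithinAt
      (fun x : ℝ => P (y + x) - x • P₁ y - (x ^ 2 / 2) • q)
      (P₁ (y + x) - P₁ y - x • q) (segment ℝ (0:ℝ) h) x := by
    intro x _
    have e1 : HasDerivAt (fun x : ℝ => P (y + x)) (P₁ (y + x)) x := by
      have := (hP (y + x)).scomp x ((hasDerivAt_id x).const_add y)
      rw [one_smul] at this
      exact this
    have e2 : HasDerivAt (fun x : ℝ => x • P₁ y) (P₁ y) x := by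
      simpa using (hasDerivAt_id x).smul_const (P₁ y)
    have e3 : HasDerivAt (fun x : ℝ => (x ^ 2 / 2) • q) (x • q) x := by
      have e4 : HasDerivAt (fun x : ℝ => x ^ 2 / 2) x x := by
        have := (hasDerivAt_pow 2 x).div_const 2
        have e5 : ((2:ℕ):ℝ) * x ^ (2 - 1) / 2 = x := by
          (clear * -; norm_num)
        rw [e5] at this
        exact this
      exact e4.smul_const q
    exact ((e1.sub e2).sub e3).hasDerivWithinAt
  have hbd : ∀ x ∈ segment ℝ (0:ℝ) h, ‖P₁ (y + x) - P₁ y - x • q‖ ≤ ε * |h| := by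
    intro x hx
    have hxh : |x| ≤ |h| := by
      rw [segment_eq_uIcc] at hx
      rcases le_total 0 h with h0 | h0
      · rw [uIcc_of_le h0] at hx
        rw [abs_of_nonneg hx.1, abs_of_nonneg h0]
        exact hx.2
      · rw [uIcc_of_ge h0] at hx
        rw [abs_of_nonpos hx.2, abs_of_nonpos h0]
        linarith [hx.1]
    have hxδ : dist x 0 < δ := by
      rw [Real.dist_eq, sub_zero]
      rw [Real.dist_eq, sub_zero] at hh
      exact lt_of_le_of_lt hxh hh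
    have := hball hxδ
    rw [Real.norm_eq_abs] at this
    exact this.trans (mul_le_mul_of_nonneg_left hxh hε.le)
  have h3 := (convex_segment (0:ℝ) h).norm_image_sub_le_of_norm_hasDerivWithin_le hder hbd
    (left_mem_segment ℝ 0 h) (right_mem_segment ℝ 0 h)
  have e : (P (y + h) - h • P₁ y - (h ^ 2 / 2) • q)
      - (P (y + 0) - (0:ℝ) • P₁ y - ((0:ℝ) ^ 2 / 2) • q)
      = P (y + h) - P y - h • P₁ y - (h ^ 2 / 2) • q := by
    simp only [add_zero, zero_smul, sub_zero, ne_eq, OfNat.ofNat_ne_zero, not_false_eq_true,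
      zero_pow, zero_div]
    abel
  rw [e] at h3
  refine h3.trans (le_of_eq ?_)
  rw [sub_zero, Real.norm_eq_abs, Real.norm_eq_abs, abs_pow, pow_two]
  ring

variable {ω : Y →L[ℝ] Y →L[ℝ] ℝ} {P P₁ : ℝ → Y} {y : ℝ} {q : Y} {C : ℝ} {θ : ℝ → ℝ}

theorem tendsto_sub_of_close (hθ : ∀ᶠ τ in 𝓝[>] (0:ℝ), |θ τ - y| ≤ C * τ ^ 2) :
    Tendsto (fun τ => θ τ - y) (𝓝[>] 0) (𝓝 0) := by
  rw [tendsto_zero_iff_norm_tendsto_zero]
  have h0 : Tendsto (fun τ : ℝ => C * τ ^ 2) (𝓝[>] 0) (𝓝 0) := by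
    have : Tendsto (fun τ : ℝ => C * τ ^ 2) (𝓝 0) (𝓝 (C * 0 ^ 2)) := by
      apply Continuous.tendsto
      fun_prop
    simp only [ne_eq, OfNat.ofNat_ne_zero, not_false_eq_true, zero_pow, mul_zero] at this
    exact this.mono_left nhdsWithin_le_nhds
  refine tendsto_of_tendsto_of_tendsto_of_le_of_le' tendsto_const_nhds h0 ?_ ?_
  · exact Eventually.of_forall fun _ => norm_nonneg _
  · exact hθ

theorem tendsto_div_self (hθ : ∀ᶠ τ in 𝓝[>] (0:ℝ), |θ τ - y| ≤ C * τ ^ 2) :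
    Tendsto (fun τ => (θ τ - y) / τ) (𝓝[>] 0) (𝓝 0) := by
  rw [tendsto_zero_iff_norm_tendsto_zero]
  have h0 : Tendsto (fun τ : ℝ => C * τ) (𝓝[>] 0) (𝓝 0) := by
    have : Tendsto (fun τ : ℝ => C * τ) (𝓝 0) (𝓝 (C * 0)) := by
      apply Continuous.tendsto
      fun_prop
    simp only [mul_zero] at this
    exact this.mono_left nhdsWithin_le_nhds
  refine tendsto_of_tendsto_of_tendsto_of_le_of_le' tendsto_const_nhds h0 ?_ ?_
  · exact Eventually.of_forall fun _ => norm_nonneg _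
  · filter_upwards [hθ, self_mem_nhdsWithin] with τ h1 h2
    have h2' : (0:ℝ) < τ := h2
    rw [Real.norm_eq_abs, abs_div, abs_of_pos h2', div_le_iff₀ h2']
    calc |θ τ - y| ≤ C * τ ^ 2 := h1
      _ = C * τ * τ := by ring

theorem isBigO_of_close (σ : ℝ) (hθ : ∀ᶠ τ in 𝓝[>] (0:ℝ), |θ τ - y| ≤ C * τ ^ 2) :
    (fun τ => θ τ - y + σ * τ) =O[𝓝[>] 0] fun τ => τ := by
  have h1 : (fun τ => θ τ - y) =O[𝓝[>] 0] fun τ : ℝ => τ := by
    apply IsLittleO.isBigO
    rw [isLittleO_iff_tendsto']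
    · exact tendsto_div_self hθ
    · filter_upwards [self_mem_nhdsWithin] with τ h2 h3
      exact absurd h3 (ne_of_gt h2)
  exact h1.add (isBigO_const_mul_self σ _ _)

theorem tendsto_shift (σ : ℝ) (hθ : ∀ᶠ τ in 𝓝[>] (0:ℝ), |θ τ - y| ≤ C * τ ^ 2) :
    Tendsto (fun τ => θ τ - y + σ * τ) (𝓝[>] 0) (𝓝 0) := by
  have h1 := tendsto_sub_of_close hθ
  have h2 : Tendsto (fun τ : ℝ => σ * τ) (𝓝[>] 0) (𝓝 0) := by
    have : Tendsto (fun τ : ℝ => σ * τ) (𝓝 0) (𝓝 (σ * 0)) := by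
      apply Continuous.tendsto
      fun_prop
    simp only [mul_zero] at this
    exact this.mono_left nhdsWithin_le_nhds
  simpa only [add_zero] using h1.add h2

/-- the shift of the midpoint direction, to second order -/
theorem tendsto_theta (halt : ∀ v, ω v v = 0) (hP : ∀ t, HasDerivAt P (P₁ t) t)
    (hq : HasDerivAt P₁ q y) (hW : 0 < ω (P y) (P₁ y))
    (hθ : ∀ᶠ τ in 𝓝[>] (0:ℝ), |θ τ - y| ≤ C * τ ^ 2)
    (hdir : ∀ᶠ τ in 𝓝[>] (0:ℝ), ω (P y) (P (θ τ + τ) + P (θ τ - τ)) = 0) :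
    Tendsto (fun τ => (θ τ - y) / τ ^ 2) (𝓝[>] 0)
      (𝓝 (-(1 / 2) * (ω (P y) q / ω (P y) (P₁ y)))) := by
  set R : ℝ → Y := fun h => P (y + h) - P y - h • P₁ y - (h ^ 2 / 2) • q with hR
  have hRo := taylor2_isLittleO hP hq
  have hRs : ∀ σ : ℝ, Tendsto (fun τ => ω (P y) (R (θ τ - y + σ * τ)) / τ ^ 2) (𝓝[>] 0)
      (𝓝 0) := by
    intro σ
    have h1 : (fun τ => R (θ τ - y + σ * τ)) =o[𝓝[>] 0] fun τ => (θ τ - y + σ * τ) ^ 2 :=
      hRo.comp_tendsto (tendsto_shift σ hθ)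
    have h2 : (fun τ => (θ τ - y + σ * τ) ^ 2) =O[𝓝[>] 0] fun τ : ℝ => τ ^ 2 :=
      (isBigO_of_close σ hθ).pow 2
    have h3 : (fun τ => ω (P y) (R (θ τ - y + σ * τ))) =o[𝓝[>] 0] fun τ : ℝ => τ ^ 2 :=
      ((ω (P y)).isBigO_comp _ _).trans_isLittleO (h1.trans_isBigO h2)
    exact h3.tendsto_div_nhds_zero
  have hlim : Tendsto (fun τ => -(1 / 2) * ((((θ τ - y) / τ) ^ 2 + 1) * ω (P y) q
      + ω (P y) (R (θ τ - y + 1 * τ)) / τ ^ 2 + ω (P y) (R (θ τ - y + (-1) * τ)) / τ ^ 2)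
        / ω (P y) (P₁ y)) (𝓝[>] 0)
      (𝓝 (-(1 / 2) * ((0 ^ 2 + 1) * ω (P y) q + 0 + 0) / ω (P y) (P₁ y))) := by
    apply Tendsto.div_const
    apply Tendsto.const_mul
    apply Tendsto.add (Tendsto.add _ (hRs 1)) (hRs (-1))
    apply Tendsto.mul_const
    exact ((tendsto_div_self hθ).pow 2).add_const 1
  have e0 : -(1 / 2) * ((0 ^ 2 + 1) * ω (P y) q + 0 + 0) / ω (P y) (P₁ y)
      = -(1 / 2) * (ω (P y) q / ω (P y) (P₁ y)) := by ring
  rw [e0] at hlim
  apply hlim.congr'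
  filter_upwards [hdir, self_mem_nhdsWithin] with τ h1 h2
  have h2' : (0:ℝ) < τ := h2
  have e1 : P (θ τ + τ) = P y + (θ τ - y + 1 * τ) • P₁ y
      + ((θ τ - y + 1 * τ) ^ 2 / 2) • q + R (θ τ - y + 1 * τ) := by
    simp only [hR]
    have : y + (θ τ - y + 1 * τ) = θ τ + τ := by ring
    rw [this]
    abel
  have e2 : P (θ τ - τ) = P y + (θ τ - y + (-1) * τ) • P₁ y
      + ((θ τ - y + (-1) * τ) ^ 2 / 2) • q + R (θ τ - y + (-1) * τ) := by
    simp only [hR]
    have : y + (θ τ - y + (-1) * τ) = θ τ - τ := by ring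
    rw [this]
    abel
  rw [e1, e2] at h1
  simp only [map_add, halt, map_smul, smul_eq_mul] at h1
  field_simp
  field_simp at h1
  linarith only [h1]

/-- the asymptotics of the two derivatives -/
theorem tendsto_alpha_sub_beta (hq : HasDerivAt P₁ q y)
    (hθ : ∀ᶠ τ in 𝓝[>] (0:ℝ), |θ τ - y| ≤ C * τ ^ 2) :
    Tendsto (fun τ => (ω (P y) (P₁ (θ τ + τ)) - ω (P y) (P₁ (θ τ - τ))) / τ) (𝓝[>] 0)
      (𝓝 (2 * ω (P y) q)) := by
  set R : ℝ → Y := fun h => P₁ (y + h) - P₁ y - h • q with hR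
  have hRo : R =o[𝓝 0] fun h => h := hasDerivAt_iff_isLittleO_nhds_zero.1 hq
  have hRs : ∀ σ : ℝ, Tendsto (fun τ => ω (P y) (R (θ τ - y + σ * τ)) / τ) (𝓝[>] 0)
      (𝓝 0) := by
    intro σ
    have h1 : (fun τ => R (θ τ - y + σ * τ)) =o[𝓝[>] 0] fun τ => (θ τ - y + σ * τ) :=
      hRo.comp_tendsto (tendsto_shift σ hθ)
    have h3 : (fun τ => ω (P y) (R (θ τ - y + σ * τ))) =o[𝓝[>] 0] fun τ : ℝ => τ :=
      ((ω (P y)).isBigO_comp _ _).trans_isLittleO (h1.trans_isBigO (isBigO_of_close σ hθ))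
    exact h3.tendsto_div_nhds_zero
  have hlim := ((hRs 1).sub (hRs (-1))).const_add (2 * ω (P y) q)
  rw [sub_zero, add_zero] at hlim
  apply hlim.congr'
  filter_upwards [self_mem_nhdsWithin] with τ h2
  have h2' : (0:ℝ) < τ := h2
  have e1 : P₁ (θ τ + τ) = P₁ y + (θ τ - y + 1 * τ) • q + R (θ τ - y + 1 * τ) := by
    simp only [hR]
    have : y + (θ τ - y + 1 * τ) = θ τ + τ := by ring
    rw [this]
    abel
  have e2 : P₁ (θ τ - τ) = P₁ y + (θ τ - y + (-1) * τ) • q + R (θ τ - y + (-1) * τ) := by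
    simp only [hR]
    have : y + (θ τ - y + (-1) * τ) = θ τ - τ := by ring
    rw [this]
    abel
  rw [e1, e2]
  simp only [map_add, map_smul, smul_eq_mul]
  field_simp
  ring

theorem tendsto_alpha (σ : ℝ) (hP₁ : ContinuousAt P₁ y)
    (hθ : ∀ᶠ τ in 𝓝[>] (0:ℝ), |θ τ - y| ≤ C * τ ^ 2) :
    Tendsto (fun τ => ω (P y) (P₁ (θ τ + σ * τ))) (𝓝[>] 0) (𝓝 (ω (P y) (P₁ y))) := by
  have h1 : Tendsto (fun τ => θ τ + σ * τ) (𝓝[>] 0) (𝓝 y) := by
    have := (tendsto_shift σ hθ).const_add y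
    rw [add_zero] at this
    apply this.congr
    intro τ
    ring
  exact ((ω (P y)).continuous.tendsto _).comp (hP₁.tendsto.comp h1)

/-- the ratio `2 √(αβ) / (α + β)` -/
noncomputable def rat (α β : ℝ) : ℝ := 2 * √(α * β) / (α + β)

theorem rat_sub_one {α β : ℝ} (hα : 0 < α) (hβ : 0 < β) :
    rat α β - 1 = -(α - β) ^ 2 / ((√α + √β) ^ 2 * (α + β)) := by
  have h1 : √(α * β) = √α * √β := Real.sqrt_mul hα.le β
  have h2 : 0 < √α := Real.sqrt_pos.2 hα
  have h3 : 0 < √β := Real.sqrt_pos.2 hβ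
  have h4 : √α ^ 2 = α := Real.sq_sqrt hα.le
  have h5 : √β ^ 2 = β := Real.sq_sqrt hβ.le
  rw [rat, h1]
  have h6 : α + β = √α ^ 2 + √β ^ 2 := by rw [h4, h5]
  have h7 : α - β = √α ^ 2 - √β ^ 2 := by rw [h4, h5]
  rw [h6, h7]
  have h8 : √α ^ 2 + √β ^ 2 ≠ 0 := by positivity
  have h9 : √α + √β ≠ 0 := by positivity
  field_simp
  ring

theorem abs_rat_sub_one_le {α β w₀ A : ℝ} (hw₀ : 0 < w₀) (hα : w₀ ≤ α) (hβ : w₀ ≤ β)
    (hA : |α - β| ≤ A) : |rat α β - 1| ≤ A ^ 2 / w₀ ^ 2 := by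
  have hα0 : 0 < α := lt_of_lt_of_le hw₀ hα
  have hβ0 : 0 < β := lt_of_lt_of_le hw₀ hβ
  rw [rat_sub_one hα0 hβ0, abs_div, abs_neg, abs_pow,
    abs_of_pos (show 0 < (√α + √β) ^ 2 * (α + β) by positivity)]
  apply div_le_div₀ (by positivity) (pow_le_pow_left₀ (abs_nonneg _) hA 2) (by positivity)
  have h2 : 0 ≤ √α := Real.sqrt_nonneg _
  have h3 : 0 ≤ √β := Real.sqrt_nonneg _
  have h4 : √α ^ 2 = α := Real.sq_sqrt hα0.le
  have h6 : w₀ ≤ (√α + √β) ^ 2 := by linarith only [mul_nonneg (sub_nonneg.2 h3) (sub_nonneg.2 h3), mul_nonneg (sub_nonneg.2 h2) (sub_nonneg.2 h3), h4, hα]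
  have h7 : w₀ ≤ α + β := by linarith only [hw₀, hα, hβ]
  calc w₀ ^ 2 = w₀ * w₀ := by ring
    _ ≤ (√α + √β) ^ 2 * (α + β) := mul_le_mul h6 h7 hw₀.le (by (clear * - hα0 hβ0; positivity))

theorem abs_rat_le {α β : ℝ} (hα : 0 < α) (hβ : 0 < β) : |rat α β| ≤ 1 := by
  rw [abs_le]
  constructor
  · have : 0 ≤ rat α β := by
      unfold rat
      positivity
    linarith
  · have h1 := rat_sub_one hα hβ
    have h2 : -(α - β) ^ 2 / ((√α + √β) ^ 2 * (α + β)) ≤ 0 := by
      rw [neg_div]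
      have : 0 ≤ (α - β) ^ 2 / ((√α + √β) ^ 2 * (α + β)) := by (clear * - hα hβ; positivity)
      linarith only [this]
    linarith

/-- the asymptotics of the ratio -/
theorem tendsto_rat (hq : HasDerivAt P₁ q y) (hW : 0 < ω (P y) (P₁ y))
    (hθ : ∀ᶠ τ in 𝓝[>] (0:ℝ), |θ τ - y| ≤ C * τ ^ 2) :
    Tendsto (fun τ => (rat (ω (P y) (P₁ (θ τ + τ))) (ω (P y) (P₁ (θ τ - τ))) - 1) / τ ^ 2)
      (𝓝[>] 0) (𝓝 (-(1 / 2) * (ω (P y) q / ω (P y) (P₁ y)) ^ 2)) := by
  set W := ω (P y) (P₁ y) with hWdef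
  have ha : Tendsto (fun τ => ω (P y) (P₁ (θ τ + τ))) (𝓝[>] 0) (𝓝 W) := by
    have := tendsto_alpha (ω := ω) (P := P) 1 hq.continuousAt hθ
    simpa only [one_mul] using this
  have hb : Tendsto (fun τ => ω (P y) (P₁ (θ τ - τ))) (𝓝[>] 0) (𝓝 W) := by
    have := tendsto_alpha (ω := ω) (P := P) (-1) hq.continuousAt hθ
    apply this.congr
    intro τ
    congr 2
    ring
  have hab := tendsto_alpha_sub_beta (ω := ω) (P := P) hq hθ
  have hden : (√W + √W) ^ 2 * (W + W) ≠ 0 := by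
    have : 0 < √W := Real.sqrt_pos.2 hW
    (clear * - hW; positivity)
  have hlim := ((hab.pow 2).neg).div (((ha.sqrt.add hb.sqrt).pow 2).mul (ha.add hb)) hden
  have e0 : -(2 * ω (P y) q) ^ 2 / ((√W + √W) ^ 2 * (W + W))
      = -(1 / 2) * (ω (P y) q / W) ^ 2 := by
    have h4 : √W ^ 2 = W := Real.sq_sqrt hW.le
    have h5 : (√W + √W) ^ 2 = 4 * W := by
      calc (√W + √W) ^ 2 = 4 * √W ^ 2 := by ring
        _ = 4 * W := by rw [h4]
    rw [h5]
    field_simp
    ring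
  rw [e0] at hlim
  apply hlim.congr'
  filter_upwards [self_mem_nhdsWithin, ha.eventually (lt_mem_nhds hW),
    hb.eventually (lt_mem_nhds hW)] with τ h2 h3 h4
  have h2' : (0:ℝ) < τ := h2
  rw [rat_sub_one h3 h4]
  simp only [Pi.div_apply]
  have h5 : 0 < √((ω (P y)) (P₁ (θ τ + τ))) := Real.sqrt_pos.2 h3
  have h6 : 0 < √((ω (P y)) (P₁ (θ τ - τ))) := Real.sqrt_pos.2 h4
  have h7 : (ω (P y)) (P₁ (θ τ + τ)) + (ω (P y)) (P₁ (θ τ - τ)) ≠ 0 := by (clear * - h3 h4; positivity)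
  have h8 : √((ω (P y)) (P₁ (θ τ + τ))) + √((ω (P y)) (P₁ (θ τ - τ))) ≠ 0 := by positivity
  (clear * - h7 h8 h2'; field_simp)

theorem tendsto_chi {χ : ℝ → ℝ} {χ' ℓ : ℝ} (hχ : HasDerivAt χ χ' y)
    (hθ : ∀ᶠ τ in 𝓝[>] (0:ℝ), |θ τ - y| ≤ C * τ ^ 2)
    (hℓ : Tendsto (fun τ => (θ τ - y) / τ ^ 2) (𝓝[>] 0) (𝓝 ℓ)) :
    Tendsto (fun τ => (χ (θ τ) - χ y) / τ ^ 2) (𝓝[>] 0) (𝓝 (χ' * ℓ)) := by
  set R : ℝ → ℝ := fun h => χ (y + h) - χ y - h • χ' with hR
  have hRo : R =o[𝓝 0] fun h => h := hasDerivAt_iff_isLittleO_nhds_zero.1 hχ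
  have h1 : (fun τ => R (θ τ - y)) =o[𝓝[>] 0] fun τ => (θ τ - y) :=
    hRo.comp_tendsto (tendsto_sub_of_close hθ)
  have h2 : (fun τ => (θ τ - y)) =O[𝓝[>] 0] fun τ : ℝ => τ ^ 2 := by
    apply IsBigO.of_bound C
    filter_upwards [hθ] with τ h
    rw [Real.norm_eq_abs, Real.norm_eq_abs, abs_pow, sq_abs]
    exact h
  have h3 := (h1.trans_isBigO h2).tendsto_div_nhds_zero
  have h4 := (hℓ.const_mul χ').add h3
  rw [add_zero] at h4
  apply h4.congr
  intro τ
  simp only [hR, smul_eq_mul]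
  have : y + (θ τ - y) = θ τ := by ring
  rw [this]
  ring

/-- pointwise limit of the integrand -/
theorem tendsto_integrand (halt : ∀ v, ω v v = 0) (hP : ∀ t, HasDerivAt P (P₁ t) t)
    (hq : HasDerivAt P₁ q y) (hW : 0 < ω (P y) (P₁ y))
    (hθ : ∀ᶠ τ in 𝓝[>] (0:ℝ), |θ τ - y| ≤ C * τ ^ 2)
    (hdir : ∀ᶠ τ in 𝓝[>] (0:ℝ), ω (P y) (P (θ τ + τ) + P (θ τ - τ)) = 0)
    {χ : ℝ → ℝ} {χ' : ℝ} (hχ : HasDerivAt χ χ' y) :
    Tendsto (fun τ => (χ (θ τ) * rat (ω (P y) (P₁ (θ τ + τ))) (ω (P y) (P₁ (θ τ - τ))) - χ y)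
      / τ ^ 2) (𝓝[>] 0)
      (𝓝 (-(1 / 2) * (χ' * (ω (P y) q / ω (P y) (P₁ y))
        + χ y * (ω (P y) q / ω (P y) (P₁ y)) ^ 2))) := by
  have h1 := tendsto_theta halt hP hq hW hθ hdir
  have h2 := tendsto_rat (ω := ω) (P := P) hq hW hθ
  have h3 := tendsto_chi hχ hθ h1
  have h4 : Tendsto (fun τ => χ (θ τ)) (𝓝[>] 0) (𝓝 (χ y)) := by
    have h5 : Tendsto θ (𝓝[>] 0) (𝓝 y) := by
      have := (tendsto_sub_of_close hθ).const_add y
      rw [add_zero] at this
      apply this.congr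
      intro τ
      ring
    exact hχ.continuousAt.tendsto.comp h5
  have h5 := (h4.mul h2).add h3
  have e : χ y * (-(1 / 2) * (ω (P y) q / ω (P y) (P₁ y)) ^ 2)
      + χ' * (-(1 / 2) * (ω (P y) q / ω (P y) (P₁ y)))
      = -(1 / 2) * (χ' * (ω (P y) q / ω (P y) (P₁ y))
        + χ y * (ω (P y) q / ω (P y) (P₁ y)) ^ 2) := by ring
  rw [e] at h5
  apply h5.congr
  intro τ
  ring

end pointwise

section main

variable {Y : Type*} [NormedAddCommGroup Y] [NormedSpace ℝ Y]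

/-- Change of variables and the limit: the second order term of
`τ ↦ ∫ χ(t) R_τ(t) s_τ'(t) κ(s_τ(t)) dt`. -/
theorem two_limit [FiniteDimensional ℝ Y]
    {ω : Y →L[ℝ] Y →L[ℝ] ℝ} (halt : ∀ v, ω v v = 0)
    {P P₁ : ℝ → Y} {L M w₀ : ℝ} (hP : ∀ t, HasDerivAt P (P₁ t) t)
    (hP₁ : ∀ s t, ‖P₁ s - P₁ t‖ ≤ L * |s - t|) (hM : ∀ t, ‖P t‖ ≤ M)
    (hw₀ : 0 < w₀) (hW : ∀ t, w₀ ≤ ω (P t) (P₁ t))
    {s s' : ℝ → ℝ → ℝ} {τ₀ C : ℝ} (hτ₀ : 0 < τ₀)
    (hs : ∀ τ ∈ Ioo 0 τ₀, ∀ t, HasDerivAt (s τ) (s' τ t) t)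
    (hs' : ∀ τ ∈ Ioo 0 τ₀, ∀ t, 0 < s' τ t)
    (hclose : ∀ τ ∈ Ioo 0 τ₀, ∀ t, |s τ t - t| ≤ C * τ ^ 2)
    (hdir : ∀ τ ∈ Ioo 0 τ₀, ∀ t, ω (P (s τ t)) (P (t + τ) + P (t - τ)) = 0)
    {κ : ℝ → ℝ} {B : ℝ} (hκ : Measurable κ) (hκB : ∀ t, |κ t| ≤ B)
    {χ : ℝ → ℝ} (hχ : ∃ K, LipschitzWith K χ) (hχc : HasCompactSupport χ) :
    Tendsto (fun τ => ((∫ t, χ t * rat (ω (P (s τ t)) (P₁ (t + τ))) (ω (P (s τ t)) (P₁ (t - τ)))
        * s' τ t * κ (s τ t)) - ∫ t, χ t * κ t) / τ ^ 2) (𝓝[>] 0)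
      (𝓝 (-(1 / 2) * ∫ t, (deriv χ t * (deriv (fun r => ω (P r) (P₁ r)) t / ω (P t) (P₁ t))
        + χ t * (deriv (fun r => ω (P r) (P₁ r)) t / ω (P t) (P₁ t)) ^ 2) * κ t)) := by
  obtain ⟨K, hK⟩ := hχ
  have hPc : Continuous P := continuous_iff_continuousAt.2 fun t => (hP t).continuousAt
  have hL0 : 0 ≤ L := by
    have := (norm_nonneg _).trans (hP₁ 1 0)
    simpa only [ge_iff_le, sub_zero, abs_one, mul_one] using this
  have hM0 : 0 ≤ M := (norm_nonneg _).trans (hM 0)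
  have hB0 : 0 ≤ B := (abs_nonneg _).trans (hκB 0)
  have hLip : LipschitzWith (Real.toNNReal L) P₁ := by
    apply LipschitzWith.of_dist_le_mul
    intro a b
    rw [Real.coe_toNNReal _ hL0, dist_eq_norm, Real.dist_eq]
    exact hP₁ a b
  have hP₁c : Continuous P₁ := hLip.continuous
  have hC0 : 0 ≤ C := by
    have h1 : τ₀ / 2 ∈ Ioo 0 τ₀ := ⟨by positivity, by linarith only [hτ₀]⟩
    have h2 := (abs_nonneg _).trans (hclose _ h1 0)
    have h3 : 0 < (τ₀ / 2) ^ 2 := by positivity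
    exact nonneg_of_mul_nonneg_left h2 h3
  -- the inverse
  have hmono : ∀ τ ∈ Ioo 0 τ₀, StrictMono (s τ) := by
    intro τ hτ
    apply strictMono_of_deriv_pos
    intro t
    rw [(hs τ hτ t).deriv]
    exact hs' τ hτ t
  have hcont : ∀ τ ∈ Ioo 0 τ₀, Continuous (s τ) := fun τ hτ =>
    continuous_iff_continuousAt.2 fun t => (hs τ hτ t).continuousAt
  have hsurj : ∀ τ ∈ Ioo 0 τ₀, Function.Surjective (s τ) := by
    intro τ hτ
    apply (hcont τ hτ).surjective
    · apply tendsto_atTop_mono (f := fun t => t - C * τ ^ 2)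
      · intro t
        have := (abs_le.1 (hclose τ hτ t)).1
        linarith only [this]
      · exact tendsto_atTop_add_const_right _ _ tendsto_id
    · apply tendsto_atBot_mono (f := fun t => t + C * τ ^ 2) (g := s τ)
      · intro t
        have := (abs_le.1 (hclose τ hτ t)).2
        linarith
      · exact tendsto_atBot_add_const_right _ _ tendsto_id
  have hex : ∀ τ ∈ Ioo 0 τ₀, ∃ θ : ℝ → ℝ, Continuous θ ∧ (∀ t, θ (s τ t) = t) ∧
      (∀ y, s τ (θ y) = y) := by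
    intro τ hτ
    let e := StrictMono.orderIsoOfSurjective _ (hmono τ hτ) (hsurj τ hτ)
    exact ⟨e.symm, e.symm.continuous, fun t => e.symm_apply_apply t, fun y => e.apply_symm_apply y⟩
  choose! θ hθc hθs hsθ using hex
  have hθclose : ∀ τ ∈ Ioo 0 τ₀, ∀ y, |θ τ y - y| ≤ C * τ ^ 2 := by
    intro τ hτ y
    have := hclose τ hτ (θ τ y)
    rw [hsθ τ hτ y, abs_sub_comm] at this
    exact this
  have hθdir : ∀ τ ∈ Ioo 0 τ₀, ∀ y, ω (P y) (P (θ τ y + τ) + P (θ τ y - τ)) = 0 := by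
    intro τ hτ y
    have := hdir τ hτ (θ τ y)
    rw [hsθ τ hτ y] at this
    exact this
  -- change of variables
  have hcv : ∀ τ ∈ Ioo 0 τ₀,
      ∫ t, χ t * rat (ω (P (s τ t)) (P₁ (t + τ))) (ω (P (s τ t)) (P₁ (t - τ)))
        * s' τ t * κ (s τ t)
      = ∫ y, χ (θ τ y) * rat (ω (P y) (P₁ (θ τ y + τ))) (ω (P y) (P₁ (θ τ y - τ))) * κ y := by
    intro τ hτ
    have h1 := integral_image_eq_integral_abs_deriv_smul (s := univ) (f := s τ) (f' := s' τ)
      MeasurableSet.univ (fun x _ => (hs τ hτ x).hasDerivWithinAt)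
      ((hmono τ hτ).injective.injOn)
      (fun y => χ (θ τ y) * rat (ω (P y) (P₁ (θ τ y + τ))) (ω (P y) (P₁ (θ τ y - τ))) * κ y)
    rw [image_univ, (hsurj τ hτ).range_eq, Measure.restrict_univ] at h1
    rw [h1]
    congr 1
    funext t
    rw [hθs τ hτ t, abs_of_pos (hs' τ hτ t), smul_eq_mul]
    ring
  -- smallness
  set N : ℝ := ‖ω‖ * M * L with hN
  have hN0 : 0 ≤ N := by (clear * - hM0 hL0; positivity)
  have hsmall : ∀ᶠ τ in 𝓝[>] (0:ℝ), τ ∈ Ioo 0 τ₀ ∧ C * τ ^ 2 ≤ 1 ∧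
      N * (C * τ ^ 2 + τ) ≤ w₀ / 2 := by
    have h1 : ∀ᶠ τ in 𝓝[>] (0:ℝ), τ ∈ Ioo 0 τ₀ := Ioo_mem_nhdsGT hτ₀
    have h2 : ∀ᶠ τ in 𝓝[>] (0:ℝ), C * τ ^ 2 < 1 := by
      have : Tendsto (fun τ : ℝ => C * τ ^ 2) (𝓝 0) (𝓝 (C * 0 ^ 2)) := by
        apply Continuous.tendsto
        fun_prop
      have h3 := this.mono_left (nhdsWithin_le_nhds (s := Ioi 0))
      apply h3.eventually_lt_const
      norm_num
    have h3 : ∀ᶠ τ in 𝓝[>] (0:ℝ), N * (C * τ ^ 2 + τ) < w₀ / 2 := by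
      have : Tendsto (fun τ : ℝ => N * (C * τ ^ 2 + τ)) (𝓝 0) (𝓝 (N * (C * 0 ^ 2 + 0))) := by
        apply Continuous.tendsto
        fun_prop
      have h3 := this.mono_left (nhdsWithin_le_nhds (s := Ioi 0))
      apply h3.eventually_lt_const
      simp only [ne_eq, OfNat.ofNat_ne_zero, not_false_eq_true, zero_pow, mul_zero, add_zero]
      positivity
    filter_upwards [h1, h2, h3] with τ a b c
    exact ⟨a, b.le, c.le⟩
  have hωle : ∀ y v, |ω (P y) v| ≤ ‖ω‖ * M * ‖v‖ := by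
    intro y v
    have h1 := ω.le_opNorm₂ (P y) v
    rw [Real.norm_eq_abs] at h1
    refine h1.trans ?_
    gcongr
    exact hM y
  have hαβ : ∀ τ, τ ∈ Ioo 0 τ₀ → N * (C * τ ^ 2 + τ) ≤ w₀ / 2 → ∀ y,
      w₀ / 2 ≤ ω (P y) (P₁ (θ τ y + τ)) ∧ w₀ / 2 ≤ ω (P y) (P₁ (θ τ y - τ)) ∧
      |ω (P y) (P₁ (θ τ y + τ)) - ω (P y) (P₁ (θ τ y - τ))| ≤ 2 * N * τ := by
    intro τ hτ hs1 y
    have h0 : 0 < τ := hτ.1
    have h1 : ∀ r, |ω (P y) (P₁ r) - ω (P y) (P₁ y)| ≤ N * |r - y| := by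
      intro r
      rw [← map_sub]
      refine (hωle y _).trans ?_
      calc ‖ω‖ * M * ‖P₁ r - P₁ y‖ ≤ ‖ω‖ * M * (L * |r - y|) := by
            gcongr
            exact hP₁ r y
        _ = N * |r - y| := by rw [hN]; ring
    have h2 : |θ τ y + τ - y| ≤ C * τ ^ 2 + τ := by
      have h3 : θ τ y + τ - y = (θ τ y - y) + τ := by ring
      rw [h3]
      refine (abs_add_le _ _).trans ?_
      rw [abs_of_pos h0]
      linarith only [hθclose τ hτ y]
    have h2' : |θ τ y - τ - y| ≤ C * τ ^ 2 + τ := by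
      have h3 : θ τ y - τ - y = (θ τ y - y) - τ := by ring
      rw [h3]
      refine (abs_sub _ _).trans ?_
      rw [abs_of_pos h0]
      linarith only [hθclose τ hτ y]
    refine ⟨?_, ?_, ?_⟩
    · have h4 := (abs_le.1 (h1 (θ τ y + τ))).1
      have h5 : N * |θ τ y + τ - y| ≤ w₀ / 2 :=
        (mul_le_mul_of_nonneg_left h2 hN0).trans hs1
      linarith only [h4, h5, hW y]
    · have h4 := (abs_le.1 (h1 (θ τ y - τ))).1
      have h5 : N * |θ τ y - τ - y| ≤ w₀ / 2 :=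
        (mul_le_mul_of_nonneg_left h2' hN0).trans hs1
      linarith only [h4, h5, hW y]
    · rw [← map_sub]
      refine (hωle y _).trans ?_
      calc ‖ω‖ * M * ‖P₁ (θ τ y + τ) - P₁ (θ τ y - τ)‖
          ≤ ‖ω‖ * M * (L * |θ τ y + τ - (θ τ y - τ)|) := by
            gcongr
            exact hP₁ _ _
        _ = 2 * N * τ := by
            have : θ τ y + τ - (θ τ y - τ) = 2 * τ := by ring
            rw [this, abs_of_pos (by (clear * - h0; positivity)), hN]
            ring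
  -- compact support
  obtain ⟨T, hT⟩ : ∃ T : ℝ, ∀ t, T < |t| → χ t = 0 := by
    obtain ⟨T, hT⟩ := hχc.isCompact.isBounded.subset_closedBall 0
    refine ⟨T, fun t ht => ?_⟩
    apply image_eq_zero_of_notMem_tsupport
    intro h
    have := hT h
    rw [mem_closedBall_zero_iff, Real.norm_eq_abs] at this
    linarith only [ht, this]
  obtain ⟨Bχ, hBχ⟩ : ∃ Bχ, ∀ t, |χ t| ≤ Bχ := by
    obtain ⟨Bφ, h⟩ := hχc.exists_bound_of_continuous hK.continuous
    exact ⟨Bφ, fun t => by simpa only [Real.norm_eq_abs] using h t⟩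
  have hBχ0 : 0 ≤ Bχ := (abs_nonneg _).trans (hBχ 0)
  have hχm : Measurable χ := hK.continuous.measurable
  -- integrability of `χ κ`
  have hχκ : Integrable (fun t => χ t * κ t) := by
    have h1 : IntegrableOn (fun t => χ t * κ t) (Icc (-T) T) := by
      apply Measure.integrableOn_of_bounded (M := Bχ * B)
      · exact (measure_Icc_lt_top (a := -T) (b := T)).ne
      · exact (hχm.mul hκ).aestronglyMeasurable
      · exact Filter.Eventually.of_forall fun t => by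
          rw [Real.norm_eq_abs, abs_mul]
          exact mul_le_mul (hBχ t) (hκB t) (abs_nonneg _) hBχ0
    refine (integrableOn_iff_integrable_of_support_subset (fun t ht => ?_)).1 h1
    by_contra hn
    apply ht
    show χ t * κ t = 0
    rw [hT t, zero_mul]
    by_contra h2
    exact hn (abs_le.1 (not_lt.1 h2))
  -- measurability
  have hmeas : ∀ τ ∈ Ioo 0 τ₀, Measurable (fun y => χ (θ τ y)
      * rat (ω (P y) (P₁ (θ τ y + τ))) (ω (P y) (P₁ (θ τ y - τ)))) := by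
    intro τ hτ
    have hθm := (hθc τ hτ)
    have c1 : Continuous (fun y => ω (P y) (P₁ (θ τ y + τ))) :=
      (ω.continuous.comp hPc).clm_apply (hP₁c.comp (hθm.add continuous_const))
    have c2 : Continuous (fun y => ω (P y) (P₁ (θ τ y - τ))) :=
      (ω.continuous.comp hPc).clm_apply (hP₁c.comp (hθm.sub continuous_const))
    apply Measurable.mul
    · exact hχm.comp hθm.measurable
    · unfold rat
      exact (((c1.mul c2).sqrt.measurable).const_mul 2).div (c1.add c2).measurable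
  -- the bound
  set D : ℝ := Bχ * ((2 * N) ^ 2 / (w₀ / 2) ^ 2) + K * C with hD
  have hD0 : 0 ≤ D := by (clear * - hBχ0 hw₀ hC0; (clear * - hBχ0 hw₀ hC0; positivity))
  have hbound : ∀ τ, τ ∈ Ioo 0 τ₀ → C * τ ^ 2 ≤ 1 → N * (C * τ ^ 2 + τ) ≤ w₀ / 2 → ∀ y,
      |(χ (θ τ y) * rat (ω (P y) (P₁ (θ τ y + τ))) (ω (P y) (P₁ (θ τ y - τ))) - χ y) / τ ^ 2|
        ≤ D * (Icc (-(T + 1)) (T + 1)).indicator 1 y := by
    intro τ hτ hs0 hs1 y
    obtain ⟨g1, g2, g3⟩ := hαβ τ hτ hs1 y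
    have h0 : 0 < τ := hτ.1
    by_cases hy : y ∈ Icc (-(T + 1)) (T + 1)
    · rw [indicator_of_mem hy, Pi.one_apply, mul_one, abs_div, abs_of_pos (by (clear * - h0; positivity) : 0 < τ ^ 2),
        div_le_iff₀ (by (clear * - h0; positivity))]
      have e : χ (θ τ y) * rat (ω (P y) (P₁ (θ τ y + τ))) (ω (P y) (P₁ (θ τ y - τ))) - χ y
          = χ (θ τ y) * (rat (ω (P y) (P₁ (θ τ y + τ))) (ω (P y) (P₁ (θ τ y - τ))) - 1)
            + (χ (θ τ y) - χ y) := by ring
      rw [e]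
      refine (abs_add_le _ _).trans ?_
      rw [abs_mul]
      have i1 := abs_rat_sub_one_le (half_pos hw₀) g1 g2 g3
      have i2 : |χ (θ τ y) - χ y| ≤ K * (C * τ ^ 2) := by
        have := hK.dist_le_mul (θ τ y) y
        rw [Real.dist_eq, Real.dist_eq] at this
        exact this.trans (mul_le_mul_of_nonneg_left (hθclose τ hτ y) K.2)
      calc |χ (θ τ y)| * |rat (ω (P y) (P₁ (θ τ y + τ))) (ω (P y) (P₁ (θ τ y - τ))) - 1|
            + |χ (θ τ y) - χ y|
          ≤ Bχ * ((2 * N * τ) ^ 2 / (w₀ / 2) ^ 2) + K * (C * τ ^ 2) :=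
            add_le_add (mul_le_mul (hBχ _) i1 (abs_nonneg _) hBχ0) i2
        _ = D * τ ^ 2 := by rw [hD]; ring
    · rw [indicator_of_notMem hy, mul_zero]
      have hTy : T + 1 < |y| := by
        by_contra h
        exact hy (abs_le.1 (not_lt.1 h))
      have z1 : χ y = 0 := hT y (by linarith only [hTy])
      have z2 : χ (θ τ y) = 0 := by
        apply hT
        have h4 : |y| ≤ |θ τ y| + |θ τ y - y| := by
          have := abs_sub (θ τ y) (θ τ y - y)
          rwa [sub_sub_cancel] at this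
        have := hθclose τ hτ y
        linarith only [hs0, hTy, h4, this]
      rw [z1, z2]
      simp
  -- rewrite the quotient as an integral
  have hquot : ∀ᶠ τ in 𝓝[>] (0:ℝ),
      ∫ y, ((χ (θ τ y) * rat (ω (P y) (P₁ (θ τ y + τ))) (ω (P y) (P₁ (θ τ y - τ))) - χ y) / τ ^ 2)
        * κ y
      = ((∫ t, χ t * rat (ω (P (s τ t)) (P₁ (t + τ))) (ω (P (s τ t)) (P₁ (t - τ)))
        * s' τ t * κ (s τ t)) - ∫ t, χ t * κ t) / τ ^ 2 := by
    filter_upwards [hsmall] with τ hτ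
    obtain ⟨a1, a2, a3⟩ := hτ
    have h0 : 0 < τ := a1.1
    rw [hcv τ a1]
    have hI : Integrable (fun y => χ (θ τ y)
        * rat (ω (P y) (P₁ (θ τ y + τ))) (ω (P y) (P₁ (θ τ y - τ))) * κ y) := by
      have h1 : IntegrableOn (fun y => χ (θ τ y)
        * rat (ω (P y) (P₁ (θ τ y + τ))) (ω (P y) (P₁ (θ τ y - τ))) * κ y)
          (Icc (-(T + 1)) (T + 1)) := by
        apply Measure.integrableOn_of_bounded (M := Bχ * 1 * B)
        · exact measure_Icc_lt_top.ne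
        · exact ((hmeas τ a1).mul hκ).aestronglyMeasurable
        · exact Filter.Eventually.of_forall fun y => by
            obtain ⟨g1, g2, g3⟩ := hαβ τ a1 a3 y
            rw [Real.norm_eq_abs, abs_mul, abs_mul]
            have g4 := abs_rat_le (lt_of_lt_of_le (half_pos hw₀) g1)
              (lt_of_lt_of_le (half_pos hw₀) g2)
            exact mul_le_mul (mul_le_mul (hBχ _) g4 (abs_nonneg _) hBχ0) (hκB y) (abs_nonneg _)
              (by (clear * - hBχ0; positivity))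
      refine (integrableOn_iff_integrable_of_support_subset (fun y hy => ?_)).1 h1
      by_contra hn
      apply hy
      have hTy : T + 1 < |y| := by
        by_contra h
        exact hn (abs_le.1 (not_lt.1 h))
      have z2 : χ (θ τ y) = 0 := by
        apply hT
        have h4 : |y| ≤ |θ τ y| + |θ τ y - y| := by
          have := abs_sub (θ τ y) (θ τ y - y)
          rwa [sub_sub_cancel] at this
        have := hθclose τ a1 y
        linarith only [a2, hTy, h4, this]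
      show χ (θ τ y) * _ * _ = 0
      rw [z2, zero_mul, zero_mul]
    rw [← integral_sub hI hχκ, ← integral_div]
    congr 1
    funext y
    ring
  apply Tendsto.congr' hquot
  rw [← integral_const_mul]
  apply tendsto_integral_filter_of_dominated_convergence
    (fun y => D * (Icc (-(T + 1)) (T + 1)).indicator 1 y * B)
  · filter_upwards [hsmall] with τ hτ
    exact ((((hmeas τ hτ.1).sub hχm).div_const _).mul hκ).aestronglyMeasurable
  · filter_upwards [hsmall] with τ hτ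
    refine Filter.Eventually.of_forall fun y => ?_
    rw [Real.norm_eq_abs, abs_mul]
    exact mul_le_mul (hbound τ hτ.1 hτ.2.1 hτ.2.2 y) (hκB y) (abs_nonneg _)
      (mul_nonneg hD0 (indicator_nonneg (fun _ _ => zero_le_one) _))
  · apply Integrable.mul_const
    apply Integrable.const_mul
    rw [integrable_indicator_iff measurableSet_Icc]
    exact integrableOn_const measure_Icc_lt_top.ne
  · have hd1 : ∀ᵐ y, DifferentiableAt ℝ P₁ y := hLip.ae_differentiableAt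
    have hd2 : ∀ᵐ y, DifferentiableAt ℝ χ y := hK.ae_differentiableAt
    filter_upwards [hd1, hd2] with y h1 h2
    have hq := h1.hasDerivAt
    have hWy : 0 < ω (P y) (P₁ y) := lt_of_lt_of_le hw₀ (hW y)
    have e1 : ∀ᶠ τ in 𝓝[>] (0:ℝ), |θ τ y - y| ≤ C * τ ^ 2 := by
      filter_upwards [hsmall] with τ hτ using hθclose τ hτ.1 y
    have e2 : ∀ᶠ τ in 𝓝[>] (0:ℝ), ω (P y) (P (θ τ y + τ) + P (θ τ y - τ)) = 0 := by
      filter_upwards [hsmall] with τ hτ using hθdir τ hτ.1 y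
    have h3 := (tendsto_integrand (θ := fun τ => θ τ y) halt hP hq hWy e1 e2
      h2.hasDerivAt).mul_const (κ y)
    have hWd : deriv (fun r => ω (P r) (P₁ r)) y = ω (P y) (deriv P₁ y) := by
      have h4 : HasDerivAt (fun r => ω (P r)) (ω (P₁ y)) y :=
        ω.hasFDerivAt.comp_hasDerivAt y (hP y)
      have h5 := h4.clm_apply hq
      rw [h5.deriv, halt, zero_add]
    rw [hWd]
    refine Eq.subst (motive := fun z => Tendsto _ (𝓝[>] 0) (𝓝 z)) ?_ h3
    ring

/-- Two curves for which `R_τ(t) s_τ'(t) κ(s_τ(t))` agree almost everywhere have the same second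
order term. -/
theorem two_identity [FiniteDimensional ℝ Y] {X : Type*} [NormedAddCommGroup X] [NormedSpace ℝ X]
    [FiniteDimensional ℝ X]
    {ω : Y →L[ℝ] Y →L[ℝ] ℝ} (halt : ∀ v, ω v v = 0)
    {P P₁ : ℝ → Y} {L M w₀ : ℝ} (hP : ∀ t, HasDerivAt P (P₁ t) t)
    (hP₁ : ∀ s t, ‖P₁ s - P₁ t‖ ≤ L * |s - t|) (hM : ∀ t, ‖P t‖ ≤ M)
    (hw₀ : 0 < w₀) (hW : ∀ t, w₀ ≤ ω (P t) (P₁ t))
    {s s' : ℝ → ℝ → ℝ} {τ₀ C : ℝ} (hτ₀ : 0 < τ₀)
    (hs : ∀ τ ∈ Ioo 0 τ₀, ∀ t, HasDerivAt (s τ) (s' τ t) t)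
    (hs' : ∀ τ ∈ Ioo 0 τ₀, ∀ t, 0 < s' τ t)
    (hclose : ∀ τ ∈ Ioo 0 τ₀, ∀ t, |s τ t - t| ≤ C * τ ^ 2)
    (hdir : ∀ τ ∈ Ioo 0 τ₀, ∀ t, ω (P (s τ t)) (P (t + τ) + P (t - τ)) = 0)
    {η : X →L[ℝ] X →L[ℝ] ℝ} (halt' : ∀ v, η v v = 0)
    {p p₁ : ℝ → X} {L' M' v₀ : ℝ} (hp : ∀ t, HasDerivAt p (p₁ t) t)
    (hp₁ : ∀ s t, ‖p₁ s - p₁ t‖ ≤ L' * |s - t|) (hM' : ∀ t, ‖p t‖ ≤ M')
    (hv₀ : 0 < v₀) (hW' : ∀ t, v₀ ≤ η (p t) (p₁ t))
    {r r' : ℝ → ℝ → ℝ} {C' : ℝ}
    (hr : ∀ τ ∈ Ioo 0 τ₀, ∀ t, HasDerivAt (r τ) (r' τ t) t)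
    (hr' : ∀ τ ∈ Ioo 0 τ₀, ∀ t, 0 < r' τ t)
    (hclose' : ∀ τ ∈ Ioo 0 τ₀, ∀ t, |r τ t - t| ≤ C' * τ ^ 2)
    (hdir' : ∀ τ ∈ Ioo 0 τ₀, ∀ t, η (p (r τ t)) (p (t + τ) + p (t - τ)) = 0)
    {κ : ℝ → ℝ} {B : ℝ} (hκ : Measurable κ) (hκB : ∀ t, |κ t| ≤ B)
    (hJ : ∀ τ ∈ Ioo 0 τ₀, ∀ᵐ t, rat (ω (P (s τ t)) (P₁ (t + τ))) (ω (P (s τ t)) (P₁ (t - τ)))
        * s' τ t * κ (s τ t) = rat (η (p (r τ t)) (p₁ (t + τ))) (η (p (r τ t)) (p₁ (t - τ)))
        * r' τ t * κ (r τ t))
    {χ : ℝ → ℝ} (hχ : ∃ K, LipschitzWith K χ) (hχc : HasCompactSupport χ) :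
    ∫ t, (deriv χ t * (deriv (fun r => ω (P r) (P₁ r)) t / ω (P t) (P₁ t))
        + χ t * (deriv (fun r => ω (P r) (P₁ r)) t / ω (P t) (P₁ t)) ^ 2) * κ t
      = ∫ t, (deriv χ t * (deriv (fun r => η (p r) (p₁ r)) t / η (p t) (p₁ t))
        + χ t * (deriv (fun r => η (p r) (p₁ r)) t / η (p t) (p₁ t)) ^ 2) * κ t := by
  have h1 := two_limit halt hP hP₁ hM hw₀ hW hτ₀ hs hs' hclose hdir hκ hκB hχ hχc
  have h2 := two_limit halt' hp hp₁ hM' hv₀ hW' hτ₀ hr hr' hclose' hdir' hκ hκB hχ hχc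
  have h3 := h1.congr' (f₂ := fun τ => ((∫ t, χ t * rat (η (p (r τ t)) (p₁ (t + τ)))
      (η (p (r τ t)) (p₁ (t - τ))) * r' τ t * κ (r τ t)) - ∫ t, χ t * κ t) / τ ^ 2) (by
    filter_upwards [Ioo_mem_nhdsGT hτ₀] with τ hτ
    congr 2
    apply integral_congr_ae
    filter_upwards [hJ τ hτ] with t ht
    calc χ t * rat (ω (P (s τ t)) (P₁ (t + τ))) (ω (P (s τ t)) (P₁ (t - τ))) * s' τ t * κ (s τ t)
        = χ t * (rat (ω (P (s τ t)) (P₁ (t + τ))) (ω (P (s τ t)) (P₁ (t - τ)))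
          * s' τ t * κ (s τ t)) := by ring
      _ = _ := by rw [ht]; ring)
  have h4 := tendsto_nhds_unique h3 h2
  linarith

end main

end Vale.Agent.P084
end

/- TwoWeak -/
section
open MeasureTheory Set Filter Topology
open scoped NNReal Real

namespace Vale.Agent.P084

/-- A bounded measurable function vanishing off a bounded interval is integrable. -/
theorem integrable_of_bdd_supp {v : ℝ → ℝ} {B T : ℝ} (hv : Measurable v) (hB : ∀ t, |v t| ≤ B)
    (hs : ∀ t, t ∉ Icc (-T) T → v t = 0) : Integrable v := by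
  have h1 : IntegrableOn v (Icc (-T) T) := by
    apply Measure.integrableOn_of_bounded (M := B)
    · exact (measure_Icc_lt_top (a := -T) (b := T)).ne
    · exact hv.aestronglyMeasurable
    · exact Filter.Eventually.of_forall fun t => by simpa only [Real.norm_eq_abs] using hB t
  exact (integrableOn_iff_integrable_of_support_subset (fun t ht => by
    by_contra hn
    exact ht (hs t hn))).1 h1

/-- If `∫ φ' u = 0` for all Lipschitz `φ` supported in `[-T,T]`, then `u` is a.e. constant on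
`[-T,T]`. -/
theorem ae_const_of_test {u : ℝ → ℝ} {B T : ℝ} (hT : 0 < T) (hu : Measurable u)
    (hB : ∀ t, |u t| ≤ B)
    (h : ∀ φ ψ : ℝ → ℝ, Measurable ψ → (∃ K, LipschitzWith K φ) → (∀ t, t ∉ Icc (-T) T → φ t = 0) →
      (∀ t, t ∉ Icc (-T) T → ψ t = 0) → (∃ B', ∀ t, |ψ t| ≤ B') →
      (∀ᵐ t, HasDerivAt φ (ψ t) t) → ∫ t, ψ t * u t = 0) :
    ∃ c, ∀ᵐ t, t ∈ Icc (-T) T → u t = c := by
  set c : ℝ := (∫ t in (-T)..T, u t) / (2 * T) with hc
  refine ⟨c, ?_⟩
  have hB0 : 0 ≤ B := le_trans (abs_nonneg _) (hB 0)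
  set ψ : ℝ → ℝ := (Ioc (-T) T).indicator (fun t => u t - c) with hψ
  have hψm : Measurable ψ := (hu.sub_const c).indicator measurableSet_Ioc
  have hψB : ∀ t, |ψ t| ≤ B + |c| := by
    intro t
    by_cases ht : t ∈ Ioc (-T) T
    · simp only [hψ, indicator_of_mem ht]
      calc |u t - c| ≤ |u t| + |c| := abs_sub _ _
        _ ≤ B + |c| := by linarith only [hB t]
    · simp only [hψ, indicator_of_notMem ht, abs_zero]
      (clear * - hB0; positivity)
  have hψs : ∀ t, t ∉ Icc (-T) T → ψ t = 0 := by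
    intro t ht
    simp only [hψ]
    apply indicator_of_notMem
    intro h'
    exact ht (Ioc_subset_Icc_self h')
  have hψi : Integrable ψ := integrable_of_bdd_supp hψm hψB hψs
  have hui : IntervalIntegrable u volume (-T) T := by
    rw [intervalIntegrable_iff]
    apply Measure.integrableOn_of_bounded (M := B)
    · simp only [Real.volume_uIoc, sub_neg_eq_add, ne_eq, ENNReal.ofReal_ne_top, not_false_eq_true]
    · exact hu.aestronglyMeasurable
    · exact Filter.Eventually.of_forall fun t => by simpa only [Real.norm_eq_abs] using hB t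
  have hint : ∫ t, ψ t = 0 := by
    rw [hψ, integral_indicator measurableSet_Ioc, ← intervalIntegral.integral_of_le (by linarith only [hT]),
      intervalIntegral.integral_sub hui (by simp), intervalIntegral.integral_const, hc]
    simp only [smul_eq_mul]
    field_simp
    ring
  set φ : ℝ → ℝ := fun t => ∫ s in (-T)..t, ψ s with hφ
  have hii : ∀ a b, IntervalIntegrable ψ volume a b := fun a b => hψi.intervalIntegrable
  have hφL : ∃ K, LipschitzWith K φ := by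
    refine ⟨Real.toNNReal (B + |c|), ?_⟩
    apply LipschitzWith.of_dist_le_mul
    intro a b
    rw [Real.coe_toNNReal _ (by (clear * - hB0; positivity)), Real.dist_eq, Real.dist_eq]
    have h1 : φ a - φ b = ∫ s in b..a, ψ s := by
      simp only [hφ]
      rw [intervalIntegral.integral_interval_sub_left (hii _ _) (hii _ _)]
    rw [h1]
    have := intervalIntegral.norm_integral_le_of_norm_le_const (f := ψ) (a := b) (b := a)
      (C := B + |c|) (fun x _ => by simpa only [Real.norm_eq_abs] using hψB x)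
    simpa only [ge_iff_le, Real.norm_eq_abs] using this
  have hφs : ∀ t, t ∉ Icc (-T) T → φ t = 0 := by
    intro t ht
    simp only [mem_Icc, not_and_or, not_le] at ht
    simp only [hφ]
    rcases ht with ht | ht
    · apply intervalIntegral.integral_zero_ae
      filter_upwards with s hs
      rw [uIoc_of_ge ht.le] at hs
      simp only [hψ]
      apply indicator_of_notMem
      intro h'
      have := hs.2
      have := h'.1
      (clear u B hT hu hB h c hc hB0 ψ hψ hψm hψB hψs hψi hui hint φ hφ hii hφL ht; linarith)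
    · have h2 : ∫ s in (-T)..t, ψ s = ∫ s, ψ s := by
        rw [intervalIntegral.integral_of_le (by linarith only [hT, ht])]
        apply setIntegral_eq_integral_of_forall_compl_eq_zero
        intro x hx
        simp only [hψ]
        apply indicator_of_notMem
        intro h'
        exact hx ⟨h'.1, h'.2.trans ht.le⟩
      rw [h2, hint]
  have hφd : ∀ᵐ t, HasDerivAt φ (ψ t) t := by
    filter_upwards [LocallyIntegrable.ae_hasDerivAt_integral hψi.locallyIntegrable] with t ht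
    exact ht (-T)
  have key := h φ ψ hψm hφL hφs hψs ⟨_, hψB⟩ hφd
  have hsq : ∫ t, ψ t * ψ t = 0 := by
    have e : ∀ t, ψ t * ψ t = ψ t * u t - c * ψ t := by
      intro t
      by_cases ht : t ∈ Ioc (-T) T
      · simp only [hψ, indicator_of_mem ht]; ring
      · simp only [hψ, indicator_of_notMem ht]; ring
    have i1 : Integrable (fun t => ψ t * u t) := by
      apply integrable_of_bdd_supp (B := (B + |c|) * B) (T := T) (hψm.mul hu)
      · intro t
        show |ψ t * u t| ≤ _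
        rw [abs_mul]
        exact mul_le_mul (hψB t) (hB t) (abs_nonneg _) (by (clear * - hB0; positivity))
      · intro t ht
        show ψ t * u t = 0
        rw [hψs t ht, zero_mul]
    rw [integral_congr_ae (Filter.Eventually.of_forall e), integral_sub i1 (hψi.const_mul c), key,
      integral_const_mul, hint]
    ring
  have hψ2i : Integrable (fun t => ψ t * ψ t) := by
    apply integrable_of_bdd_supp (B := (B + |c|) * (B + |c|)) (T := T) (hψm.mul hψm)
    · intro t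
      show |ψ t * ψ t| ≤ _
      rw [abs_mul]
      exact mul_le_mul (hψB t) (hψB t) (abs_nonneg _) (by (clear * - hB0; positivity))
    · intro t ht
      show ψ t * ψ t = 0
      rw [hψs t ht, zero_mul]
  have h0 := (integral_eq_zero_iff_of_nonneg (fun t => mul_self_nonneg (ψ t)) hψ2i).1 hsq
  have hne : ∀ᵐ t : ℝ, t ≠ -T := by simp [ae_iff, measure_singleton]
  filter_upwards [h0, hne] with t ht hne ht'
  have h1 : t ∈ Ioc (-T) T := ⟨lt_of_le_of_ne ht'.1 (Ne.symm hne), ht'.2⟩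
  have h2 : ψ t = 0 := by simpa using ht
  simp only [hψ, indicator_of_mem h1] at h2
  linarith only [h2]

theorem weak_conclusion {w W κ : ℝ → ℝ} {K : ℝ≥0} {w₀ C : ℝ}
    (hw : LipschitzWith K w) (hW : LipschitzWith K W) (hw0 : 0 < w₀)
    (hwpos : ∀ t, w₀ ≤ w t) (hWpos : ∀ t, w₀ ≤ W t)
    (hper : ∀ t, w (t + 2 * π) = w t) (hPer : ∀ t, W (t + 2 * π) = W t)
    (hκm : Measurable κ) (hκ0 : ∀ t, 0 ≤ κ t) (hκC : ∀ t, κ t ≤ C)
    (hid : ∀ χ : ℝ → ℝ, (∃ K', LipschitzWith K' χ) → HasCompactSupport χ →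
      ∫ t, (deriv χ t * (deriv W t / W t) + χ t * (deriv W t / W t) ^ 2) * κ t
        = ∫ t, (deriv χ t * (deriv w t / w t) + χ t * (deriv w t / w t) ^ 2) * κ t) :
    ∀ᵐ t, κ t * (deriv W t / W t - deriv w t / w t) = 0 := by
  have hw1 : ∀ t, 0 < w t := fun t => lt_of_lt_of_le hw0 (hwpos t)
  have hW1 : ∀ t, 0 < W t := fun t => lt_of_lt_of_le hw0 (hWpos t)
  have hC0 : 0 ≤ C := (hκ0 0).trans (hκC 0)
  set M : ℝ → ℝ := fun t => deriv W t / W t with hMdef
  set m : ℝ → ℝ := fun t => deriv w t / w t with hmdef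
  have hMm : Measurable M := (measurable_deriv W).div hW.continuous.measurable
  have hmm : Measurable m := (measurable_deriv w).div hw.continuous.measurable
  set A : ℝ := K / w₀ with hA
  have hA0 : 0 ≤ A := by (clear * - hw0; positivity)
  have hMB : ∀ t, |M t| ≤ A := by
    intro t
    simp only [hMdef, hA, abs_div, abs_of_pos (hW1 t)]
    apply div_le_div₀ K.2 _ hw0 (hWpos t)
    simpa only [NNReal.val_eq_coe, Real.norm_eq_abs] using norm_deriv_le_of_lipschitz (x₀ := t) hW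
  have hmB : ∀ t, |m t| ≤ A := by
    intro t
    simp only [hmdef, hA, abs_div, abs_of_pos (hw1 t)]
    apply div_le_div₀ K.2 _ hw0 (hwpos t)
    simpa only [NNReal.val_eq_coe, Real.norm_eq_abs] using norm_deriv_le_of_lipschitz (x₀ := t) hw
  set ρ : ℝ → ℝ := fun t => w t * W t with hρ
  have hρpos : ∀ t, 0 < ρ t := fun t => mul_pos (hw1 t) (hW1 t)
  have hρge : ∀ t, w₀ ^ 2 ≤ ρ t := by
    intro t
    simp only [hρ]
    linarith [mul_nonneg (sub_nonneg.2 (hwpos t)) (sub_nonneg.2 (hWpos t)), mul_nonneg (le_of_lt (sub_pos.2 hw0)) (sub_nonneg.2 (hWpos t)), mul_nonneg (le_of_lt (sub_pos.2 hw0)) (sub_nonneg.2 (hwpos t))]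
  have hρc : Continuous ρ := hw.continuous.mul hW.continuous
  set u : ℝ → ℝ := fun t => κ t * (M t - m t) / ρ t with hu
  have hum : Measurable u := (hκm.mul (hMm.sub hmm)).div hρc.measurable
  have huB : ∀ t, |u t| ≤ C * (2 * A) / w₀ ^ 2 := by
    intro t
    simp only [hu, abs_div, abs_mul, abs_of_pos (hρpos t), abs_of_nonneg (hκ0 t)]
    apply div_le_div₀ (by (clear * - hC0 hw0; positivity)) _ (by positivity) (hρge t)
    apply mul_le_mul (hκC t) _ (abs_nonneg _) hC0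
    calc |M t - m t| ≤ |M t| + |m t| := abs_sub _ _
      _ ≤ 2 * A := by linarith only [hMB t, hmB t]
  -- the constant on each large interval
  have step : ∀ T : ℝ, 7 ≤ T → ∀ᵐ t, t ∈ Icc (-T) T → u t = 0 := by
    intro T hT
    obtain ⟨c, hc⟩ := ae_const_of_test (T := T) (by linarith only [hT]) hum huB (by
      intro φ ψ hψm hφL hφs hψs hψB hφd
      obtain ⟨K1, hK1⟩ := hφL
      obtain ⟨B1, hB1⟩ := hψB
      have hB10 : 0 ≤ B1 := (abs_nonneg _).trans (hB1 0)
      -- the test function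
      set χ : ℝ → ℝ := fun t => φ t / ρ t with hχ
      have hφc : HasCompactSupport φ :=
        HasCompactSupport.intro isCompact_Icc (K := Icc (-T) T) (fun t ht => hφs t ht)
      have hχc : HasCompactSupport χ :=
        HasCompactSupport.intro isCompact_Icc (K := Icc (-T) T)
          (fun t ht => by simp only [hχ, hφs t ht, zero_div])
      have hχL : ∃ K', LipschitzWith K' χ := by
        -- 1 / w and 1 / W are Lipschitz and bounded
        have hinv : ∀ v : ℝ → ℝ, LipschitzWith K v → (∀ t, w₀ ≤ v t) →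
            LipschitzWith (K * Real.toNNReal (1 / w₀ ^ 2)) (fun t => (v t)⁻¹) := by
          intro v hv hvpos
          apply LipschitzWith.of_dist_le_mul
          intro a b
          have ha : 0 < v a := lt_of_lt_of_le hw0 (hvpos a)
          have hb : 0 < v b := lt_of_lt_of_le hw0 (hvpos b)
          rw [NNReal.coe_mul, Real.coe_toNNReal _ (by positivity), Real.dist_eq,
            inv_sub_inv ha.ne' hb.ne', abs_div, abs_mul, abs_of_pos ha, abs_of_pos hb]
          have h1 : |v b - v a| ≤ K * dist a b := by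
            have := hv.dist_le_mul b a
            rwa [Real.dist_eq, dist_comm] at this
          have h2 : w₀ ^ 2 ≤ v a * v b := by linarith only [mul_nonneg (sub_nonneg.2 (hvpos a)) (sub_nonneg.2 (hvpos b)), mul_nonneg (le_of_lt (sub_pos.2 hw0)) (sub_nonneg.2 (hvpos b)), mul_nonneg (le_of_lt (sub_pos.2 hw0)) (sub_nonneg.2 (hvpos a))]
          calc |v b - v a| / (v a * v b) ≤ (K * dist a b) / w₀ ^ 2 :=
                div_le_div₀ (by (clear * -; positivity)) h1 (by positivity) h2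
            _ = K * (1 / w₀ ^ 2) * dist a b := by ring
        have hmul : ∀ (f g : ℝ → ℝ) (Kf Kg : ℝ≥0) (Bf Bg : ℝ), LipschitzWith Kf f →
            LipschitzWith Kg g → (∀ t, |f t| ≤ Bf) → (∀ t, |g t| ≤ Bg) →
            ∃ K', LipschitzWith K' (fun t => f t * g t) := by
          intro f g Kf Kg Bf Bg hf hg hBf hBg
          have hBf0 : 0 ≤ Bf := (abs_nonneg _).trans (hBf 0)
          have hBg0 : 0 ≤ Bg := (abs_nonneg _).trans (hBg 0)
          refine ⟨Real.toNNReal (Kf * Bg + Bf * Kg), ?_⟩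
          apply LipschitzWith.of_dist_le_mul
          intro a b
          rw [Real.coe_toNNReal _ (by (clear * - hBg0 hBf0; positivity)), Real.dist_eq]
          have h1 := hf.dist_le_mul a b
          have h2 := hg.dist_le_mul a b
          rw [Real.dist_eq] at h1 h2
          calc |f a * g a - f b * g b| = |(f a - f b) * g a + f b * (g a - g b)| := by ring_nf
            _ ≤ |(f a - f b) * g a| + |f b * (g a - g b)| := abs_add_le _ _
            _ = |f a - f b| * |g a| + |f b| * |g a - g b| := by rw [abs_mul, abs_mul]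
            _ ≤ (Kf * dist a b) * Bg + Bf * (Kg * dist a b) := by
                apply add_le_add
                · exact mul_le_mul h1 (hBg a) (abs_nonneg _) (by (clear * -; positivity))
                · exact mul_le_mul (hBf b) h2 (abs_nonneg _) hBf0
            _ = (Kf * Bg + Bf * Kg) * dist a b := by ring
        have b1 : ∀ t, |(w t)⁻¹| ≤ w₀⁻¹ := fun t => by
          rw [abs_of_pos (inv_pos.2 (hw1 t))]
          exact inv_anti₀ hw0 (hwpos t)
        have b2 : ∀ t, |(W t)⁻¹| ≤ w₀⁻¹ := fun t => by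
          rw [abs_of_pos (inv_pos.2 (hW1 t))]
          exact inv_anti₀ hw0 (hWpos t)
        obtain ⟨Bφ, hBφ⟩ : ∃ Bφ, ∀ t, |φ t| ≤ Bφ := by
          obtain ⟨Bφ, h⟩ := hφc.exists_bound_of_continuous hK1.continuous
          exact ⟨Bφ, fun t => by simpa only [Real.norm_eq_abs] using h t⟩
        obtain ⟨K2, hK2⟩ := hmul _ _ _ _ _ _ (hinv w hw hwpos) (hinv W hW hWpos) b1 b2
        have b3 : ∀ t, |(w t)⁻¹ * (W t)⁻¹| ≤ w₀⁻¹ * w₀⁻¹ := fun t => by
          rw [abs_mul]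
          exact mul_le_mul (b1 t) (b2 t) (abs_nonneg _) (by positivity)
        obtain ⟨K3, hK3⟩ := hmul _ _ _ _ _ _ hK1 hK2 hBφ b3
        refine ⟨K3, ?_⟩
        have e : χ = fun t => φ t * ((w t)⁻¹ * (W t)⁻¹) := by
          funext t
          simp only [hχ, hρ]
          rw [div_eq_mul_inv, mul_inv]
        rw [e]
        exact hK3
      have key := hid χ hχL hχc
      obtain ⟨K', hK'⟩ := hχL
      have hχm : Measurable χ := hK'.continuous.measurable
      have hχ's : ∀ t, t ∉ Icc (-T) T → deriv χ t = 0 := by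
        intro t ht
        have h1 : tsupport χ ⊆ Icc (-T) T := by
          apply closure_minimal _ isClosed_Icc
          intro x hx
          by_contra hn
          exact hx (by simp only [hχ, hφs x hn, zero_div])
        exact image_eq_zero_of_notMem_tsupport
          (fun h => ht (h1 (tsupport_deriv_subset h)))
      have hχs : ∀ t, t ∉ Icc (-T) T → χ t = 0 := fun t ht => by
        simp only [hχ, hφs t ht, zero_div]
      obtain ⟨Bχ, hBχ⟩ : ∃ Bχ, ∀ t, |χ t| ≤ Bχ := by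
        obtain ⟨Bφ, h⟩ := hχc.exists_bound_of_continuous hK'.continuous
        exact ⟨Bφ, fun t => by simpa using h t⟩
      have hBχ0 : 0 ≤ Bχ := (abs_nonneg _).trans (hBχ 0)
      have hχ'B : ∀ t, |deriv χ t| ≤ K' := fun t => by
        simpa only [Real.norm_eq_abs] using norm_deriv_le_of_lipschitz (x₀ := t) hK'
      have hI : ∀ v : ℝ → ℝ, Measurable v → (∀ t, |v t| ≤ A) →
          Integrable (fun t => (deriv χ t * v t + χ t * v t ^ 2) * κ t) := by
        intro v hv hvB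
        apply integrable_of_bdd_supp (B := (K' * A + Bχ * A ^ 2) * C) (T := T)
        · exact (((measurable_deriv χ).mul hv).add (hχm.mul (hv.pow_const 2))).mul hκm
        · intro t
          rw [abs_mul, abs_of_nonneg (hκ0 t)]
          apply mul_le_mul _ (hκC t) (hκ0 t) (by (clear * - hw0 hBχ0; positivity))
          calc |deriv χ t * v t + χ t * v t ^ 2| ≤ |deriv χ t * v t| + |χ t * v t ^ 2| :=
                abs_add_le _ _
            _ = |deriv χ t| * |v t| + |χ t| * |v t| ^ 2 := by rw [abs_mul, abs_mul, abs_pow]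
            _ ≤ K' * A + Bχ * A ^ 2 := by
                apply add_le_add
                · exact mul_le_mul (hχ'B t) (hvB t) (abs_nonneg _) K'.2
                · exact mul_le_mul (hBχ t) (pow_le_pow_left₀ (abs_nonneg _) (hvB t) 2)
                    (by (clear * -; positivity)) hBχ0
        · intro t ht
          rw [hχ's t ht, hχs t ht]
          ring
      have h3 : ∫ t, ((deriv χ t * M t + χ t * M t ^ 2) * κ t
          - (deriv χ t * m t + χ t * m t ^ 2) * κ t) = 0 := by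
        rw [integral_sub (hI M hMm hMB) (hI m hmm hmB)]
        simp only [hMdef, hmdef]
        rw [key, sub_self]
      rw [← h3]
      apply integral_congr_ae
      have hwd : ∀ᵐ t, DifferentiableAt ℝ w t := hw.ae_differentiableAt
      have hWd : ∀ᵐ t, DifferentiableAt ℝ W t := hW.ae_differentiableAt
      filter_upwards [hφd, hwd, hWd] with t h4 h5 h6
      have h7 : HasDerivAt ρ (deriv w t * W t + w t * deriv W t) t :=
        h5.hasDerivAt.mul h6.hasDerivAt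
      have h8 : HasDerivAt χ ((ψ t * ρ t - φ t * (deriv w t * W t + w t * deriv W t)) / ρ t ^ 2) t :=
        h4.div h7 (hρpos t).ne'
      rw [h8.deriv]
      simp only [hu, hχ, hMdef, hmdef, hρ]
      have e1 := (hw1 t).ne'
      have e2 := (hW1 t).ne'
      field_simp
      ring)
    have hc0 : c = 0 := by
      by_contra hcne
      -- absolutely continuous function log W - log w
      have hlogL : ∀ v : ℝ → ℝ, LipschitzWith K v → (∀ t, w₀ ≤ v t) →
          AbsolutelyContinuousOnInterval (fun t => Real.log (v t)) 0 (2 * π) := by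
        intro v hv hvpos
        have : LipschitzWith (K * Real.toNNReal (1 / w₀)) (fun t => Real.log (v t)) := by
          apply LipschitzWith.of_dist_le_mul
          intro a b
          have ha : 0 < v a := lt_of_lt_of_le hw0 (hvpos a)
          have hb : 0 < v b := lt_of_lt_of_le hw0 (hvpos b)
          rw [NNReal.coe_mul, Real.coe_toNNReal _ (by positivity), Real.dist_eq]
          have hvd := hv.dist_le_mul a b
          rw [Real.dist_eq] at hvd
          have main : ∀ x y : ℝ, w₀ ≤ x → w₀ ≤ y → Real.log x - Real.log y ≤ |x - y| / w₀ := by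
            intro x y hx hy
            have hx0 : 0 < x := lt_of_lt_of_le hw0 hx
            have hy0 : 0 < y := lt_of_lt_of_le hw0 hy
            rw [← Real.log_div hx0.ne' hy0.ne']
            have h1 := Real.log_le_sub_one_of_pos (div_pos hx0 hy0)
            have h2 : x / y - 1 = (x - y) / y := by (clear * - hy0; field_simp)
            rw [h2] at h1
            refine h1.trans ?_
            calc (x - y) / y ≤ |x - y| / y := by gcongr; exact le_abs_self _
              _ ≤ |x - y| / w₀ := div_le_div_of_nonneg_left (abs_nonneg _) hw0 hy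
          have h1 := main (v a) (v b) (hvpos a) (hvpos b)
          have h2 := main (v b) (v a) (hvpos b) (hvpos a)
          rw [abs_sub_comm] at h2
          calc |Real.log (v a) - Real.log (v b)| ≤ |v a - v b| / w₀ :=
                abs_sub_le_iff.2 ⟨h1, h2⟩
            _ ≤ (K * dist a b) / w₀ := by (clear * - hvd hw0; gcongr)
            _ = K * (1 / w₀) * dist a b := by ring
        exact this.lipschitzOnWith.absolutelyContinuousOnInterval
      have hac := (hlogL W hW hWpos).sub (hlogL w hw hwpos)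
      have hFTC := hac.integral_deriv_eq_sub
      have hrhs : ((fun t => Real.log (W t)) - fun t => Real.log (w t)) (2 * π)
          - ((fun t => Real.log (W t)) - fun t => Real.log (w t)) 0 = 0 := by
        have h1 := hper 0
        have h2 := hPer 0
        rw [zero_add] at h1 h2
        simp only [Pi.sub_apply, h1, h2, sub_self]
      rw [hrhs] at hFTC
      have hder : ∀ᵐ t, deriv ((fun t => Real.log (W t)) - fun t => Real.log (w t)) t
          = M t - m t := by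
        filter_upwards [hw.ae_differentiableAt, hW.ae_differentiableAt] with t h5 h6
        have := (h6.hasDerivAt.log (hW1 t).ne').sub (h5.hasDerivAt.log (hw1 t).ne')
        exact this.deriv
      have hpi : (0:ℝ) < 2 * π := by positivity
      have hpi7 : 2 * π ≤ 7 := by
        have := Real.pi_lt_d2
        linarith only [this]
      have h1 : ∫ t in (0:ℝ)..(2 * π), (M t - m t) = 0 := by
        refine Eq.trans ?_ hFTC
        apply intervalIntegral.integral_congr_ae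
        filter_upwards [hder] with t ht _
        exact ht.symm
      have h2 : ∫ t in Ioc (0:ℝ) (2 * π), c * (M t - m t) = 0 := by
        rw [integral_const_mul, ← intervalIntegral.integral_of_le hpi.le, h1, mul_zero]
      have hpos : ∀ᵐ t ∂(volume.restrict (Ioc (0:ℝ) (2 * π))), 0 < c * (M t - m t) := by
        rw [ae_restrict_iff' measurableSet_Ioc]
        filter_upwards [hc] with t ht ht'
        have h3 : u t = c := ht ⟨by linarith only [hT, ht'.1], by linarith only [hT, hpi7, ht'.2]⟩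
        simp only [hu] at h3
        rw [div_eq_iff (hρpos t).ne'] at h3
        have h4 : κ t * (c * (M t - m t)) = c ^ 2 * ρ t := by
          rw [pow_two, mul_assoc, ← h3]
          ring
        have h5 : 0 < κ t * (c * (M t - m t)) := by
          rw [h4]
          exact mul_pos (by (clear * - hcne; positivity)) (hρpos t)
        exact pos_of_mul_pos_right h5 (hκ0 t)
      have hint : IntegrableOn (fun t => c * (M t - m t)) (Ioc (0:ℝ) (2 * π)) := by
        apply Measure.integrableOn_of_bounded (M := |c| * (2 * A))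
        · exact measure_Ioc_lt_top.ne
        · exact ((hMm.sub hmm).const_mul c).aestronglyMeasurable
        · refine Filter.Eventually.of_forall fun t => ?_
          rw [Real.norm_eq_abs, abs_mul]
          apply mul_le_mul_of_nonneg_left _ (abs_nonneg _)
          calc |M t - m t| ≤ |M t| + |m t| := abs_sub _ _
            _ ≤ 2 * A := by linarith only [hMB t, hmB t]
      have h6 := (integral_eq_zero_iff_of_nonneg_ae (hpos.mono fun t ht => ht.le) hint).1 h2
      have h7 : ∀ᵐ t ∂(volume.restrict (Ioc (0:ℝ) (2 * π))), False := by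
        filter_upwards [h6, hpos] with t ht ht'
        simp only [Pi.zero_apply] at ht
        linarith only [ht, ht']
      rw [Filter.eventually_false_iff_eq_bot, ae_eq_bot, Measure.restrict_eq_zero,
        Real.volume_Ioc] at h7
      simp only [sub_zero, ENNReal.ofReal_eq_zero] at h7
      linarith only [hpi, h7]
    rw [hc0] at hc
    exact hc
  have hall : ∀ᵐ t, ∀ n : ℕ, t ∈ Icc (-((n:ℝ) + 7)) ((n:ℝ) + 7) → u t = 0 :=
    ae_all_iff.2 fun n => step _ (by linarith only [])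
  filter_upwards [hall] with t ht
  obtain ⟨n, hn⟩ := exists_nat_ge |t|
  have h1 := ht n ⟨by linarith only [hn, neg_abs_le t], by linarith only [hn, le_abs_self t]⟩
  simp only [hu] at h1
  rcases div_eq_zero_iff.1 h1 with h2 | h2
  · exact h2
  · exact absurd h2 (hρpos t).ne'

end Vale.Agent.P084
end

/- SmTwoD -/
section
/-!
Two-dimensional case: comparison of two parametrisations with the same chord lengths.
-/

open Set Filter Topology Metric Asymptotics MeasureTheory Vale.Agent.P084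
open scoped NNReal ENNReal

noncomputable section

set_option linter.unusedSectionVars false

namespace P084

/-- Pulling back an almost everywhere property. -/
theorem ae_pullback {s s' : ℝ → ℝ} {c : ℝ} (hc : 0 < c) (hs : ∀ t, HasDerivAt s (s' t) t)
    (hs' : ∀ t, c ≤ s' t) {p : ℝ → Prop} (hp : ∀ᵐ y, p y) : ∀ᵐ t, p (s t) := by
  have hd : Differentiable ℝ s := fun t => (hs t).differentiableAt
  have hanti : AntilipschitzWith (Real.toNNReal c⁻¹) s := by
    apply AntilipschitzWith.of_le_mul_dist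
    intro x y
    rw [Real.coe_toNNReal _ (inv_nonneg.mpr hc.le), Real.dist_eq, Real.dist_eq]
    have key : ∀ x y : ℝ, x ≤ y → c * (y - x) ≤ s y - s x := by
      intro x y hxy
      exact mul_sub_le_image_sub_of_le_deriv hd (fun t => by rw [(hs t).deriv]; exact hs' t) hxy
    rw [inv_mul_eq_div, le_div_iff₀ hc]
    rcases le_total x y with h | h
    · have h1 := key x y h
      have h2 : 0 ≤ c * (y - x) := mul_nonneg hc.le (by linarith)
      rw [abs_sub_comm x y, abs_sub_comm (s x), abs_of_nonneg (by linarith),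
        abs_of_nonneg (by linarith)]
      linarith only [h1]
    · have h1 := key y x h
      have h2 : 0 ≤ c * (x - y) := mul_nonneg hc.le (by linarith)
      rw [abs_of_nonneg (by linarith), abs_of_nonneg (by linarith)]
      linarith
  rw [ae_iff] at hp ⊢
  have h1 := hanti.hausdorffMeasure_preimage_le (d := 1) zero_le_one {y | ¬ p y}
  rw [MeasureTheory.hausdorffMeasure_real, hp, mul_zero] at h1
  exact le_antisymm h1 zero_le

/-- The curvature. -/
def kk {Y : Type*} [NormedAddCommGroup Y] [NormedSpace ℝ Y] (P P₁ : ℝ → Y) (t : ℝ) : ℝ :=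
  deriv (fun t => dn (P t)) t (P₁ t)

namespace TCurve

variable {Y : Type*} [NormedAddCommGroup Y] [NormedSpace ℝ Y] {P P₁ : ℝ → Y}
  {ω : Y →L[ℝ] Y →L[ℝ] ℝ} {σ : ℝ → ℝ → ℝ} {L w₀ δ : ℝ}

theorem lipschitzWith_dn (h : TCurve P P₁ ω σ L w₀ δ) :
    LipschitzWith ⟨L, h.L_nonneg⟩ (fun t => dn (P t)) :=
  LipschitzWith.of_dist_le_mul fun s t => by
    rw [dist_eq_norm, Real.dist_eq]
    exact h.dlip s t

theorem lipschitzWith₁ (h : TCurve P P₁ ω σ L w₀ δ) :
    LipschitzWith ⟨L, h.L_nonneg⟩ P₁ :=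
  LipschitzWith.of_dist_le_mul fun s t => by
    rw [dist_eq_norm, Real.dist_eq]
    exact h.lip s t

theorem ae_good [FiniteDimensional ℝ Y] (h : TCurve P P₁ ω σ L w₀ δ) :
    ∀ᵐ t, DifferentiableAt ℝ (fun t => dn (P t)) t ∧ DifferentiableAt ℝ P₁ t := by
  filter_upwards [h.lipschitzWith_dn.ae_differentiableAt (μ := volume),
    h.lipschitzWith₁.ae_differentiableAt (μ := volume)] with t h1 h2
  exact ⟨h1, h2⟩

theorem kk_nonneg (h : TCurve P P₁ ω σ L w₀ δ) (t : ℝ) : 0 ≤ kk P P₁ t := by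
  unfold kk
  by_cases hd : DifferentiableAt ℝ (fun t => dn (P t)) t
  · have h1 := hasDerivAt_iff_tendsto_slope_zero.1 hd.hasDerivAt
    have h2 := hasDerivAt_iff_tendsto_slope_zero.1 (h.deriv t)
    have h3 := tendsto_clm_apply h1 h2
    refine ge_of_tendsto h3 ?_
    filter_upwards [self_mem_nhdsWithin] with r hr
    have hr0 : r ≠ 0 := hr
    rw [_root_.smul_apply, map_smul, smul_eq_mul, smul_eq_mul, ← mul_assoc]
    apply mul_nonneg (mul_self_nonneg _)
    rw [_root_.sub_apply, map_sub, map_sub, h.dn_self, h.dn_self]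
    have e1 := dn_apply_le (P (t + r)) (P t)
    have e2 := dn_apply_le (P t) (P (t + r))
    rw [h.norm] at e1 e2
    linarith only [e1, e2]
  · rw [deriv_zero_of_not_differentiableAt hd]
    exact le_rfl

theorem kk_le (h : TCurve P P₁ ω σ L w₀ δ) (t : ℝ) : kk P P₁ t ≤ L * L := by
  have h1 : ‖_root_.deriv (fun t => dn (P t)) t‖ ≤ L := by
    have := norm_deriv_le_of_lipschitz (x₀ := t) h.lipschitzWith_dn
    exact this
  calc kk P P₁ t ≤ ‖_root_.deriv (fun t => dn (P t)) t (P₁ t)‖ := le_abs_self _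
    _ ≤ ‖_root_.deriv (fun t => dn (P t)) t‖ * ‖P₁ t‖ := ContinuousLinearMap.le_opNorm _ _
    _ ≤ L * L := by
        gcongr
        · exact h.L_nonneg
        · exact h.bound t

theorem measurable_kk [FiniteDimensional ℝ Y] (h : TCurve P P₁ ω σ L w₀ δ) :
    Measurable (kk P P₁) := by
  borelize Y
  borelize (Y →L[ℝ] ℝ)
  have h1 : Measurable (fun t => _root_.deriv (fun t => dn (P t)) t) := measurable_deriv _
  have h2 : Measurable P₁ := h.continuous₁.measurable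
  have h3 : Measurable (fun p : (Y →L[ℝ] ℝ) × Y => p.1 p.2) :=
    isBoundedBilinearMap_apply.continuous.measurable
  exact h3.comp (h1.prodMk h2)

/-- Smallness of the range. -/
def Small (ω : Y →L[ℝ] Y →L[ℝ] ℝ) (L w₀ δ : ℝ) : Prop :=
  L * δ ≤ 1 ∧ δ ≤ 1 ∧ ‖ω‖ * L * (L + 1) * δ ≤ w₀ / 2

theorem area_lower (h : TCurve P P₁ ω σ L w₀ δ) (hs : Small ω L w₀ δ) {s c : ℝ}
    (hc : |c - s| ≤ (L + 1) * δ) : w₀ / 2 ≤ ω (P s) (P₁ c) := by
  have h1 : |ω (P s) (P₁ c - P₁ s)| ≤ w₀ / 2 := by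
    calc |ω (P s) (P₁ c - P₁ s)| ≤ ‖ω‖ * ‖P s‖ * ‖P₁ c - P₁ s‖ := ω.le_opNorm₂ _ _
      _ ≤ ‖ω‖ * 1 * (L * ((L + 1) * δ)) := by
          rw [h.norm]
          gcongr
          exact (h.lip c s).trans (mul_le_mul_of_nonneg_left hc h.L_nonneg)
      _ = ‖ω‖ * L * (L + 1) * δ := by ring
      _ ≤ w₀ / 2 := hs.2.2
  have h2 := h.pos s
  have e : ω (P s) (P₁ c) = ω (P s) (P₁ s) + ω (P s) (P₁ c - P₁ s) := by
    rw [map_sub]; ring
  rw [e]
  have h3 := neg_le_of_abs_le h1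
  linarith only [h2, h3]

theorem close_left (h : TCurve P P₁ ω σ L w₀ δ) (hs : Small ω L w₀ δ) {a b : ℝ}
    (hab : |a - b| ≤ δ) : |a - σ a b| ≤ (L + 1) * δ ∧ |b - σ a b| ≤ (L + 1) * δ := by
  have h1 := h.close a b hab
  have h2 : L * (a - b) ^ 2 ≤ L * δ := by
    have h3 : (a - b) ^ 2 ≤ δ * 1 := by
      rw [← sq_abs, pow_two]
      exact mul_le_mul hab (hab.trans hs.2.1) (abs_nonneg _) h.δ_pos.le
    rw [mul_one] at h3
    exact mul_le_mul_of_nonneg_left h3 h.L_nonneg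
  have h4 := h.δ_pos
  rw [abs_le] at h1 hab ⊢
  refine ⟨⟨by linarith, by linarith⟩, ?_⟩
  rw [abs_le]
  exact ⟨by linarith, by linarith⟩

theorem alpha_pos (h : TCurve P P₁ ω σ L w₀ δ) (hs : Small ω L w₀ δ) {a b : ℝ}
    (hab : |a - b| ≤ δ) : w₀ / 2 ≤ ω (P (σ a b)) (P₁ a) ∧ w₀ / 2 ≤ ω (P (σ a b)) (P₁ b) :=
  ⟨h.area_lower hs (h.close_left hs hab).1, h.area_lower hs (h.close_left hs hab).2⟩

/-- The shift map and its derivative. -/
def S (σ : ℝ → ℝ → ℝ) (τ t : ℝ) : ℝ := σ (t + τ) (t - τ)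

/-- Derivative of the shift map. -/
def S' (P P₁ : ℝ → Y) (ω : Y →L[ℝ] Y →L[ℝ] ℝ) (σ : ℝ → ℝ → ℝ) (τ t : ℝ) : ℝ :=
  (ω (P (S σ τ t)) (P₁ (t + τ)) + ω (P (S σ τ t)) (P₁ (t - τ))) /
    (‖P (t + τ) + P (t - τ)‖ * ω (P (S σ τ t)) (P₁ (S σ τ t)))

theorem abs_two_tau {τ : ℝ} (hτ : τ ∈ Ioo 0 (δ / 2)) (t : ℝ) : |t + τ - (t - τ)| < δ := by
  have : t + τ - (t - τ) = 2 * τ := by ring
  rw [this, abs_of_pos (by linarith only [hτ.1])]
  linarith only [hτ.2]

theorem hasDerivAt_S (h : TCurve P P₁ ω σ L w₀ δ) (hs : Small ω L w₀ δ) {τ : ℝ}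
    (hτ : τ ∈ Ioo 0 (δ / 2)) (t : ℝ) : HasDerivAt (S σ τ) (S' P P₁ ω σ τ t) t := by
  have h1 := h.hasDerivAt_dir hs.1 (a := fun t => t + τ) (b := fun t => t - τ) (r := t)
    ((hasDerivAt_id t).add_const τ) ((hasDerivAt_id t).sub_const τ) (abs_two_tau hτ t)
  simp only [one_smul, map_add] at h1
  exact h1

theorem S'_pos (h : TCurve P P₁ ω σ L w₀ δ) (hs : Small ω L w₀ δ) {τ : ℝ}
    (hτ : τ ∈ Ioo 0 (δ / 2)) (t : ℝ) : w₀ / (2 * (‖ω‖ * L + 1)) ≤ S' P P₁ ω σ τ t := by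
  have hab := (abs_two_tau hτ t).le
  obtain ⟨h1, h2⟩ := h.alpha_pos hs hab
  have h3 := h.nu_pos hs.1 hab
  have h4 := h.nu_le (t + τ) (t - τ)
  have h5 := h.area_pos (S σ τ t)
  have h6 : ω (P (S σ τ t)) (P₁ (S σ τ t)) ≤ ‖ω‖ * L + 1 := by
    have := (le_abs_self _).trans (ω.le_opNorm₂ (P (S σ τ t)) (P₁ (S σ τ t)))
    rw [h.norm, mul_one] at this
    have h7 := mul_le_mul_of_nonneg_left (h.bound (S σ τ t)) (norm_nonneg ω)
    linarith only [this, h7]
  unfold S'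
  have h8 : 0 < w₀ := h.w₀_pos
  have h9 : w₀ ≤ ω (P (S σ τ t)) (P₁ (t + τ)) + ω (P (S σ τ t)) (P₁ (t - τ)) := by
    have e : S σ τ t = σ (t + τ) (t - τ) := rfl
    rw [e]
    linarith
  apply div_le_div₀ (by linarith only [h8, h9]) h9 (by positivity)
  exact mul_le_mul h4 h6 h5.le (by norm_num)

theorem close_S (h : TCurve P P₁ ω σ L w₀ δ) {τ : ℝ}
    (hτ : τ ∈ Ioo 0 (δ / 2)) (t : ℝ) : |S σ τ t - t| ≤ 4 * L * τ ^ 2 := by
  have h1 := h.close _ _ (abs_two_tau hτ t).le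
  have e1 : (t + τ + (t - τ)) / 2 = t := by ring
  have e2 : t + τ - (t - τ) = 2 * τ := by ring
  rw [e1, e2] at h1
  exact h1.trans (le_of_eq (by ring))

theorem rat_mul {α β d k : ℝ} (hα : 0 < α) (hβ : 0 < β) (hd : 0 < d) :
    rat α β * ((α + β) / d) * √k = 2 * √(k * (α / d) * (β / d)) := by
  have h1 : k * (α / d) * (β / d) = k * (α * β) / d ^ 2 := by
    field_simp
  rw [h1, Real.sqrt_div' _ (by positivity), Real.sqrt_sq hd.le, mul_comm k,
    Real.sqrt_mul (by positivity), rat]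
  (clear * - hα hβ hd; field_simp)

section compare

variable {X : Type*} [NormedAddCommGroup X] [NormedSpace ℝ X] {Q Q₁ : ℝ → X}
  {η : X →L[ℝ] X →L[ℝ] ℝ} {ρ : ℝ → ℝ → ℝ} {L' v₀ : ℝ}

theorem first_eq (h : TCurve P P₁ ω σ L w₀ δ) (hs : Small ω L w₀ δ)
    (h' : TCurve Q Q₁ η ρ L' v₀ δ) (hs' : Small η L' v₀ δ)
    (hν : ∀ a b, ‖P a + P b‖ = ‖Q a + Q b‖) {a b : ℝ} (hab : |a - b| ≤ δ) :
    dn (P a + P b) (P₁ b) = dn (Q a + Q b) (Q₁ b) := by
  have h1 := h.hasDerivAt_nu hs.1 hab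
  have h2 := h'.hasDerivAt_nu hs'.1 hab
  have e : (fun b => ‖P a + P b‖) = fun b => ‖Q a + Q b‖ := funext fun b => hν a b
  rw [e] at h1
  exact h1.unique h2

theorem mixed_eq (h : TCurve P P₁ ω σ L w₀ δ) (hs : Small ω L w₀ δ)
    (h' : TCurve Q Q₁ η ρ L' v₀ δ) (hs' : Small η L' v₀ δ)
    (hν : ∀ a b, ‖P a + P b‖ = ‖Q a + Q b‖) {a b : ℝ} (hab : |a - b| < δ)
    (hD : DifferentiableAt ℝ (fun t => dn (P t)) (σ a b))
    (hD' : DifferentiableAt ℝ (fun t => dn (Q t)) (ρ a b)) :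
    kk P P₁ (σ a b) * (ω (P (σ a b)) (P₁ a) / (‖P a + P b‖ * ω (P (σ a b)) (P₁ (σ a b)))) *
      (ω (P (σ a b)) (P₁ b) / (‖P a + P b‖ * ω (P (σ a b)) (P₁ (σ a b)))) =
    kk Q Q₁ (ρ a b) * (η (Q (ρ a b)) (Q₁ a) / (‖Q a + Q b‖ * η (Q (ρ a b)) (Q₁ (ρ a b)))) *
      (η (Q (ρ a b)) (Q₁ b) / (‖Q a + Q b‖ * η (Q (ρ a b)) (Q₁ (ρ a b)))) := by
  have h1 := h.hasDerivAt_mixed hs.1 hab hD.hasDerivAt
  have h2 := h'.hasDerivAt_mixed hs'.1 hab hD'.hasDerivAt
  have e : (fun a => dn (P a + P b) (P₁ b)) =ᶠ[𝓝 a] fun a => dn (Q a + Q b) (Q₁ b) := by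
    have hc : ContinuousAt (fun r => |r - b|) a := by fun_prop
    filter_upwards [hc.eventually (gt_mem_nhds hab)] with x hx
    exact h.first_eq hs h' hs' hν hx.le
  have h3 := (h2.congr_of_eventuallyEq e).unique h1
  have hν0 : 0 < ‖P a + P b‖ := lt_of_lt_of_le one_pos (h.nu_pos hs.1 hab.le)
  have e2 : ‖Q a + Q b‖ = ‖P a + P b‖ := (hν a b).symm
  rw [e2] at h3
  rw [e2]
  have h4 := mul_left_cancel₀ hν0.ne' h3
  exact h4.symm

theorem kk_eq_of_diff (h : TCurve P P₁ ω σ L w₀ δ) (hs : Small ω L w₀ δ) {t : ℝ} {D' : Y →L[ℝ] ℝ}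
    {P₂ : Y} (hD : HasDerivAt (fun t => dn (P t)) D' t) (hP : HasDerivAt P₁ P₂ t) :
    dn (P t) P₂ = - D' (P₁ t) ∧
      HasDerivAt (fun b => dn (P t + P b) (P₁ b)) (-(1 / 2) * D' (P₁ t)) t := by
  have e1 : dn (P t) P₂ = - D' (P₁ t) := by
    have h1 : HasDerivAt (fun t => dn (P t) (P₁ t)) (D' (P₁ t) + dn (P t) P₂) t :=
      hD.clm_apply hP
    have h2 : HasDerivAt (fun t => dn (P t) (P₁ t)) 0 t := by
      have : (fun t => dn (P t) (P₁ t)) = fun _ => (0 : ℝ) := by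
        funext s
        exact h.dn_deriv s
      rw [this]
      exact hasDerivAt_const _ _
    have := h1.unique h2
    linarith only [this]
  refine ⟨e1, ?_⟩
  have hσ : σ t t = t := by
    have := h.close t t (by rw [sub_self, abs_zero]; exact h.δ_pos.le)
    rw [sub_self, zero_pow two_ne_zero, mul_zero] at this
    have h2 := abs_nonpos_iff.mp this
    have e : (t + t) / 2 = t := by ring
    rw [e] at h2
    linarith only [h2]
  have h1 := h.hasDerivAt_dir hs.1 (a := fun _ => t) (b := fun r => r) (r := t)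
    (hasDerivAt_const t t) (hasDerivAt_id t) (by rw [sub_self, abs_zero]; exact h.δ_pos)
  simp only [one_smul, zero_smul, zero_add, hσ] at h1
  have hW := h.area_pos t
  have e2 : ω (P t) (P₁ t) / (‖P t + P t‖ * ω (P t) (P₁ t)) = 1 / 2 := by
    rw [← two_smul ℝ (P t), norm_smul, h.norm, Real.norm_ofNat, mul_one]
    field_simp
  rw [e2] at h1
  have h2 : HasDerivAt (fun r => dn (P (σ t r))) ((1 / 2 : ℝ) • D') t := by
    have hD2 : HasDerivAt (fun t => dn (P t)) D' (σ t t) := by rw [hσ]; exact hD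
    exact HasDerivAt.scomp (g₁ := fun t => dn (P t)) (h := fun r => σ t r) t hD2 h1
  have h3 := h2.clm_apply hP
  rw [hσ, e1, _root_.smul_apply, smul_eq_mul] at h3
  have h4 : (fun b => dn (P t + P b) (P₁ b)) =ᶠ[𝓝 t] fun r => dn (P (σ t r)) (P₁ r) := by
    have hc : ContinuousAt (fun r => |t - r|) t := by fun_prop
    have h0 : |t - t| < δ := by rw [sub_self, abs_zero]; exact h.δ_pos
    filter_upwards [hc.eventually (gt_mem_nhds h0)] with x hx
    rw [h.dn_sum hs.1 hx.le]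
  refine (h3.congr_of_eventuallyEq h4).congr_deriv ?_
  ring

theorem ae_kk_eq [FiniteDimensional ℝ X] [FiniteDimensional ℝ Y]
    (h : TCurve P P₁ ω σ L w₀ δ) (hs : Small ω L w₀ δ)
    (h' : TCurve Q Q₁ η ρ L' v₀ δ) (hs' : Small η L' v₀ δ)
    (hν : ∀ a b, ‖P a + P b‖ = ‖Q a + Q b‖) : ∀ᵐ t, kk P P₁ t = kk Q Q₁ t := by
  filter_upwards [h.ae_good, h'.ae_good] with t h1 h2
  have e1 := (h.kk_eq_of_diff hs h1.1.hasDerivAt h1.2.hasDerivAt).2
  have e2 := (h'.kk_eq_of_diff hs' h2.1.hasDerivAt h2.2.hasDerivAt).2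
  have e : (fun b => dn (P t + P b) (P₁ b)) =ᶠ[𝓝 t] fun b => dn (Q t + Q b) (Q₁ b) := by
    have hc : ContinuousAt (fun r => |t - r|) t := by fun_prop
    have h0 : |t - t| < δ := by rw [sub_self, abs_zero]; exact h.δ_pos
    filter_upwards [hc.eventually (gt_mem_nhds h0)] with x hx
    exact h.first_eq hs h' hs' hν hx.le
  have h3 := (e2.congr_of_eventuallyEq e).unique e1
  unfold kk
  linarith

/-- The almost everywhere invariance. -/
theorem ae_identity [FiniteDimensional ℝ X] [FiniteDimensional ℝ Y]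
    (h : TCurve P P₁ ω σ L w₀ δ) (hs : Small ω L w₀ δ)
    (h' : TCurve Q Q₁ η ρ L' v₀ δ) (hs' : Small η L' v₀ δ)
    (hν : ∀ a b, ‖P a + P b‖ = ‖Q a + Q b‖) {τ : ℝ} (hτ : τ ∈ Ioo 0 (δ / 2)) :
    ∀ᵐ t, rat (ω (P (S σ τ t)) (P₁ (t + τ))) (ω (P (S σ τ t)) (P₁ (t - τ)))
        * S' P P₁ ω σ τ t * √(kk P P₁ (S σ τ t)) =
      rat (η (Q (S ρ τ t)) (Q₁ (t + τ))) (η (Q (S ρ τ t)) (Q₁ (t - τ)))
        * S' Q Q₁ η ρ τ t * √(kk P P₁ (S ρ τ t)) := by
  have hL := h.L_nonneg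
  have hL' := h'.L_nonneg
  have hw := h.w₀_pos
  have hv := h'.w₀_pos
  have a1 := ae_pullback (c := w₀ / (2 * (‖ω‖ * L + 1))) (by (clear * - hw hL; positivity))
    (h.hasDerivAt_S hs hτ) (h.S'_pos hs hτ) h.ae_good
  have a2 := ae_pullback (c := v₀ / (2 * (‖η‖ * L' + 1))) (by (clear * - hv hL'; positivity))
    (h'.hasDerivAt_S hs' hτ) (h'.S'_pos hs' hτ) h'.ae_good
  have a3 := ae_pullback (c := v₀ / (2 * (‖η‖ * L' + 1))) (by (clear * - hv hL'; positivity))
    (h'.hasDerivAt_S hs' hτ) (h'.S'_pos hs' hτ) (h.ae_kk_eq hs h' hs' hν)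
  filter_upwards [a1, a2, a3] with t h1 h2 h3
  have hab := abs_two_tau hτ t
  obtain ⟨p1, p2⟩ := h.alpha_pos hs hab.le
  obtain ⟨q1, q2⟩ := h'.alpha_pos hs' hab.le
  have hν1 : 0 < ‖P (t + τ) + P (t - τ)‖ := lt_of_lt_of_le one_pos (h.nu_pos hs.1 hab.le)
  have hν2 : 0 < ‖Q (t + τ) + Q (t - τ)‖ := lt_of_lt_of_le one_pos (h'.nu_pos hs'.1 hab.le)
  have hW := h.area_pos (S σ τ t)
  have hV := h'.area_pos (S ρ τ t)
  have key := h.mixed_eq hs h' hs' hν hab h1.1 h2.1
  have e1 : 0 < ω (P (S σ τ t)) (P₁ (t + τ)) := by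
    have : 0 < ω (P (σ (t + τ) (t - τ))) (P₁ (t + τ)) := by linarith only [hw, p1]
    exact this
  have e2 : 0 < ω (P (S σ τ t)) (P₁ (t - τ)) := by
    have : 0 < ω (P (σ (t + τ) (t - τ))) (P₁ (t - τ)) := by linarith only [hw, p2]
    exact this
  have e3 : 0 < η (Q (S ρ τ t)) (Q₁ (t + τ)) := by
    have : 0 < η (Q (ρ (t + τ) (t - τ))) (Q₁ (t + τ)) := by linarith only [hv, q1]
    exact this
  have e4 : 0 < η (Q (S ρ τ t)) (Q₁ (t - τ)) := by
    have : 0 < η (Q (ρ (t + τ) (t - τ))) (Q₁ (t - τ)) := by linarith only [hv, q2]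
    exact this
  rw [h3]
  unfold S'
  rw [rat_mul e1 e2 (by (clear * - hν1 hW; positivity)), rat_mul e3 e4 (by (clear * - hν2 hV; positivity))]
  congr 2

end compare

end TCurve

end P084
end 
end

/- SmTwoE -/
section
/-!
Two-dimensional case: conclusion.
-/

open Set Filter Topology Metric Asymptotics MeasureTheory Vale.Agent.P084
open scoped NNReal ENNReal

noncomputable section

set_option linter.unusedSectionVars false

namespace P084

/-- A locally Lipschitz function with almost everywhere vanishing derivative is constant. -/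
theorem const_of_ae {f : ℝ → ℝ} (hl : ∀ t, LipAt f t) (h0 : ∀ᵐ t, HasDerivAt f 0 t) (t : ℝ) :
    f t = f 0 := by
  have hloc : LocallyLipschitzOn (uIcc (0 : ℝ) t) f := by
    intro t _
    obtain ⟨K, U, hU, hK⟩ := lipAt_iff.mp (hl t)
    exact ⟨K, U, mem_nhdsWithin_of_mem_nhds hU, hK⟩
  obtain ⟨K, hK⟩ := hloc.exists_lipschitzOnWith_of_compact isCompact_uIcc
  have h1 := hK.absolutelyContinuousOnInterval.integral_deriv_eq_sub
  have h2 : ∫ x in (0 : ℝ)..t, deriv f x = 0 := by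
    apply intervalIntegral.integral_zero_ae
    filter_upwards [h0] with x hx _
    exact hx.deriv
  rw [h2] at h1
  linarith only [h1]

namespace TCurve

variable {Y : Type*} [NormedAddCommGroup Y] [NormedSpace ℝ Y] {P P₁ : ℝ → Y}
  {ω : Y →L[ℝ] Y →L[ℝ] ℝ} {σ : ℝ → ℝ → ℝ} {L w₀ δ : ℝ}
  {X : Type*} [NormedAddCommGroup X] [NormedSpace ℝ X] {Q Q₁ : ℝ → X}
  {η : X →L[ℝ] X →L[ℝ] ℝ} {ρ : ℝ → ℝ → ℝ} {L' v₀ : ℝ}

theorem lipAt (h : TCurve P P₁ ω σ L w₀ δ) (t : ℝ) : LipAt P t := by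
  have : LipschitzWith ⟨L, h.L_nonneg⟩ P := LipschitzWith.of_dist_le_mul fun s t => by
    rw [dist_eq_norm, Real.dist_eq]
    exact h.lipschitz s t
  exact this.lipAt t

theorem lipAt₁ (h : TCurve P P₁ ω σ L w₀ δ) (t : ℝ) : LipAt P₁ t := h.lipschitzWith₁.lipAt t

theorem hasDerivAt_area (h : TCurve P P₁ ω σ L w₀ δ) {t : ℝ} {P₂ : Y}
    (h2 : HasDerivAt P₁ P₂ t) : HasDerivAt (fun t => ω (P t) (P₁ t)) (ω (P t) P₂) t := by
  have h1 : HasDerivAt (fun t => ω (P t)) (ω (P₁ t)) t :=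
    ω.hasFDerivAt.comp_hasDerivAt t (h.deriv t)
  have := h1.clm_apply h2
  rwa [h.alt, zero_add] at this

/-- Two parametrisations with the same structure functions are linearly equivalent. -/
theorem two_end (h : TCurve P P₁ ω σ L w₀ δ) (h' : TCurve Q Q₁ η ρ L' v₀ δ)
    (h2 : ∀ᵐ t : ℝ, ∃ k m : ℝ, HasDerivAt Q₁ (-(k • Q t) + m • Q₁ t) t ∧
      HasDerivAt P₁ (-(k • P t) + m • P₁ t) t) : ∃ T : X →ₗ[ℝ] Y, ∀ t, T (Q t) = P t := by
  let A : ℝ → X → Y := fun t v =>
    (η v (Q₁ t) * (η (Q t) (Q₁ t))⁻¹) • P t - (η v (Q t) * (η (Q t) (Q₁ t))⁻¹) • P₁ t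
  have hA : ∀ t v, A t v = (η v (Q₁ t) * (η (Q t) (Q₁ t))⁻¹) • P t -
      (η v (Q t) * (η (Q t) (Q₁ t))⁻¹) • P₁ t := fun _ _ => rfl
  have hconst : ∀ v t, A t v = A 0 v := by
    intro v t
    by_contra hne
    obtain ⟨ξ, hξ⟩ := SeparatingDual.exists_separating_of_ne (R := ℝ) hne
    apply hξ
    have hw : ∀ t, η (Q t) (Q₁ t) ≠ 0 := fun t => (h'.area_pos t).ne'
    have lw : ∀ t, LipAt (fun t => (η (Q t) (Q₁ t))⁻¹) t := by
      intro t
      have l1 : LipAt (fun t => η (Q t) (Q₁ t)) t := LipAt.bilin η (h'.lipAt t) (h'.lipAt₁ t)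
      have l2 : LipAt (fun r : ℝ => r⁻¹) (η (Q t) (Q₁ t)) :=
        (hasStrictDerivAt_inv (hw t)).hasStrictFDerivAt.lipAt
      exact LipAt.comp (f := fun r : ℝ => r⁻¹) (g := fun t => η (Q t) (Q₁ t)) l2 l1
    refine const_of_ae (f := fun t => ξ (A t v)) (fun t => ?_) ?_ t
    · have l1 : LipAt (fun t => η v (Q₁ t)) t :=
        LipAt.comp (f := fun x => η v x) (g := Q₁) ((η v).lipschitz.lipAt _) (h'.lipAt₁ t)
      have l2 : LipAt (fun t => η v (Q t)) t :=
        LipAt.comp (f := fun x => η v x) (g := Q) ((η v).lipschitz.lipAt _) (h'.lipAt t)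
      have l3 : LipAt (fun t => A t v) t :=
        ((l1.mul (lw t)).smul (h.lipAt t)).sub ((l2.mul (lw t)).smul (h.lipAt₁ t))
      exact LipAt.comp (f := fun x => ξ x) (g := fun t => A t v) (ξ.lipschitz.lipAt _) l3
    · filter_upwards [h2] with t ht
      obtain ⟨k, m, hQ2, hP2⟩ := ht
      have dw := (h'.hasDerivAt_area hQ2).inv (hw t)
      have d1 : HasDerivAt (fun t => η v (Q₁ t)) (η v (-(k • Q t) + m • Q₁ t)) t :=
        (η v).hasFDerivAt.comp_hasDerivAt t hQ2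
      have d2 : HasDerivAt (fun t => η v (Q t)) (η v (Q₁ t)) t :=
        (η v).hasFDerivAt.comp_hasDerivAt t (h'.deriv t)
      have d3 := ((d1.mul dw).smul (h.deriv t)).sub ((d2.mul dw).smul hP2)
      have d4 := ξ.hasFDerivAt.comp_hasDerivAt t d3
      refine d4.congr_deriv ?_
      have hw0 := hw t
      simp only [Pi.mul_apply, Pi.inv_apply, map_add, map_sub, map_smul, map_neg, smul_eq_mul,
        h'.alt, mul_zero, neg_zero, zero_add]
      field_simp
      ring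
  let T : X →ₗ[ℝ] Y :=
    { toFun := A 0
      map_add' := fun u v => by
        simp only [hA, map_add, add_apply, add_mul, add_smul]
        abel
      map_smul' := fun c v => by
        simp only [hA, map_smul, _root_.smul_apply, smul_eq_mul, RingHom.id_apply, smul_sub,
          smul_smul]
        congr 2 <;> ring }
  refine ⟨T, fun t => ?_⟩
  have e1 : T (Q t) = A t (Q t) := (hconst (Q t) t).symm
  rw [e1, hA, h'.alt, zero_mul, zero_smul, sub_zero, mul_inv_cancel₀ (h'.area_pos t).ne', one_smul]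

theorem norm_deriv_eq (h : TCurve P P₁ ω σ L w₀ δ) (h' : TCurve Q Q₁ η ρ L' v₀ δ)
    (hd : ∀ a b, ‖P a - P b‖ = ‖Q a - Q b‖) (t : ℝ) : ‖P₁ t‖ = ‖Q₁ t‖ := by
  have h1 := (hasDerivAt_iff_tendsto_slope_zero.1 (h.deriv t)).norm
  have h2 := (hasDerivAt_iff_tendsto_slope_zero.1 (h'.deriv t)).norm
  have e : (fun r : ℝ => ‖r⁻¹ • (P (t + r) - P t)‖) = fun r : ℝ => ‖r⁻¹ • (Q (t + r) - Q t)‖ := by
    funext r
    rw [norm_smul, norm_smul, hd]
  rw [e] at h1
  exact tendsto_nhds_unique h1 h2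

theorem second_decomp (h : TCurve P P₁ ω σ L w₀ δ) (hs : Small ω L w₀ δ) {t : ℝ}
    (hD : DifferentiableAt ℝ (fun t => dn (P t)) t) (hP : DifferentiableAt ℝ P₁ t) :
    _root_.deriv P₁ t = -(kk P P₁ t • P t) +
      (_root_.deriv (fun r => ω (P r) (P₁ r)) t / ω (P t) (P₁ t)) • P₁ t := by
  have h1 := (h.kk_eq_of_diff hs hD.hasDerivAt hP.hasDerivAt).1
  have h2 := (h.hasDerivAt_area hP.hasDerivAt).deriv
  obtain ⟨c, hc⟩ := h.decomp t (_root_.deriv P₁ t)
  have h3 : c = - kk P P₁ t := by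
    rw [hc, map_add, map_smul, map_smul, h.dn_self, h.dn_deriv, smul_eq_mul, mul_one, smul_zero,
      add_zero] at h1
    rw [h1]
    rfl
  rw [h2, ← neg_smul, ← h3]
  exact hc

theorem log_deriv_eq_of_zero (h : TCurve P P₁ ω σ L w₀ δ) {t m : ℝ}
    (hP : HasDerivAt P₁ (m • P₁ t) t) :
    HasDerivAt (fun t => ‖P₁ t‖) (m * ‖P₁ t‖) t := by
  have hne : P₁ t ≠ 0 := by
    intro h0
    have := h.area_pos t
    rw [h0, map_zero] at this
    exact lt_irrefl _ this
  have h1 := (h.smooth.hasFDerivAt hne).comp_hasDerivAt t hP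
  rw [map_smul, h.smooth.dn_self hne, smul_eq_mul] at h1
  exact h1

theorem linear_of_eq [FiniteDimensional ℝ X] [FiniteDimensional ℝ Y]
    (h : TCurve P P₁ ω σ L w₀ δ) (hs : Small ω L w₀ δ)
    (h' : TCurve Q Q₁ η ρ L' v₀ δ) (hs' : Small η L' v₀ δ)
    (hν : ∀ a b, ‖P a + P b‖ = ‖Q a + Q b‖) (hd : ∀ a b, ‖P a - P b‖ = ‖Q a - Q b‖) :
    ∃ T : X →ₗ[ℝ] Y, ∀ t, T (Q t) = P t := by
  have hL := h.L_nonneg
  have hL' := h'.L_nonneg
  have hw := h.w₀_pos
  have hv := h'.w₀_pos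
  have hκm : Measurable (fun t => √(kk P P₁ t)) := h.measurable_kk.sqrt
  have hκ0 : ∀ t, 0 ≤ √(kk P P₁ t) := fun t => Real.sqrt_nonneg _
  have hκB : ∀ t, √(kk P P₁ t) ≤ L := fun t => by
    rw [Real.sqrt_le_left hL, pow_two]
    exact h.kk_le t
  have hδ := h.δ_pos
  have hid : ∀ χ : ℝ → ℝ, (∃ K', LipschitzWith K' χ) → HasCompactSupport χ →
      ∫ t, (_root_.deriv χ t * (_root_.deriv (fun r => ω (P r) (P₁ r)) t / ω (P t) (P₁ t))
        + χ t * (_root_.deriv (fun r => ω (P r) (P₁ r)) t / ω (P t) (P₁ t)) ^ 2) * √(kk P P₁ t)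
      = ∫ t, (_root_.deriv χ t * (_root_.deriv (fun r => η (Q r) (Q₁ r)) t / η (Q t) (Q₁ t))
        + χ t * (_root_.deriv (fun r => η (Q r) (Q₁ r)) t / η (Q t) (Q₁ t)) ^ 2)
          * √(kk P P₁ t) := by
    intro χ hχ hχc
    exact two_identity h.alt h.deriv h.lip (fun t => (h.norm t).le) h.w₀_pos h.pos
      (s := S σ) (s' := S' P P₁ ω σ) (τ₀ := δ / 2) (C := 4 * L) (half_pos hδ)
      (fun τ hτ t => h.hasDerivAt_S hs hτ t)
      (fun τ hτ t => lt_of_lt_of_le (by (clear * - hw hL; positivity)) (h.S'_pos hs hτ t))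
      (fun τ hτ t => h.close_S hτ t)
      (fun τ hτ t => h.area_eq_zero (abs_two_tau hτ t).le)
      h'.alt h'.deriv h'.lip (fun t => (h'.norm t).le) h'.w₀_pos h'.pos
      (r := S ρ) (r' := S' Q Q₁ η ρ) (C' := 4 * L')
      (fun τ hτ t => h'.hasDerivAt_S hs' hτ t)
      (fun τ hτ t => lt_of_lt_of_le (by (clear * - hv hL'; positivity)) (h'.S'_pos hs' hτ t))
      (fun τ hτ t => h'.close_S hτ t)
      (fun τ hτ t => h'.area_eq_zero (abs_two_tau hτ t).le)
      hκm (B := L) (fun t => by rw [abs_of_nonneg (hκ0 t)]; exact hκB t)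
      (fun τ hτ => h.ae_identity hs h' hs' hν hτ) hχ hχc
  -- Lipschitz areas
  have lipW : ∀ {Y : Type _} [NormedAddCommGroup Y] [NormedSpace ℝ Y] {P P₁ : ℝ → Y}
      {ω : Y →L[ℝ] Y →L[ℝ] ℝ} {σ : ℝ → ℝ → ℝ} {L w₀ δ : ℝ}, TCurve P P₁ ω σ L w₀ δ →
      ∃ K, LipschitzWith K (fun t => ω (P t) (P₁ t)) := by
    intro Y _ _ P P₁ ω σ L w₀ δ h
    have h2π : 0 < 2 * Real.pi := by positivity
    exact lipschitz_of_periodic h2π (fun t => by rw [h.per, h.per₁])
      (fun t => LipAt.bilin ω (h.lipAt t) (h.lipAt₁ t))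
  obtain ⟨K₁, hK₁⟩ := lipW h
  have lipW' : ∃ K, LipschitzWith K (fun t => η (Q t) (Q₁ t)) := by
    have h2π : 0 < 2 * Real.pi := by positivity
    exact lipschitz_of_periodic h2π (fun t => by rw [h'.per, h'.per₁])
      (fun t => LipAt.bilin η (h'.lipAt t) (h'.lipAt₁ t))
  obtain ⟨K₂, hK₂⟩ := lipW'
  have hfin := weak_conclusion (w := fun t => η (Q t) (Q₁ t)) (W := fun t => ω (P t) (P₁ t))
    (κ := fun t => √(kk P P₁ t)) (K := max K₁ K₂) (w₀ := min w₀ v₀) (C := L)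
    (hK₂.weaken (le_max_right _ _)) (hK₁.weaken (le_max_left _ _)) (lt_min hw hv)
    (fun t => (min_le_right _ _).trans (h'.pos t)) (fun t => (min_le_left _ _).trans (h.pos t))
    (fun t => by rw [h'.per, h'.per₁]) (fun t => by rw [h.per, h.per₁])
    hκm hκ0 hκB hid
  apply h.two_end h'
  filter_upwards [hfin, h.ae_good, h'.ae_good, h.ae_kk_eq hs h' hs' hν] with t h1 h2 h3 h4
  have d1 := h.second_decomp hs h2.1 h2.2
  have d2 := h'.second_decomp hs' h3.1 h3.2
  have hP2 := h2.2.hasDerivAt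
  have hQ2 := h3.2.hasDerivAt
  rw [d1] at hP2
  rw [d2, ← h4] at hQ2
  -- the logarithmic derivatives agree
  have hm : _root_.deriv (fun r => ω (P r) (P₁ r)) t / ω (P t) (P₁ t) =
      _root_.deriv (fun r => η (Q r) (Q₁ r)) t / η (Q t) (Q₁ t) := by
    rcases mul_eq_zero.mp h1 with h5 | h5
    · have hk : kk P P₁ t = 0 := by
        rwa [Real.sqrt_eq_zero (h.kk_nonneg t)] at h5
      rw [hk, zero_smul, neg_zero, zero_add] at hP2 hQ2
      have e1 := h.log_deriv_eq_of_zero hP2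
      have e2 := h'.log_deriv_eq_of_zero hQ2
      have e3 : (fun t => ‖P₁ t‖) = fun t => ‖Q₁ t‖ := funext fun t => h.norm_deriv_eq h' hd t
      rw [e3] at e1
      have e4 := e1.unique e2
      rw [h.norm_deriv_eq h' hd t] at e4
      have hne : ‖Q₁ t‖ ≠ 0 := by
        rw [norm_ne_zero_iff]
        intro h0
        have := h'.area_pos t
        rw [h0, map_zero] at this
        exact lt_irrefl _ this
      exact mul_right_cancel₀ hne e4
    · exact sub_eq_zero.mp h5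
  rw [← hm] at hQ2
  exact ⟨_, _, hQ2, hP2⟩

end TCurve

/-- Case C in dimension two. -/
theorem SphIso.caseC2 {X Y : Type*} [NormedAddCommGroup X] [NormedSpace ℝ X]
    [FiniteDimensional ℝ X] [NormedAddCommGroup Y] [NormedSpace ℝ Y] {F : X → Y}
    (hF : SphIso F) (hdim : Module.finrank ℝ X = 2) (hX : C11Norm X) (hY : C11Norm Y) :
    ∃ T : X ≃ₗᵢ[ℝ] Y, ∀ x, T x = F x := by
  have : FiniteDimensional ℝ Y := hF.finiteDimensional
  let T : ℂ ≃L[ℝ] X := ContinuousLinearEquiv.ofFinrankEq (by rw [hdim, Complex.finrank_real_complex])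
  have hI : SphIso (id : X → X) := ⟨fun _ _ => rfl, fun _ _ _ => rfl, Function.surjective_id⟩
  obtain ⟨ω, L, w₀, δ, h⟩ := exists_tcurve hdim hF hX hY T
  obtain ⟨η, L', v₀, δ', h'⟩ := exists_tcurve hdim hI hX hX T
  have hL := h.L_nonneg
  have hL' := h'.L_nonneg
  have hw := h.w₀_pos
  have hv := h'.w₀_pos
  have hδ := h.δ_pos
  have hδ' := h'.δ_pos
  -- a common small range
  have small : ∀ (A B : ℝ), 0 ≤ A → 0 < B → ∃ e : ℝ, 0 < e ∧ ∀ d, 0 < d → d ≤ e → A * d ≤ B := by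
    intro A B hA hB
    refine ⟨B / (A + 1), by positivity, fun d hd hde => ?_⟩
    rw [le_div_iff₀ (by positivity)] at hde
    linarith only [hde, hd]
  obtain ⟨e₁, he₁, k₁⟩ := small L 1 hL one_pos
  obtain ⟨e₂, he₂, k₂⟩ := small L' 1 hL' one_pos
  obtain ⟨e₃, he₃, k₃⟩ := small (‖ω‖ * L * (L + 1)) (w₀ / 2) (by (clear * - hL; positivity)) (by positivity)
  obtain ⟨e₄, he₄, k₄⟩ := small (‖η‖ * L' * (L' + 1)) (v₀ / 2) (by (clear * - hL'; (clear * - hL'; positivity))) (by positivity)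
  set d : ℝ := min (min (min δ δ') (min e₁ e₂)) (min (min e₃ e₄) 1) with hd
  have hd0 : 0 < d := by (clear * - hδ hδ' he₁ he₂ he₃ he₄; positivity)
  have l1 : d ≤ δ := (min_le_left _ _).trans ((min_le_left _ _).trans (min_le_left _ _))
  have l2 : d ≤ δ' := (min_le_left _ _).trans ((min_le_left _ _).trans (min_le_right _ _))
  have l3 : d ≤ e₁ := (min_le_left _ _).trans ((min_le_right _ _).trans (min_le_left _ _))
  have l4 : d ≤ e₂ := (min_le_left _ _).trans ((min_le_right _ _).trans (min_le_right _ _))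
  have l5 : d ≤ e₃ := (min_le_right _ _).trans ((min_le_left _ _).trans (min_le_left _ _))
  have l6 : d ≤ e₄ := (min_le_right _ _).trans ((min_le_left _ _).trans (min_le_right _ _))
  have l7 : d ≤ 1 := (min_le_right _ _).trans (min_le_right _ _)
  have hh := h.mono hd0 l1
  have hh' := h'.mono hd0 l2
  have hs : TCurve.Small ω L w₀ d := ⟨k₁ d hd0 l3, l7, k₃ d hd0 l5⟩
  have hs' : TCurve.Small η L' v₀ d := ⟨k₂ d hd0 l4, l7, k₄ d hd0 l6⟩
  have hpn : ∀ t, ‖pp T t‖ = 1 := norm_pp T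
  have hdist : ∀ a b, ‖PP F T a - PP F T b‖ = ‖PP id T a - PP id T b‖ := fun a b =>
    hF.dist _ _ (by rw [hpn, hpn])
  have hsum : ∀ a b, ‖PP F T a + PP F T b‖ = ‖PP id T a + PP id T b‖ := fun a b => by
    have := hF.dist (pp T a) (-(pp T b)) (by rw [norm_neg, hpn, hpn])
    rw [hF.neg, sub_neg_eq_add, sub_neg_eq_add] at this
    exact this
  obtain ⟨R, hR⟩ := hh.linear_of_eq hs hh' hs' hsum hdist
  have hRF : ∀ x : X, F x = R x := by
    intro x
    by_cases hx : x = 0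
    · rw [hx, hF.zero, map_zero]
    set z : ℂ := T.symm x with hz
    have e1 : (‖z‖ : ℂ) * Complex.exp (z.arg * Complex.I) = z := Complex.norm_mul_exp_arg_mul_I z
    have e2 : x = ‖z‖ • cc T z.arg := by
      rw [cc, ← map_smul, Complex.real_smul, e1, hz, T.apply_symm_apply]
    have hc : ‖cc T z.arg‖ ≠ 0 := norm_ne_zero_iff.mpr (cc_ne_zero T _)
    have e3 : x = (‖z‖ * ‖cc T z.arg‖) • pp T z.arg := by
      rw [pp, smul_smul, mul_assoc, mul_inv_cancel₀ hc, mul_one]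
      exact e2
    have e4 : R (pp T z.arg) = F (pp T z.arg) := hR z.arg
    rw [e3, hF.smul, map_smul, e4]
  exact hF.exists_linearIsometryEquiv R hRF

end P084
end 
end
end
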