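import Vale.Agent.P084.MathlibUsed
import Vale.Agent.P084.Bdl.B2
import Vale.Agent.P084.Bdl.B4
import Vale.Agent.P084.Bdl.B3

set_option linter.all false

section

/- GenFin -/
section
/-!
# The linear isometry at a resolved point
-/

open Set Filter Topology Metric

namespace Vale.Agent.P084.Gen

open BadPoint UC

section cone

variable {E : Type*} [NormedAddCommGroup E] [NormedSpace ℝ E]

theorem dd_proj {q : E} (hq : ‖q‖ = 1) (v : E) : dd q (v - dd q v • q) = 0 := by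
  have : v - dd q v • q = v + (-(dd q v)) • q := by module
  rw [this, dd_add_smul_self hq]; ring

/-- Inclusion of half spaces. -/
theorem dd_le_of_cone {q x : E} (hq : ‖q‖ = 1) (hx : ‖x‖ = 1)
    (h : ∀ u, dd q u ≤ 0 → dd x u ≤ 0) (u : E) : dd x u ≤ dd q u := by
  have gen : ∀ u, dd x u ≤ dd x (dd q u • q) := by
    intro u
    have h1 := dd_add_le x (u - dd q u • q) (dd q u • q)
    rw [sub_add_cancel] at h1
    have h2 := h _ (dd_proj hq u).le
    linarith
  have h1 := gen x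
  rw [dd_self, hx] at h1
  have hq1 : dd x q ≤ 1 := by
    have := dd_le_norm x q
    rwa [hq] at this
  have hx1 : dd q x ≤ 1 := by
    have := dd_le_norm q x
    rwa [hx] at this
  have h0 : 0 < dd q x := by
    by_contra hcon
    push Not at hcon
    have := h x hcon
    rw [dd_self, hx] at this
    linarith only [this]
  rw [dd_smul x q h0] at h1
  have h2 : dd q x = 1 := by nlinarith only [h1, hq1, h0, hx1]
  have h3 : dd q (x - q) = 0 := by
    have := dd_proj hq x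
    rwa [h2, one_smul] at this
  have h4 : dd x (-q) ≤ -1 := by
    have h5 := dd_add_le x (x - q) (-x)
    have e : x - q + -x = -q := by abel
    rw [e, dd_neg_self, hx] at h5
    have := h _ h3.le
    linarith only [h5, this]
  rcases le_total 0 (dd q u) with h5 | h5
  · refine (gen u).trans ?_
    rw [dd_smul_nonneg x q h5]
    linarith only [mul_nonneg (sub_nonneg.2 hq1) (sub_nonneg.2 h5)]
  · refine (gen u).trans ?_
    have e : dd q u • q = (-(dd q u)) • (-q) := by module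
    rw [e, dd_smul_nonneg x (-q) (by linarith only [h5])]
    linarith only [mul_nonneg (sub_nonneg.2 h4) (sub_nonneg.2 h5)]

/-- At a kink, negative multiples of the point are sums of tangent vectors. -/
theorem kink_decomp {q : E} (hq : ‖q‖ = 1) {h : E} (hh : ¬ Dir q h) :
    ∃ w₁ w₂ : E, dd q w₁ = 0 ∧ dd q w₂ = 0 ∧ -q = w₁ + w₂ := by
  have h0 : 0 < dd q h + dd q (-h) :=
    lt_of_le_of_ne (dd_neg_add_nonneg q h) fun h => hh h.symm
  set c := (dd q h + dd q (-h))⁻¹ with hc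
  have hc0 : 0 < c := inv_pos.2 h0
  refine ⟨c • (h - dd q h • q), c • (-h - dd q (-h) • q), ?_, ?_, ?_⟩
  · rw [dd_smul _ _ hc0, dd_proj hq, mul_zero]
  · rw [dd_smul _ _ hc0, dd_proj hq, mul_zero]
  · have e : c • (h - dd q h • q) + c • (-h - dd q (-h) • q) =
        -((c * (dd q h + dd q (-h))) • q) := by module
    rw [e, hc, inv_mul_cancel₀ h0.ne', one_smul]

theorem cone_le_of_kink {q x : E} (hq : ‖q‖ = 1) {h : E} (hh : ¬ Dir q h)
    (ht : ∀ w, dd q w = 0 → dd x w = 0) (u : E) (hu : dd q u ≤ 0) : dd x u ≤ 0 := by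
  obtain ⟨w₁, w₂, h1, h2, h3⟩ := kink_decomp hq hh
  have h4 := ht _ (dd_proj hq u)
  have e : u = (u - dd q u • q) + ((-(dd q u)) • w₁ + (-(dd q u)) • w₂) := by
    rw [← smul_add, ← h3]; module
  have h5 := dd_add_le x (u - dd q u • q) ((-(dd q u)) • w₁ + (-(dd q u)) • w₂)
  rw [← e] at h5
  have h6 := dd_add_le x ((-(dd q u)) • w₁) ((-(dd q u)) • w₂)
  rw [dd_smul_nonneg _ _ (by linarith only [hu]), dd_smul_nonneg _ _ (by linarith only [hu]), ht _ h1, ht _ h2] at h6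
  linarith

/-- Equality of tangent cones implies equality of the derivatives. -/
theorem dd_eq_of_tangent {q x : E} (hq : ‖q‖ = 1) (hx : ‖x‖ = 1) (hqx : ‖q + x‖ = 2)
    (ht : ∀ w, dd q w = 0 ↔ dd x w = 0) (u : E) : dd x u = dd q u := by
  by_cases hsm : ∀ h, Dir q h
  · -- smooth case
    have hneg : ∀ w, dd q w = 0 → dd q (-w) = 0 := fun w hw => by
      rw [(hsm w).neg_eq, hw, neg_zero]
    have hs : ‖q + x‖ = ‖q‖ + ‖x‖ := by rw [hqx, hq, hx]; norm_num
    have key : ∀ w, dd q w = 0 → dd (q + x) w = 0 := by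
      intro w hw
      have h1 := dd_add_left_le hs w
      have h2 := dd_add_left_le hs (-w)
      have h3 := dd_neg_add_nonneg (q + x) w
      rw [hw] at h1
      rw [hneg w hw] at h2
      linarith only [h2, h3, h1]
    apply le_antisymm
    · refine lemO_le hx hq (by rw [add_comm, hqx]) (fun w hw => ?_) u
      rw [add_comm]
      exact key w ((ht w).2 hw)
    · exact lemO_le hq hx hqx key u
  · push Not at hsm
    obtain ⟨h, hh⟩ := hsm
    have hxk : ∃ h', ¬ Dir x h' := by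
      by_contra hcon
      push Not at hcon
      obtain ⟨w₁, w₂, h1, h2, h3⟩ := kink_decomp hq hh
      have h4 : dd x (-q) = 0 := by
        rw [h3, (hcon w₁).dd_add, (ht _).1 h1, (ht _).1 h2, add_zero]
      have h5 := (ht _).2 h4
      rw [dd_neg_self, hq] at h5
      norm_num at h5
    obtain ⟨h', hh'⟩ := hxk
    apply le_antisymm
    · exact dd_le_of_cone hq hx (cone_le_of_kink hq hh fun w hw => (ht w).1 hw) u
    · exact dd_le_of_cone hx hq (cone_le_of_kink hx hh' fun w hw => (ht w).2 hw) u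

end cone

section

variable {X Y : Type*} [NormedAddCommGroup X] [NormedSpace ℝ X]
    [NormedAddCommGroup Y] [NormedSpace ℝ Y]

omit [NormedSpace ℝ X] in
theorem exists_seq_of_residual [CompleteSpace X] {q : X} {P : X → Prop}
    (h : ∀ᶠ y : sphere (0 : X) 1 in residual (sphere (0 : X) 1), ‖q + (y : X)‖ < 2 → P (y : X))
    {y₀ : X} (hy₀ : ‖y₀‖ = 1) (hΩ : ‖q + y₀‖ < 2) :
    ∃ y : ℕ → X, (∀ n, ‖y n‖ = 1) ∧ (∀ n, ‖q + y n‖ < 2) ∧ (∀ n, P (y n)) ∧
      Tendsto y atTop (𝓝 y₀) := by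
  have hcs : CompleteSpace (sphere (0 : X) 1) := isClosed_sphere.completeSpace_coe
  have hdense := dense_of_mem_residual h
  rw [Metric.dense_iff] at hdense
  have h1 : ∀ n : ℕ, ∃ y : X, ‖y‖ = 1 ∧ ‖q + y‖ < 2 ∧ P y ∧ ‖y - y₀‖ < 1 / ((n : ℝ) + 1) := by
    intro n
    obtain ⟨y, hy1, hy2⟩ := hdense ⟨y₀, mem_sphere_zero_iff_norm.2 hy₀⟩
      (min (1 / ((n : ℝ) + 1)) (2 - ‖q + y₀‖))
      (lt_min Nat.one_div_pos_of_nat (by linarith only [hΩ]))
    rw [mem_ball, Subtype.dist_eq, dist_eq_norm] at hy1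
    have h3 : ‖(y : X) - y₀‖ < 2 - ‖q + y₀‖ := hy1.trans_le (min_le_right _ _)
    have h4 : ‖q + (y : X)‖ < 2 := by
      have e : q + (y : X) = (q + y₀) + ((y : X) - y₀) := by abel
      rw [e]
      refine (norm_add_le _ _).trans_lt ?_
      linarith only [h3]
    exact ⟨y, norm_eq_of_mem_sphere y, h4, hy2 h4, hy1.trans_le (min_le_left _ _)⟩
  choose y hy1 hy2 hy3 hy4 using h1
  refine ⟨y, hy1, hy2, hy3, ?_⟩
  rw [tendsto_iff_norm_sub_tendsto_zero]
  exact squeeze_zero (fun n => norm_nonneg _) (fun n => (hy4 n).le)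
    tendsto_one_div_add_atTop_nhds_zero_nat

/-- The candidate for the linear extension. -/
noncomputable def rmap (F : SphereEquiv X Y) (q : X) (r : Y) (v : X) : Y :=
  tmap F q (v - dd q v • q) + dd q v • r

variable [CompleteSpace X] [CompleteSpace Y] (F : SphereEquiv X Y) {q : X} (hq : ‖q‖ = 1)

include hq in
theorem tmap_smul {w : X} (hw : dd q w = 0) {c : ℝ} (hc : 0 ≤ c) :
    tmap F q (c • w) = c • tmap F q w := by
  rcases hc.eq_or_lt with h | h
  · subst h
    rw [zero_smul, zero_smul, tmap_zero F hq]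
  have hcw : dd q (c • w) = 0 := by rw [BadPoint.dd_smul q w h, hw, mul_zero]
  have h1 := tendsto_tmap F hq hcw
  have h2 : Tendsto (fun t : ℝ => c • ((t * c)⁻¹ • (F (curve q w (t * c)) - F q))) (𝓝[>] 0)
      (𝓝 (c • tmap F q w)) := by
    apply Tendsto.const_smul
    apply (tendsto_tmap F hq hw).comp
    rw [tendsto_nhdsWithin_iff]
    constructor
    · apply tendsto_nhdsWithin_of_tendsto_nhds
      have : Tendsto (fun t : ℝ => t * c) (𝓝 0) (𝓝 (0 * c)) := by
        apply Continuous.tendsto; fun_prop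
      simpa only [zero_mul] using this
    · filter_upwards [self_mem_nhdsWithin] with t ht
      exact mul_pos ht h
  refine tendsto_nhds_unique h1 (h2.congr' ?_)
  filter_upwards [self_mem_nhdsWithin] with t ht
  rw [mem_Ioi] at ht
  rw [curve_smul, smul_smul]
  congr 1
  (clear * - h ht; field_simp)

variable {r : Y}
  (hres : ∀ y : X, ‖y‖ = 1 → ‖q + y‖ < 2 → Dir (q - y) q → Dir (F q - F y) r →
    dd (F q - F y) r = dd (q - y) q)

include hq hres in
theorem typ (v : X) : ∀ᶠ y : sphere (0 : X) 1 in residual (sphere (0 : X) 1),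
    ‖q + (y : X)‖ < 2 → Dir (q - (y : X)) v ∧ Dir (F q - F (y : X)) (rmap F q r v) ∧
      dd (F q - F (y : X)) (rmap F q r v) = dd (q - (y : X)) v := by
  filter_upwards [residual_dir_id hq v, residual_dir_id hq q,
    residual_dir F hq (tmap F q (v - dd q v • q)), residual_dir F hq r] with y h1 h2 h3 h4 hΩ
  replace h1 := h1 hΩ
  replace h2 := h2 hΩ
  replace h3 := h3 hΩ
  replace h4 := h4 hΩ
  have h5 := dd_tmap F hq (dd_proj hq v) (norm_eq_of_mem_sphere y)
  have h6 := hres y (norm_eq_of_mem_sphere y) hΩ h2 h4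
  refine ⟨h1, h3.add (h4.smul _), ?_⟩
  rw [rmap, h3.dd_add, h4.dd_smul, h5, h6, h1.dd_sub (h2.smul _), h2.dd_smul]
  ring

include hq hres in
theorem rmap_add (v w : X) : rmap F q r (v + w) = rmap F q r v + rmap F q r w := by
  rw [← sub_eq_zero]
  apply eq_zero_of_residual F hq
  filter_upwards [typ F hq hres v, typ F hq hres w, typ F hq hres (v + w)] with y a b c hΩ
  obtain ⟨a1, a2, a3⟩ := a hΩ
  obtain ⟨b1, b2, b3⟩ := b hΩ
  obtain ⟨c1, c2, c3⟩ := c hΩ
  have h1 : Dir (F q - F (y : X)) (rmap F q r (v + w) - (rmap F q r v + rmap F q r w)) :=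
    c2.sub (a2.add b2)
  have h2 : dd (F q - F (y : X)) (rmap F q r (v + w) - (rmap F q r v + rmap F q r w)) = 0 := by
    rw [c2.dd_sub (a2.add b2), a2.dd_add, a3, b3, c3, a1.dd_add]; ring
  rw [h1.neg_eq, h2, neg_zero]
  exact ⟨le_rfl, le_rfl⟩

include hq in
theorem rmap_smul_nonneg {c : ℝ} (hc : 0 ≤ c) (v : X) :
    rmap F q r (c • v) = c • rmap F q r v := by
  rw [rmap, rmap, dd_smul_nonneg _ _ hc]
  have : c • v - (c * dd q v) • q = c • (v - dd q v • q) := by module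
  rw [this, tmap_smul F hq (dd_proj hq v) hc]
  module

include hq in
theorem rmap_zero : rmap F q r 0 = 0 := by
  have := rmap_smul_nonneg F hq (r := r) le_rfl (0 : X)
  rwa [zero_smul, zero_smul] at this

include hq hres in
theorem rmap_neg (v : X) : rmap F q r (-v) = - rmap F q r v := by
  have h := rmap_add F hq hres v (-v)
  rw [add_neg_cancel, rmap_zero F hq] at h
  exact (neg_eq_of_add_eq_zero_right h.symm).symm

include hq hres in
theorem rmap_smul (c : ℝ) (v : X) : rmap F q r (c • v) = c • rmap F q r v := by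
  rcases le_total 0 c with hc | hc
  · exact rmap_smul_nonneg F hq hc v
  · have e : c • v = (-c) • (-v) := by module
    rw [e, rmap_smul_nonneg F hq (by linarith), rmap_neg F hq hres]
    module

include hq hres in
theorem rmap_injective {v : X} (hv : rmap F q r v = 0) : v = 0 := by
  apply eq_zero_of_residual (refl X) hq
  filter_upwards [typ F hq hres v] with y a hΩ
  obtain ⟨a1, a2, a3⟩ := a hΩ
  rw [hv, dd_zero] at a3
  change 0 ≤ dd (q - (y : X)) v ∧ 0 ≤ dd (q - (y : X)) (-v)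
  rw [a1.neg_eq, ← a3, neg_zero]
  exact ⟨le_rfl, le_rfl⟩

include hq hres in
theorem rmap_inj {v w : X} (h : rmap F q r v = rmap F q r w) : v = w := by
  rw [← sub_eq_zero]
  apply rmap_injective F hq hres
  rw [sub_eq_add_neg, rmap_add F hq hres, rmap_neg F hq hres, h, add_neg_cancel]

omit [CompleteSpace X] [CompleteSpace Y] in
theorem rmap_tangent {w : X} (hw : dd q w = 0) : rmap F q r w = tmap F q w := by
  rw [rmap, hw, zero_smul, zero_smul, add_zero, sub_zero]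

include hq hres in
theorem norm_rmap_le_of_mem (v : X) (hu : rmap F q r v ∈ Vc (F q)) : ‖rmap F q r v‖ ≤ ‖v‖ := by
  have hq' : ‖F q‖ = 1 := by rw [F.norm_map, hq]
  obtain ⟨c, hc, y', hy', hΩ', hu'⟩ := exists_of_mem_Vc hq' hu
  have hy1' : ‖F.symm y'‖ = 1 := by rw [F.symm.norm_map, hy']
  have hΩ : ‖q + F.symm y'‖ < 2 := by
    rw [← region_iff F hq hy1', F.apply_symm]
    exact hΩ'
  obtain ⟨y, hy1, -, hy2, hy3⟩ := exists_seq_of_residual
    (P := fun y => Dir (q - y) v ∧ Dir (F q - F y) (rmap F q r v) ∧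
      dd (F q - F y) (rmap F q r v) = dd (q - y) v) (typ F hq hres v)
    (y₀ := F.symm y') hy1' hΩ
  have h1 : Tendsto (fun n => F q - F (y n)) atTop (𝓝 (F q - y')) := by
    have h2 := (F.continuous.tendsto (F.symm y')).comp hy3
    rw [F.apply_symm] at h2
    exact tendsto_const_nhds.sub h2
  have h2 : Tendsto (fun n => c * (‖F q - y'‖ - 2 * ‖(F q - F (y n)) - (F q - y')‖)) atTop
      (𝓝 (c * (‖F q - y'‖ - 2 * 0))) := by
    apply Tendsto.const_mul
    apply tendsto_const_nhds.sub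
    apply Tendsto.const_mul
    exact tendsto_iff_norm_sub_tendsto_zero.1 h1
  have h3 : ‖rmap F q r v‖ = c * (‖F q - y'‖ - 2 * 0) := by
    rw [hu', norm_smul, Real.norm_of_nonneg hc.le]; ring
  rw [h3]
  refine le_of_tendsto h2 (Eventually.of_forall fun n => ?_)
  have h4 := (hy2 n).2.2
  have h5 := dd_ge_of_near (F q - F (y n)) (F q - y')
  have h6 : dd (F q - F (y n)) (rmap F q r v) = c * dd (F q - F (y n)) (F q - y') := by
    rw [hu', dd_smul_nonneg _ _ hc.le]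
  have h7 := dd_le_norm (q - y n) v
  rw [h6] at h4
  linarith only [mul_nonneg (le_of_lt (sub_pos.2 hc)) (sub_nonneg.2 h5), h7, h4]

include hq hres in
theorem norm_rmap_le (v : X) : ‖rmap F q r v‖ ≤ ‖v‖ := by
  have hq' : ‖F q‖ = 1 := by rw [F.norm_map, hq]
  by_cases h1 : rmap F q r v ∈ Vc (F q)
  · exact norm_rmap_le_of_mem F hq hres v h1
  by_cases h2 : - rmap F q r v ∈ Vc (F q)
  · have h3 := norm_rmap_le_of_mem F hq hres (-v) (by rwa [rmap_neg F hq hres])
    rwa [rmap_neg F hq hres, norm_neg, norm_neg] at h3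
  rw [mem_Vc_iff hq'] at h1 h2
  push Not at h1 h2
  rw [neg_neg] at h2
  set u := rmap F q r v with hu
  set s := dd (F q) u with hs
  set t := dd (F q) (-u) with ht
  -- tangent vectors in the range
  have tan : ∀ w', dd (F q) w' = 0 → ∃ w : X, w = tmap F.symm (F q) w' ∧ rmap F q r w = w' := by
    intro w' hw'
    refine ⟨_, rfl, ?_⟩
    have h3 := dd_map_tmap F.symm hq' hw'
    rw [F.symm_apply] at h3
    rw [rmap_tangent F h3]
    have h4 := tmap_symm_tmap F.symm hq' hw'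
    rw [F.symm_apply] at h4
    exact h4
  rcases (add_nonneg h2 h1).eq_or_lt with h0 | h0
  · have hs0 : dd (F q) u = 0 := by linarith only [h2, h1, h0]
    obtain ⟨w, hw1, hw2⟩ := tan u hs0
    have h3 : w = v := rmap_inj F hq hres (by rw [hw2])
    have h4 := norm_tmap F.symm hq' hs0
    rw [← hw1, h3] at h4
    exact h4.ge
  set w₁ : Y := t • u + (-(s * t)) • F q with hw1
  set w₂ : Y := s • (-u) + (-(s * t)) • F q with hw2
  have e1 : dd (F q) w₁ = 0 := by
    rw [hw1, dd_add_smul_self hq', dd_smul_nonneg _ _ h1, ← hs]; ring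
  have e2 : dd (F q) w₂ = 0 := by
    rw [hw2, dd_add_smul_self hq', dd_smul_nonneg _ _ h2, ← ht]; ring
  obtain ⟨v₁, hv1, hv1'⟩ := tan w₁ e1
  obtain ⟨v₂, hv2, hv2'⟩ := tan w₂ e2
  have h3 := norm_tmap_sub F.symm hq' e1 e2
  rw [← hv1, ← hv2] at h3
  have e3 : w₁ - w₂ = (s + t) • u := by
    rw [hw1, hw2]; module
  have h4 : v₁ - v₂ = (s + t) • v := by
    apply rmap_inj F hq hres
    rw [sub_eq_add_neg, rmap_add F hq hres, rmap_neg F hq hres, hv1', hv2',
      rmap_smul F hq hres, ← sub_eq_add_neg, e3]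
  rw [h4, e3, norm_smul, norm_smul, Real.norm_of_nonneg h0.le] at h3
  exact (mul_left_cancel₀ h0.ne' h3).ge

include hq hres in
theorem le_norm_rmap_of_mem (v : X) (hv : v ∈ Vc q) : ‖v‖ ≤ ‖rmap F q r v‖ := by
  obtain ⟨c, hc, y₀, hy₀, hΩ, hv'⟩ := exists_of_mem_Vc hq hv
  obtain ⟨y, hy1, -, hy2, hy3⟩ := exists_seq_of_residual
    (P := fun y => Dir (q - y) v ∧ Dir (F q - F y) (rmap F q r v) ∧
      dd (F q - F y) (rmap F q r v) = dd (q - y) v) (typ F hq hres v) hy₀ hΩ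
  have h1 : Tendsto (fun n => q - y n) atTop (𝓝 (q - y₀)) := tendsto_const_nhds.sub hy3
  have h2 : Tendsto (fun n => c * (‖q - y₀‖ - 2 * ‖(q - y n) - (q - y₀)‖)) atTop
      (𝓝 (c * (‖q - y₀‖ - 2 * 0))) := by
    apply Tendsto.const_mul
    apply tendsto_const_nhds.sub
    apply Tendsto.const_mul
    exact tendsto_iff_norm_sub_tendsto_zero.1 h1
  have h3 : ‖v‖ = c * (‖q - y₀‖ - 2 * 0) := by
    rw [hv', norm_smul, Real.norm_of_nonneg hc.le]; ring
  rw [h3]
  refine le_of_tendsto h2 (Eventually.of_forall fun n => ?_)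
  have h4 := (hy2 n).2.2
  have h5 := dd_ge_of_near (q - y n) (q - y₀)
  have h6 : dd (q - y n) v = c * dd (q - y n) (q - y₀) := by
    rw [hv', dd_smul_nonneg _ _ hc.le]
  have h7 := dd_le_norm (F q - F (y n)) (rmap F q r v)
  rw [h6] at h4
  linarith only [mul_nonneg (le_of_lt (sub_pos.2 hc)) (sub_nonneg.2 h5), h7, h4]

include hq hres in
theorem le_norm_rmap (v : X) : ‖v‖ ≤ ‖rmap F q r v‖ := by
  by_cases h1 : v ∈ Vc q
  · exact le_norm_rmap_of_mem F hq hres v h1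
  by_cases h2 : -v ∈ Vc q
  · have h3 := le_norm_rmap_of_mem F hq hres (-v) h2
    rwa [rmap_neg F hq hres, norm_neg, norm_neg] at h3
  rw [mem_Vc_iff hq] at h1 h2
  push Not at h1 h2
  rw [neg_neg] at h2
  set s := dd q v with hs
  set t := dd q (-v) with ht
  rcases (add_nonneg h2 h1).eq_or_lt with h0 | h0
  · have hs0 : dd q v = 0 := by linarith only [h2, h1, h0]
    rw [rmap_tangent F hs0, norm_tmap F hq hs0]
  set w₁ : X := t • v + (-(s * t)) • q with hw1
  set w₂ : X := s • (-v) + (-(s * t)) • q with hw2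
  have e1 : dd q w₁ = 0 := by
    rw [hw1, dd_add_smul_self hq, dd_smul_nonneg _ _ h1, ← hs]; ring
  have e2 : dd q w₂ = 0 := by
    rw [hw2, dd_add_smul_self hq, dd_smul_nonneg _ _ h2, ← ht]; ring
  have h3 := norm_tmap_sub F hq e1 e2
  have e3 : w₁ - w₂ = (s + t) • v := by
    rw [hw1, hw2]; module
  rw [← rmap_tangent F (r := r) e1, ← rmap_tangent F (r := r) e2, sub_eq_add_neg,
    ← rmap_neg F hq hres, ← rmap_add F hq hres, ← sub_eq_add_neg, e3, rmap_smul F hq hres,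
    norm_smul, norm_smul, Real.norm_of_nonneg h0.le] at h3
  exact (mul_left_cancel₀ h0.ne' h3).ge

include hq hres in
/-- Collinearity of chords and images of chords. -/
theorem rmap_chord {y₀ : X} (hy₀ : ‖y₀‖ = 1) (hΩ : ‖q + y₀‖ < 2) :
    2 * ‖q - y₀‖ ≤ ‖F q - F y₀ + rmap F q r (q - y₀)‖ := by
  set v := q - y₀ with hv
  obtain ⟨y, hy1, -, hy2, hy3⟩ := exists_seq_of_residual
    (P := fun y => Dir (q - y) v ∧ Dir (F q - F y) (rmap F q r v) ∧
      dd (F q - F y) (rmap F q r v) = dd (q - y) v) (typ F hq hres v) hy₀ hΩ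
  have h1 : Tendsto (fun n => F q - F (y n)) atTop (𝓝 (F q - F y₀)) :=
    tendsto_const_nhds.sub ((F.continuous.tendsto y₀).comp hy3)
  have h1' : Tendsto (fun n => q - y n) atTop (𝓝 v) := tendsto_const_nhds.sub hy3
  have h2 : Tendsto (fun n => ‖F q - F (y n) + rmap F q r v‖) atTop
      (𝓝 ‖F q - F y₀ + rmap F q r v‖) := (h1.add_const _).norm
  have h3 : Tendsto (fun n => ‖F q - F (y n)‖ + (‖v‖ - 2 * ‖(q - y n) - v‖)) atTop
      (𝓝 (‖F q - F y₀‖ + (‖v‖ - 2 * 0))) := by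
    apply h1.norm.add
    apply tendsto_const_nhds.sub
    apply Tendsto.const_mul
    exact tendsto_iff_norm_sub_tendsto_zero.1 h1'
  have h4 : ‖F q - F y₀‖ = ‖v‖ := F.iso_map hq hy₀
  have h6 := le_of_tendsto_of_tendsto h3 h2 (Eventually.of_forall fun n => by
    have h7 := dd_le_sub (F q - F (y n)) (rmap F q r v)
    have h8 := (hy2 n).2.2
    have h9 := dd_ge_of_near (q - y n) v
    simp only
    linarith only [h7, h8, h9])
  rw [h4] at h6
  linarith only [h6]

include hq hres in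
/-- The linear isometry at a resolved point. -/
theorem exists_isometry_of_resolved : ∃ R : X ≃ₗᵢ[ℝ] Y,
    (∀ w, dd q w = 0 → tmap F q w = R w) ∧ ∀ v, dd (F q) (R v) = dd q v := by
  have hq' : ‖F q‖ = 1 := by rw [F.norm_map, hq]
  let T : X →ₗ[ℝ] Y :=
    { toFun := rmap F q r
      map_add' := rmap_add F hq hres
      map_smul' := rmap_smul F hq hres }
  have hT : ∀ v, T v = rmap F q r v := fun v => rfl
  have hTn : ∀ v, ‖T v‖ = ‖v‖ := fun v =>
    le_antisymm (norm_rmap_le F hq hres v) (le_norm_rmap F hq hres v)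
  have htan : ∀ w, dd q w = 0 → T w = tmap F q w := fun w hw => rmap_tangent F hw
  -- tangent vectors are in the range
  have hrange : ∀ u, dd (F q) u = 0 → ∃ w, dd q w = 0 ∧ T w = u := by
    intro u hu
    obtain ⟨w, hw, hwu⟩ := exists_tmap_eq F hq hu
    exact ⟨w, hw, by rw [htan w hw, hwu]⟩
  -- the image point is in the range
  have hqr : ∃ x, T x = F q := by
    by_cases hsm : ∀ h, Dir (F q) h
    · have ha : dd (F q) (T q) ≠ 0 := by
        intro h0
        obtain ⟨w, hw, hwq⟩ := hrange _ h0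
        have : w = q := rmap_inj F hq hres hwq
        rw [this, dd_self, hq] at hw
        norm_num at hw
      set a := dd (F q) (T q) with hadef
      obtain ⟨w, hw, hwq⟩ := hrange (T q - a • F q) (dd_proj hq' (T q))
      refine ⟨a⁻¹ • (q - w), ?_⟩
      rw [_root_.map_smul, _root_.map_sub, hwq, sub_sub_cancel, smul_smul, inv_mul_cancel₀ ha,
        one_smul]
    · push Not at hsm
      obtain ⟨h, hh⟩ := hsm
      obtain ⟨w₁, w₂, h1, h2, h3⟩ := kink_decomp hq' hh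
      obtain ⟨x₁, -, hx1⟩ := hrange w₁ h1
      obtain ⟨x₂, -, hx2⟩ := hrange w₂ h2
      refine ⟨-(x₁ + x₂), ?_⟩
      rw [_root_.map_neg, _root_.map_add, hx1, hx2, ← h3, neg_neg]
  have hsurj : Function.Surjective T := by
    intro u
    obtain ⟨w, -, hw⟩ := hrange (u - dd (F q) u • F q) (dd_proj hq' u)
    obtain ⟨x, hx⟩ := hqr
    refine ⟨w + dd (F q) u • x, ?_⟩
    rw [_root_.map_add, _root_.map_smul, hw, hx, sub_add_cancel]
  let R₀ : X →ₗᵢ[ℝ] Y := ⟨T, hTn⟩
  let R : X ≃ₗᵢ[ℝ] Y := LinearIsometryEquiv.ofSurjective R₀ hsurj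
  have hR : ∀ v, R v = T v := fun v => rfl
  refine ⟨R, fun w hw => by rw [hR, htan w hw], ?_⟩
  -- the derivative
  have ddR : ∀ z v : X, dd (R z) (R v) = dd z v := by
    intro z v
    refine tendsto_nhds_unique (tendsto_dd (R z) (R v)) ((tendsto_dd z v).congr fun t => ?_)
    rw [← _root_.map_smul, ← _root_.map_add, R.norm_map, R.norm_map]
  set x := R.symm (F q) with hx
  have hRx : R x = F q := R.apply_symm_apply _
  have hx1 : ‖x‖ = 1 := by rw [hx, R.symm.norm_map, hq']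
  have hqx : ‖q + x‖ = 2 := by
    apply le_antisymm
    · refine (norm_add_le _ _).trans ?_
      rw [hq, hx1]; norm_num
    · have h1 := rmap_chord F hq hres (y₀ := -q) (by rw [norm_neg, hq])
        (by rw [add_neg_cancel, norm_zero]; norm_num)
      have e1 : q - -q = (2 : ℝ) • q := by module
      rw [e1, ← hT, _root_.map_smul, norm_smul, hq, Real.norm_of_nonneg
        (by norm_num : (0 : ℝ) ≤ 2)] at h1
      have e2 : F q - F (-q) + (2 : ℝ) • T q = (T q + F q) + (T q - F (-q)) := by module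
      rw [e2] at h1
      have h2 := norm_add_le (T q + F q) (T q - F (-q))
      have h3 := norm_sub_le (T q) (F (-q))
      rw [hTn, F.norm_map, norm_neg, hq] at h3
      have h4 : ‖T q + F q‖ = ‖q + x‖ := by
        rw [← R.norm_map (q + x), _root_.map_add, hR, hRx]
      linarith only [h1, h2, h3, h4]
  intro v
  rw [← hRx, ddR]
  refine dd_eq_of_tangent hq hx1 hqx (fun w => ?_) v
  rw [← ddR x w, hRx]
  constructor
  · intro hw
    rw [hR, htan w hw]
    exact dd_map_tmap F hq hw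
  · intro hw
    obtain ⟨w₀, hw₀, hw₀'⟩ := hrange _ hw
    have : w₀ = w := rmap_inj F hq hres hw₀'
    rw [← this]
    exact hw₀

end

end Vale.Agent.P084.Gen
end

/- UCTypical -/
section
/-!
# Typical points at a finite scale
-/

open Set Filter Topology Metric

namespace Vale.Agent.P084.UC

open BadPoint

section one

variable {E : Type*} [NormedAddCommGroup E] [NormedSpace ℝ E]

theorem sd_smul (z h : E) {r : ℝ} (h0 : 0 ≤ r) (h1 : r ≤ 1) :
    ‖z + r • h‖ + ‖z - r • h‖ - 2 * ‖z‖ ≤ r * (‖z + h‖ + ‖z - h‖ - 2 * ‖z‖) := by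
  have e1 : z + r • h = r • (z + h) + (1 - r) • z := by module
  have e2 : z - r • h = r • (z - h) + (1 - r) • z := by module
  have n1 : ‖z + r • h‖ ≤ r * ‖z + h‖ + (1 - r) * ‖z‖ := by
    rw [e1]
    refine (norm_add_le _ _).trans (le_of_eq ?_)
    rw [norm_smul, norm_smul, Real.norm_of_nonneg h0, Real.norm_of_nonneg (by linarith)]
  have n2 : ‖z - r • h‖ ≤ r * ‖z - h‖ + (1 - r) * ‖z‖ := by
    rw [e2]
    refine (norm_add_le _ _).trans (le_of_eq ?_)
    rw [norm_smul, norm_smul, Real.norm_of_nonneg h0, Real.norm_of_nonneg (by linarith only [h1])]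
  linarith

theorem exit_near {q y v : E} {δ ρ : ℝ} (hy : ‖y‖ = 1) (hδ : 0 < δ)
    (hmid : ‖q + y‖ ≤ 2 - 2 * δ) (hv : ‖v‖ ≤ ρ) (hρ : ρ ≤ δ / 3) :
    ∃ c : ℝ, 1 - ρ / δ ≤ c ∧ c ≤ 1 + ρ / δ ∧ ‖q - c • (q - y + v)‖ = 1 := by
  have hρ0 : 0 ≤ ρ := (norm_nonneg v).trans hv
  set μ := ρ / δ with hμ
  have hμ0 : 0 ≤ μ := by (clear * - hρ0 hδ; positivity)
  have hμδ : μ * δ = ρ := by rw [hμ]; (clear * - hδ; field_simp)
  have hμ1 : μ ≤ 1 / 3 := by
    rw [hμ, div_le_iff₀ hδ]; linarith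
  set f : ℝ → ℝ := fun c => ‖q - c • (q - y + v)‖ with hf
  have hfc : Continuous f := by fun_prop
  have f1 : |f 1 - 1| ≤ ρ := by
    have e : q - (1 : ℝ) • (q - y + v) = y - v := by module
    have := abs_norm_sub_norm_le (y - v) y
    rw [hy] at this
    simp only [hf]
    rw [e]
    refine this.trans ?_
    rw [sub_sub_cancel_left, norm_neg]
    exact hv
  rw [abs_le] at f1
  have fh : f (1 / 2) ≤ 1 - δ + ρ / 2 := by
    have e : q - (1 / 2 : ℝ) • (q - y + v) = (1 / 2 : ℝ) • (q + y) - (1 / 2 : ℝ) • v := by module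
    simp only [hf]
    rw [e]
    refine (norm_sub_le _ _).trans ?_
    rw [norm_smul, norm_smul, Real.norm_of_nonneg (by norm_num : (0 : ℝ) ≤ 1 / 2)]
    linarith only [hmid, hv]
  -- upper value
  have up : 1 ≤ f (1 + μ) := by
    have e : q - (1 : ℝ) • (q - y + v) = (2 * μ / (1 + 2 * μ)) • (q - (1 / 2 : ℝ) • (q - y + v)) +
        (1 / (1 + 2 * μ)) • (q - (1 + μ) • (q - y + v)) := by
      have h3 : (1 + 2 * μ) ≠ 0 := by (clear * - hρ0 hδ; positivity)
      have h4 : (2 * μ / (1 + 2 * μ)) = 1 - 1 / (1 + 2 * μ) := by field_simp; ring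
      have h5 : (1 / (1 + 2 * μ)) * (1 / 2 + μ) = 1 / 2 := by field_simp
      rw [h4]
      have h6 : (1 - 1 / (1 + 2 * μ)) • (q - (1 / 2 : ℝ) • (q - y + v)) +
          (1 / (1 + 2 * μ)) • (q - (1 + μ) • (q - y + v))
          = q - (1 / 2 + (1 / (1 + 2 * μ)) * (1 / 2 + μ)) • (q - y + v) := by module
      rw [h6, h5]; norm_num
    have h1 : f 1 ≤ (2 * μ / (1 + 2 * μ)) * f (1 / 2) + (1 / (1 + 2 * μ)) * f (1 + μ) := by
      simp only [hf]
      rw [e]
      refine (norm_add_le _ _).trans (le_of_eq ?_)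
      rw [norm_smul, norm_smul, Real.norm_of_nonneg (by (clear * - hρ0 hδ; positivity)),
        Real.norm_of_nonneg (by (clear * - hρ0 hδ; positivity))]
    have h2 : (1 + 2 * μ) * f 1 ≤ 2 * μ * f (1 / 2) + f (1 + μ) := by
      have h3 : 0 < 1 + 2 * μ := by (clear * - hρ0 hδ; positivity)
      calc (1 + 2 * μ) * f 1 ≤ (1 + 2 * μ) * ((2 * μ / (1 + 2 * μ)) * f (1 / 2) +
            (1 / (1 + 2 * μ)) * f (1 + μ)) := mul_le_mul_of_nonneg_left h1 h3.le
        _ = _ := by (clear * - hμ0; field_simp)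
    have h3 : 2 * μ * f (1 / 2) ≤ 2 * μ * (1 - δ + ρ / 2) := by (clear * - fh hρ0 hδ; gcongr)
    nlinarith only [hμδ, f1, h2, h3, hρ, hμ0]
  have lo : f (1 - μ) ≤ 1 := by
    have e : q - (1 - μ) • (q - y + v) = (1 - 2 * μ) • (q - (1 : ℝ) • (q - y + v)) +
        (2 * μ) • (q - (1 / 2 : ℝ) • (q - y + v)) := by module
    have h1 : f (1 - μ) ≤ (1 - 2 * μ) * f 1 + (2 * μ) * f (1 / 2) := by
      simp only [hf]
      rw [e]
      refine (norm_add_le _ _).trans (le_of_eq ?_)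
      rw [norm_smul, norm_smul, Real.norm_of_nonneg (by linarith only [hμ1]),
        Real.norm_of_nonneg (by (clear * - hρ0 hδ; positivity))]
    have h3 : 2 * μ * f (1 / 2) ≤ 2 * μ * (1 - δ + ρ / 2) := by (clear * - fh hρ0 hδ; gcongr)
    have h4 : (1 - 2 * μ) * f 1 ≤ (1 - 2 * μ) * (1 + ρ) :=
      mul_le_mul_of_nonneg_left (by linarith only [f1]) (by linarith only [hμ1])
    nlinarith only [hδ, hρ0, hμδ, h1, h3, h4, hρ]
  obtain ⟨c, hc, hc1⟩ : (1 : ℝ) ∈ f '' Icc (1 - μ) (1 + μ) :=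
    intermediate_value_Icc (by linarith only [hμ0]) hfc.continuousOn ⟨lo, up⟩
  exact ⟨c, hc.1, hc.2, hc1⟩

/-- The elementary splitting. -/
theorem split_le {a b q y : E} {s κ : ℝ} (hs : 0 < s) (ha : ‖a‖ = s + κ) (hb : ‖b‖ = s - κ)
    (hq : a + b = (2 * s) • q) (hκ : |κ| ≤ s / 2) :
    ‖a - ‖a‖ • y‖ + ‖b - ‖b‖ • y‖ ≤ ‖s • (q - y)‖ + 1 / 2 *
      (‖s • (q - y) + (2 : ℝ) • ((1 / 2 : ℝ) • (a - b) - κ • q)‖ +
        ‖s • (q - y) - (2 : ℝ) • ((1 / 2 : ℝ) • (a - b) - κ • q)‖) := by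
  set z := s • (q - y) with hz
  set g := (1 / 2 : ℝ) • (a - b) - κ • q with hg
  have hκ2 := abs_le.1 hκ
  have hκs : -(1 / 2) ≤ κ / s := by rw [le_div_iff₀ hs]; linarith only [hκ2]
  have hκs' : κ / s ≤ 1 / 2 := by rw [div_le_iff₀ hs]; linarith only [hκ2]
  have ea : a = s • q + (1 / 2 : ℝ) • (a - b) := by
    have : s • q = (1 / 2 : ℝ) • (a + b) := by rw [hq]; module
    rw [this]; module
  have eb : b = s • q - (1 / 2 : ℝ) • (a - b) := by
    have : s • q = (1 / 2 : ℝ) • (a + b) := by rw [hq]; module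
    rw [this]; module
  have hκz : (κ / s) • z = κ • (q - y) := by
    rw [hz, smul_smul, div_mul_cancel₀ _ hs.ne']
  have e1 : a - ‖a‖ • y = (1 / 2 : ℝ) • (z + (2 : ℝ) • g) + (1 / 2 + κ / s) • z := by
    rw [add_smul (1 / 2 : ℝ), hκz, ha, hg, hz]
    nth_rewrite 1 [ea]
    module
  have e2 : b - ‖b‖ • y = (1 / 2 : ℝ) • (z - (2 : ℝ) • g) + (1 / 2 - κ / s) • z := by
    rw [sub_smul (1 / 2 : ℝ), hκz, hb, hg, hz]
    nth_rewrite 1 [eb]
    module
  have n1 : ‖a - ‖a‖ • y‖ ≤ 1 / 2 * ‖z + (2 : ℝ) • g‖ + (1 / 2 + κ / s) * ‖z‖ := by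
    rw [e1]
    refine (norm_add_le _ _).trans (le_of_eq ?_)
    rw [norm_smul, norm_smul, Real.norm_of_nonneg (by norm_num : (0 : ℝ) ≤ 1 / 2),
      Real.norm_of_nonneg (by linarith only [hκs] : 0 ≤ 1 / 2 + κ / s)]
  have n2 : ‖b - ‖b‖ • y‖ ≤ 1 / 2 * ‖z - (2 : ℝ) • g‖ + (1 / 2 - κ / s) * ‖z‖ := by
    rw [e2]
    refine (norm_add_le _ _).trans (le_of_eq ?_)
    rw [norm_smul, norm_smul, Real.norm_of_nonneg (by norm_num : (0 : ℝ) ≤ 1 / 2),
      Real.norm_of_nonneg (by linarith only [hκs'] : 0 ≤ 1 / 2 - κ / s)]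
  linarith only [n1, n2]

/-- Existence of typical points. -/
theorem exists_typical {a b y₀ : E} {s : ℝ} (hs : 3 / 4 ≤ s) (hab : ‖a‖ + ‖b‖ = 2 * s)
    (hκ : ‖a - b‖ ≤ s) (hy₀ : ‖y₀‖ = 1) {δ : ℝ} (hδ : 0 < δ) (hδ1 : δ ≤ 1)
    (hmid : ‖(2 * s)⁻¹ • (a + b) + y₀‖ ≤ 2 - 2 * δ) {K : ℕ} (hK : 0 < K)
    (hρ : 4 * K * ‖a - b‖ ≤ δ / 3) :
    ∃ y : E, ‖y‖ = 1 ∧ ‖y - y₀‖ ≤ 4 * (4 * K * ‖a - b‖) / δ ∧
      ‖a - ‖a‖ • y‖ + ‖b - ‖b‖ • y‖ ≤ 2 * ‖s • ((2 * s)⁻¹ • (a + b) - y)‖ +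
        2 * ‖a - b‖ / K := by
  have hs0 : 0 < s := by linarith only [hs]
  set q := (2 * s)⁻¹ • (a + b) with hq
  have hqab : a + b = (2 * s) • q := by
    rw [hq, smul_smul, mul_inv_cancel₀ (by positivity), one_smul]
  set κ := (‖a‖ - ‖b‖) / 2 with hκd
  have hκ1 : |κ| ≤ ‖a - b‖ / 2 := by
    rw [hκd, abs_div, abs_two]
    have := abs_norm_sub_norm_le a b
    (clear * - this; gcongr)
  have hq1 : ‖q‖ ≤ 1 := by
    rw [hq, norm_smul, norm_inv, Real.norm_of_nonneg (by positivity), inv_mul_le_iff₀ (by positivity),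
      mul_one, ← hab]
    exact norm_add_le _ _
  set g := (1 / 2 : ℝ) • (a - b) - κ • q with hg
  have hg1 : ‖g‖ ≤ ‖a - b‖ := by
    rw [hg]
    refine (norm_sub_le _ _).trans ?_
    rw [norm_smul, norm_smul, Real.norm_of_nonneg (by norm_num : (0 : ℝ) ≤ 1 / 2),
      Real.norm_eq_abs κ]
    have : |κ| * ‖q‖ ≤ ‖a - b‖ / 2 * 1 := mul_le_mul hκ1 hq1 (norm_nonneg _) (by (clear * -; positivity))
    linarith only [this]
  have hK' : (0 : ℝ) < K := by exact_mod_cast hK
  obtain ⟨j, hj, hj2⟩ := telescope (q - y₀) ((4 : ℝ) • g) hK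
  have hjK : (j : ℝ) ≤ K := by exact_mod_cast hj.le
  have hvn : ‖(j : ℝ) • (4 : ℝ) • g‖ ≤ 4 * K * ‖a - b‖ := by
    rw [norm_smul, norm_smul, Real.norm_of_nonneg (Nat.cast_nonneg j),
      Real.norm_of_nonneg (by norm_num : (0 : ℝ) ≤ 4)]
    calc (j : ℝ) * (4 * ‖g‖) ≤ K * (4 * ‖a - b‖) := by (clear * - hjK hg1 hK; gcongr)
      _ = _ := by ring
  obtain ⟨c, hc1, hc2, hc3⟩ := exit_near (q := q) hy₀ hδ hmid hvn hρ
  set ρ := 4 * K * ‖a - b‖ with hρd
  have hρ0 : 0 ≤ ρ := by (clear * - hK; positivity)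
  have hμ1 : ρ / δ ≤ 1 / 3 := by
    rw [div_le_iff₀ hδ]; linarith only [hρ]
  set v := (j : ℝ) • (4 : ℝ) • g with hv
  have hc0 : 2 / 3 ≤ c := by linarith only [hc1, hμ1]
  refine ⟨q - c • (q - y₀ + v), hc3, ?_, ?_⟩
  · have e : q - c • (q - y₀ + v) - y₀ = (1 - c) • (q - y₀) - c • v := by module
    rw [e]
    refine (norm_sub_le _ _).trans ?_
    rw [norm_smul, norm_smul, Real.norm_eq_abs, Real.norm_of_nonneg (by linarith only [hc1, hμ1] : 0 ≤ c)]
    have h1 : |1 - c| ≤ ρ / δ := by rw [abs_le]; constructor <;> linarith only [hc1, hc2]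
    have h2 : ‖q - y₀‖ ≤ 2 := by
      refine (norm_sub_le _ _).trans ?_
      rw [hy₀]; linarith only [hq1]
    have h3 : c ≤ 4 / 3 := by linarith only [hc2, hμ1]
    have h4 : ρ ≤ ρ / δ := by
      rw [le_div_iff₀ hδ]; linarith only [mul_nonneg (sub_nonneg.2 hδ1) (sub_nonneg.2 hρ0)]
    calc |1 - c| * ‖q - y₀‖ + c * ‖v‖ ≤ (ρ / δ) * 2 + (4 / 3) * ρ := by (clear * - h1 h2 hK hδ h3 hvn; gcongr)
      _ ≤ (ρ / δ) * 2 + (4 / 3) * (ρ / δ) := by (clear * - h4; gcongr)
      _ ≤ 4 * ρ / δ := by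
          have : 0 ≤ ρ / δ := by (clear * - hK hδ; positivity)
          have e2 : 4 * ρ / δ = 4 * (ρ / δ) := by ring
          rw [e2]; linarith only [hc1, hc2]
  · have hsp := split_le (a := a) (b := b) (q := q) (y := q - c • (q - y₀ + v)) (κ := κ) hs0
      (by rw [hκd]; linarith only [hab]) (by rw [hκd]; linarith only [hab]) hqab
      (hκ1.trans (by linarith only [hκ]))
    rw [← hg] at hsp
    set z := s • (q - (q - c • (q - y₀ + v))) with hz
    have hz2 : z = (s * c) • (q - y₀ + v) := by rw [hz]; module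
    have hsc : 1 / 2 ≤ s * c := by nlinarith only [hs, hc1, hμ1]
    have hsc0 : 0 < s * c := by linarith only [hsc]
    have h5 : ‖z + (2 : ℝ) • g‖ + ‖z - (2 : ℝ) • g‖ - 2 * ‖z‖ ≤ 4 * ‖a - b‖ / K := by
      have hh : (s * c) • ((1 / (2 * (s * c))) • (4 : ℝ) • g) = (2 : ℝ) • g := by
        rw [smul_smul, smul_smul]
        congr 1
        field_simp
        norm_num
      have e1 : z + (2 : ℝ) • g = (s * c) • (q - y₀ + v + (1 / (2 * (s * c))) • (4 : ℝ) • g) := by
        rw [smul_add (s * c) (q - y₀ + v), hh, ← hz2]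
      have e2 : z - (2 : ℝ) • g = (s * c) • (q - y₀ + v - (1 / (2 * (s * c))) • (4 : ℝ) • g) := by
        rw [smul_sub (s * c) (q - y₀ + v), hh, ← hz2]
      have h6 := sd_smul (q - y₀ + v) ((4 : ℝ) • g) (r := 1 / (2 * (s * c))) (by positivity) (by
        rw [div_le_one (by positivity)]; linarith only [hsc])
      have h7 : (s * c) * (‖q - y₀ + v + (1 / (2 * (s * c))) • (4 : ℝ) • g‖ +
          ‖q - y₀ + v - (1 / (2 * (s * c))) • (4 : ℝ) • g‖ - 2 * ‖q - y₀ + v‖) ≤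
          1 / 2 * (2 * ‖(4 : ℝ) • g‖ / K) := by
        calc _ ≤ (s * c) * (1 / (2 * (s * c)) * (‖q - y₀ + v + (4 : ℝ) • g‖ +
              ‖q - y₀ + v - (4 : ℝ) • g‖ - 2 * ‖q - y₀ + v‖)) :=
              mul_le_mul_of_nonneg_left h6 hsc0.le
          _ = 1 / 2 * (‖q - y₀ + v + (4 : ℝ) • g‖ + ‖q - y₀ + v - (4 : ℝ) • g‖ -
              2 * ‖q - y₀ + v‖) := by (clear * - hs hc0; field_simp)
          _ ≤ _ := by (clear * - hj2; gcongr)
      rw [e1, e2, norm_smul, norm_smul, Real.norm_of_nonneg hsc0.le]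
      have h8 : ‖z‖ = s * c * ‖q - y₀ + v‖ := by
        rw [hz2, norm_smul, Real.norm_of_nonneg hsc0.le]
      rw [h8]
      have h9 : ‖(4 : ℝ) • g‖ ≤ 4 * ‖a - b‖ := by
        rw [norm_smul, Real.norm_of_nonneg (by norm_num : (0 : ℝ) ≤ 4)]; (clear * - hg1; gcongr)
      have h10 : 1 / 2 * (2 * ‖(4 : ℝ) • g‖ / K) ≤ 1 / 2 * (2 * (4 * ‖a - b‖) / K) := by (clear * - h9 hK; gcongr)
      have h11 : 1 / 2 * (2 * (4 * ‖a - b‖) / K) = 4 * ‖a - b‖ / K := by ring
      rw [h11] at h10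
      linarith only [h7, h10]
    have h12 : 4 * ‖a - b‖ / K = 2 * (2 * ‖a - b‖ / K) := by ring
    rw [h12] at h5
    linarith only [hsp, h5]

end one

section two

variable {E E' : Type*} [NormedAddCommGroup E] [NormedSpace ℝ E]
    [NormedAddCommGroup E'] [NormedSpace ℝ E']

/-- The one-sided inequality at typical points. -/
theorem ineq_typical (G : SphereEquiv E E') {a b p y₀ : E} (hp : ‖p‖ = 1) {s : ℝ}
    (hs : 3 / 4 ≤ s) (hab : ‖a‖ + ‖b‖ = 2 * s)
    (hκ : ‖a - b‖ ≤ s) (hy₀ : ‖y₀‖ = 1) {δ : ℝ} (hδ : 0 < δ) (hδ1 : δ ≤ 1)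
    (hmid : ‖(2 * s)⁻¹ • (a + b) + y₀‖ ≤ 2 - 2 * δ) {K : ℕ} (hK : 0 < K)
    (hρ : 4 * K * ‖a - b‖ ≤ δ / 3) :
    ∃ y : E, ‖y‖ = 1 ∧ ‖y - y₀‖ ≤ 4 * (4 * K * ‖a - b‖) / δ ∧
      dd (G p - G y) (G a + G b - (2 : ℝ) • G p - (‖a‖ + ‖b‖ - 2) • G y) +
        dd (p - y + (1 / 2 : ℝ) • (a + b - (2 : ℝ) • p - (‖a‖ + ‖b‖ - 2) • y))
          ((‖a‖ + ‖b‖ - 2) • y - (a + b - (2 : ℝ) • p)) ≤ 2 * ‖a - b‖ / K := by
  obtain ⟨y, hy, hyy, h⟩ := exists_typical hs hab hκ hy₀ hδ hδ1 hmid hK hρ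
  refine ⟨y, hy, hyy, ?_⟩
  have hs0 : 0 < s := by linarith only [hs]
  set t := ‖a‖ + ‖b‖ - 2 with ht
  have hst : s = 1 + t / 2 := by rw [ht, hab]; ring
  set ω := a + b - (2 : ℝ) • p with hω
  set ω' := G a + G b - (2 : ℝ) • G p with hω'
  have e1 : s • ((2 * s)⁻¹ • (a + b) - y) = p - y + (1 / 2 : ℝ) • (ω - t • y) := by
    rw [smul_sub, smul_smul]
    have h1 : s * (2 * s)⁻¹ = 1 / 2 := by field_simp
    rw [h1, hω, hst]
    module
  rw [e1] at h
  set z := p - y + (1 / 2 : ℝ) • (ω - t • y) with hz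
  -- first derivative term
  have h1 : ‖p - y‖ ≥ ‖z‖ + 1 / 2 * dd z (t • y - ω) := by
    have h2 := dd_mul_le z (t • y - ω) (t := 1 / 2) (by norm_num)
    have e2 : z + (1 / 2 : ℝ) • (t • y - ω) = p - y := by rw [hz]; module
    rw [e2] at h2
    linarith only [h2]
  have h2 : 2 * ‖G p - G y‖ + dd (G p - G y) (ω' - t • G y) ≤
      ‖G a - ‖a‖ • G y‖ + ‖G b - ‖b‖ • G y‖ := by
    have h3 := dd_le_sub ((2 : ℝ) • (G p - G y)) (ω' - t • G y)
    rw [dd_smul_left _ _ two_pos, norm_smul, Real.norm_of_nonneg (by norm_num : (0 : ℝ) ≤ 2)] at h3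
    have e3 : (2 : ℝ) • (G p - G y) + (ω' - t • G y) = (G a - ‖a‖ • G y) + (G b - ‖b‖ • G y) := by
      rw [hω', ht]; module
    rw [e3] at h3
    have h4 := norm_add_le (G a - ‖a‖ • G y) (G b - ‖b‖ • G y)
    linarith only [h3, h4]
  rw [dist_smul_map G a y hy, dist_smul_map G b y hy, G.iso_map hp hy] at h2
  linarith only [h, h1, h2]

end two

end Vale.Agent.P084.UC
end

/- UCLimit -/
section
/-!
# The limit in the ultrapower
-/

open Set Filter Topology Metric

namespace Vale.Agent.P084.UC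

open BadPoint

section one

variable {E : Type*} [NormedAddCommGroup E] [NormedSpace ℝ E]

/-- lower semicontinuity of one-sided derivatives at points of differentiability -/
theorem ultra_dd_lower {Z W : ℕ → E} (hZ : Bdd Z) (hW : Bdd W) (hd : Dir (cls Z) (cls W))
    {ε : ℝ} (hε : 0 < ε) :
    ∀ᶠ n in (UF : Filter ℕ), dd (cls Z) (cls W) - ε ≤ dd (Z n) (W n) := by
  have h1 : ∀ᶠ s in 𝓝[>] (0 : ℝ), (‖cls Z + s • (-cls W)‖ - ‖cls Z‖) / s <
      dd (cls Z) (-cls W) + ε / 2 :=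
    (tendsto_dd (cls Z) (-cls W)).eventually (gt_mem_nhds (by linarith))
  obtain ⟨s, hs1, hs⟩ := (h1.and self_mem_nhdsWithin).exists
  replace hs : 0 < s := hs
  have e1 : cls Z + s • (-cls W) = cls (fun n => Z n - s • W n) := by
    rw [cls_sub hZ ((bdd_const s).smul hW), cls_smul_const s hW, smul_neg, sub_eq_add_neg]
  rw [e1] at hs1
  have h2 : Tendsto (fun n => (‖Z n - s • W n‖ - ‖Z n‖) / s) UF
      (𝓝 ((‖cls (fun n => Z n - s • W n)‖ - ‖cls Z‖) / s)) :=
    ((tendsto_norm_cls (hZ.sub ((bdd_const s).smul hW))).sub (tendsto_norm_cls hZ)).div_const s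
  have h3 := h2.eventually (gt_mem_nhds (show (‖cls (fun n => Z n - s • W n)‖ - ‖cls Z‖) / s <
    dd (cls Z) (-cls W) + ε by linarith only [hs1, hε]))
  filter_upwards [h3] with n hn
  have h4 := dd_le_div (Z n) (-W n) hs
  rw [smul_neg, ← sub_eq_add_neg] at h4
  have h5 := dd_neg_add_nonneg (Z n) (W n)
  rw [hd.neg_eq] at hn
  linarith only [hn, h4, h5]

end one


end Vale.Agent.P084.UC
end

/- GenLimit -/
section
/-!
# The limit in the ultrapower, without convexity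
-/

open Set Filter Topology Metric

namespace Vale.Agent.P084.Gen

open BadPoint UC

section two

variable {E E' : Type*} [NormedAddCommGroup E] [NormedSpace ℝ E]
    [NormedAddCommGroup E'] [NormedSpace ℝ E']

theorem ultra_ineq (G : SphereEquiv E E')
    {p a b w : ℕ → E} {w' : ℕ → E'} {m t : ℕ → ℝ} {K : ℕ → ℕ} {τ : ℝ}
    (hp : ∀ n, ‖p n‖ = 1) (hm : ∀ n, 0 < m n) (hK : ∀ n, 0 < K n)
    (hm0 : Tendsto m UF (𝓝 0))
    (ha : Tendsto (fun n => ‖a n - p n‖) UF (𝓝 0)) (hb : Tendsto (fun n => ‖b n - p n‖) UF (𝓝 0))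
    (hw : ∀ n, a n + b n - (2 : ℝ) • p n = m n • w n) (hwb : Bdd w)
    (hw' : ∀ n, G (a n) + G (b n) - (2 : ℝ) • G (p n) = m n • w' n) (hwb' : Bdd w')
    (ht : ∀ n, ‖a n‖ + ‖b n‖ - 2 = m n * t n) (htb : Bdd t) (hτ : Tendsto t UF (𝓝 τ))
    (hK1 : Tendsto (fun n => K n * ‖a n - b n‖) UF (𝓝 0))
    (hK2 : Tendsto (fun n => 2 * ‖a n - b n‖ / K n / m n) UF (𝓝 0))
    {y : Ultra E} (hy : ‖y‖ = 1) (h2 : ‖cls p + y‖ < 2)
    (hd : Dir (cls p - y) (τ • y - cls w))
    (hd' : Dir (ultraEquiv G (cls p) - ultraEquiv G y) (cls w' - τ • ultraEquiv G y)) :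
    dd (ultraEquiv G (cls p) - ultraEquiv G y) (cls w' - τ • ultraEquiv G y) +
      dd (cls p - y) (τ • y - cls w) ≤ 0 := by
  obtain ⟨y0, hy0, rfl⟩ := exists_rep_unit hy
  have bp : Bdd p := ⟨1, fun n => (hp n).le⟩
  have by0 : Bdd y0 := ⟨1, fun n => (hy0 n).le⟩
  have hnp : ‖cls p‖ = 1 := norm_cls_eq hp
  have h3 := tendsto_norm_cls (bp.add by0)
  rw [cls_add bp by0] at h3
  obtain ⟨δ, hδ, hδ1, hδ2⟩ : ∃ δ : ℝ, 0 < δ ∧ δ ≤ 1 ∧ ‖cls p + cls y0‖ < 2 - 3 * δ := by
    refine ⟨(2 - ‖cls p + cls y0‖) / 4, by linarith, ?_, by linarith only [h2]⟩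
    have := norm_nonneg (cls p + cls y0)
    linarith only [this]
  have h4 := h3.eventually (gt_mem_nhds hδ2)
  -- the numbers s
  set s : ℕ → ℝ := fun n => (‖a n‖ + ‖b n‖) / 2 with hs
  have hs1 : Tendsto s UF (𝓝 1) := by
    have h5 : ∀ n, |s n - 1| ≤ (‖a n - p n‖ + ‖b n - p n‖) / 2 := by
      intro n
      have h6 := abs_norm_sub_norm_le (a n) (p n)
      have h7 := abs_norm_sub_norm_le (b n) (p n)
      rw [hp n, abs_le] at h6 h7
      simp only [hs]
      rw [abs_le]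
      constructor <;> linarith only [h6, h7]
    rw [tendsto_iff_norm_sub_tendsto_zero]
    have h6 : Tendsto (fun n => (‖a n - p n‖ + ‖b n - p n‖) / 2) UF (𝓝 0) := by
      simpa only [add_zero, zero_div] using (ha.add hb).div_const 2
    exact squeeze_zero (fun n => norm_nonneg _) (fun n => h5 n) h6
  have hs34 : ∀ᶠ n in (UF : Filter ℕ), 3 / 4 < s n := hs1.eventually (lt_mem_nhds (by norm_num))
  -- the centres
  have hcen : Tendsto (fun n => ‖(2 * s n)⁻¹ • (a n + b n) - p n‖) UF (𝓝 0) := by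
    have h5 : Tendsto (fun n => 2 * (‖a n - p n‖ + ‖b n - p n‖) + |(s n)⁻¹ - 1|) UF (𝓝 0) := by
      have h6 : Tendsto (fun n => |(s n)⁻¹ - 1|) UF (𝓝 0) := by
        have := ((hs1.inv₀ one_ne_zero).sub_const 1).abs
        simpa only [inv_one, sub_self, abs_zero] using this
      simpa using ((ha.add hb).const_mul 2).add h6
    refine squeeze_zero' (Eventually.of_forall fun n => norm_nonneg _) ?_ h5
    filter_upwards [hs34] with n hn
    have hsn : 0 < s n := by linarith only [hn]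
    have e : (2 * s n)⁻¹ • (a n + b n) - p n = (2 * s n)⁻¹ • ((a n - p n) + (b n - p n)) +
        ((s n)⁻¹ - 1) • p n := by
      have : (s n)⁻¹ = 2 * (2 * s n)⁻¹ := by (clear * - hn; field_simp)
      rw [this]; module
    rw [e]
    refine (norm_add_le _ _).trans ?_
    rw [norm_smul, norm_smul, hp n, mul_one, Real.norm_of_nonneg (by (clear * - hn; positivity)),
      Real.norm_eq_abs]
    gcongr
    · rw [inv_le_comm₀ (by (clear * - hn; positivity)) (by norm_num)]; linarith only [hn]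
    · exact norm_add_le _ _
  have h5 : ∀ᶠ n in (UF : Filter ℕ), ‖(2 * s n)⁻¹ • (a n + b n) + y0 n‖ ≤ 2 - 2 * δ := by
    filter_upwards [h4, hcen.eventually (gt_mem_nhds hδ)] with n h1 h2
    have e : (2 * s n)⁻¹ • (a n + b n) + y0 n = (p n + y0 n) +
        ((2 * s n)⁻¹ • (a n + b n) - p n) := by abel
    rw [e]
    refine (norm_add_le _ _).trans ?_
    linarith only [h1, h2]
  have h6 : Tendsto (fun n => ‖a n - b n‖) UF (𝓝 0) := by
    have h7 : Tendsto (fun n => ‖a n - p n‖ + ‖b n - p n‖) UF (𝓝 0) := by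
      simpa only [add_zero] using ha.add hb
    refine squeeze_zero (fun n => norm_nonneg _) (fun n => ?_) h7
    have e : a n - b n = (a n - p n) - (b n - p n) := by abel
    rw [e]
    exact norm_sub_le _ _
  have h7 : ∀ᶠ n in (UF : Filter ℕ), ‖a n - b n‖ < 3 / 4 :=
    h6.eventually (gt_mem_nhds (by norm_num))
  have h8 : ∀ᶠ n in (UF : Filter ℕ), (K n : ℝ) * ‖a n - b n‖ < δ / 12 :=
    hK1.eventually (gt_mem_nhds (by (clear * - hδ; positivity)))
  -- typical points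
  let P : ℕ → E → Prop := fun n y => ‖y‖ = 1 ∧ ‖y - y0 n‖ ≤ 4 * (4 * K n * ‖a n - b n‖) / δ ∧
      dd (G (p n) - G y) (G (a n) + G (b n) - (2 : ℝ) • G (p n) - (‖a n‖ + ‖b n‖ - 2) • G y) +
        dd (p n - y + (1 / 2 : ℝ) • (a n + b n - (2 : ℝ) • p n - (‖a n‖ + ‖b n‖ - 2) • y))
          ((‖a n‖ + ‖b n‖ - 2) • y - (a n + b n - (2 : ℝ) • p n)) ≤ 2 * ‖a n - b n‖ / K n
  have h9 : ∀ᶠ n in (UF : Filter ℕ), ∃ y, P n y := by
    filter_upwards [hs34, h5, h7, h8] with n h1 h2 h3 h4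
    refine ineq_typical G (hp n) h1.le (by simp only [hs]; ring) (h3.le.trans h1.le) (hy0 n) hδ hδ1
      h2 (hK n) ?_
    linarith only [h4]
  classical
  let yy : ℕ → E := fun n => if h : ∃ y, P n y then h.choose else y0 n
  have hyy : ∀ᶠ n in (UF : Filter ℕ), P n (yy n) := by
    filter_upwards [h9] with n hn
    simp only [yy, dif_pos hn]
    exact hn.choose_spec
  have hyn : ∀ n, ‖yy n‖ = 1 := by
    intro n
    simp only [yy]
    split_ifs with h
    · exact h.choose_spec.1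
    · exact hy0 n
  have byy : Bdd yy := ⟨1, fun n => (hyn n).le⟩
  have hcls : cls yy = cls y0 := by
    rw [cls_eq_cls_iff byy by0]
    have h10 : Tendsto (fun n => 4 * (4 * K n * ‖a n - b n‖) / δ) UF (𝓝 0) := by
      have := (hK1.const_mul 16).div_const δ
      simp only [mul_zero, zero_div] at this
      refine this.congr fun n => ?_
      ring
    refine squeeze_zero' (Eventually.of_forall fun n => norm_nonneg _) ?_ h10
    filter_upwards [hyy] with n hn
    exact hn.2.1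
  rw [← hcls] at hd hd' ⊢
  have bGp := bp.map G
  have bGy := byy.map G
  rw [ultraEquiv_cls G bp, ultraEquiv_cls G byy] at hd' ⊢
  -- the sequences
  set Z' : ℕ → E' := fun n => G (p n) - G (yy n) with hZ'
  set W' : ℕ → E' := fun n => w' n - t n • G (yy n) with hW'
  set Z : ℕ → E := fun n => p n - yy n + (m n * (1 / 2)) • (w n - t n • yy n) with hZ
  set W : ℕ → E := fun n => t n • yy n - w n with hW
  have bZ' : Bdd Z' := bGp.sub bGy
  have bW' : Bdd W' := hwb'.sub (htb.smul bGy)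
  have bW : Bdd W := (htb.smul byy).sub hwb
  have cW' : cls W' = cls w' - τ • cls (fun n => G (yy n)) := by
    rw [hW', cls_sub hwb' (htb.smul bGy), cls_smul htb bGy hτ]
  have cW : cls W = τ • cls yy - cls w := by
    rw [hW, cls_sub (htb.smul byy) hwb, cls_smul htb byy hτ]
  have cZ' : cls Z' = cls (fun n => G (p n)) - cls (fun n => G (yy n)) := cls_sub bGp bGy
  have bm : ∀ᶠ n in (UF : Filter ℕ), m n < 1 := hm0.eventually (gt_mem_nhds one_pos)
  -- replace `m` by a bounded sequence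
  set m' : ℕ → ℝ := fun n => min (m n) 1 with hm'
  have bm' : Bdd m' := ⟨1, fun n => by
    rw [Real.norm_of_nonneg (le_min (hm n).le zero_le_one)]; exact min_le_right _ _⟩
  have hm'0 : Tendsto (fun n => m' n * (1 / 2)) UF (𝓝 0) := by
    have h10 : Tendsto m' UF (𝓝 0) := by
      refine hm0.congr' ?_
      filter_upwards [bm] with n hn
      simp only [hm']
      rw [min_eq_left hn.le]
    have h11 := h10.mul_const (1 / 2)
    rwa [zero_mul] at h11
  have bm'2 : Bdd (fun n => m' n * (1 / 2)) := ⟨1, fun n => by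
    have h0 : 0 ≤ m' n := le_min (hm n).le zero_le_one
    have h1 : m' n ≤ 1 := min_le_right _ _
    rw [Real.norm_of_nonneg (by (clear * - h0; positivity))]; linarith only [h1]⟩
  set Z1 : ℕ → E := fun n => p n - yy n + (m' n * (1 / 2)) • (w n - t n • yy n) with hZ1
  have bR : Bdd (fun n => w n - t n • yy n) := hwb.sub (htb.smul byy)
  have bZ1 : Bdd Z1 := (bp.sub byy).add (bm'2.smul bR)
  have cZ1 : cls Z1 = cls p - cls yy := by
    rw [hZ1, cls_add (bp.sub byy) (bm'2.smul bR), cls_sub bp byy, cls_smul bm'2 bR hm'0, zero_smul,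
      add_zero]
  rw [← cW, ← cZ1] at hd ⊢
  rw [← cW', ← cZ'] at hd' ⊢
  apply le_of_forall_pos_le_add
  intro ε hε
  have l1 := ultra_dd_lower bZ' bW' hd' (show 0 < ε / 3 by (clear * - hε; positivity))
  have l2 := ultra_dd_lower bZ1 bW hd (show 0 < ε / 3 by (clear * - hε; positivity))
  have l3 := hK2.eventually (gt_mem_nhds (show 0 < ε / 3 by (clear * - hε; positivity)))
  obtain ⟨n, ⟨⟨⟨l1, l2⟩, l3⟩, l4⟩, l5⟩ := ((((l1.and l2).and l3).and hyy).and bm).exists
  have l6 := l4.2.2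
  rw [hw' n, hw n, ht n] at l6
  have e1 : m n • w' n - (m n * t n) • G (yy n) = m n • W' n := by
    simp only [hW']; module
  have e2 : (m n * t n) • yy n - m n • w n = m n • W n := by
    simp only [hW]; module
  have e3 : p n - yy n + (1 / 2 : ℝ) • (m n • w n - (m n * t n) • yy n) = Z1 n := by
    simp only [hZ1, hm']
    rw [min_eq_left l5.le]; module
  rw [e1, e2, e3, BadPoint.dd_smul _ _ (hm n), BadPoint.dd_smul _ _ (hm n), ← mul_add] at l6
  have l7 : dd (Z' n) (W' n) + dd (Z1 n) (W n) ≤ 2 * ‖a n - b n‖ / K n / m n := by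
    rw [le_div_iff₀ (hm n), mul_comm]; exact l6
  linarith only [l3, l1, l2, l7]

end two

section three

variable {X Y : Type*} [NormedAddCommGroup X] [NormedSpace ℝ X]
    [NormedAddCommGroup Y] [NormedSpace ℝ Y]

theorem ultra_identity (F : SphereEquiv X Y)
    {q h : ℕ → X} {m t : ℕ → ℝ} {w : ℕ → Y} {K : ℕ → ℕ} {τ : ℝ}
    (hq : ∀ n, ‖q n‖ = 1) (hm : ∀ n, 0 < m n) (hK : ∀ n, 0 < K n)
    (hm0 : Tendsto m UF (𝓝 0)) (hh : Tendsto (fun n => ‖h n‖) UF (𝓝 0))
    (hw : ∀ n, F (q n + h n) + F (q n - h n) - (2 : ℝ) • F (q n) = m n • w n) (hwb : Bdd w)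
    (ht : ∀ n, ‖q n + h n‖ + ‖q n - h n‖ - 2 = m n * t n) (htb : Bdd t) (hτ : Tendsto t UF (𝓝 τ))
    (hK1 : Tendsto (fun n => K n * ‖h n‖) UF (𝓝 0))
    (hK2 : Tendsto (fun n => ‖h n‖ / K n / m n) UF (𝓝 0))
    {y : Ultra X} (hy : ‖y‖ = 1) (hΩ : ‖cls q + y‖ < 2)
    (hΩ' : ‖ultraEquiv F (cls q) + ultraEquiv F y‖ < 2) (hd : Dir (cls q - y) (cls q))
    (hd' : Dir (ultraEquiv F (cls q) - ultraEquiv F y) (cls w - τ • ultraEquiv F (cls q))) :
    dd (ultraEquiv F (cls q) - ultraEquiv F y) (cls w - τ • ultraEquiv F (cls q)) =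
      -τ * dd (cls q - y) (cls q) := by
  have bq : Bdd q := ⟨1, fun n => (hq n).le⟩
  have b0 : Bdd (fun _ : ℕ => (0 : X)) := bdd_const 0
  have c0 : cls (fun _ : ℕ => (0 : X)) = 0 := by
    rw [← norm_eq_zero]; exact norm_cls_eq fun _ => norm_zero
  set Q := ultraEquiv F (cls q) with hQ
  set Yy := ultraEquiv F y with hYy
  set d := dd (cls q - y) (cls q) with hdd
  -- X side
  have dy : Dir (cls q - y) y := by
    have := hd.sub (dir_self (cls q - y))
    rwa [sub_sub_cancel] at this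
  have dyv : dd (cls q - y) y = d - ‖cls q - y‖ := by
    have := hd.dd_sub (dir_self (cls q - y))
    rw [sub_sub_cancel, dd_self] at this
    exact this
  have nQ : ‖Q - Yy‖ = ‖cls q - y‖ := (ultraEquiv F).iso_map (norm_cls_eq hq) hy
  have dY : Dir (Q - Yy) (cls w - τ • Yy) := by
    have := hd'.add ((dir_self (Q - Yy)).smul τ)
    have e : cls w - τ • Q + τ • (Q - Yy) = cls w - τ • Yy := by module
    rwa [e] at this
  have dYv : dd (Q - Yy) (cls w - τ • Yy) = dd (Q - Yy) (cls w - τ • Q) + τ * ‖cls q - y‖ := by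
    have := hd'.dd_add (τ • (Q - Yy))
    have e : cls w - τ • Q + τ • (Q - Yy) = cls w - τ • Yy := by module
    rw [e, (dir_self (Q - Yy)).dd_smul, dd_self, nQ] at this
    exact this
  -- estimates for the sequences
  have hh6 : Tendsto (fun n => 3 * ‖h n‖) UF (𝓝 0) := by simpa only [mul_zero] using hh.const_mul 3
  have lip : ∀ u v : X, ‖F u - F v‖ ≤ 3 * ‖u - v‖ := by
    intro u v
    have := F.lipschitz.dist_le_mul u v
    rwa [dist_eq_norm, dist_eq_norm] at this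
  have key1 := ultra_ineq F (p := q) (a := fun n => q n + h n) (b := fun n => q n - h n)
    (w := fun _ => 0) (w' := w) (m := m) (t := t) (K := K) (τ := τ) hq hm hK hm0
    (by simpa only [add_sub_cancel_left] using hh) (by simpa only [sub_sub_cancel_left, norm_neg] using hh)
    (fun n => by module)
    b0 hw hwb ht htb hτ
    (by
      have : Tendsto (fun n => 2 * (K n * ‖h n‖)) UF (𝓝 0) := by simpa only [mul_zero] using hK1.const_mul 2
      refine this.congr fun n => ?_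
      have e : q n + h n - (q n - h n) = (2 : ℝ) • h n := by module
      rw [e, norm_smul, Real.norm_of_nonneg (by norm_num : (0 : ℝ) ≤ 2)]; ring)
    (by
      have : Tendsto (fun n => 4 * (‖h n‖ / K n / m n)) UF (𝓝 0) := by simpa only [mul_zero] using hK2.const_mul 4
      refine this.congr fun n => ?_
      have e : q n + h n - (q n - h n) = (2 : ℝ) • h n := by module
      rw [e, norm_smul, Real.norm_of_nonneg (by norm_num : (0 : ℝ) ≤ 2)]; ring)
    hy hΩ (by rw [c0, sub_zero]; exact dy.smul τ) dY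
  rw [c0, sub_zero, dy.dd_smul, dyv, ← hQ, ← hYy, dYv] at key1
  -- Y side
  have hsymQ : (ultraEquiv F).symm Q = cls q := (ultraEquiv F).symm_apply _
  have hsymY : (ultraEquiv F).symm Yy = y := (ultraEquiv F).symm_apply _
  have hQc : Q = cls (fun n => F (q n)) := ultraEquiv_cls F bq
  have hsym : ∀ u : Ultra Y, ultraEquiv F.symm u = (ultraEquiv F).symm u := fun u => rfl
  have hYn : ‖Yy‖ = 1 := by rw [hYy, (ultraEquiv F).norm_map, hy]
  have hYne : ‖cls (fun n => F (q n)) + Yy‖ < 2 := by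
    rw [← hQc]
    exact hΩ'
  have key2 := ultra_ineq F.symm (p := fun n => F (q n)) (a := fun n => F (q n + h n))
    (b := fun n => F (q n - h n))
    (w := w) (w' := fun _ => 0) (m := m) (t := t) (K := K) (τ := τ)
    (fun n => by rw [F.norm_map, hq n]) hm hK hm0
    (squeeze_zero (fun n => norm_nonneg _) (fun n => by
      refine (lip _ _).trans ?_
      rw [add_sub_cancel_left]) hh6)
    (squeeze_zero (fun n => norm_nonneg _) (fun n => by
      refine (lip _ _).trans ?_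
      rw [sub_sub_cancel_left, norm_neg]) hh6)
    hw hwb
    (fun n => by rw [F.symm_apply, F.symm_apply, F.symm_apply]; module)
    (bdd_const 0) (fun n => by rw [F.norm_map, F.norm_map]; exact ht n) htb hτ
    (by
      have : Tendsto (fun n => 6 * (K n * ‖h n‖)) UF (𝓝 0) := by simpa using hK1.const_mul 6
      refine squeeze_zero (fun n => by (clear * -; positivity)) (fun n => ?_) this
      have e : q n + h n - (q n - h n) = (2 : ℝ) • h n := by module
      have h1 := lip (q n + h n) (q n - h n)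
      rw [e, norm_smul, Real.norm_of_nonneg (by norm_num : (0 : ℝ) ≤ 2)] at h1
      calc (K n : ℝ) * ‖F (q n + h n) - F (q n - h n)‖ ≤ K n * (3 * (2 * ‖h n‖)) := by (clear * - h1; gcongr)
        _ = _ := by ring)
    (by
      have : Tendsto (fun n => 12 * (‖h n‖ / K n / m n)) UF (𝓝 0) := by
        simpa only [mul_zero] using hK2.const_mul 12
      refine squeeze_zero (fun n => by have := hm n; (clear * - this; positivity)) (fun n => ?_) this
      have e : q n + h n - (q n - h n) = (2 : ℝ) • h n := by module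
      have h1 := lip (q n + h n) (q n - h n)
      rw [e, norm_smul, Real.norm_of_nonneg (by norm_num : (0 : ℝ) ≤ 2)] at h1
      have hmn := hm n
      calc 2 * ‖F (q n + h n) - F (q n - h n)‖ / K n / m n ≤ 2 * (3 * (2 * ‖h n‖)) / K n / m n := by
            (clear * - h1 hmn; gcongr)
        _ = _ := by ring)
    (y := Yy) hYn hYne
    (by
      rw [← hQc]
      have := dY.neg
      have e : -(cls w - τ • Yy) = τ • Yy - cls w := by abel
      rwa [e] at this)
    (by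
      rw [← hQc, hsym, hsym, hsymQ, hsymY, c0, zero_sub]
      exact (dy.smul τ).neg)
  rw [← hQc, hsym, hsym, hsymQ, hsymY, c0, zero_sub, (dy.smul τ).neg_eq, dy.dd_smul, dyv] at key2
  have e : τ • Yy - cls w = -(cls w - τ • Yy) := by abel
  rw [e, dY.neg_eq, dYv] at key2
  linarith only [key2, key1]

end three

end Vale.Agent.P084.Gen
end

/- BadPointRigid -/
section
/-!
Rigidity: a surjective isometry of the unit sphere of a finite-dimensional space of dimension at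
least two, which is the identity on a nonempty open subset, is the identity.
-/

namespace Vale.Agent.P084.BadPoint

open MeasureTheory Set Filter Topology Metric

section

variable {X Y : Type*} [NormedAddCommGroup X] [NormedSpace ℝ X]
    [NormedAddCommGroup Y] [NormedSpace ℝ Y]

theorem dd_pos_of_region {u x : X} (hu : ‖u‖ = 1) (h : ‖u + x‖ < 2) : 0 < dd u (u - x) := by
  have h1 := (mem_Vc_iff hu _).1 (sub_mem_Vc h)
  have h2 := dd_add_le u (u - x) (-(u - x))
  rw [add_neg_cancel, dd_zero] at h2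
  linarith

/-- The composition of a sphere equivalence with a linear isometry. -/
def SphereEquiv.compIso (F : SphereEquiv X Y) (R : X ≃ₗᵢ[ℝ] Y) : SphereEquiv X X where
  fn := fun x => R.symm (F x)
  inv := fun x => F.inv (R x)
  inv_fn := fun x => by rw [R.apply_symm_apply, F.inv_fn]
  fn_inv := fun x => by rw [F.fn_inv, R.symm_apply_apply]
  norm_fn := fun x => by rw [R.symm.norm_map, F.norm_map]
  fn_smul := fun c hc x => by rw [F.smul_map hc, map_smul]
  fn_iso := fun x y hx hy => by rw [← map_sub, R.symm.norm_map, F.iso_map hx hy]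

end

end Vale.Agent.P084.BadPoint
end

/- GenRig -/
section
/-!
# Rigidity of isometries of the sphere of a Banach space which are tangentially trivial at a point
-/

open Set Filter Topology Metric

namespace Vale.Agent.P084.Gen

open BadPoint UC

noncomputable section ultraseq

variable {X Y : Type*} [NormedAddCommGroup X] [NormedSpace ℝ X]
    [NormedAddCommGroup Y] [NormedSpace ℝ Y]

theorem bdd_mapS (F : ℕ → SphereEquiv X Y) {x : ℕ → X} (hx : Bdd x) :
    Bdd (fun n => F n (x n)) := by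
  obtain ⟨C, hC⟩ := hx
  exact ⟨C, fun n => by rw [(F n).norm_map]; exact hC n⟩

/-- the ultraproduct of a sequence of maps -/
def ultraMapS (F : ℕ → SphereEquiv X Y) (u : Ultra X) : Ultra Y := cls (fun n => F n (rep u n))

theorem ultraMapS_cls (F : ℕ → SphereEquiv X Y) {x : ℕ → X} (hx : Bdd x) :
    ultraMapS F (cls x) = cls (fun n => F n (x n)) := by
  rw [ultraMapS, cls_eq_cls_iff (bdd_mapS F (bdd_rep _)) (bdd_mapS F hx)]
  have h1 : Tendsto (fun n => ‖rep (cls x) n - x n‖) UF (𝓝 0) := by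
    rw [← cls_eq_cls_iff (bdd_rep _) hx, cls_rep]
  have h2 : Tendsto (fun n => 3 * ‖rep (cls x) n - x n‖) UF (𝓝 0) := by
    simpa only [mul_zero] using h1.const_mul 3
  refine squeeze_zero (fun n => norm_nonneg _) (fun n => ?_) h2
  have := (F n).lipschitz.dist_le_mul (rep (cls x) n) (x n)
  rwa [dist_eq_norm, dist_eq_norm] at this

/-- The ultraproduct of a sequence of sphere equivalences. -/
def ultraEquivS (F : ℕ → SphereEquiv X Y) : SphereEquiv (Ultra X) (Ultra Y) where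
  fn := ultraMapS F
  inv := ultraMapS (fun n => (F n).symm)
  inv_fn := fun u => by
    have h : ultraMapS (fun n => (F n).symm) (cls (fun n => F n (rep u n))) = u := by
      rw [ultraMapS_cls (fun n => (F n).symm) (bdd_mapS F (bdd_rep u))]
      simp only [SphereEquiv.symm_apply]
      exact cls_rep u
    exact h
  fn_inv := fun u => by
    have h : ultraMapS F (cls (fun n => (F n).symm (rep u n))) = u := by
      rw [ultraMapS_cls F (bdd_mapS (fun n => (F n).symm) (bdd_rep u))]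
      simp only [SphereEquiv.apply_symm]
      exact cls_rep u
    exact h
  norm_fn := fun u => by
    have h1 := tendsto_norm_cls (bdd_mapS F (bdd_rep u))
    have h2 := tendsto_norm_cls (bdd_rep u)
    simp only [SphereEquiv.norm_map] at h1
    rw [cls_rep] at h2
    exact tendsto_nhds_unique h1 h2
  fn_smul := fun c hc u => by
    conv_lhs => rw [← cls_rep u, ← cls_smul_const c (bdd_rep u),
      ultraMapS_cls F ((bdd_const c).smul (bdd_rep u))]
    simp only [(F _).smul_map hc]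
    exact cls_smul_const c (bdd_mapS F (bdd_rep u))
  fn_iso := fun u v hu hv => by
    obtain ⟨x, hx, rfl⟩ := exists_rep_unit hu
    obtain ⟨y, hy, rfl⟩ := exists_rep_unit hv
    have bx : Bdd x := ⟨1, fun n => (hx n).le⟩
    have by' : Bdd y := ⟨1, fun n => (hy n).le⟩
    rw [ultraMapS_cls F bx, ultraMapS_cls F by', ← cls_sub bx by',
      ← cls_sub (bdd_mapS F bx) (bdd_mapS F by')]
    have h1 := tendsto_norm_cls (bx.sub by')
    have h2 := tendsto_norm_cls ((bdd_mapS F bx).sub (bdd_mapS F by'))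
    refine tendsto_nhds_unique h2 (h1.congr fun n => ?_)
    rw [(F n).iso_map (hx n) (hy n)]

theorem ultraEquivS_cls (F : ℕ → SphereEquiv X Y) {x : ℕ → X} (hx : Bdd x) :
    ultraEquivS F (cls x) = cls (fun n => F n (x n)) := ultraMapS_cls F hx

end ultraseq

section rig

variable {X : Type*} [NormedAddCommGroup X] [NormedSpace ℝ X]

theorem dd_limit_of_dir {z w : ℕ → X} (bz : Bdd z) (bw : Bdd w) (hd : Dir (cls z) (cls w)) :
    Tendsto (fun k => dd (z k) (w k)) UF (𝓝 (dd (cls z) (cls w))) := by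
  obtain ⟨C, hC⟩ := bw
  have bw : Bdd w := ⟨C, hC⟩
  obtain ⟨l, -, hl⟩ := exists_lim (a := fun k => dd (z k) (w k)) (C := C)
    (fun k => (abs_dd_le _ _).trans (hC k))
  have h1 : l ≤ dd (cls z) (cls w) :=
    le_dd_cls bz bw hl fun t ht => Eventually.of_forall fun k => dd_le_div _ _ ht
  have e : -cls w = cls (fun k => - w k) := by
    have := cls_smul_const (-1 : ℝ) bw
    simp only [neg_smul, one_smul] at this
    exact this.symm
  have h2 : -l ≤ dd (cls z) (-cls w) := by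
    rw [e]
    refine le_dd_cls bz bw.neg hl.neg fun t ht => Eventually.of_forall fun k => ?_
    refine le_trans ?_ (dd_le_div (z k) (- w k) ht)
    linarith [dd_neg_add_nonneg (z k) (w k)]
  rw [hd.neg_eq] at h2
  have : l = dd (cls z) (cls w) := by linarith only [h2, h1]
  rwa [this] at hl

variable [CompleteSpace X]

/-- tangential triviality -/
def TT (G : SphereEquiv X X) (q : X) : Prop :=
  G q = q ∧ ∀ w, dd q w = 0 → Tendsto (fun t : ℝ => t⁻¹ • (G (curve q w t) - q)) (𝓝[>] 0) (𝓝 w)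

omit [CompleteSpace X] in
theorem TT.dd_eq {G : SphereEquiv X X} {q : X} (h : TT G q) (hq : ‖q‖ = 1) {w : X}
    (hw : dd q w = 0) {x : X} (hx : ‖x‖ = 1) : dd (q - G x) w = dd (q - x) w := by
  have h0 := h.2 w hw
  have h1 := dd_eq_of_curve (z := q - G x) h0
  have h2 := dd_eq_of_curve (z := q - x) (curve_tendsto hq hw)
  refine tendsto_nhds_unique h1 (h2.congr' ?_)
  filter_upwards [eventually_ne hq w] with t ht
  have e1 : q - G x + (G (curve q w t) - q) = G (curve q w t) - G x := by abel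
  have e2 : q - x + (curve q w t - q) = curve q w t - x := by abel
  have e3 : ‖q - G x‖ = ‖q - x‖ := by
    have := G.iso_map hq hx
    rwa [h.1] at this
  rw [e1, e2, G.iso_map (curve_norm ht) hx, e3]

omit [CompleteSpace X] in
theorem TT.dd_neg_eq {G : SphereEquiv X X} {q : X} (h : TT G q) (hq : ‖q‖ = 1) {x : X}
    (hx : ‖x‖ = 1) (hreg : ‖q + x‖ < 2) : dd (q - G x) (-q) = dd (q - x) (-q) := by
  have e3 : ‖q - G x‖ = ‖q - x‖ := by
    have := G.iso_map hq hx
    rwa [h.1] at this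
  have hreg' : ‖q + G x‖ < 2 := by
    have := (region_iff G hq hx).2 hreg
    rwa [h.1] at this
  have key : ∀ a b : X, ‖a‖ = ‖b‖ → 0 < dd q a → (∀ w, dd q w = 0 → dd a w = dd b w) →
      dd a (-q) ≤ dd b (-q) := by
    intro a b hab hα hw
    set α := dd q a with hαd
    have h1 : dd q (a + (-α) • q) = 0 := by
      rw [dd_add_smul_self hq, ← hαd]; ring
    have h2 := hw _ h1
    have e1 : (-α) • q = α • (-q) := by module
    rw [(dir_self a).dd_add, dd_self, e1, dd_smul a _ hα] at h2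
    have h3 := dd_add_le b a (α • (-q))
    rw [dd_smul b _ hα] at h3
    have h4 := dd_le_norm b a
    have h5 : α * dd a (-q) ≤ α * dd b (-q) := by linarith only [h2, h3, h4]
    exact le_of_mul_le_mul_left h5 hα
  apply le_antisymm
  · exact key _ _ e3 (dd_pos_of_region hq hreg') fun w hw => h.dd_eq hq hw hx
  · exact key _ _ e3.symm (dd_pos_of_region hq hreg) fun w hw => (h.dd_eq hq hw hx).symm

/-- Uniform local rigidity. -/
theorem rig_unif {ε : ℝ} (hε : 0 < ε) : ∃ δ > 0, ∀ (q : X) (G : SphereEquiv X X), ‖q‖ = 1 →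
    TT G q → ∀ y z : X, ‖y‖ = 1 → ‖z‖ = 1 → ‖y - q‖ < δ → ‖z - q‖ < δ →
      ‖G y - G z - (y - z)‖ ≤ ε * ‖y - z‖ := by
  by_contra hcon
  push Not at hcon
  have hch : ∀ n : ℕ, ∃ (q : X) (G : SphereEquiv X X), ‖q‖ = 1 ∧ TT G q ∧ ∃ y z : X, ‖y‖ = 1 ∧
      ‖z‖ = 1 ∧ ‖y - q‖ < 1 / ((n : ℝ) + 1) ∧ ‖z - q‖ < 1 / ((n : ℝ) + 1) ∧
      ε * ‖y - z‖ < ‖G y - G z - (y - z)‖ := fun n => hcon _ (by positivity)
  choose q G hq hG y z hy hz hyq hzq hbad using hch
  have bq : Bdd q := ⟨1, fun n => (hq n).le⟩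
  have by' : Bdd y := ⟨1, fun n => (hy n).le⟩
  have bz : Bdd z := ⟨1, fun n => (hz n).le⟩
  have hlim : Tendsto (fun n : ℕ => 1 / ((n : ℝ) + 1)) UF (𝓝 0) :=
    tendsto_one_div_add_atTop_nhds_zero_nat.mono_left UF_le
  have hyq' : cls y = cls q := by
    rw [cls_eq_cls_iff by' bq]
    exact squeeze_zero (fun n => norm_nonneg _) (fun n => (hyq n).le) hlim
  have hzq' : cls z = cls q := by
    rw [cls_eq_cls_iff bz bq]
    exact squeeze_zero (fun n => norm_nonneg _) (fun n => (hzq n).le) hlim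
  set t : ℕ → ℝ := fun n => ‖y n - z n‖ with ht
  have htpos : ∀ n, 0 < t n := by
    intro n
    rw [ht]; simp only
    rw [norm_pos_iff]
    intro h0
    have h1 := hbad n
    have h2 : y n = z n := sub_eq_zero.1 h0
    rw [h2] at h1
    simp at h1
  have ht0 : Tendsto t UF (𝓝 0) := by
    have := (cls_eq_cls_iff by' bz).1 (hyq'.trans hzq'.symm)
    exact this
  set e : ℕ → X := fun n => (t n)⁻¹ • (y n - z n) with he
  set e' : ℕ → X := fun n => (t n)⁻¹ • (G n (y n) - G n (z n)) with he'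
  have hen : ∀ n, ‖e n‖ = 1 := by
    intro n
    rw [he]; simp only
    rw [norm_smul, norm_inv, Real.norm_of_nonneg (htpos n).le]
    exact inv_mul_cancel₀ (htpos n).ne'
  have hen' : ∀ n, ‖e' n‖ = 1 := by
    intro n
    rw [he']; simp only
    rw [norm_smul, norm_inv, Real.norm_of_nonneg (htpos n).le, (G n).iso_map (hy n) (hz n)]
    exact inv_mul_cancel₀ (htpos n).ne'
  have be : Bdd e := ⟨1, fun n => (hen n).le⟩
  have be' : Bdd e' := ⟨1, fun n => (hen' n).le⟩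
  obtain ⟨α, -, hα⟩ := exists_lim (a := fun n => dd (q n) (e n)) (C := 1)
    (fun n => (abs_dd_le _ _).trans (hen n).le)
  have bα : Bdd (fun n => dd (q n) (e n)) := ⟨1, fun n => by
    rw [Real.norm_eq_abs]; exact (abs_dd_le _ _).trans (hen n).le⟩
  set w : ℕ → X := fun n => e n + (-(dd (q n) (e n))) • q n with hw
  have hwT : ∀ n, dd (q n) (w n) = 0 := by
    intro n
    rw [hw]; simp only
    rw [dd_add_smul_self (hq n)]; ring
  have bw : Bdd w := by
    have : Bdd (fun n => (dd (q n) (e n)) • q n) := bα.smul bq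
    have h2 := be.sub this
    refine Eq.mp ?_ h2
    congr 1
    ext n
    rw [hw]; simp only
    module
  have hwe : cls e = cls w + α • cls q := by
    rw [← cls_smul bα bq hα, ← cls_add bw (bα.smul bq)]
    congr 1
    ext n
    rw [hw]; simp only
    module
  set Gu : SphereEquiv (Ultra X) (Ultra X) := ultraEquivS G with hGu
  have hGq : Gu (cls q) = cls q := by
    rw [hGu, ultraEquivS_cls G bq]
    congr 1
    ext n
    exact (hG n).1
  have hqn : ‖cls q‖ = 1 := norm_cls_eq hq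
  -- the main claim
  have hfin : cls e' - cls e = 0 := by
    apply eq_zero_of_residual Gu hqn
    filter_upwards [residual_dir_id hqn (cls w), residual_dir_id hqn (cls q),
      residual_dir Gu hqn (cls w), residual_dir Gu hqn (cls q), residual_dir Gu hqn (cls e')]
      with x h1 h2 h3 h4 h5 hreg
    replace h1 := h1 hreg
    replace h2 := h2 hreg
    replace h3 := h3 hreg
    replace h4 := h4 hreg
    replace h5 := h5 hreg
    have hxn : ‖(x : Ultra X)‖ = 1 := norm_eq_of_mem_sphere x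
    obtain ⟨xs, hxs, hxc⟩ := exists_rep_unit hxn
    have bx : Bdd xs := ⟨1, fun n => (hxs n).le⟩
    rw [hGq] at h3 h4 h5 ⊢
    rw [← hxc] at h1 h2 h3 h4 h5 hreg ⊢
    have hGx : Gu (cls xs) = cls (fun n => G n (xs n)) := ultraEquivS_cls G bx
    have bGx : Bdd (fun n => G n (xs n)) := bdd_mapS G bx
    rw [hGx] at h3 h4 h5 ⊢
    have b1 : Bdd (fun n => q n - xs n) := bq.sub bx
    have b2 : Bdd (fun n => q n - G n (xs n)) := bq.sub bGx
    rw [← cls_sub bq bx] at h1 h2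
    rw [← cls_sub bq bGx] at h3 h4 h5 ⊢
    -- (1) agreement in direction w
    have e1 : dd (cls fun n => q n - xs n) (cls w) = dd (cls fun n => q n - G n (xs n)) (cls w) := by
      refine tendsto_nhds_unique (dd_limit_of_dir b1 bw h1) ?_
      refine (dd_limit_of_dir b2 bw h3).congr fun n => ?_
      exact (hG n).dd_eq (hq n) (hwT n) (hxs n)
    -- (2) agreement in direction q
    have en : -cls q = cls (fun n => - q n) := by
      have := cls_smul_const (-1 : ℝ) bq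
      simp only [neg_smul, one_smul] at this
      exact this.symm
    have e2 : dd (cls fun n => q n - xs n) (cls q) = dd (cls fun n => q n - G n (xs n)) (cls q) := by
      have h6 : dd (cls fun n => q n - xs n) (cls fun n => - q n) =
          dd (cls fun n => q n - G n (xs n)) (cls fun n => - q n) := by
        refine tendsto_nhds_unique (dd_limit_of_dir b1 bq.neg (by rw [← en]; exact h2.neg)) ?_
        refine (dd_limit_of_dir b2 bq.neg (by rw [← en]; exact h4.neg)).congr' ?_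
        have h7 := tendsto_norm_cls (bq.add bx)
        rw [cls_add bq bx] at h7
        filter_upwards [h7.eventually (gt_mem_nhds hreg)] with n hn
        exact (hG n).dd_neg_eq (hq n) (hxs n) hn
      rw [← en, h2.neg_eq, h4.neg_eq] at h6
      linarith only [h6]
    -- (3) slopes
    have hze : (cls fun n => z n - xs n) = cls fun n => q n - xs n := by
      rw [cls_sub bz bx, cls_sub bq bx, hzq']
    have hGze : (cls fun n => G n (z n) - G n (xs n)) = cls fun n => q n - G n (xs n) := by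
      rw [cls_sub (bdd_mapS G bz) bGx, cls_sub bq bGx, ← ultraEquivS_cls G bz, hzq', ← hGu, hGq]
    have hDe : Dir (cls fun n => q n - xs n) (cls e) := by
      rw [hwe]; exact h1.add (h2.smul α)
    have l1 := slope_eq_of_dir (bz.sub bx) be htpos ht0 (by rw [hze]; exact hDe)
    have l2 := slope_eq_of_dir ((bdd_mapS G bz).sub bGx) be' htpos ht0 (by rw [hGze]; exact h5)
    have e3 : dd (cls fun n => q n - G n (xs n)) (cls e') = dd (cls fun n => q n - xs n) (cls e) := by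
      rw [hze] at l1
      rw [hGze] at l2
      refine tendsto_nhds_unique l2 (l1.congr fun n => ?_)
      have f1 : z n - xs n + t n • e n = y n - xs n := by
        rw [he]; simp only
        rw [smul_smul, mul_inv_cancel₀ (htpos n).ne', one_smul]; abel
      have f2 : G n (z n) - G n (xs n) + t n • e' n = G n (y n) - G n (xs n) := by
        rw [he']; simp only
        rw [smul_smul, mul_inv_cancel₀ (htpos n).ne', one_smul]; abel
      rw [f1, f2, (G n).iso_map (hy n) (hxs n), (G n).iso_map (hz n) (hxs n)]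
    -- conclusion
    have hDe' : Dir (cls fun n => q n - G n (xs n)) (cls e) := by
      rw [hwe]; exact h3.add (h4.smul α)
    have e4 : dd (cls fun n => q n - G n (xs n)) (cls e) = dd (cls fun n => q n - xs n) (cls e) := by
      rw [hwe, h3.dd_add, h1.dd_add, h4.dd_smul, h2.dd_smul, e1, e2]
    have e5 := h5.dd_sub hDe'
    have e6 := h5.sub hDe'
    rw [e6.neg_eq, e5, e3, e4]
    simp
  have hfin2 := (cls_eq_cls_iff be' be).1 (sub_eq_zero.1 hfin)
  have hfin3 := ge_of_tendsto hfin2 (b := ε) (Eventually.of_forall fun n => by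
    have h1 := hbad n
    have h2 : G n (y n) - G n (z n) - (y n - z n) = t n • (e' n - e n) := by
      rw [he, he']; simp only
      rw [smul_sub, smul_smul, smul_smul, mul_inv_cancel₀ (htpos n).ne', one_smul, one_smul]
    rw [h2, norm_smul, Real.norm_of_nonneg (htpos n).le, mul_comm] at h1
    exact (lt_of_mul_lt_mul_left h1 (htpos n).le).le)
  linarith only [hε, hfin3]

/-- composition -/
def compSE (G H : SphereEquiv X X) : SphereEquiv X X where
  fn := fun x => G (H x)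
  inv := fun x => H.inv (G.inv x)
  inv_fn := fun x => by rw [G.inv_fn, H.inv_fn]
  fn_inv := fun x => by rw [H.fn_inv, G.fn_inv]
  norm_fn := fun x => by rw [G.norm_map, H.norm_map]
  fn_smul := fun c hc x => by rw [H.smul_map hc, G.smul_map hc]
  fn_iso := fun x y hx hy => by
    rw [G.iso_map (by rw [H.norm_map, hx]) (by rw [H.norm_map, hy]), H.iso_map hx hy]

omit [CompleteSpace X] in
theorem TT.comp {G H : SphereEquiv X X} {q : X} (hq : ‖q‖ = 1) (hG : TT G q) (hH : TT H q) :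
    TT (compSE G H) q := by
  refine ⟨?_, fun w hw => ?_⟩
  · change G (H q) = q
    rw [hH.1, hG.1]
  · have h1 := hG.2 w hw
    have h2 := (hH.2 w hw).sub (curve_tendsto hq hw)
    rw [sub_self] at h2
    have h3 : Tendsto (fun t : ℝ => t⁻¹ • (G (H (curve q w t)) - G (curve q w t))) (𝓝[>] 0)
        (𝓝 0) := by
      rw [tendsto_zero_iff_norm_tendsto_zero] at h2 ⊢
      refine h2.congr' ?_
      filter_upwards [eventually_ne hq w] with t ht
      rw [← smul_sub, norm_smul, norm_smul, G.iso_map (by rw [H.norm_map, curve_norm ht])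
        (curve_norm ht)]
      congr 2
      abel
    have h4 := h3.add h1
    rw [zero_add] at h4
    refine h4.congr fun t => ?_
    change _ = t⁻¹ • (G (H (curve q w t)) - q)
    rw [← smul_add]
    congr 1
    abel

/-- iterates -/
def iterSE (G : SphereEquiv X X) : ℕ → SphereEquiv X X
  | 0 => refl X
  | n + 1 => compSE (iterSE G n) G

omit [CompleteSpace X] in
theorem TT.iter {G : SphereEquiv X X} {q : X} (hq : ‖q‖ = 1) (hG : TT G q) (n : ℕ) :
    TT (iterSE G n) q := by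
  induction n with
  | zero => exact ⟨rfl, fun w hw => curve_tendsto hq hw⟩
  | succ n ih => exact ih.comp hq hG

/-- Local rigidity with a uniform radius. -/
theorem rig_local : ∃ δ > 0, ∀ (q : X) (G : SphereEquiv X X), ‖q‖ = 1 →
    TT G q → ∀ y : X, ‖y‖ = 1 → ‖y - q‖ < δ → G y = y := by
  obtain ⟨δ, hδ, h⟩ := rig_unif (X := X) (ε := 1 / 2) (by norm_num)
  refine ⟨δ, hδ, fun q G hq hG y hy hyq => ?_⟩
  have hGy : ‖G y‖ = 1 := by rw [G.norm_map, hy]
  have hGyq : ‖G y - q‖ < δ := by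
    have := G.iso_map hy hq
    rw [hG.1] at this
    rwa [this]
  have h1 : ∀ n : ℕ, ‖iterSE G n (G y) - iterSE G n y - (G y - y)‖ ≤ 1 / 2 * ‖G y - y‖ :=
    fun n => h q _ hq (hG.iter hq n) _ _ hGy hy hGyq hyq
  have h2 : ∀ n : ℕ, ‖iterSE G n y - y - (n : ℝ) • (G y - y)‖ ≤ (n : ℝ) * (1 / 2 * ‖G y - y‖) := by
    intro n
    induction n with
    | zero =>
      have : iterSE G 0 y = y := rfl
      rw [this]; simp
    | succ n ih =>
      have e1 : iterSE G (n + 1) y = iterSE G n (G y) := rfl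
      have e2 : iterSE G (n + 1) y - y - ((n + 1 : ℕ) : ℝ) • (G y - y) =
          (iterSE G n (G y) - iterSE G n y - (G y - y)) +
            (iterSE G n y - y - (n : ℝ) • (G y - y)) := by
        rw [e1]; push_cast; module
      rw [e2]
      refine (norm_add_le _ _).trans ?_
      have := h1 n
      push_cast
      linarith only [this, ih]
  by_contra hne
  have h3 : 0 < ‖G y - y‖ := norm_pos_iff.2 (sub_ne_zero.2 hne)
  obtain ⟨n, hn⟩ := exists_nat_gt (4 / ‖G y - y‖)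
  rw [div_lt_iff₀ h3] at hn
  have h4 := h2 n
  have h5 : ‖(n : ℝ) • (G y - y)‖ ≤ ‖iterSE G n y - y‖ +
      ‖iterSE G n y - y - (n : ℝ) • (G y - y)‖ := by
    have e : (n : ℝ) • (G y - y) = (iterSE G n y - y) -
      (iterSE G n y - y - (n : ℝ) • (G y - y)) := by abel
    calc ‖(n : ℝ) • (G y - y)‖ = ‖(iterSE G n y - y) -
      (iterSE G n y - y - (n : ℝ) • (G y - y))‖ := by rw [← e]
      _ ≤ _ := norm_sub_le _ _
  have h6 : ‖iterSE G n y - y‖ ≤ 2 := by
    refine (norm_sub_le _ _).trans ?_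
    rw [(iterSE G n).norm_map, hy]; norm_num
  rw [norm_smul, Real.norm_of_nonneg (Nat.cast_nonneg n)] at h5
  linarith

omit [CompleteSpace X] in
theorem TT_of_near {G : SphereEquiv X X} {u : X} (hu : ‖u‖ = 1)
    (hfix : ∃ δ > 0, ∀ y : X, ‖y‖ = 1 → ‖y - u‖ < δ → G y = y) : TT G u := by
  obtain ⟨δ, hδ, hfix⟩ := hfix
  refine ⟨hfix u hu (by rw [sub_self, norm_zero]; exact hδ), fun w hw => ?_⟩
  have h1 := curve_tendsto hu hw
  have hev : ∀ᶠ t in 𝓝[>] (0 : ℝ), ‖curve u w t - u‖ < δ := by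
    have h2 : Tendsto (fun t : ℝ => t • (t⁻¹ • (curve u w t - u))) (𝓝[>] 0)
        (𝓝 ((0 : ℝ) • w)) :=
      Tendsto.smul (tendsto_nhdsWithin_of_tendsto_nhds tendsto_id) h1
    rw [zero_smul] at h2
    have h3 := h2.norm
    rw [norm_zero] at h3
    filter_upwards [h3.eventually_lt_const hδ, self_mem_nhdsWithin] with t ht1 ht2
    rw [mem_Ioi] at ht2
    rwa [smul_smul, mul_inv_cancel₀ ht2.ne', one_smul] at ht1
  refine h1.congr' ?_
  filter_upwards [hev, eventually_ne hu w] with t ht1 ht2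
  rw [hfix _ (curve_norm ht2) ht1]

/-- **Global rigidity.** -/
theorem rigidity (hrank : 1 < Module.rank ℝ X) (g : SphereEquiv X X)
    {u : X} (hu : ‖u‖ = 1) (hg : TT g u) : ∀ x : X, ‖x‖ = 1 → g x = x := by
  obtain ⟨δ₀, hδ₀, hloc⟩ := rig_local (X := X)
  let V : Set (sphere (0 : X) 1) := {v | ∃ δ > 0, ∀ y : X, ‖y‖ = 1 → ‖y - v‖ < δ → g y = y}
  have hconn := isPreconnected_sphere hrank (0 : X) 1
  have hpre : PreconnectedSpace (sphere (0 : X) 1) := isPreconnected_iff_preconnectedSpace.1 hconn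
  have hopen : IsOpen V := by
    rw [Metric.isOpen_iff]
    rintro v ⟨δ, hδ, hv⟩
    refine ⟨δ / 2, half_pos hδ, ?_⟩
    intro w hw
    rw [mem_ball, Subtype.dist_eq, dist_eq_norm] at hw
    refine ⟨δ / 2, half_pos hδ, fun y hy hyw => hv y hy ?_⟩
    calc ‖y - v‖ = ‖(y - w) + ((w : X) - v)‖ := by congr 1; abel
      _ ≤ ‖y - w‖ + ‖(w : X) - v‖ := norm_add_le _ _
      _ < δ := by linarith only [hw, hyw]
  have hclosed : IsClosed V := by
    rw [← closure_subset_iff_isClosed]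
    intro v hv
    rw [Metric.mem_closure_iff] at hv
    obtain ⟨w, hw, hd⟩ := hv (δ₀ / 2) (half_pos hδ₀)
    rw [Subtype.dist_eq, dist_eq_norm] at hd
    have hwn : ‖(w : X)‖ = 1 := norm_eq_of_mem_sphere w
    refine ⟨δ₀ / 2, half_pos hδ₀, fun y hy hyv => ?_⟩
    refine hloc w g hwn (TT_of_near hwn hw) y hy ?_
    calc ‖y - w‖ = ‖(y - v) + ((v : X) - w)‖ := by congr 1; abel
      _ ≤ ‖y - v‖ + ‖(v : X) - w‖ := norm_add_le _ _
      _ < δ₀ := by linarith only [hd, hyv]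
  have hne : V.Nonempty := ⟨⟨u, by simpa only [mem_sphere_iff_norm, sub_zero] using hu⟩, δ₀, hδ₀, fun y hy hyu => hloc u g hu hg y hy hyu⟩
  have huniv : V = univ := IsClopen.eq_univ ⟨hclosed, hopen⟩ hne
  intro x hx
  have hxV : (⟨x, by simpa only [mem_sphere_iff_norm, sub_zero] using hx⟩ : sphere (0 : X) 1) ∈ V := by rw [huniv]; trivial
  obtain ⟨δ, hδ, h⟩ := hxV
  exact h x hx (by simpa only [sub_self, norm_zero, gt_iff_lt] using hδ)

end rig

section final

variable {X Y : Type*} [NormedAddCommGroup X] [NormedSpace ℝ X] [CompleteSpace X]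
    [NormedAddCommGroup Y] [NormedSpace ℝ Y] [CompleteSpace Y]

/-- **Determination by the first order jet.** If the tangent map of a surjective isometry between
unit spheres agrees at one point with a linear isometry, then so does the map. -/
theorem linear_of_tangent (hrank : 1 < Module.rank ℝ X) (F : SphereEquiv X Y) (R : X ≃ₗᵢ[ℝ] Y)
    {q : X} (hq : ‖q‖ = 1) (hD : ∀ v, dd (F q) (R v) = dd q v)
    (hT : ∀ w, dd q w = 0 → tmap F q w = R w) (x : X) : F x = R x := by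
  set k : SphereEquiv X X := F.compIso R with hk
  have hkx : ∀ x, k x = R.symm (F x) := fun x => rfl
  have hdd : ∀ z v, dd (R.symm z) v = dd z (R v) := by
    intro z v
    refine tendsto_nhds_unique (tendsto_dd (R.symm z) v) ((tendsto_dd z (R v)).congr fun t => ?_)
    have e : R.symm z + t • v = R.symm (z + t • R v) := by
      rw [map_add, map_smul, R.symm_apply_apply]
    rw [e, R.symm.norm_map, R.symm.norm_map]
  have hkt : ∀ w, dd q w = 0 → Tendsto (fun t : ℝ => t⁻¹ • (k (curve q w t) - k q)) (𝓝[>] 0)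
      (𝓝 w) := by
    intro w hw
    have h1 := tendsto_tmap F hq hw
    rw [hT w hw] at h1
    have h2 := (R.symm.continuous.tendsto (R w)).comp h1
    rw [R.symm_apply_apply] at h2
    refine h2.congr fun t => ?_
    rw [hkx, hkx, Function.comp, map_smul, map_sub]
  have hfix : k q = q := by
    apply fix_of_tangent k hq
    · intro v
      rw [hkx, hdd, hD]
    · intro w hw
      exact tendsto_nhds_unique (tendsto_tmap k hq hw) (hkt w hw)
  have hTT : TT k q := by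
    refine ⟨hfix, fun w hw => ?_⟩
    have := hkt w hw
    rwa [hfix] at this
  have h := rigidity hrank k hq hTT
  rcases eq_or_ne x 0 with hx | hx
  · rw [hx, map_zero, F.map_zero]
  · have h1 := h _ (norm_inv_smul_eq_one hx)
    rw [hkx, F.smul_map (inv_nonneg.2 (norm_nonneg x)), map_smul] at h1
    have h2 := smul_right_injective X (inv_ne_zero (norm_ne_zero_iff.2 hx)) h1
    rw [← h2, R.apply_symm_apply, h2]

end final

end Vale.Agent.P084.Gen
end

/- UCMain -/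
section
/-!
# The dichotomy for uniformly convex spaces
-/

open Set Filter Topology Metric

namespace Vale.Agent.P084.UC

open BadPoint

theorem dim2_ultra {X : Type*} [NormedAddCommGroup X] [NormedSpace ℝ X] (hd : Dim2 X) :
    Dim2 (Ultra X) := by
  obtain ⟨a, ha⟩ := hd 0
  have ha0 : a ≠ 0 := by simpa using ha 0
  obtain ⟨b, hb⟩ := hd a
  intro q
  by_contra hcon
  push Not at hcon
  obtain ⟨c, hc⟩ := hcon (diag a)
  obtain ⟨d, hd'⟩ := hcon (diag b)
  have hc0 : c ≠ 0 := by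
    rintro rfl
    rw [zero_smul] at hc
    apply ha0
    rw [← norm_eq_zero, ← norm_diag, hc, norm_zero]
  apply hb (d * c⁻¹)
  apply diag_injective
  rw [diag_smul, hd', hc, smul_smul, mul_assoc, inv_mul_cancel₀ hc0, mul_one]

section

variable {X Y : Type*} [NormedAddCommGroup X] [NormedSpace ℝ X]
    [NormedAddCommGroup Y] [NormedSpace ℝ Y] [UniformConvexSpace X] [CompleteSpace X]
    [CompleteSpace Y]

omit [UniformConvexSpace X] [CompleteSpace X] [CompleteSpace Y] in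
/-- Linearity passes from the ultrapower to the space. -/
theorem linear_of_ultra (F : SphereEquiv X Y)
    (h : ∃ T : Ultra X →ₗ[ℝ] Ultra Y, ∀ x, T x = ultraEquiv F x) :
    ∃ T : X →ₗ[ℝ] Y, ∀ x, T x = F x := by
  obtain ⟨T, hT⟩ := h
  refine ⟨{ toFun := F, map_add' := fun x y => ?_, map_smul' := fun c x => ?_ }, fun x => rfl⟩
  · apply diag_injective
    rw [← ultraEquiv_diag, ← hT, diag_add, _root_.map_add, hT, hT, ultraEquiv_diag,
      ultraEquiv_diag, diag_add]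
  · apply diag_injective
    rw [← ultraEquiv_diag, ← hT, diag_smul, _root_.map_smul, hT, ultraEquiv_diag,
      RingHom.id_apply, diag_smul]

end

end Vale.Agent.P084.UC
end

/- GenMain -/
section
/-!
# The dichotomy for arbitrary Banach spaces
-/

open Set Filter Topology Metric

namespace Vale.Agent.P084.Gen

open BadPoint UC

theorem one_lt_rank_of_dim2 {E : Type*} [NormedAddCommGroup E] [NormedSpace ℝ E] (hd : Dim2 E) :
    1 < Module.rank ℝ E := by
  by_contra hcon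
  rw [not_lt, rank_le_one_iff] at hcon
  obtain ⟨v₀, hv₀⟩ := hcon
  obtain ⟨v, hv⟩ := hd v₀
  obtain ⟨r, hr⟩ := hv₀ v
  exact hv r hr.symm

section

variable {X Y : Type*} [NormedAddCommGroup X] [NormedSpace ℝ X]
    [NormedAddCommGroup Y] [NormedSpace ℝ Y] [CompleteSpace X] [CompleteSpace Y]

/-- The finishing theorem. -/
theorem fin_linear (hd : Dim2 X) (F : SphereEquiv X Y) {q : X} (hq : ‖q‖ = 1) {r : Y}
    (hres : ∀ y : X, ‖y‖ = 1 → ‖q + y‖ < 2 → Dir (q - y) q → Dir (F q - F y) r →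
      dd (F q - F y) r = dd (q - y) q) : ∃ T : X →ₗ[ℝ] Y, ∀ x, T x = F x := by
  obtain ⟨R, h1, h2⟩ := exists_isometry_of_resolved F hq hres
  refine ⟨R.toLinearEquiv.toLinearMap, fun x => ?_⟩
  exact (linear_of_tangent (one_lt_rank_of_dim2 hd) F R hq h2 h1 x).symm

/-- Sequences with large second differences. -/
theorem linear_of_seq (hd : Dim2 X) (F : SphereEquiv X Y)
    {q h : ℕ → X} {m : ℕ → ℝ} {K : ℕ → ℕ}
    (hq : ∀ n, ‖q n‖ = 1) (hm : ∀ n, 0 < m n) (hK : ∀ n, 0 < K n)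
    (hmd : ∀ n, m n = max (‖q n + h n‖ + ‖q n - h n‖ - 2)
      ‖F (q n + h n) + F (q n - h n) - (2 : ℝ) • F (q n)‖)
    (hm0 : Tendsto m UF (𝓝 0)) (hh : Tendsto (fun n => ‖h n‖) UF (𝓝 0))
    (hK1 : Tendsto (fun n => K n * ‖h n‖) UF (𝓝 0))
    (hK2 : Tendsto (fun n => ‖h n‖ / K n / m n) UF (𝓝 0)) :
    ∃ T : X →ₗ[ℝ] Y, ∀ x, T x = F x := by
  set w : ℕ → Y := fun n => (m n)⁻¹ • (F (q n + h n) + F (q n - h n) - (2 : ℝ) • F (q n)) with hw
  set t : ℕ → ℝ := fun n => (m n)⁻¹ * (‖q n + h n‖ + ‖q n - h n‖ - 2) with ht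
  have ht0 : ∀ n, 0 ≤ ‖q n + h n‖ + ‖q n - h n‖ - 2 := by
    intro n
    have h1 := norm_add_le (q n + h n) (q n - h n)
    have e : q n + h n + (q n - h n) = (2 : ℝ) • q n := by module
    rw [e, norm_smul, hq n, Real.norm_of_nonneg (by norm_num : (0 : ℝ) ≤ 2)] at h1
    linarith only [h1]
  have hwn : ∀ n, ‖w n‖ = (m n)⁻¹ * ‖F (q n + h n) + F (q n - h n) - (2 : ℝ) • F (q n)‖ := by
    intro n
    simp only [hw]
    rw [norm_smul, norm_inv, Real.norm_of_nonneg (hm n).le]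
  have hmax : ∀ n, max (t n) ‖w n‖ = 1 := by
    intro n
    rw [hwn n]
    simp only [ht]
    rw [← mul_max_of_nonneg _ _ (inv_nonneg.2 (hm n).le), ← hmd n, inv_mul_cancel₀ (hm n).ne']
  have hw1 : ∀ n, ‖w n‖ ≤ 1 := fun n => (le_max_right _ _).trans (hmax n).le
  have ht1 : ∀ n, |t n| ≤ 1 := fun n => by
    rw [abs_of_nonneg (mul_nonneg (inv_nonneg.2 (hm n).le) (ht0 n))]
    exact (le_max_left _ _).trans (hmax n).le
  have hwb : Bdd w := ⟨1, hw1⟩
  have htb : Bdd t := ⟨1, ht1⟩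
  obtain ⟨τ, hτ1, hτ⟩ := exists_lim ht1
  have hwe : ∀ n, F (q n + h n) + F (q n - h n) - (2 : ℝ) • F (q n) = m n • w n := by
    intro n
    simp only [hw]
    rw [smul_smul, mul_inv_cancel₀ (hm n).ne', one_smul]
  have hte : ∀ n, ‖q n + h n‖ + ‖q n - h n‖ - 2 = m n * t n := by
    intro n
    simp only [ht]
    rw [← mul_assoc, mul_inv_cancel₀ (hm n).ne', one_mul]
  have hlim : max τ ‖cls w‖ = 1 := by
    have h1 := hτ.max (tendsto_norm_cls hwb)
    simp only [hmax] at h1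
    exact (tendsto_nhds_unique h1 tendsto_const_nhds)
  have hQn : ‖cls q‖ = 1 := norm_cls_eq hq
  have hdU := dim2_ultra hd
  have ident : ∀ y : Ultra X, ‖y‖ = 1 → ‖cls q + y‖ < 2 → Dir (cls q - y) (cls q) →
      Dir (ultraEquiv F (cls q) - ultraEquiv F y) (cls w - τ • ultraEquiv F (cls q)) →
      dd (ultraEquiv F (cls q) - ultraEquiv F y) (cls w - τ • ultraEquiv F (cls q)) =
      -τ * dd (cls q - y) (cls q) := by
    intro y hy hΩ h1 h2
    exact ultra_identity F hq hm hK hm0 hh hwe hwb hte htb hτ hK1 hK2 hy hΩ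
      ((region_iff (ultraEquiv F) hQn hy).2 hΩ) h1 h2
  by_cases hτ0 : τ = 0
  · exfalso
    have h1 : cls w = 0 := by
      apply eq_zero_of_residual (ultraEquiv F) hQn
      filter_upwards [residual_dir_id hQn (cls q),
        residual_dir (ultraEquiv F) hQn (cls w)] with y h1 h2 hΩ
      replace h1 := h1 hΩ
      replace h2 := h2 hΩ
      have h3 := ident y (norm_eq_of_mem_sphere y) hΩ h1 (by
        rw [hτ0, zero_smul, sub_zero]; exact h2)
      rw [hτ0, zero_smul, sub_zero, neg_zero, zero_mul] at h3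
      rw [h2.neg_eq, h3, neg_zero]
      exact ⟨le_rfl, le_rfl⟩
    rw [h1, hτ0, norm_zero, max_self] at hlim
    exact zero_ne_one hlim
  · apply linear_of_ultra F
    refine fin_linear hdU (ultraEquiv F) hQn (r := ultraEquiv F (cls q) - τ⁻¹ • cls w) ?_
    intro y hy hΩ h1 h2
    have e : cls w - τ • ultraEquiv F (cls q) =
        (-τ) • (ultraEquiv F (cls q) - τ⁻¹ • cls w) := by
      rw [smul_sub, smul_smul, neg_mul, mul_inv_cancel₀ hτ0, neg_smul, neg_smul, one_smul]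
      abel
    have h3 := ident y hy hΩ h1 (by rw [e]; exact h2.smul _)
    rw [e, h2.dd_smul] at h3
    exact mul_left_cancel₀ (neg_ne_zero.2 hτ0) h3

/-- DICHOTOMY: a sphere equivalence of Banach spaces is linear, or the norm and the
map have bounded second differences. -/
theorem dichotomy (hd : Dim2 X) (F : SphereEquiv X Y) :
    (∃ T : X →ₗ[ℝ] Y, ∀ x, T x = F x) ∨ ∃ C : ℝ, ∀ q h : X, ‖q‖ = 1 →
      ‖q + h‖ + ‖q - h‖ - 2 ≤ C * ‖h‖ ^ 2 ∧
      ‖F (q + h) + F (q - h) - (2 : ℝ) • F q‖ ≤ C * ‖h‖ ^ 2 := by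
  by_contra hcon
  push Not at hcon
  obtain ⟨hnl, hcon⟩ := hcon
  have h1 : ∀ n : ℕ, ∃ q h : X, ‖q‖ = 1 ∧ ((n : ℝ) + 1) ^ 2 * ‖h‖ ^ 2 <
      max (‖q + h‖ + ‖q - h‖ - 2) ‖F (q + h) + F (q - h) - (2 : ℝ) • F q‖ := by
    intro n
    obtain ⟨q, h, hq, hqh⟩ := hcon (((n : ℝ) + 1) ^ 2)
    refine ⟨q, h, hq, ?_⟩
    rw [lt_max_iff]
    by_cases hc : ((n : ℝ) + 1) ^ 2 * ‖h‖ ^ 2 < ‖q + h‖ + ‖q - h‖ - 2
    · exact Or.inl hc
    · push Not at hc
      exact Or.inr (hqh hc)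
  choose q h hq hqh using h1
  set m : ℕ → ℝ := fun n => max (‖q n + h n‖ + ‖q n - h n‖ - 2)
      ‖F (q n + h n) + F (q n - h n) - (2 : ℝ) • F (q n)‖ with hm
  have hm1 : ∀ n, 0 < m n := fun n => lt_of_le_of_lt (by (clear * -; positivity)) (hqh n)
  have lip : ∀ u v : X, ‖F u - F v‖ ≤ 3 * ‖u - v‖ := by
    intro u v
    have := F.lipschitz.dist_le_mul u v
    rwa [dist_eq_norm, dist_eq_norm] at this
  have hm2 : ∀ n, m n ≤ 6 * ‖h n‖ := by
    intro n
    refine max_le ?_ ?_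
    · have a1 := norm_add_le (q n) (h n)
      have a2 := norm_sub_le (q n) (h n)
      rw [hq n] at a1 a2
      linarith [norm_nonneg (h n)]
    · have e : F (q n + h n) + F (q n - h n) - (2 : ℝ) • F (q n) =
        (F (q n + h n) - F (q n)) + (F (q n - h n) - F (q n)) := by module
      rw [e]
      refine (norm_add_le _ _).trans ?_
      have a1 := lip (q n + h n) (q n)
      have a2 := lip (q n - h n) (q n)
      rw [add_sub_cancel_left] at a1
      rw [sub_sub_cancel_left, norm_neg] at a2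
      linarith only [a1, a2]
  have hh0 : ∀ n, 0 < ‖h n‖ := by
    intro n
    have := (hm1 n).trans_le (hm2 n)
    linarith only [this]
  have hn1 : ∀ n : ℕ, (0 : ℝ) < (n : ℝ) + 1 := fun n => by (clear * -; positivity)
  have hh1 : ∀ n, ‖h n‖ ≤ 6 * (1 / ((n : ℝ) + 1)) := by
    intro n
    have h3 : ((n : ℝ) + 1) ^ 2 * ‖h n‖ ^ 2 < 6 * ‖h n‖ := (hqh n).trans_le (hm2 n)
    have h4 : ((n : ℝ) + 1) ^ 2 * ‖h n‖ < 6 := by
      have : ‖h n‖ * (((n : ℝ) + 1) ^ 2 * ‖h n‖) < ‖h n‖ * 6 := by linarith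
      exact lt_of_mul_lt_mul_left this (hh0 n).le
    have h5 : ((n : ℝ) + 1) * ‖h n‖ ≤ ((n : ℝ) + 1) ^ 2 * ‖h n‖ := by
      have h6 : (1 : ℝ) ≤ (n : ℝ) + 1 := by
        have : (0 : ℝ) ≤ n := Nat.cast_nonneg n
        linarith
      have h7 : ((n : ℝ) + 1) ≤ ((n : ℝ) + 1) ^ 2 := by nlinarith only []
      exact mul_le_mul_of_nonneg_right h7 (hh0 n).le
    rw [mul_one_div, le_div_iff₀ (hn1 n)]
    linarith
  have t1 : Tendsto (fun n : ℕ => 1 / ((n : ℝ) + 1)) UF (𝓝 0) :=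
    tendsto_one_div_add_atTop_nhds_zero_nat.mono_left UF_le
  have hh2 : Tendsto (fun n => ‖h n‖) UF (𝓝 0) := by
    refine squeeze_zero (fun n => norm_nonneg _) hh1 ?_
    simpa only [one_div, mul_zero] using t1.const_mul 6
  have hm0 : Tendsto m UF (𝓝 0) := by
    refine squeeze_zero (fun n => (hm1 n).le) hm2 ?_
    simpa using hh2.const_mul 6
  -- choice of `K`
  set K : ℕ → ℕ := fun n => ⌈1 / (((n : ℝ) + 1) * ‖h n‖)⌉₊ with hK
  have hKpos : ∀ n, 0 < K n := by
    intro n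
    simp only [hK]
    rw [Nat.ceil_pos]
    have := hn1 n
    have := hh0 n
    (clear * - this; positivity)
  have hKl : ∀ n : ℕ, 1 / (((n : ℝ) + 1) * ‖h n‖) ≤ K n := fun n => Nat.le_ceil _
  have hKu : ∀ n, (K n : ℝ) ≤ 1 / (((n : ℝ) + 1) * ‖h n‖) + 1 := by
    intro n
    have := hn1 n
    have := hh0 n
    exact (Nat.ceil_lt_add_one (by (clear * - this; positivity))).le
  have hlin : ∃ T : X →ₗ[ℝ] Y, ∀ x, T x = F x := by
    exact linear_of_seq hd F hq hm1 hKpos (fun n => rfl) hm0 hh2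
      (by
        have h3 : Tendsto (fun n : ℕ => 1 / ((n : ℝ) + 1) + ‖h n‖) UF (𝓝 0) := by
          simpa only [one_div, add_zero] using t1.add hh2
        refine squeeze_zero (fun n => by (clear * -; positivity)) (fun n => ?_) h3
        calc (K n : ℝ) * ‖h n‖ ≤ (1 / (((n : ℝ) + 1) * ‖h n‖) + 1) * ‖h n‖ :=
              mul_le_mul_of_nonneg_right (hKu n) (hh0 n).le
          _ = 1 / ((n : ℝ) + 1) + ‖h n‖ := by
              have := hh0 n
              have := hn1 n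
              (clear hd hnl hcon hm hn1 hh1 t1 hh2 hm0 K hK hKpos hKl hKu h3 this; field_simp))
      (by
        refine squeeze_zero (fun n => by have := hm1 n; (clear * - this; (clear * - this; positivity))) (fun n => ?_) t1
        have a0 := hh0 n
        have a1 := hn1 n
        have a2 := hm1 n
        have a3 : (0 : ℝ) < K n := by exact_mod_cast hKpos n
        have a4 := hKl n
        rw [div_le_iff₀ (by (clear * - a0; positivity))] at a4
        rw [div_div, div_le_div_iff₀ (by (clear * - a0 a2; (clear * - a0 a2; positivity))) a1, one_mul]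
        have a5 : ((n : ℝ) + 1) ^ 2 * ‖h n‖ ^ 2 ≤ m n := (hqh n).le
        calc ‖h n‖ * ((n : ℝ) + 1) ≤ (‖h n‖ * ((n : ℝ) + 1)) * (K n * (((n : ℝ) + 1) * ‖h n‖)) := by
              have : 0 < ‖h n‖ * ((n : ℝ) + 1) := by (clear * - a0; positivity)
              (by_contra nlg; linarith only [nlg, mul_nonneg (sub_nonneg.2 a4) (sub_nonneg.2 a4), mul_pos (sub_pos.2 (not_le.1 nlg)) (sub_pos.2 a3), a4])
          _ = K n * (((n : ℝ) + 1) ^ 2 * ‖h n‖ ^ 2) := by ring
          _ ≤ K n * m n := mul_le_mul_of_nonneg_left a5 a3.le)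
  obtain ⟨T, hT⟩ := hlin
  obtain ⟨x, hx⟩ := hnl T
  exact hx (hT x)

end

end Vale.Agent.P084.Gen
end
end

section

/- UcSecond -/
section
/-!
Second order structure of a `C^{1,1}` isometry between unit spheres, along filters.
-/

open Set Filter Topology Metric P084

noncomputable section

set_option linter.unusedSectionVars false

namespace Vale.Agent.P084

variable {X Y : Type*} [NormedAddCommGroup X] [NormedSpace ℝ X]
  [NormedAddCommGroup Y] [NormedSpace ℝ Y]

theorem fderiv_smul_pos {F : X → Y} (hF : SphIso F) {x : X} (hd : DifferentiableAt ℝ F x) {c : ℝ}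
    (hc : 0 < c) : fderiv ℝ F (c • x) = fderiv ℝ F x := by
  have h1 : HasFDerivAt (fun z : X => c⁻¹ • z) (c⁻¹ • ContinuousLinearMap.id ℝ X) (c • x) :=
    (hasFDerivAt_id (c • x)).const_smul c⁻¹
  have h2 : HasFDerivAt F (fderiv ℝ F x) (c⁻¹ • (c • x)) := by
    rw [smul_smul, inv_mul_cancel₀ hc.ne', one_smul]
    exact hd.hasFDerivAt
  have h3 := (h2.comp (c • x) h1).const_smul c
  have h4 : (fun z : X => c • (F ∘ fun z : X => c⁻¹ • z) z) = F := by
    ext z
    simp only [Function.comp_apply]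
    rw [hF.smul, smul_smul, mul_inv_cancel₀ hc.ne', one_smul]
  have h5 : HasFDerivAt F (c • (fderiv ℝ F x).comp (c⁻¹ • ContinuousLinearMap.id ℝ X)) (c • x) := by
    have := h3
    rwa [show (c • (F ∘ fun z : X => c⁻¹ • z)) = F from h4] at this
  rw [h5.fderiv]
  ext v
  simp [smul_smul, mul_inv_cancel₀ hc.ne']

section quad

variable {F : X → Y} {C K : ℝ} (hF : SphIso F) (hC : 0 ≤ C)
  (hX : ∀ q h : X, ‖q‖ = 1 → ‖q + h‖ + ‖q - h‖ - 2 ≤ C * ‖h‖ ^ 2)
  (hY : ∀ q h : Y, ‖q‖ = 1 → ‖q + h‖ + ‖q - h‖ - 2 ≤ C * ‖h‖ ^ 2)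
  (hR : Reg F K)

include hX in
theorem smoothX : SmoothNorm X := UC11.smooth ⟨C, hX⟩

include hF in
theorem fderiv_le (x v : X) : ‖fderiv ℝ F x v‖ ≤ 3 * ‖v‖ := by
  have h1 : ‖fderiv ℝ F x‖ ≤ 3 := by
    have := norm_fderiv_le_of_lipschitz ℝ hF.lipschitz (x₀ := x)
    simpa only [ge_iff_le, NNReal.coe_ofNat] using this
  exact (ContinuousLinearMap.le_opNorm _ _).trans (by gcongr)

include hF hC hX hY hR in
theorem dn_map_self {y w : X} (hy : y ≠ 0) (hw : ‖w‖ ≤ ‖y‖ / 2) :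
    |dn (F (y + w)) (F y) - ‖y‖| ≤ (36 * C + K) * ‖w‖ ^ 2 / ‖y‖ := by
  have hy0 : 0 < ‖y‖ := norm_pos_iff.mpr hy
  have sX : SmoothNorm X := smoothX hX
  have sY : SmoothNorm Y := smoothX hY
  have hyw : y + w ≠ 0 := by
    intro h
    have : y = -w := eq_neg_of_add_eq_zero_left h
    have h2 : ‖y‖ = ‖w‖ := by rw [this, norm_neg]
    linarith only [hw, hy0, h2]
  have hFy : F y ≠ 0 := hF.ne_zero hy
  have hFyw : F (y + w) ≠ 0 := hF.ne_zero hyw
  have hup : dn (F (y + w)) (F y) ≤ ‖y‖ := (dn_apply_le _ _).trans_eq (hF.norm y)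
  set ρ : Y := F (y + w) - F y - fderiv ℝ F y w with hρ
  have hρn : ‖ρ‖ ≤ K * ‖w‖ ^ 2 / ‖y‖ := hR.rem y w hy
  have e1 : F y = F (y + w) - fderiv ℝ F y w - ρ := by rw [hρ]; abel
  have e2 : dn (F (y + w)) (F y) = ‖y + w‖ - dn (F (y + w)) (fderiv ℝ F y w)
      - dn (F (y + w)) ρ := by
    conv_lhs => rw [e1]
    rw [map_sub, map_sub, sY.dn_self hFyw, hF.norm]
  have e3 : dn (F (y + w)) (fderiv ℝ F y w) ≤ dn y w + 36 * C * ‖w‖ ^ 2 / ‖y‖ := by
    have h1 : dn (F (y + w)) (fderiv ℝ F y w) = dn (F y) (fderiv ℝ F y w)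
        - (dn (F y) - dn (F (y + w))) (fderiv ℝ F y w) := by
      rw [sub_apply]; ring
    have h2 : dn (F y) (fderiv ℝ F y w) = dn y w := dn_fderiv hF sX sY hy (hR.diff y hy) w
    have h3 := (dn (F y) - dn (F (y + w))).le_opNorm (fderiv ℝ F y w)
    have h4 := UC11.dn_lip hC hY hFy hFyw
    rw [hF.norm] at h4
    have h5 : ‖F y - F (y + w)‖ ≤ 3 * ‖w‖ := by
      have := hF.dist_le y (y + w)
      rwa [show y - (y + w) = -w by abel, norm_neg] at this
    have h6 : ‖dn (F y) - dn (F (y + w))‖ ≤ 4 * C * (3 * ‖w‖) / ‖y‖ := by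
      refine h4.trans ?_
      (clear * - h5 hC hy; gcongr)
    have h7 : ‖dn (F y) - dn (F (y + w))‖ * ‖fderiv ℝ F y w‖
        ≤ (4 * C * (3 * ‖w‖) / ‖y‖) * (3 * ‖w‖) := by
      gcongr
      exact fderiv_le hF y w
    have h8 : (4 * C * (3 * ‖w‖) / ‖y‖) * (3 * ‖w‖) = 36 * C * ‖w‖ ^ 2 / ‖y‖ := by ring
    have h9 := neg_le_of_abs_le ((Real.norm_eq_abs _).symm.trans_le h3)
    linarith only [h1, h2, h7, h8, h9]
  have e4 : dn (F (y + w)) ρ ≤ K * ‖w‖ ^ 2 / ‖y‖ := (dn_apply_le _ _).trans hρn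
  have e5 := sX.le_norm_add hy w
  have e6 : (36 * C + K) * ‖w‖ ^ 2 / ‖y‖ = 36 * C * ‖w‖ ^ 2 / ‖y‖ + K * ‖w‖ ^ 2 / ‖y‖ := by ring
  have e7 : 0 ≤ (36 * C + K) * ‖w‖ ^ 2 / ‖y‖ := by
    have := hR.nonneg
    (clear * - hC this hy; positivity)
  rw [abs_le]
  constructor <;> linarith only [e2, e3, e4, e5, e6, hup]

include hC hX in
theorem dn_self_near {y w : X} (hy : y ≠ 0) (hyw : y + w ≠ 0) :
    |dn (y + w) y - ‖y‖| ≤ 4 * C * ‖w‖ ^ 2 / ‖y‖ := by
  have hy0 : 0 < ‖y‖ := norm_pos_iff.mpr hy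
  have sX : SmoothNorm X := smoothX hX
  have hup : dn (y + w) y ≤ ‖y‖ := dn_apply_le _ _
  have e2 : dn (y + w) y = ‖y + w‖ - dn (y + w) w := by
    rw [← sX.dn_self hyw, map_add]; ring
  have e3 : dn (y + w) w ≤ dn y w + 4 * C * ‖w‖ ^ 2 / ‖y‖ := by
    have h1 : dn (y + w) w = dn y w - (dn y - dn (y + w)) w := by
      rw [sub_apply]; ring
    have h3 := (dn y - dn (y + w)).le_opNorm w
    have h4 := UC11.dn_lip hC hX hy hyw
    rw [show y - (y + w) = -w by abel, norm_neg] at h4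
    have h7 : ‖dn y - dn (y + w)‖ * ‖w‖ ≤ (4 * C * ‖w‖ / ‖y‖) * ‖w‖ := by (clear * - h4; gcongr)
    have h8 : (4 * C * ‖w‖ / ‖y‖) * ‖w‖ = 4 * C * ‖w‖ ^ 2 / ‖y‖ := by ring
    have h9 := neg_le_of_abs_le ((Real.norm_eq_abs _).symm.trans_le h3)
    linarith only [h1, h7, h8, h9]
  have e5 := sX.le_norm_add hy w
  have e7 : 0 ≤ 4 * C * ‖w‖ ^ 2 / ‖y‖ := by (clear * - hC hy; positivity)
  rw [abs_le]
  constructor <;> linarith only [e2, e3, e5, hup]

include hF hC hX hY hR in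
/-- The first variation, with quadratic error. -/
theorem dn_map_quad {y w : X} (hy : y ≠ 0) (hw : ‖w‖ ≤ ‖y‖ / 4) (v : X) :
    |dn (F (y + w)) (fderiv ℝ F y v) - dn (y + w) v|
      ≤ (1000 * C + 1000 * C * K + K) * ‖w‖ ^ 2 * ‖v‖ / ‖y‖ ^ 2 := by
  have hK := hR.nonneg
  have hy0 : 0 < ‖y‖ := norm_pos_iff.mpr hy
  have sX : SmoothNorm X := smoothX hX
  have sY : SmoothNorm Y := smoothX hY
  have hyw_ge : ∀ t : ℝ, |t| ≤ 2 → ‖y‖ / 2 ≤ ‖y + t • w‖ := by
    intro t ht
    have h1 : ‖y‖ ≤ ‖y + t • w‖ + ‖t • w‖ := by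
      have : y = (y + t • w) - t • w := by abel
      calc ‖y‖ = ‖(y + t • w) - t • w‖ := by rw [← this]
        _ ≤ _ := norm_sub_le _ _
    rw [norm_smul, Real.norm_eq_abs] at h1
    have h2 : |t| * ‖w‖ ≤ 2 * (‖y‖ / 4) := by (clear * - ht hw; gcongr)
    linarith only [h2, h1]
  set b : X := y + (2 : ℝ) • w with hb
  have hbn : ‖y‖ / 2 ≤ ‖b‖ := hyw_ge 2 (by norm_num)
  have hb0 : b ≠ 0 := norm_pos_iff.mp (by linarith only [hy0, hbn])
  set σ : ℝ := ‖b‖ + ‖y‖ with hσ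
  have hσ0 : 0 < σ := by positivity
  set θ : ℝ := 2 * ‖y‖ / σ with hθ
  have hθ0 : 0 ≤ θ := by positivity
  have hθ2 : θ ≤ 2 := by
    rw [hθ, div_le_iff₀ hσ0, hσ]
    linarith only [hy0, hbn]
  have hθ1 : |θ - 1| ≤ 2 * ‖w‖ / ‖y‖ := by
    have h1 : θ - 1 = (‖y‖ - ‖b‖) / σ := by
      rw [hθ, hσ]
      field_simp
      ring
    have h2 : |‖y‖ - ‖b‖| ≤ 2 * ‖w‖ := by
      have := abs_norm_sub_norm_le y b
      rw [hb, show y - (y + (2 : ℝ) • w) = -((2 : ℝ) • w) by abel, norm_neg, norm_smul] at this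
      simpa only [ge_iff_le, Real.norm_ofNat] using this
    rw [h1, abs_div, abs_of_pos hσ0]
    have h3 : ‖y‖ ≤ σ := by rw [hσ]; linarith only [hy0, hbn]
    (clear * - h2 hy h3; gcongr)
  have e1 : ‖b‖ • y + ‖y‖ • b = σ • (y + θ • w) := by
    rw [hb, hσ, hθ, smul_add, smul_add, smul_smul, smul_smul]
    have : σ * (2 * ‖y‖ / σ) = ‖y‖ * 2 := by (clear * - hσ0 hy; field_simp)
    rw [← hσ, this, hσ, add_smul]
    abel
  have e2 : ‖b‖ • F y + ‖y‖ • F b = σ • (F y + (θ / 2) • (F b - F y)) := by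
    have h1 : σ * (θ / 2) = ‖y‖ := by rw [hθ]; (clear * - hσ0 hy; field_simp)
    rw [smul_add, smul_smul, h1, hσ]
    module
  -- the error on the X side
  have hθw : y + θ • w ≠ 0 := norm_pos_iff.mp (by
    have := hyw_ge θ (by rw [abs_of_nonneg hθ0]; exact hθ2)
    linarith only [hy0, this])
  have hyw1 : ‖y‖ / 2 ≤ ‖y + w‖ := by simpa only [one_smul] using hyw_ge 1 (by norm_num)
  have hyw : y + w ≠ 0 := norm_pos_iff.mp (by linarith only [hy0, hyw1])
  have x1 : ‖dn (y + w) - dn (y + θ • w)‖ ≤ 16 * C * ‖w‖ ^ 2 / ‖y‖ ^ 2 := by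
    refine (UC11.dn_lip hC hX hyw hθw).trans ?_
    have h1 : ‖y + w - (y + θ • w)‖ ≤ 2 * ‖w‖ / ‖y‖ * ‖w‖ := by
      rw [show y + w - (y + θ • w) = -((θ - 1) • w) by module, norm_neg, norm_smul,
        Real.norm_eq_abs]
      (clear * - hθ1; gcongr)
    calc 4 * C * ‖y + w - (y + θ • w)‖ / ‖y + w‖
        ≤ 4 * C * (2 * ‖w‖ / ‖y‖ * ‖w‖) / (‖y‖ / 2) := by (clear * - hC hy h1 hyw1; gcongr)
      _ = 16 * C * ‖w‖ ^ 2 / ‖y‖ ^ 2 := by field_simp; ring
  -- the error on the Y side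
  set zY : Y := F y + (θ / 2) • (F b - F y) with hzY
  have y0 : ‖zY - F (y + w)‖ ≤ (6 + 5 * K) * ‖w‖ ^ 2 / ‖y‖ := by
    have r1 := hR.rem y ((2 : ℝ) • w) hy
    have r2 := hR.rem y w hy
    rw [← hb, map_smul, norm_smul, Real.norm_eq_abs, abs_of_pos (by norm_num : (0 : ℝ) < 2)] at r1
    have h1 : zY - F (y + w) = (θ / 2) • (F b - F y - (2 : ℝ) • fderiv ℝ F y w)
        - (F (y + w) - F y - fderiv ℝ F y w) + (θ - 1) • fderiv ℝ F y w := by
      rw [hzY]
      module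
    rw [h1]
    have h2 : ‖(θ / 2) • (F b - F y - (2 : ℝ) • fderiv ℝ F y w)‖ ≤ K * (2 * ‖w‖) ^ 2 / ‖y‖ := by
      rw [norm_smul, Real.norm_eq_abs, abs_of_nonneg (by positivity)]
      calc θ / 2 * ‖F b - F y - (2 : ℝ) • fderiv ℝ F y w‖
          ≤ 1 * (K * (2 * ‖w‖) ^ 2 / ‖y‖) := by
            gcongr
            linarith only [hθ2]
        _ = _ := one_mul _
    have h3 : ‖(θ - 1) • fderiv ℝ F y w‖ ≤ 2 * ‖w‖ / ‖y‖ * (3 * ‖w‖) := by
      rw [norm_smul, Real.norm_eq_abs]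
      gcongr
      exact fderiv_le hF y w
    calc _ ≤ (‖(θ / 2) • (F b - F y - (2 : ℝ) • fderiv ℝ F y w)‖
          + ‖F (y + w) - F y - fderiv ℝ F y w‖) + ‖(θ - 1) • fderiv ℝ F y w‖ := by
          refine (norm_add_le _ _).trans ?_
          gcongr
          exact norm_sub_le _ _
      _ ≤ (K * (2 * ‖w‖) ^ 2 / ‖y‖ + K * ‖w‖ ^ 2 / ‖y‖) + 2 * ‖w‖ / ‖y‖ * (3 * ‖w‖) := by
          (clear * - h2 r2 h3; gcongr)
      _ = _ := by ring
  have hσz : ‖b‖ • F y + ‖y‖ • F b ≠ 0 := by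
    intro h
    have := hF.dist_smul_add y b
    rw [h, norm_zero, e1, norm_smul, Real.norm_eq_abs, abs_of_pos hσ0] at this
    rcases mul_eq_zero.mp this.symm with h | h
    · exact hσ0.ne' h
    · exact hθw (norm_eq_zero.mp h)
  have hzY0 : zY ≠ 0 := by
    intro h
    rw [e2, h, smul_zero] at hσz
    exact hσz rfl
  have hFyw : F (y + w) ≠ 0 := hF.ne_zero hyw
  have y1 : ‖dn (F (y + w)) - dn zY‖ ≤ (48 + 40 * K) * C * ‖w‖ ^ 2 / ‖y‖ ^ 2 := by
    refine (UC11.dn_lip hC hY hFyw hzY0).trans ?_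
    rw [hF.norm, norm_sub_rev]
    calc 4 * C * ‖zY - F (y + w)‖ / ‖y + w‖
        ≤ 4 * C * ((6 + 5 * K) * ‖w‖ ^ 2 / ‖y‖) / (‖y‖ / 2) := by (clear * - hC hK hy y0 hyw1; gcongr)
      _ = (48 + 40 * K) * C * ‖w‖ ^ 2 / ‖y‖ ^ 2 := by field_simp; ring
  -- the tangential part
  have tang : ∀ u : X, dn y u = 0 →
      |dn (F (y + w)) (fderiv ℝ F y u) - dn (y + w) u|
        ≤ (160 * C + 120 * C * K) * ‖w‖ ^ 2 * ‖u‖ / ‖y‖ ^ 2 := by
    intro u hu
    have hne : ‖b‖ • y + ‖y‖ • b ≠ 0 := by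
      rw [e1]
      exact smul_ne_zero hσ0.ne' hθw
    have h1 := first_variation hF sX sY hy (hR.diff y hy) hu hb0 hne
    rw [e1, e2, dn_smul_pos hσ0, dn_smul_pos hσ0] at h1
    have h2 : dn (F (y + w)) (fderiv ℝ F y u) - dn (y + w) u
        = (dn (F (y + w)) - dn zY) (fderiv ℝ F y u) - (dn (y + w) - dn (y + θ • w)) u := by
      rw [sub_apply, sub_apply, h1]
      ring
    rw [h2]
    have h3 : |(dn (F (y + w)) - dn zY) (fderiv ℝ F y u)|
        ≤ (48 + 40 * K) * C * ‖w‖ ^ 2 / ‖y‖ ^ 2 * (3 * ‖u‖) := by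
      rw [← Real.norm_eq_abs]
      refine (ContinuousLinearMap.le_opNorm _ _).trans ?_
      gcongr
      exact fderiv_le hF y u
    have h4 : |(dn (y + w) - dn (y + θ • w)) u| ≤ 16 * C * ‖w‖ ^ 2 / ‖y‖ ^ 2 * ‖u‖ := by
      rw [← Real.norm_eq_abs]
      refine (ContinuousLinearMap.le_opNorm _ _).trans ?_
      (clear * - x1; gcongr)
    calc _ ≤ |(dn (F (y + w)) - dn zY) (fderiv ℝ F y u)| + |(dn (y + w) - dn (y + θ • w)) u| :=
          abs_sub _ _
      _ ≤ (48 + 40 * K) * C * ‖w‖ ^ 2 / ‖y‖ ^ 2 * (3 * ‖u‖)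
          + 16 * C * ‖w‖ ^ 2 / ‖y‖ ^ 2 * ‖u‖ := add_le_add h3 h4
      _ = _ := by ring
  -- the radial part
  have rad : |dn (F (y + w)) (F y) - dn (y + w) y| ≤ (40 * C + K) * ‖w‖ ^ 2 / ‖y‖ := by
    have h1 := dn_map_self hF hC hX hY hR hy (show ‖w‖ ≤ ‖y‖ / 2 by linarith only [hw, hy0])
    have h2 := dn_self_near hC hX hy hyw
    have h3 : dn (F (y + w)) (F y) - dn (y + w) y
        = (dn (F (y + w)) (F y) - ‖y‖) - (dn (y + w) y - ‖y‖) := by ring
    rw [h3]
    refine (abs_sub _ _).trans ((add_le_add h1 h2).trans (le_of_eq ?_))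
    ring
  -- decomposition
  set c : ℝ := dn y v / ‖y‖ with hc
  set u : X := v - c • y with hu
  have hcn : |c| ≤ ‖v‖ / ‖y‖ := by
    rw [hc, abs_div, abs_of_pos hy0]
    gcongr
    exact dn_apply_abs_le y v
  have hu0 : dn y u = 0 := by
    rw [hu, map_sub, map_smul, sX.dn_self hy, smul_eq_mul, hc]
    field_simp
    ring
  have hun : ‖u‖ ≤ 2 * ‖v‖ := by
    rw [hu]
    refine (norm_sub_le _ _).trans ?_
    rw [norm_smul, Real.norm_eq_abs]
    have : |c| * ‖y‖ ≤ ‖v‖ / ‖y‖ * ‖y‖ := by (clear * - hcn hy; gcongr)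
    rw [div_mul_cancel₀ _ hy0.ne'] at this
    linarith only [this]
  have hv : v = u + c • y := by rw [hu]; abel
  have hself : fderiv ℝ F y y = F y := fderiv_self hF (hR.diff y hy)
  have e5 : dn (F (y + w)) (fderiv ℝ F y v) - dn (y + w) v
      = (dn (F (y + w)) (fderiv ℝ F y u) - dn (y + w) u)
        + c * (dn (F (y + w)) (F y) - dn (y + w) y) := by
    conv_lhs => rw [hv]
    rw [map_add, map_add, map_smul, map_smul, map_add, map_smul, hself, smul_eq_mul, smul_eq_mul]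
    ring
  rw [e5]
  have t1 := tang u hu0
  have t2 : (160 * C + 120 * C * K) * ‖w‖ ^ 2 * ‖u‖ / ‖y‖ ^ 2
      ≤ (160 * C + 120 * C * K) * ‖w‖ ^ 2 * (2 * ‖v‖) / ‖y‖ ^ 2 := by (clear * - hun hC hK hy; gcongr)
  have t3 : |c * (dn (F (y + w)) (F y) - dn (y + w) y)|
      ≤ ‖v‖ / ‖y‖ * ((40 * C + K) * ‖w‖ ^ 2 / ‖y‖) := by
    rw [abs_mul]
    (clear * - hcn rad hy; gcongr)
  have t4 : ‖v‖ / ‖y‖ * ((40 * C + K) * ‖w‖ ^ 2 / ‖y‖)
      = (40 * C + K) * ‖w‖ ^ 2 * ‖v‖ / ‖y‖ ^ 2 := by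
    (clear * - hy; field_simp)
  calc _ ≤ |dn (F (y + w)) (fderiv ℝ F y u) - dn (y + w) u|
        + |c * (dn (F (y + w)) (F y) - dn (y + w) y)| := abs_add_le _ _
    _ ≤ (160 * C + 120 * C * K) * ‖w‖ ^ 2 * (2 * ‖v‖) / ‖y‖ ^ 2
        + (40 * C + K) * ‖w‖ ^ 2 * ‖v‖ / ‖y‖ ^ 2 := by
        rw [← t4]
        exact add_le_add (t1.trans t2) t3
    _ = (360 * C + 240 * C * K + K) * ‖w‖ ^ 2 * ‖v‖ / ‖y‖ ^ 2 := by ring
    _ ≤ _ := by
        gcongr <;> norm_num

end quad

section limit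

/-- Norm convergent functionals against bounded vectors. -/
theorem tendsto_moving {ι E : Type*} [NormedAddCommGroup E] [NormedSpace ℝ E] {l : Filter ι}
    {η : ι → E →L[ℝ] ℝ} {η₀ : E →L[ℝ] ℝ} {y : ι → E} {M c : ℝ} (hη : Tendsto η l (𝓝 η₀))
    (hb : ∀ᶠ i in l, ‖y i‖ ≤ M) (hc : Tendsto (fun i => η₀ (y i)) l (𝓝 c)) :
    Tendsto (fun i => η i (y i)) l (𝓝 c) := by
  have h1 : Tendsto (fun i => (η i - η₀) (y i)) l (𝓝 0) := by
    have h2 : Tendsto (fun i => ‖η i - η₀‖ * M) l (𝓝 (0 * M)) :=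
      (tendsto_iff_norm_sub_tendsto_zero.mp hη).mul_const M
    rw [zero_mul] at h2
    refine squeeze_zero_norm' ?_ h2
    filter_upwards [hb] with i hi
    refine (ContinuousLinearMap.le_opNorm _ _).trans ?_
    gcongr
  have h3 := h1.add hc
  rw [zero_add] at h3
  refine h3.congr fun i => ?_
  rw [sub_apply]
  ring

/-- Expansion of the norm along a filter. -/
theorem tendsto_norm_quot {ι E : Type*} [NormedAddCommGroup E] [NormedSpace ℝ E] {l : Filter ι}
    {C : ℝ} (hE : ∀ q h : E, ‖q‖ = 1 → ‖q + h‖ + ‖q - h‖ - 2 ≤ C * ‖h‖ ^ 2) (hC : 0 ≤ C)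
    {p : ι → E} {p₀ : E} (hp0 : p₀ ≠ 0) (hp : Tendsto p l (𝓝 p₀)) {s : ι → ℝ}
    (hs : ∀ᶠ i in l, 0 < s i) (hs0 : Tendsto s l (𝓝 0)) {D : ι → E} {M c : ℝ}
    (hD : ∀ᶠ i in l, ‖D i‖ ≤ M) (hc : Tendsto (fun i => dn p₀ (D i)) l (𝓝 c)) :
    Tendsto (fun i => (s i)⁻¹ * (‖p i + s i • D i‖ - ‖p i‖)) l (𝓝 c) := by
  have sE : SmoothNorm E := UC11.smooth ⟨C, hE⟩
  have h1 : Tendsto (fun i => dn (p i) (D i)) l (𝓝 c) :=
    tendsto_moving ((sE.continuousAt_dn hp0).tendsto.comp hp) hD hc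
  have hpn : 0 < ‖p₀‖ := norm_pos_iff.mpr hp0
  have h2 : ∀ᶠ i in l, ‖p₀‖ / 2 < ‖p i‖ := hp.norm.eventually (lt_mem_nhds (by linarith))
  have h3 : Tendsto (fun i => (s i)⁻¹ * (‖p i + s i • D i‖ - ‖p i‖) - dn (p i) (D i)) l (𝓝 0) := by
    have h4 : Tendsto (fun i => C * M ^ 2 / (‖p₀‖ / 2) * s i) l (𝓝 (C * M ^ 2 / (‖p₀‖ / 2) * 0)) :=
      hs0.const_mul _
    rw [mul_zero] at h4
    refine squeeze_zero' ?_ ?_ h4
    · filter_upwards [hs, h2] with i hi h2
      have hpi : p i ≠ 0 := norm_pos_iff.mp (by linarith only [hpn, h2])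
      have := sE.le_norm_add hpi (s i • D i)
      rw [map_smul, smul_eq_mul] at this
      have h5 : (s i)⁻¹ * (s i * dn (p i) (D i)) ≤ (s i)⁻¹ * (‖p i + s i • D i‖ - ‖p i‖) := by
        gcongr
        linarith only [this]
      rw [← mul_assoc, inv_mul_cancel₀ hi.ne', one_mul] at h5
      linarith only [h5]
    · filter_upwards [hs, h2, hD] with i hi h2 hDi
      have hpi : p i ≠ 0 := norm_pos_iff.mp (by linarith only [hpn, h2])
      have h5 := UC11.taylor hE hpi (s i • D i)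
      rw [map_smul, smul_eq_mul, norm_smul, Real.norm_eq_abs, abs_of_pos hi] at h5
      have h6 : C * (s i * ‖D i‖) ^ 2 / ‖p i‖ ≤ C * (s i * M) ^ 2 / (‖p₀‖ / 2) := by (clear * - hC hi hDi hp0 h2; gcongr)
      have h7 : (s i)⁻¹ * (‖p i + s i • D i‖ - ‖p i‖ - s i * dn (p i) (D i))
          ≤ (s i)⁻¹ * (C * (s i * M) ^ 2 / (‖p₀‖ / 2)) := by
        gcongr
        linarith only [h5, h6]
      have h8 : (s i)⁻¹ * (C * (s i * M) ^ 2 / (‖p₀‖ / 2)) = C * M ^ 2 / (‖p₀‖ / 2) * s i := by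
        (clear * - hp0 hi; field_simp)
      have h9 : (s i)⁻¹ * (‖p i + s i • D i‖ - ‖p i‖ - s i * dn (p i) (D i))
          = (s i)⁻¹ * (‖p i + s i • D i‖ - ‖p i‖) - dn (p i) (D i) := by
        rw [mul_sub, ← mul_assoc (s i)⁻¹ (s i), inv_mul_cancel₀ hi.ne', one_mul]
      rw [← h9, ← h8]
      exact h7
  have h10 := h3.add h1
  rw [zero_add] at h10
  refine h10.congr fun i => ?_
  ring

variable {F : X → Y} {C K : ℝ} (hF : SphIso F) (hC : 0 ≤ C)
  (hX : ∀ q h : X, ‖q‖ = 1 → ‖q + h‖ + ‖q - h‖ - 2 ≤ C * ‖h‖ ^ 2)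
  (hY : ∀ q h : Y, ‖q‖ = 1 → ‖q + h‖ + ‖q - h‖ - 2 ≤ C * ‖h‖ ^ 2)
  (hR : Reg F K)
  {ι : Type*} {l : Filter ι} [l.NeBot] {x : X} (hx : x ≠ 0) {xi : ι → X} {s : ι → ℝ}
  (hxi : Tendsto xi l (𝓝 x)) (hs : ∀ᶠ i in l, 0 < s i) (hs0 : Tendsto s l (𝓝 0))
  {h : X →L[ℝ] X →L[ℝ] ℝ} {B : X →L[ℝ] X →L[ℝ] Y}
  (hh : ∀ u v, Tendsto (fun i => (s i)⁻¹ * (dn (xi i + s i • u) v - dn (xi i) v)) l (𝓝 (h u v)))
  (hB : ∀ u v (η : Y →L[ℝ] ℝ), Tendsto (fun i => η ((s i)⁻¹ •
    (fderiv ℝ F (xi i + s i • u) v - fderiv ℝ F (xi i) v))) l (𝓝 (η (B u v))))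

include hx hxi hs hs0 in
/-- shifted points stay away from zero -/
theorem ev_shift {u : ι → X} {M : ℝ} (hu : ∀ᶠ i in l, ‖u i‖ ≤ M) :
    ∀ᶠ i in l, ‖x‖ / 2 ≤ ‖xi i + s i • u i‖ ∧ s i * ‖u i‖ ≤ ‖xi i‖ / 4 ∧ ‖x‖ / 2 ≤ ‖xi i‖ := by
  have hxn : 0 < ‖x‖ := norm_pos_iff.mpr hx
  have hM : Tendsto (fun i => s i * |M|) l (𝓝 (0 * |M|)) := hs0.mul_const _
  rw [zero_mul] at hM
  filter_upwards [hu, hxi.norm.eventually (lt_mem_nhds (show 3 / 4 * ‖x‖ < ‖x‖ by linarith)),
    hM.eventually (gt_mem_nhds (show 0 < ‖x‖ / 8 by positivity)), hs] with i h1 h2 h3 h4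
  have h5 : s i * ‖u i‖ ≤ s i * |M| := by
    gcongr
    exact h1.trans (le_abs_self M)
  have h6 : ‖xi i‖ ≤ ‖xi i + s i • u i‖ + ‖s i • u i‖ := by
    have : xi i = (xi i + s i • u i) - s i • u i := by abel
    calc ‖xi i‖ = ‖(xi i + s i • u i) - s i • u i‖ := by rw [← this]
      _ ≤ _ := norm_sub_le _ _
  rw [norm_smul, Real.norm_eq_abs, abs_of_pos h4] at h6
  refine ⟨by linarith only [hxn, h2, h3, h5, h6], by linarith, by linarith only [hxn, h2]⟩

include hC hX hx hxi hs hs0 hh in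
/-- moving directions -/
theorem hh_moving {ui : ι → X} {u : X} (hui : Tendsto ui l (𝓝 u)) (v : X) :
    Tendsto (fun i => (s i)⁻¹ * (dn (xi i + s i • ui i) v - dn (xi i) v)) l (𝓝 (h u v)) := by
  have hxn : 0 < ‖x‖ := norm_pos_iff.mpr hx
  have hM : ∀ᶠ i in l, ‖ui i‖ ≤ ‖u‖ + 1 :=
    hui.norm.eventually (ge_mem_nhds (by linarith))
  have h1 : Tendsto (fun i => (s i)⁻¹ * (dn (xi i + s i • ui i) v - dn (xi i + s i • u) v)) l
      (𝓝 0) := by
    have h2 : Tendsto (fun i => 4 * C / (‖x‖ / 2) * ‖ui i - u‖ * ‖v‖) l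
        (𝓝 (4 * C / (‖x‖ / 2) * 0 * ‖v‖)) :=
      ((tendsto_iff_norm_sub_tendsto_zero.mp hui).const_mul _).mul_const _
    rw [mul_zero, zero_mul] at h2
    refine squeeze_zero_norm' ?_ h2
    filter_upwards [hs, ev_shift hx hxi hs hs0 hM, ev_shift hx hxi hs hs0
      (u := fun _ => u) (M := ‖u‖) (Eventually.of_forall fun _ => le_rfl)] with i hi h3 h4
    have n1 : xi i + s i • ui i ≠ 0 := norm_pos_iff.mp (by linarith only [hxn, h3])
    have n2 : xi i + s i • u ≠ 0 := norm_pos_iff.mp (by linarith only [hxn, h4])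
    have h5 := UC11.dn_lip hC hX n1 n2
    have h6 : xi i + s i • ui i - (xi i + s i • u) = s i • (ui i - u) := by
      rw [smul_sub]; abel
    rw [h6, norm_smul, Real.norm_eq_abs, abs_of_pos hi] at h5
    rw [norm_mul, Real.norm_eq_abs, abs_of_pos (inv_pos.mpr hi), ← sub_apply]
    calc (s i)⁻¹ * ‖(dn (xi i + s i • ui i) - dn (xi i + s i • u)) v‖
        ≤ (s i)⁻¹ * ((4 * C * (s i * ‖ui i - u‖) / ‖xi i + s i • ui i‖) * ‖v‖) := by
          gcongr
          exact (ContinuousLinearMap.le_opNorm _ _).trans (by (clear * - h5; gcongr))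
      _ ≤ (s i)⁻¹ * ((4 * C * (s i * ‖ui i - u‖) / (‖x‖ / 2)) * ‖v‖) := by
          gcongr
          exact h3.1
      _ = _ := by (clear * - hi hx; field_simp)
  have h3 := h1.add (hh u v)
  rw [zero_add] at h3
  refine h3.congr fun i => ?_
  ring

include hR hx hxi hs hs0 hB in
/-- moving directions -/
theorem hB_moving {ui : ι → X} {u : X} (hui : Tendsto ui l (𝓝 u)) (v : X) (η : Y →L[ℝ] ℝ) :
    Tendsto (fun i => η ((s i)⁻¹ • (fderiv ℝ F (xi i + s i • ui i) v - fderiv ℝ F (xi i) v))) l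
      (𝓝 (η (B u v))) := by
  have hK := hR.nonneg
  have hxn : 0 < ‖x‖ := norm_pos_iff.mpr hx
  have hM : ∀ᶠ i in l, ‖ui i‖ ≤ ‖u‖ + 1 :=
    hui.norm.eventually (ge_mem_nhds (by linarith only []))
  have h1 : Tendsto (fun i => η ((s i)⁻¹ •
      (fderiv ℝ F (xi i + s i • ui i) v - fderiv ℝ F (xi i + s i • u) v))) l (𝓝 0) := by
    have h2 : Tendsto (fun i => ‖η‖ * (K / (‖x‖ / 2) * ‖ui i - u‖ * ‖v‖)) l
        (𝓝 (‖η‖ * (K / (‖x‖ / 2) * 0 * ‖v‖))) :=
      (((tendsto_iff_norm_sub_tendsto_zero.mp hui).const_mul _).mul_const _).const_mul _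
    rw [mul_zero, zero_mul, mul_zero] at h2
    refine squeeze_zero_norm' ?_ h2
    filter_upwards [hs, ev_shift hx hxi hs hs0 hM, ev_shift hx hxi hs hs0
      (u := fun _ => u) (M := ‖u‖) (Eventually.of_forall fun _ => le_rfl)] with i hi h3 h4
    have n1 : xi i + s i • ui i ≠ 0 := norm_pos_iff.mp (by linarith only [hxn, h3])
    have n2 : xi i + s i • u ≠ 0 := norm_pos_iff.mp (by linarith only [hxn, h4])
    have h5 := hR.lip _ _ n1 n2
    have h6 : xi i + s i • ui i - (xi i + s i • u) = s i • (ui i - u) := by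
      rw [smul_sub]; abel
    rw [h6, norm_smul, Real.norm_eq_abs, abs_of_pos hi] at h5
    refine (ContinuousLinearMap.le_opNorm _ _).trans ?_
    gcongr
    rw [norm_smul, Real.norm_eq_abs, abs_of_pos (inv_pos.mpr hi), ← sub_apply]
    calc (s i)⁻¹ * ‖(fderiv ℝ F (xi i + s i • ui i) - fderiv ℝ F (xi i + s i • u)) v‖
        ≤ (s i)⁻¹ * ((K * (s i * ‖ui i - u‖) / ‖xi i + s i • ui i‖) * ‖v‖) := by
          gcongr
          exact (ContinuousLinearMap.le_opNorm _ _).trans (by (clear * - h5; gcongr))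
      _ ≤ (s i)⁻¹ * ((K * (s i * ‖ui i - u‖) / (‖x‖ / 2)) * ‖v‖) := by
          gcongr
          exact h3.1
      _ = _ := by (clear * - hi hx; field_simp)
  have h3 := h1.add (hB u v η)
  rw [zero_add] at h3
  refine h3.congr fun i => ?_
  rw [← map_add, ← smul_add]
  congr 2
  abel

include hC hX hx hxi hs hs0 hh in
theorem h_self (v : X) : h x v = 0 := by
  have h1 := hh_moving hC hX hx hxi hs hs0 hh hxi v
  refine tendsto_nhds_unique h1 ?_
  refine Tendsto.congr' ?_ tendsto_const_nhds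
  filter_upwards [hs] with i hi
  have : xi i + s i • xi i = (1 + s i) • xi i := by rw [add_smul, one_smul]
  rw [this, dn_smul_pos (by linarith only [hi]), sub_self, mul_zero]

include hF hR hx hxi hs hs0 hB in
theorem B_self (v : X) : B x v = 0 := by
  have hη : ∀ η : Y →L[ℝ] ℝ, η (B x v) = 0 := by
    intro η
    have h1 := hB_moving hR hx hxi hs hs0 hB hxi v η
    refine tendsto_nhds_unique h1 ?_
    refine Tendsto.congr' ?_ tendsto_const_nhds
    filter_upwards [hs, ev_shift hx hxi hs hs0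
      (u := fun _ => (0 : X)) (M := 0) (Eventually.of_forall fun _ => by simp)] with i hi h3
    have hxn : 0 < ‖x‖ := norm_pos_iff.mpr hx
    have n1 : xi i ≠ 0 := norm_pos_iff.mp (by linarith only [h3, hxn])
    have : xi i + s i • xi i = (1 + s i) • xi i := by rw [add_smul, one_smul]
    rw [this, fderiv_smul_pos hF (hR.diff _ n1) (by linarith only [hi]), sub_self, smul_zero, map_zero]
  by_contra hne
  obtain ⟨g, hg⟩ := SeparatingDual.exists_ne_zero (R := ℝ) hne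
  exact hg (hη g)

include hF hR hx hxi hs hs0 in
theorem DB_bdd (u v : X) : ∀ᶠ i in l,
    ‖(s i)⁻¹ • (fderiv ℝ F (xi i + s i • u) v - fderiv ℝ F (xi i) v)‖
      ≤ K * ‖u‖ / (‖x‖ / 2) * ‖v‖ := by
  have hK := hR.nonneg
  have hxn : 0 < ‖x‖ := norm_pos_iff.mpr hx
  filter_upwards [hs, ev_shift hx hxi hs hs0
      (u := fun _ => u) (M := ‖u‖) (Eventually.of_forall fun _ => le_rfl)] with i hi h4
  have n1 : xi i ≠ 0 := norm_pos_iff.mp (by linarith only [hxn, h4])
  have n2 : xi i + s i • u ≠ 0 := norm_pos_iff.mp (by linarith only [hxn, h4])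
  have h5 := hR.lip _ _ n2 n1
  rw [add_sub_cancel_left, norm_smul, Real.norm_eq_abs, abs_of_pos hi] at h5
  rw [norm_smul, Real.norm_eq_abs, abs_of_pos (inv_pos.mpr hi), ← sub_apply]
  calc (s i)⁻¹ * ‖(fderiv ℝ F (xi i + s i • u) - fderiv ℝ F (xi i)) v‖
      ≤ (s i)⁻¹ * ((K * (s i * ‖u‖) / ‖xi i + s i • u‖) * ‖v‖) := by
        gcongr
        exact (ContinuousLinearMap.le_opNorm _ _).trans (by (clear * - h5; gcongr))
    _ ≤ (s i)⁻¹ * ((K * (s i * ‖u‖) / (‖x‖ / 2)) * ‖v‖) := by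
        gcongr
        exact h4.1
    _ = _ := by (clear * - hi hx; field_simp)

include hxi hs0 in
theorem tendsto_add_shift (u : X) : Tendsto (fun i => xi i + s i • u) l (𝓝 x) := by
  have := hxi.add (hs0.smul_const u)
  rwa [zero_smul, add_zero] at this

include hF hC hX hY hR hx hxi hs hs0 hB in
/-- the limit second derivative is tangential -/
theorem dn_B (u v : X) : dn (F x) (B u v) = 0 := by
  have hK := hR.nonneg
  have hxn : 0 < ‖x‖ := norm_pos_iff.mpr hx
  have sX : SmoothNorm X := smoothX hX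
  have sY : SmoothNorm Y := smoothX hY
  have h1 := hB u v (dn (F x))
  have hη : Tendsto (fun i => dn (F (xi i + s i • u))) l (𝓝 (dn (F x))) :=
    (sY.continuousAt_dn (hF.ne_zero hx)).tendsto.comp
      ((hF.continuous.tendsto x).comp (tendsto_add_shift hxi hs0 u))
  have h2 := tendsto_moving hη (DB_bdd hF hR hx hxi hs hs0 u v) h1
  refine tendsto_nhds_unique h2 ?_
  have h3 : Tendsto (fun i => s i * ((1000 * C + 1000 * C * K + K) * ‖u‖ ^ 2 * ‖v‖
      / (‖x‖ / 2) ^ 2)) l (𝓝 (0 * ((1000 * C + 1000 * C * K + K) * ‖u‖ ^ 2 * ‖v‖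
      / (‖x‖ / 2) ^ 2))) := hs0.mul_const _
  rw [zero_mul] at h3
  refine squeeze_zero_norm' ?_ h3
  filter_upwards [hs, ev_shift hx hxi hs hs0
      (u := fun _ => u) (M := ‖u‖) (Eventually.of_forall fun _ => le_rfl)] with i hi h4
  have n1 : xi i ≠ 0 := norm_pos_iff.mp (by linarith only [hxn, h4])
  have n2 : xi i + s i • u ≠ 0 := norm_pos_iff.mp (by linarith only [hxn, h4])
  have hsu : ‖s i • u‖ ≤ ‖xi i‖ / 4 := by
    rw [norm_smul, Real.norm_eq_abs, abs_of_pos hi]; exact h4.2.1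
  have q := dn_map_quad hF hC hX hY hR n1 hsu v
  have e1 := dn_fderiv hF sX sY n2 (hR.diff _ n2) v
  rw [map_smul, map_sub, e1, smul_eq_mul, norm_mul, Real.norm_eq_abs, Real.norm_eq_abs,
    abs_of_pos (inv_pos.mpr hi), abs_sub_comm]
  rw [norm_smul, Real.norm_eq_abs, abs_of_pos hi] at q
  calc (s i)⁻¹ * |dn (F (xi i + s i • u)) (fderiv ℝ F (xi i) v) - dn (xi i + s i • u) v|
      ≤ (s i)⁻¹ * ((1000 * C + 1000 * C * K + K) * (s i * ‖u‖) ^ 2 * ‖v‖ / ‖xi i‖ ^ 2) := by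
        (clear * - q hi; gcongr)
    _ ≤ (s i)⁻¹ * ((1000 * C + 1000 * C * K + K) * (s i * ‖u‖) ^ 2 * ‖v‖ / (‖x‖ / 2) ^ 2) := by
        gcongr
        exact h4.2.2
    _ = _ := by (clear * - hx hi; field_simp)

include hxi hs0 hx hs hh in
theorem theta_quot {v : X} (hcont : Tendsto (fun i => dn (xi i) v) l (𝓝 0))
    (w : X) :
    Tendsto (fun i => (s i)⁻¹ * (dn (xi i + s i • w) v / ‖xi i + s i • w‖
      - dn (xi i) v / ‖xi i‖)) l (𝓝 (h w v / ‖x‖)) := by
  have hxn : 0 < ‖x‖ := norm_pos_iff.mpr hx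
  have h1 : Tendsto (fun i => (s i)⁻¹ * (dn (xi i + s i • w) v - dn (xi i) v)
      * ‖xi i + s i • w‖⁻¹) l (𝓝 (h w v * ‖x‖⁻¹)) :=
    (hh w v).mul ((tendsto_add_shift hxi hs0 w).norm.inv₀ hxn.ne')
  have h2 : Tendsto (fun i => (s i)⁻¹ * (‖xi i + s i • w‖⁻¹ - ‖xi i‖⁻¹) * dn (xi i) v) l
      (𝓝 0) := by
    have h3 : Tendsto (fun i => ‖w‖ / (‖x‖ / 2) ^ 2 * ‖dn (xi i) v‖) l
        (𝓝 (‖w‖ / (‖x‖ / 2) ^ 2 * ‖(0 : ℝ)‖)) := hcont.norm.const_mul _
    rw [norm_zero, mul_zero] at h3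
    refine squeeze_zero_norm' ?_ h3
    filter_upwards [hs, ev_shift hx hxi hs hs0
      (u := fun _ => w) (M := ‖w‖) (Eventually.of_forall fun _ => le_rfl)] with i hi h4
    have n1 : 0 < ‖xi i‖ := by linarith only [hxn, h4]
    have n2 : 0 < ‖xi i + s i • w‖ := by linarith only [hxn, h4]
    rw [norm_mul]
    gcongr
    rw [norm_mul, Real.norm_eq_abs, abs_of_pos (inv_pos.mpr hi), Real.norm_eq_abs]
    have e1 : ‖xi i + s i • w‖⁻¹ - ‖xi i‖⁻¹
        = (‖xi i‖ - ‖xi i + s i • w‖) / (‖xi i + s i • w‖ * ‖xi i‖) := by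
      (clear * - n1 n2; field_simp)
    have e2 : |‖xi i‖ - ‖xi i + s i • w‖| ≤ s i * ‖w‖ := by
      have := abs_norm_sub_norm_le (xi i) (xi i + s i • w)
      rwa [sub_add_cancel_left, norm_neg, norm_smul, Real.norm_eq_abs, abs_of_pos hi] at this
    rw [e1, abs_div, abs_of_pos (mul_pos n2 n1)]
    calc (s i)⁻¹ * (|‖xi i‖ - ‖xi i + s i • w‖| / (‖xi i + s i • w‖ * ‖xi i‖))
        ≤ (s i)⁻¹ * ((s i * ‖w‖) / ((‖x‖ / 2) * (‖x‖ / 2))) := by
          gcongr
          · exact h4.1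
          · exact h4.2.2
      _ = _ := by (clear * - hi hx; field_simp)
  have h3 := h1.add h2
  rw [add_zero] at h3
  rw [div_eq_mul_inv]
  refine h3.congr' ?_
  filter_upwards [hs] with i hi
  ring

include hF hC hX hY hR hx hxi hs hs0 hh hB in
/-- The chord identity along a filter. -/
theorem al_identity {v : X} (hv : dn x v = 0) (hv0 : v ≠ 0) (w : X) :
    ‖x‖ * dn (fderiv ℝ F x v) (B w v)
      = h w v * (dn (fderiv ℝ F x v) (F x) - dn v x) := by
  have hK := hR.nonneg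
  have hxn : 0 < ‖x‖ := norm_pos_iff.mpr hx
  have sX : SmoothNorm X := smoothX hX
  have sY : SmoothNorm Y := smoothX hY
  have hdn : Tendsto (fun i => dn (xi i) v) l (𝓝 0) := by
    have h1 : Tendsto (fun i => dn (xi i)) l (𝓝 (dn x)) :=
      (sX.continuousAt_dn hx).tendsto.comp hxi
    have h2 := ((ContinuousLinearMap.apply ℝ ℝ v).continuous.tendsto (dn x)).comp h1
    simpa only [Function.comp_def, ContinuousLinearMap.apply_apply, hv] using h2
  have hr := theta_quot hx hxi hs hs0 hh hdn w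
  have hθ : Tendsto (fun i => dn (xi i) v / ‖xi i‖) l (𝓝 0) := by
    have := hdn.div hxi.norm hxn.ne'
    rwa [zero_div] at this
  have hsh := tendsto_add_shift hxi hs0 w
  have hev := ev_shift hx hxi hs hs0
      (u := fun _ => w) (M := ‖w‖) (Eventually.of_forall fun _ => le_rfl)
  set r : ι → ℝ := fun i => (s i)⁻¹ * (dn (xi i + s i • w) v / ‖xi i + s i • w‖
      - dn (xi i) v / ‖xi i‖) with hrdef
  set θ : ι → ℝ := fun i => dn (xi i) v / ‖xi i‖ with hθdef
  -- the X side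
  have hP : Tendsto (fun i => v - θ i • xi i) l (𝓝 v) := by
    have := (tendsto_const_nhds (x := v)).sub (hθ.smul hxi)
    rwa [zero_smul, sub_zero] at this
  have hD : Tendsto (fun i => -(r i • (xi i + s i • w) + θ i • w)) l
      (𝓝 (-((h w v / ‖x‖) • x))) := by
    have := ((hr.smul hsh).add (hθ.smul_const w)).neg
    rwa [zero_smul, add_zero] at this
  have hX1 := tendsto_norm_quot hX hC hv0 hP hs hs0
    (D := fun i => -(r i • (xi i + s i • w) + θ i • w))
    (M := ‖-((h w v / ‖x‖) • x)‖ + 1)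
    (hD.norm.eventually (ge_mem_nhds (by linarith only [])))
    (((dn v).continuous.tendsto _).comp hD)
  -- the Y side
  have hA : Tendsto (fun i => fderiv ℝ F (xi i)) l (𝓝 (fderiv ℝ F x)) := by
    rw [tendsto_iff_norm_sub_tendsto_zero]
    have h1 : Tendsto (fun i => K * ‖x - xi i‖ / ‖x‖) l (𝓝 (K * 0 / ‖x‖)) := by
      have h2 : Tendsto (fun i => ‖x - xi i‖) l (𝓝 0) := by
        have := (tendsto_iff_norm_sub_tendsto_zero.mp hxi)
        exact this.congr fun i => norm_sub_rev _ _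
      exact (h2.const_mul K).div_const _
    rw [mul_zero, zero_div] at h1
    refine squeeze_zero' (Eventually.of_forall fun _ => norm_nonneg _) ?_ h1
    filter_upwards [hev] with i h4
    have n1 : xi i ≠ 0 := norm_pos_iff.mp (by linarith only [hxn, h4])
    rw [norm_sub_rev]
    exact hR.lip _ _ hx n1
  have hAP : Tendsto (fun i => fderiv ℝ F (xi i) (v - θ i • xi i)) l (𝓝 (fderiv ℝ F x v)) :=
    (isBoundedBilinearMap_apply.continuous.tendsto (fderiv ℝ F x, v)).comp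
      (hA.prodMk_nhds hP)
  have hAv0 : fderiv ℝ F x v ≠ 0 := by
    intro h'
    have := norm_fderiv_tangent hF sX hx (hR.diff x hx) (v := v) hv
    rw [h', norm_zero] at this
    exact hv0 (norm_eq_zero.1 this.symm)
  -- the strongly convergent part
  have hG1 : Tendsto (fun i => θ i • ((s i)⁻¹ • (F (xi i + s i • w) - F (xi i)))) l (𝓝 0) := by
    have h1 : Tendsto (fun i => ‖θ i‖ * (3 * ‖w‖)) l (𝓝 (‖(0 : ℝ)‖ * (3 * ‖w‖))) :=
      hθ.norm.mul_const _
    rw [norm_zero, zero_mul] at h1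
    refine squeeze_zero_norm' ?_ h1
    filter_upwards [hs] with i hi
    rw [norm_smul]
    gcongr
    rw [norm_smul, norm_inv, Real.norm_eq_abs, abs_of_pos hi, inv_mul_le_iff₀ hi]
    have := hF.dist_le (xi i + s i • w) (xi i)
    rw [add_sub_cancel_left, norm_smul, Real.norm_eq_abs, abs_of_pos hi] at this
    linarith only [this]
  have hG : Tendsto (fun i => r i • F (xi i + s i • w)
      + θ i • ((s i)⁻¹ • (F (xi i + s i • w) - F (xi i)))) l (𝓝 ((h w v / ‖x‖) • F x)) := by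
    have h1 := (hr.smul ((hF.continuous.tendsto x).comp hsh)).add hG1
    rw [add_zero] at h1
    exact h1
  have hY1 := tendsto_norm_quot hY hC hAv0 hAP hs hs0
    (D := fun i => (s i)⁻¹ • (fderiv ℝ F (xi i + s i • w) v - fderiv ℝ F (xi i) v)
      - (r i • F (xi i + s i • w)
      + θ i • ((s i)⁻¹ • (F (xi i + s i • w) - F (xi i)))))
    (M := K * ‖w‖ / (‖x‖ / 2) * ‖v‖ + (‖(h w v / ‖x‖) • F x‖ + 1))
    (c := dn (fderiv ℝ F x v) (B w v) - dn (fderiv ℝ F x v) ((h w v / ‖x‖) • F x))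
    (by
      filter_upwards [DB_bdd hF hR hx hxi hs hs0 w v,
        hG.norm.eventually (ge_mem_nhds (show ‖(h w v / ‖x‖) • F x‖
          < ‖(h w v / ‖x‖) • F x‖ + 1 by linarith only []))] with i h1 h2
      exact (norm_sub_le _ _).trans (add_le_add h1 h2))
    (by
      have h1 := (hB w v (dn (fderiv ℝ F x v))).sub
        (((dn (fderiv ℝ F x v)).continuous.tendsto _).comp hG)
      refine h1.congr fun i => ?_
      simp only [Function.comp_apply]
      rw [map_sub])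
  -- comparison
  have hcmp : (fun i => (s i)⁻¹ * (‖fderiv ℝ F (xi i) (v - θ i • xi i)
      + s i • ((s i)⁻¹ • (fderiv ℝ F (xi i + s i • w) v - fderiv ℝ F (xi i) v)
      - (r i • F (xi i + s i • w)
      + θ i • ((s i)⁻¹ • (F (xi i + s i • w) - F (xi i)))))‖
      - ‖fderiv ℝ F (xi i) (v - θ i • xi i)‖)) =ᶠ[l]
      fun i => (s i)⁻¹ * (‖(v - θ i • xi i) + s i • -(r i • (xi i + s i • w) + θ i • w)‖
        - ‖v - θ i • xi i‖) := by
    filter_upwards [hs, hev] with i hi h4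
    have n1 : xi i ≠ 0 := norm_pos_iff.mp (by linarith only [hxn, h4])
    have n2 : xi i + s i • w ≠ 0 := norm_pos_iff.mp (by linarith only [hxn, h4])
    have p1 : 0 < ‖xi i‖ := norm_pos_iff.mpr n1
    have p2 : 0 < ‖xi i + s i • w‖ := norm_pos_iff.mpr n2
    set y' : X := xi i + s i • w with hy'
    set θ' : ℝ := dn y' v / ‖y'‖ with hθ'
    have hri : s i * r i = θ' - θ i := by
      simp only [hrdef, hθdef, hθ', hy']
      rw [← mul_assoc, mul_inv_cancel₀ hi.ne', one_mul]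
    have e1 : (v - θ i • xi i) + s i • -(r i • y' + θ i • w) = v - θ' • y' := by
      have h5 : s i • w = y' - xi i := by rw [hy']; abel
      rw [smul_neg, smul_add, smul_smul, hri, smul_comm (s i) (θ i) w, h5, sub_smul, smul_sub]
      abel
    have e2 : fderiv ℝ F (xi i) (v - θ i • xi i)
        + s i • ((s i)⁻¹ • (fderiv ℝ F y' v - fderiv ℝ F (xi i) v)
        - (r i • F y' + θ i • ((s i)⁻¹ • (F y' - F (xi i)))))
        = fderiv ℝ F y' (v - θ' • y') := by
      have s1 : fderiv ℝ F (xi i) (xi i) = F (xi i) := fderiv_self hF (hR.diff _ n1)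
      have s2 : fderiv ℝ F y' y' = F y' := fderiv_self hF (hR.diff _ n2)
      have s3 : ∀ z : Y, s i • ((s i)⁻¹ • z) = z := fun z => by
        rw [smul_smul, mul_inv_cancel₀ hi.ne', one_smul]
      rw [map_sub, map_smul, s1, map_sub, map_smul, s2, smul_sub, smul_add, s3,
        smul_comm (s i) (θ i), s3, smul_smul, hri, sub_smul, smul_sub]
      abel
    have t1 : dn (xi i) (v - θ i • xi i) = 0 := by
      rw [map_sub, map_smul, sX.dn_self n1, smul_eq_mul]
      simp only [hθdef]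
      field_simp
      ring
    have t2 : dn y' (v - θ' • y') = 0 := by
      rw [map_sub, map_smul, sX.dn_self n2, smul_eq_mul, hθ']
      field_simp
      ring
    rw [e1, e2, norm_fderiv_tangent hF sX n1 (hR.diff _ n1) t1,
      norm_fderiv_tangent hF sX n2 (hR.diff _ n2) t2]
  have hfin := tendsto_nhds_unique (hY1.congr' hcmp) hX1
  rw [map_neg, map_smul, map_smul, smul_eq_mul, smul_eq_mul] at hfin
  field_simp at hfin
  linarith only [hfin]

end limit

end Vale.Agent.P084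
end 
end

/- AeDiff -/
section
open MeasureTheory Measure Set Filter Topology Metric Module
open scoped NNReal ENNReal

namespace Vale.Agent.P084

variable {E : Type*} [NormedAddCommGroup E] [NormedSpace ℝ E] [FiniteDimensional ℝ E]
  [MeasurableSpace E] [BorelSpace E] (μ : Measure E) [μ.IsAddHaarMeasure]
  {G : Type*} [NormedAddCommGroup G] [NormedSpace ℝ G] [FiniteDimensional ℝ G]

/-- Rademacher for locally Lipschitz maps on an open set -/
theorem ae_differentiableAt_of_locLip {f : E → G} {U : Set E} (hU : IsOpen U)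
    (hf : LocallyLipschitzOn U f) : ∀ᵐ x ∂μ, x ∈ U → DifferentiableAt ℝ f x := by
  rw [ae_iff]
  apply measure_null_of_locally_null
  intro x hx
  simp only [mem_ofPred_eq, Classical.not_imp] at hx
  obtain ⟨K, t, ht, hK⟩ := hf hx.1
  rw [hU.nhdsWithin_eq hx.1] at ht
  obtain ⟨r, hr, hball⟩ := Metric.mem_nhds_iff.1 (inter_mem ht (hU.mem_nhds hx.1))
  refine ⟨{y | y ∈ ball x r ∧ ¬ DifferentiableAt ℝ f y}, ?_, ?_⟩
  · rw [mem_nhdsWithin]
    refine ⟨ball x r, isOpen_ball, mem_ball_self hr, ?_⟩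
    rintro y ⟨hy1, hy2⟩
    simp only [mem_ofPred_eq, Classical.not_imp] at hy2 ⊢
    exact ⟨hy1, hy2.2⟩
  · have h1 : LipschitzOnWith K f (ball x r) := hK.mono (hball.trans inter_subset_left)
    have h2 := h1.ae_differentiableWithinAt_of_mem (μ := μ)
    have h3 : ∀ᵐ y ∂μ, y ∈ ball x r → DifferentiableAt ℝ f y := by
      filter_upwards [h2] with y hy hy'
      exact (hy hy').differentiableAt (isOpen_ball.mem_nhds hy')
    rw [ae_iff] at h3
    refine measure_mono_null ?_ h3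
    rintro y ⟨hy1, hy2⟩
    simp only [mem_ofPred_eq, Classical.not_imp]
    exact ⟨hy1, hy2⟩

variable {E' : Type*} [NormedAddCommGroup E'] [NormedSpace ℝ E'] [FiniteDimensional ℝ E']
  [MeasurableSpace E'] [BorelSpace E'] (ν : Measure E') [ν.IsAddHaarMeasure]

end Vale.Agent.P084
end

/- UcThird -/
section
/-!
Limits of second order difference quotients of a `C^{1,1}` isometry between unit spheres are
multiples of the corresponding limits for the norm.
-/

open Set Filter Topology Metric P084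

noncomputable section

namespace Vale.Agent.P084

instance uniformConvexSpace_submodule {X : Type*} [NormedAddCommGroup X] [NormedSpace ℝ X]
    [UniformConvexSpace X] (T : Submodule ℝ X) : UniformConvexSpace T where
  uniform_convex := by
    intro ε hε
    obtain ⟨δ, hδ, h⟩ := UniformConvexSpace.uniform_convex (E := X) hε
    exact ⟨δ, hδ, fun x hx y hy hxy => h (x := (x : X)) hx (y := (y : X)) hy hxy⟩

theorem uc11_submodule {X : Type*} [NormedAddCommGroup X] [NormedSpace ℝ X]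
    (hX : UC11 X) (T : Submodule ℝ X) : UC11 T := by
  obtain ⟨C, hC⟩ := hX
  exact ⟨C, fun q h hq => hC (q : X) (h : X) hq⟩

variable {X Y : Type*} [NormedAddCommGroup X] [NormedSpace ℝ X]
  [NormedAddCommGroup Y] [NormedSpace ℝ Y]

end Vale.Agent.P084
end 
end

/- UcWeakUS -/
section
/-!
Weak ultralimits of bounded families in uniformly smooth Banach spaces.
-/

open Set Filter Topology Metric

noncomputable section

namespace P084

variable {Y : Type*} [NormedAddCommGroup Y] [NormedSpace ℝ Y]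

/-- Almost norming unit vectors. -/
theorem exists_unit_lt {Z : Type*} [NormedAddCommGroup Z] [NormedSpace ℝ Z] (g : Z →L[ℝ] ℝ)
    {r : ℝ} (hr0 : 0 ≤ r) (hr : r < ‖g‖) : ∃ z : Z, ‖z‖ = 1 ∧ r < g z := by
  obtain ⟨x, hx1, hx2⟩ := g.exists_lt_apply_of_lt_opNorm hr
  obtain ⟨y, hy1, hy2⟩ : ∃ y : Z, ‖y‖ < 1 ∧ r < g y := by
    rw [Real.norm_eq_abs] at hx2
    rcases lt_abs.mp hx2 with h | h
    · exact ⟨x, hx1, h⟩
    · exact ⟨-x, by rwa [norm_neg], by rwa [map_neg]⟩
  have hy0 : y ≠ 0 := by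
    rintro rfl
    rw [map_zero] at hy2
    linarith only [hr0, hy2]
  have hn : 0 < ‖y‖ := norm_pos_iff.mpr hy0
  refine ⟨‖y‖⁻¹ • y, ?_, ?_⟩
  · rw [norm_smul, norm_inv, norm_norm, inv_mul_cancel₀ hn.ne']
  · rw [map_smul, smul_eq_mul]
    have h1 : 1 ≤ ‖y‖⁻¹ := (one_le_inv₀ hn).mpr hy1.le
    have h2 : 0 < g y := by linarith only [hr0, hy2]
    nlinarith only [hr0, h1, hy2]

/-- A uniformly smooth Banach space is reflexive. -/
theorem UnifSmooth.exists_rep [CompleteSpace Y] (hY : UnifSmooth Y)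
    (φ : (Y →L[ℝ] ℝ) →L[ℝ] ℝ) : ∃ y : Y, ∀ η : Y →L[ℝ] ℝ, φ η = η y := by
  by_cases htriv : Subsingleton Y
  · refine ⟨0, fun η => ?_⟩
    have : η = 0 := by
      ext y
      rw [Subsingleton.elim y 0, map_zero, map_zero]
    rw [this, map_zero]
    rfl
  rw [not_subsingleton_iff_nontrivial] at htriv
  set J : Y →ₗᵢ[ℝ] ((Y →L[ℝ] ℝ) →L[ℝ] ℝ) := NormedSpace.inclusionInDoubleDualLi ℝ (E := Y) with hJ
  have hJa : ∀ (y : Y) (η : Y →L[ℝ] ℝ), J y η = η y := fun y η => rfl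
  have hcl : IsClosed (range J) := J.isometry.isUniformInducing.isComplete_range.isClosed
  have hne : (range J).Nonempty := range_nonempty _
  suffices h0 : infDist φ (range J) = 0 by
    obtain ⟨y, hy⟩ := (hcl.mem_iff_infDist_zero hne).mpr h0
    exact ⟨y, fun η => by rw [← hy, hJa]⟩
  by_contra hρ'
  set ρ : ℝ := infDist φ (range J) with hρdef
  have hρ : 0 < ρ := lt_of_le_of_ne infDist_nonneg (Ne.symm hρ')
  have hlow : ∀ x : Y, ρ ≤ ‖φ - J x‖ := by
    intro x
    have h1 : infDist φ (range J) ≤ dist φ (J x) := infDist_le_dist_of_mem (mem_range_self x)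
    exact h1.trans_eq (dist_eq_norm φ (J x))
  obtain ⟨δ, hδ, hδ'⟩ := hY (1 / 8) (by norm_num)
  set s : ℝ := min δ 1 with hs
  have hs0 : 0 < s := by (clear * - hδ; positivity)
  have hs1 : s ≤ 1 := min_le_right _ _
  have hsδ : s ≤ δ := min_le_left _ _
  have hsm : ∀ q h : Y, ‖q‖ = 1 → ‖h‖ = 1 → ‖q + s • h‖ + ‖q - s • h‖ ≤ 2 + s / 8 := by
    intro q h hq hh
    have hn : ‖s • h‖ = s := by rw [norm_smul, hh, mul_one, Real.norm_eq_abs, abs_of_pos hs0]
    have := hδ' q (s • h) hq (by rw [hn]; exact hsδ)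
    rw [hn] at this
    linarith only [this]
  set t : ℝ := ρ * s / 16 with ht
  have ht0 : 0 < t := by positivity
  set κ : ℝ := t / 16 with hκ
  have hκ0 : 0 < κ := by positivity
  -- an almost nearest point
  obtain ⟨_, ⟨x, rfl⟩, hx⟩ := (infDist_lt_iff hne).mp (show infDist φ (range J) < ρ + κ by linarith only [hκ0])
  replace hx : ‖φ - J x‖ < ρ + κ := (dist_eq_norm φ (J x)).symm.trans_lt hx
  have hx2 := hlow x
  -- an almost norming functional
  obtain ⟨η, hη1, hη2⟩ := exists_unit_lt (φ - J x) (r := ‖φ - J x‖ - κ) (by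
    have : κ ≤ ρ := by rw [hκ, ht]; linarith only [mul_nonneg (le_of_lt (sub_pos.2 hρ)) (sub_nonneg.2 hs1), hρ]
    linarith only [hx2, this]) (by linarith only [hκ0])
  obtain ⟨h, hh1, hh2⟩ := exists_unit_lt η (r := 7 / 8) (by norm_num) (by rw [hη1]; norm_num)
  have hx3 := hlow (x + t • h)
  obtain ⟨η₁, hη₁1, hη₁2⟩ := exists_unit_lt (φ - J (x + t • h)) (r := ‖φ - J (x + t • h)‖ - κ) (by
    have : κ ≤ ρ := by rw [hκ, ht]; nlinarith only [hρ, hs1]
    linarith only [hx3, this]) (by linarith only [hκ0])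
  have e1 : (φ - J (x + t • h)) η₁ = (φ - J x) η₁ - t * η₁ h := by
    rw [_root_.sub_apply, _root_.sub_apply, hJa, hJa, map_add, map_smul, smul_eq_mul]
    ring
  rw [e1] at hη₁2
  have e2 : (φ - J x) η₁ ≤ ρ + κ := by
    have := (φ - J x).le_opNorm η₁
    rw [hη₁1, mul_one, Real.norm_eq_abs] at this
    exact (le_abs_self _).trans (this.trans hx.le)
  have e3 : η₁ h ≤ 1 / 8 := by
    have h1 : t * η₁ h ≤ 2 * κ := by linarith only [hx3, hη₁2, e2]
    have h2 : t * η₁ h ≤ t * (1 / 8) := by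
      have : 2 * κ = t * (1 / 8) := by rw [hκ]; ring
      linarith only [hκ, hx3, hη₁2, e2]
    exact le_of_mul_le_mul_left h2 ht0
  have e4 : -1 ≤ η₁ h := by
    have := η₁.le_opNorm h
    rw [hη₁1, hh1, mul_one, Real.norm_eq_abs] at this
    exact (abs_le.mp this).1
  have e5 : 2 * ρ - 2 * κ - t ≤ (φ - J x) (η + η₁) := by
    rw [map_add]
    linarith only [mul_nonneg (le_of_lt (sub_pos.2 ht0)) (sub_nonneg.2 e4), hη₁2, hx3, hη2, hx2]
  have e6 : (φ - J x) (η + η₁) ≤ (ρ + κ) * ‖η + η₁‖ := by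
    have := (φ - J x).le_opNorm (η + η₁)
    rw [Real.norm_eq_abs] at this
    exact (le_abs_self _).trans (this.trans (by (clear * - hx; gcongr)))
  have e7 : 2 - s / 8 ≤ ‖η + η₁‖ := by
    by_contra hlt
    push Not at hlt
    have h1 : (ρ + κ) * ‖η + η₁‖ < (ρ + κ) * (2 - s / 8) := by (clear * - hlt hρ hδ; gcongr)
    have h2 : (ρ + κ) * (2 - s / 8) ≤ 2 * ρ - 2 * κ - t := by
      have : κ = ρ * s / 256 := by rw [hκ, ht]; ring
      rw [this, ht]
      nlinarith only [ht, ht0, hs0]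
    linarith only [h2, h1, e6, e5]
  obtain ⟨q, hq1, hq2⟩ := exists_unit_lt (η + η₁) (r := 2 - s / 4) (by linarith only [hs1]) (by linarith only [hs0, e7])
  have e8 := hsm q h hq1 hh1
  have e9 : η (q + s • h) ≤ ‖q + s • h‖ := by
    have := η.le_opNorm (q + s • h)
    rw [hη1, one_mul] at this
    exact (le_abs_self _).trans this
  have e10 : η₁ (q - s • h) ≤ ‖q - s • h‖ := by
    have := η₁.le_opNorm (q - s • h)
    rw [hη₁1, one_mul] at this
    exact (le_abs_self _).trans this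
  rw [map_add, map_smul, smul_eq_mul] at e9
  rw [map_sub, map_smul, smul_eq_mul] at e10
  rw [_root_.add_apply] at hq2
  have e11 : s * (7 / 8) < s * η h := by (clear * - hh2 hδ; gcongr)
  have e12 : s * η₁ h ≤ s * (1 / 8) := by (clear * - e3 hδ; gcongr)
  linarith only [e12, e11, e10, e9, e8, hq2, hs0]

/-- Weak ultralimits exist in uniformly smooth Banach spaces. -/
theorem UnifSmooth.exists_weak_lim [CompleteSpace Y] (hY : UnifSmooth Y) {ι : Type*}
    (U : Ultrafilter ι) {y : ι → Y} {C : ℝ} (hC : 0 ≤ C)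
    (hy : ∀ᶠ i in (U : Filter ι), ‖y i‖ ≤ C) :
    ∃ y₀ : Y, ‖y₀‖ ≤ C ∧ ∀ η : Y →L[ℝ] ℝ, Tendsto (fun i => η (y i)) U (𝓝 (η y₀)) := by
  have hlim : ∀ η : Y →L[ℝ] ℝ, ∃ α : ℝ, Tendsto (fun i => η (y i)) U (𝓝 α) := by
    intro η
    have h1 : IsCompact (Icc (-(‖η‖ * C)) (‖η‖ * C)) := isCompact_Icc
    have h3 : ((U.map fun i => η (y i) : Ultrafilter ℝ) : Filter ℝ) ≤
        𝓟 (Icc (-(‖η‖ * C)) (‖η‖ * C)) := by
      rw [le_principal_iff]
      change ∀ᶠ i in (U : Filter ι), η (y i) ∈ Icc (-(‖η‖ * C)) (‖η‖ * C)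
      filter_upwards [hy] with i hi
      have := η.le_opNorm (y i)
      rw [Real.norm_eq_abs] at this
      exact abs_le.mp (this.trans (by gcongr))
    obtain ⟨α, -, hα⟩ := h1.ultrafilter_le_nhds (U.map fun i => η (y i)) h3
    exact ⟨α, hα⟩
  choose α hα using hlim
  have hadd : ∀ η η', α (η + η') = α η + α η' := by
    intro η η'
    refine tendsto_nhds_unique (hα (η + η')) (((hα η).add (hα η')).congr fun i => ?_)
    rw [_root_.add_apply]
  have hsmul : ∀ (c : ℝ) η, α (c • η) = c • α η := by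
    intro c η
    refine tendsto_nhds_unique (hα (c • η)) (((hα η).const_mul c).congr fun i => ?_)
    rw [_root_.smul_apply, smul_eq_mul]
  have hbd : ∀ η, ‖α η‖ ≤ C * ‖η‖ := by
    intro η
    refine le_of_tendsto (hα η).norm ?_
    filter_upwards [hy] with i hi
    refine (η.le_opNorm (y i)).trans ?_
    rw [mul_comm]
    gcongr
  set φ : (Y →L[ℝ] ℝ) →L[ℝ] ℝ := LinearMap.mkContinuous
    { toFun := α, map_add' := hadd, map_smul' := hsmul } C hbd with hφ
  obtain ⟨y₀, hy₀⟩ := hY.exists_rep φ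
  have hφa : ∀ η, α η = η y₀ := fun η => hy₀ η
  refine ⟨y₀, ?_, fun η => by rw [← hφa]; exact hα η⟩
  by_cases h0 : y₀ = 0
  · rw [h0, norm_zero]; exact hC
  obtain ⟨g, hg1, hg2⟩ := exists_dual_vector ℝ y₀ (norm_ne_zero_iff.mpr h0)
  have hg2' : g y₀ = ‖y₀‖ := by simpa using hg2
  rw [← hg2', ← hφa]
  have := hbd g
  rw [hg1, mul_one] at this
  exact (le_abs_self _).trans this

end P084
end 
end

/- UcWeak -/
section
/-!
Weak ultralimits of bounded families in uniformly convex spaces.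
-/

open Set Filter Topology Metric

noncomputable section

namespace P084

variable {Y : Type*} [NormedAddCommGroup Y] [NormedSpace ℝ Y]

/-- Bounded nested families of closed convex sets have a common point. -/
theorem exists_mem_closedConvexHull [CompleteSpace Y] [UniformConvexSpace Y] {ι : Type*}
    (U : Filter ι) [U.NeBot] {y : ι → Y} {C : ℝ} (hy : ∀ i, ‖y i‖ ≤ C) :
    ∃ z : Y, ∀ A ∈ U, z ∈ closure (convexHull ℝ (y '' A)) := by
  classical
  set K : Set ι → Set Y := fun A => closure (convexHull ℝ (y '' A)) with hK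
  have Kmono : ∀ {A B : Set ι}, A ⊆ B → K A ⊆ K B := fun {A B} h =>
    closure_mono (convexHull_mono (image_mono h))
  have Kcl : ∀ A, IsClosed (K A) := fun A => isClosed_closure
  have Kcx : ∀ A, Convex ℝ (K A) := fun A => (convex_convexHull ℝ _).closure
  have Kmem : ∀ {A : Set ι} {i : ι}, i ∈ A → y i ∈ K A := fun {A i} h =>
    subset_closure (subset_convexHull ℝ _ (mem_image_of_mem y h))
  have Kne : ∀ {A : Set ι}, A ∈ U → (K A).Nonempty := fun {A} h => by
    obtain ⟨i, hi⟩ := U.nonempty_of_mem h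
    exact ⟨y i, Kmem hi⟩
  set d : Set ι → ℝ := fun A => infDist 0 (K A) with hd
  have dC : ∀ {A : Set ι}, A ∈ U → d A ≤ C := fun {A} h => by
    obtain ⟨i, hi⟩ := U.nonempty_of_mem h
    refine (infDist_le_dist_of_mem (Kmem hi)).trans ?_
    rw [dist_zero_left]
    exact hy i
  have dmono : ∀ {A B : Set ι}, A ∈ U → A ⊆ B → d B ≤ d A := fun {A B} h hAB =>
    infDist_le_infDist_of_subset (Kmono hAB) (Kne h)
  have hmid : ∀ {A : Set ι} {a b : Y}, a ∈ K A → b ∈ K A → 2 * d A ≤ ‖a + b‖ := by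
    intro A a b ha hb
    have h1 : (1 / 2 : ℝ) • a + (1 / 2 : ℝ) • b ∈ K A :=
      Kcx A ha hb (by norm_num) (by norm_num) (by norm_num)
    have h2 := infDist_le_dist_of_mem (x := (0 : Y)) h1
    rw [dist_zero_left, ← smul_add, norm_smul] at h2
    norm_num at h2
    change d A ≤ _ at h2
    linarith only [h2]
  set S : Set ℝ := d '' U.sets with hS
  have hSb : BddAbove S := ⟨C, by rintro _ ⟨A, hA, rfl⟩; exact dC hA⟩
  have hSne : S.Nonempty := ⟨_, ⟨univ, univ_mem, rfl⟩⟩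
  set r : ℝ := sSup S with hr
  have dr : ∀ {A : Set ι}, A ∈ U → d A ≤ r := fun {A} h => le_csSup hSb ⟨A, h, rfl⟩
  have hex : ∀ n : ℕ, ∃ A ∈ U, r - 1 / ((n : ℝ) + 1) < d A := by
    intro n
    obtain ⟨_, ⟨A, hA, rfl⟩, h⟩ := exists_lt_of_lt_csSup hSne
      (show r - 1 / ((n : ℝ) + 1) < sSup S by
        have : 0 < 1 / ((n : ℝ) + 1) := by (clear * -; positivity)
        linarith only [this])
    exact ⟨A, hA, h⟩
  choose A hAU hAr using hex
  set B : ℕ → Set ι := fun n => ⋂ k ∈ Finset.range (n + 1), A k with hB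
  have hBU : ∀ n, B n ∈ U := fun n => (Filter.biInter_finset_mem _).mpr fun k _ => hAU k
  have hBA : ∀ n, B n ⊆ A n := fun n i hi => by
    rw [hB] at hi
    simp only [mem_iInter] at hi
    exact hi n (Finset.mem_range.mpr (Nat.lt_succ_self n))
  have hBanti : ∀ {m n : ℕ}, n ≤ m → B m ⊆ B n := fun {m n} h i hi => by
    rw [hB] at hi ⊢
    simp only [mem_iInter] at hi ⊢
    intro k hk
    exact hi k (Finset.mem_range.mpr (lt_of_lt_of_le (Finset.mem_range.mp hk) (by omega)))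
  have hBr : ∀ n : ℕ, r - 1 / ((n : ℝ) + 1) < d (B n) := fun n =>
    (hAr n).trans_le (dmono (hBU n) (hBA n))
  -- minimizing points
  have hpt : ∀ (E : Set ι), E ∈ U → ∀ n : ℕ, ∃ z ∈ K (B n ∩ E), ‖z‖ < r + 1 / ((n : ℝ) + 1) := by
    intro E hE n
    have hmem := inter_mem (hBU n) hE
    have h1 : infDist 0 (K (B n ∩ E)) < r + 1 / ((n : ℝ) + 1) := by
      have := dr hmem
      have h2 : 0 < 1 / ((n : ℝ) + 1) := by (clear * -; positivity)
      change d _ < _
      linarith only [this, h2]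
    obtain ⟨z, hz, hz2⟩ := (infDist_lt_iff (Kne hmem)).mp h1
    exact ⟨z, hz, by rwa [dist_zero_left] at hz2⟩
  have htn : ∀ ε : ℝ, 0 < ε → ∀ᶠ n : ℕ in atTop, 1 / ((n : ℝ) + 1) < ε := fun ε hε =>
    (tendsto_one_div_add_atTop_nhds_zero_nat (𝕜 := ℝ)).eventually (gt_mem_nhds hε)
  choose z hzK hzr using hpt univ univ_mem
  have hzB : ∀ n, z n ∈ K (B n) := fun n => Kmono inter_subset_left (hzK n)
  have hcau : CauchySeq z := by
    rw [cauchySeq_iff_tendsto_dist_atTop_0]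
    have h1 := tendsto_sub_of_norm_add (l := (atTop : Filter (ℕ × ℕ))) (u := fun p => z p.1)
      (v := fun p => z p.2) (α := r) (by
        intro ε hε
        have h1 := (tendsto_fst (f := (atTop : Filter ℕ)) (g := (atTop : Filter ℕ))).eventually
          (htn ε hε)
        rw [prod_atTop_atTop_eq] at h1
        filter_upwards [h1] with p hp
        linarith only [hp, hzr p.1]) (by
        intro ε hε
        have h1 := (tendsto_snd (f := (atTop : Filter ℕ)) (g := (atTop : Filter ℕ))).eventually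
          (htn ε hε)
        rw [prod_atTop_atTop_eq] at h1
        filter_upwards [h1] with p hp
        linarith only [hp, hzr p.2]) (by
        intro ε hε
        have hε2 : 0 < ε / 2 := by (clear * - hε; positivity)
        have h1 := (tendsto_fst (f := (atTop : Filter ℕ)) (g := (atTop : Filter ℕ))).eventually
          (htn (ε / 2) hε2)
        have h2 := (tendsto_snd (f := (atTop : Filter ℕ)) (g := (atTop : Filter ℕ))).eventually
          (htn (ε / 2) hε2)
        rw [prod_atTop_atTop_eq] at h1 h2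
        filter_upwards [h1, h2] with p hp1 hp2
        rcases le_total p.1 p.2 with h | h
        · have h3 := hmid (hzB p.1) (Kmono (hBanti h) (hzB p.2))
          linarith only [hp1, h3, hBr p.1]
        · have h3 := hmid (Kmono (hBanti h) (hzB p.1)) (hzB p.2)
          linarith only [hp2, h3, hBr p.2])
    have h2 := h1.norm
    rw [norm_zero] at h2
    refine h2.congr fun p => ?_
    rw [dist_eq_norm]
  obtain ⟨z₀, hz₀⟩ := cauchySeq_tendsto_of_complete hcau
  refine ⟨z₀, fun E hE => ?_⟩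
  choose w hwK hwr using hpt E hE
  have h1 := tendsto_sub_of_norm_add (l := (atTop : Filter ℕ)) (u := z) (v := w) (α := r) (by
      intro ε hε
      filter_upwards [htn ε hε] with n hn
      linarith only [hn, hzr n]) (by
      intro ε hε
      filter_upwards [htn ε hε] with n hn
      linarith only [hn, hwr n]) (by
      intro ε hε
      filter_upwards [htn (ε / 2) (by (clear * - hε; positivity))] with n hn
      have h3 := hmid (hzB n) (Kmono inter_subset_left (hwK n))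
      linarith only [hn, h3, hBr n])
  have h2 : Tendsto w atTop (𝓝 z₀) := by
    have := hz₀.sub h1
    rw [sub_zero] at this
    refine this.congr fun n => ?_
    abel
  exact (Kcl E).mem_of_tendsto h2 (Eventually.of_forall fun n => Kmono inter_subset_right (hwK n))

/-- Weak ultralimits exist in uniformly convex spaces. -/
theorem exists_weak_lim [CompleteSpace Y] [UniformConvexSpace Y] {ι : Type*}
    (U : Ultrafilter ι) {y : ι → Y} {C : ℝ} (hy : ∀ i, ‖y i‖ ≤ C) :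
    ∃ y₀ : Y, ∀ η : Y →L[ℝ] ℝ, Tendsto (fun i => η (y i)) U (𝓝 (η y₀)) := by
  obtain ⟨z, hz⟩ := exists_mem_closedConvexHull (U : Filter ι) hy
  refine ⟨z, fun η => ?_⟩
  -- the limit of `η ∘ y`
  have hb : ∀ i, |η (y i)| ≤ ‖η‖ * C := fun i => by
    have := η.le_opNorm (y i)
    rw [Real.norm_eq_abs] at this
    refine this.trans ?_
    gcongr
    exact hy i
  have h1 : IsCompact (Icc (-(‖η‖ * C)) (‖η‖ * C)) := isCompact_Icc
  have h3 : ((U.map fun i => η (y i) : Ultrafilter ℝ) : Filter ℝ) ≤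
      𝓟 (Icc (-(‖η‖ * C)) (‖η‖ * C)) := by
    rw [le_principal_iff]
    change ∀ᶠ i in (U : Filter ι), η (y i) ∈ Icc (-(‖η‖ * C)) (‖η‖ * C)
    exact Eventually.of_forall fun i => abs_le.mp (hb i)
  obtain ⟨α, -, hα⟩ := h1.ultrafilter_le_nhds (U.map fun i => η (y i)) h3
  have hα' : Tendsto (fun i => η (y i)) U (𝓝 α) := hα
  suffices h : η z = α by rw [h]; exact hα'
  have key : ∀ ε : ℝ, 0 < ε → |η z - α| ≤ ε := by
    intro ε hε
    have hA : {i | η (y i) ∈ closedBall α ε} ∈ U :=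
      hα'.eventually (closedBall_mem_nhds α hε)
    have h4 := hz _ hA
    have h5 : closure (convexHull ℝ (y '' {i | η (y i) ∈ closedBall α ε})) ⊆
        η ⁻¹' (closedBall α ε) := by
      refine closure_minimal (convexHull_min ?_ ?_) (isClosed_closedBall.preimage η.continuous)
      · rintro _ ⟨i, hi, rfl⟩
        exact hi
      · exact (convex_closedBall α ε).linear_preimage (η : Y →ₗ[ℝ] ℝ)
    have h6 := h5 h4
    rwa [mem_preimage, mem_closedBall, Real.dist_eq] at h6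
  have h0 : |η z - α| ≤ 0 := le_of_forall_pos_le_add fun ε hε => by
    rw [zero_add]; exact key ε hε
  exact sub_eq_zero.mp (abs_nonpos_iff.mp h0)

end P084
end 
end

/- UcSlice -/
section
/-!
Second order differentiability along finite dimensional slices.
-/

open MeasureTheory Measure Set Filter Topology Metric Module
open scoped NNReal ENNReal

noncomputable section

namespace P084

section fin

variable {E : Type*} [NormedAddCommGroup E] [NormedSpace ℝ E] [FiniteDimensional ℝ E]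
  [MeasurableSpace E] [BorelSpace E] (μ : Measure E) [μ.IsAddHaarMeasure]

/-- Almost everywhere second differentiability, with a symmetric second derivative. -/
theorem ae_second_symm {κ : Type*} [Countable κ] {f : κ → E → ℝ}
    (hd : ∀ k x, x ≠ 0 → DifferentiableAt ℝ (f k) x)
    (hL : ∀ k x, x ≠ 0 → LipAt (fderiv ℝ (f k)) x) :
    ∀ᵐ x ∂μ, x ≠ 0 → ∀ k, DifferentiableAt ℝ (fderiv ℝ (f k)) x ∧
      ∀ u v, fderiv ℝ (fderiv ℝ (f k)) x u v = fderiv ℝ (fderiv ℝ (f k)) x v u := by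
  have h1 : ∀ k, ∀ᵐ x ∂μ, x ∈ ({0}ᶜ : Set E) → DifferentiableAt ℝ (fderiv ℝ (f k)) x := by
    intro k
    apply Vale.Agent.P084.ae_differentiableAt_of_locLip μ isOpen_compl_singleton
    intro x hx
    obtain ⟨K, U, hU, hK⟩ := lipAt_iff.mp (hL k x hx)
    exact ⟨K, U, mem_nhdsWithin_of_mem_nhds hU, hK⟩
  rw [← ae_all_iff] at h1
  filter_upwards [h1] with x hx hx0 k
  have h2 := hx k hx0
  refine ⟨h2, fun u v => ?_⟩
  exact second_derivative_symmetric_of_eventually (f' := fderiv ℝ (f k)) (by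
    filter_upwards [isOpen_ne.mem_nhds hx0] with y hy using (hd k y hy).hasFDerivAt)
    h2.hasFDerivAt u v

/-- Fubini: near every point there are base points such that almost every point of the plane
through it has a given almost sure property. -/
theorem exists_near_ae {G : E → Prop} (hG : ∀ᵐ x ∂μ, G x) (c p q : E) {ε : ℝ} (hε : 0 < ε) :
    ∃ m : E, ‖m - c‖ < ε ∧ ∀ᵐ s : ℝ × ℝ, G (m + s.1 • p + s.2 • q) := by
  obtain ⟨N, hN1, hN2, hN3⟩ := exists_measurable_superset_of_null (ae_iff.mp hG)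
  set Φ : E × (ℝ × ℝ) → E := fun z => z.1 + z.2.1 • p + z.2.2 • q with hΦ
  have hΦc : Continuous Φ := by fun_prop
  have hM : MeasurableSet (Φ ⁻¹' N) := hΦc.measurable hN2
  have h0 : (μ.prod (volume : Measure (ℝ × ℝ))) (Φ ⁻¹' N) = 0 := by
    rw [Measure.prod_apply_symm hM]
    rw [lintegral_eq_zero_iff' (by
      exact (measurable_measure_prodMk_right hM).aemeasurable)]
    refine Eventually.of_forall fun s => ?_
    have h1 : (fun x => (x, s)) ⁻¹' (Φ ⁻¹' N) = (fun x : E => x + (s.1 • p + s.2 • q)) ⁻¹' N := by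
      ext x
      simp only [mem_preimage, hΦ, add_assoc]
    change μ ((fun x => (x, s)) ⁻¹' (Φ ⁻¹' N)) = 0
    rw [h1, measure_preimage_add_right]
    exact hN3
  rw [Measure.measure_prod_null hM] at h0
  have hdense : Dense {m : E | (volume : Measure (ℝ × ℝ)) (Prod.mk m ⁻¹' (Φ ⁻¹' N)) = 0} :=
    Measure.dense_of_ae h0
  obtain ⟨m, hm1, hm2⟩ := hdense.exists_dist_lt c hε
  refine ⟨m, by rwa [dist_comm, dist_eq_norm] at hm2, ?_⟩
  rw [ae_iff]
  refine measure_mono_null ?_ hm1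
  intro s hs
  exact hN1 hs

end fin

section good

variable {X : Type*} [NormedAddCommGroup X] [NormedSpace ℝ X]

/-- Twice differentiable along a subspace, with a symmetric second derivative. -/
def Good2 (f : X → ℝ) (E : Submodule ℝ X) (x : E) : Prop :=
  DifferentiableAt ℝ (fderiv ℝ (fun z : E => f z)) x ∧
    ∀ u v, fderiv ℝ (fderiv ℝ (fun z : E => f z)) x u v =
      fderiv ℝ (fderiv ℝ (fun z : E => f z)) x v u

theorem fderiv_sub {f : X → ℝ} {E : Submodule ℝ X} {z : E} (hd : DifferentiableAt ℝ f (z : X)) :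
    fderiv ℝ (fun z : E => f z) z = (fderiv ℝ f (z : X)).comp E.subtypeL := by
  have h1 : HasFDerivAt (fun z : E => f z) ((fderiv ℝ f (z : X)).comp E.subtypeL) z :=
    hd.hasFDerivAt.comp z E.subtypeL.hasFDerivAt
  exact h1.fderiv

theorem ae_good2 (E : Submodule ℝ X) [FiniteDimensional ℝ E] [MeasurableSpace E] [BorelSpace E]
    (μ : Measure E) [μ.IsAddHaarMeasure] {κ : Type*} [Countable κ] {f : κ → X → ℝ}
    (hd : ∀ k x, x ≠ 0 → DifferentiableAt ℝ (f k) x)
    (hL : ∀ k x, x ≠ 0 → LipAt (fderiv ℝ (f k)) x) :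
    ∀ᵐ x ∂μ, x ≠ 0 → ∀ k, Good2 (f k) E x := by
  refine ae_second_symm μ (f := fun k (z : E) => f k z) (fun k x hx => ?_) (fun k x hx => ?_)
  · have hx' : (x : X) ≠ 0 := fun h => hx (Subtype.ext h)
    exact (hd k x hx').comp x E.subtypeL.differentiableAt
  · have hx' : (x : X) ≠ 0 := fun h => hx (Subtype.ext h)
    have h1 : LipAt (fun z : E => fderiv ℝ (f k) (z : X)) x := by
      refine LipAt.comp (f := fderiv ℝ (f k)) (g := fun z : E => (z : X)) (hL k x hx') ?_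
      exact (E.subtypeL.hasStrictFDerivAt (x := x)).lipAt
    have h2 : LipAt (fun z : E => (fderiv ℝ (f k) (z : X)).comp E.subtypeL) x :=
      h1.clm_comp (lipAt_const E.subtypeL x)
    refine h2.congr ?_
    filter_upwards [isOpen_ne.mem_nhds hx] with z hz
    have hz' : (z : X) ≠ 0 := fun h => hz (Subtype.ext h)
    exact (fderiv_sub (hd k z hz')).symm

/-- Second differentiability along lines. -/
theorem Good2.hasDerivAt {f : X → ℝ} {E : Submodule ℝ X} {x : E} (h : Good2 f E x)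
    (hd : ∀ x : X, x ≠ 0 → DifferentiableAt ℝ f x) (hx : x ≠ 0) (u v : E) :
    HasDerivAt (fun t : ℝ => fderiv ℝ f ((x : X) + t • (u : X)) v)
      (fderiv ℝ (fderiv ℝ (fun z : E => f z)) x u v) 0 := by
  have h1 := Vale.Agent.P084.hasDerivAt_line (X := E) (Y := E →L[ℝ] ℝ) h.1.hasFDerivAt u
  have h2 := h1.clm_apply (hasDerivAt_const (0 : ℝ) v)
  simp only [map_zero, add_zero] at h2
  refine h2.congr_of_eventuallyEq ?_
  have h3 : Tendsto (fun t : ℝ => x + t • u) (𝓝 0) (𝓝 x) := by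
    have : Continuous fun t : ℝ => x + t • u := by fun_prop
    have h4 := this.tendsto 0
    rwa [zero_smul, add_zero] at h4
  filter_upwards [h3.eventually_ne hx] with t ht
  have ht' : ((x + t • u : E) : X) ≠ 0 := fun h => ht (Subtype.ext h)
  rw [fderiv_sub (hd _ ht')]
  rfl

/-- The Hessian of a function on a plane. -/
theorem Good2.plane {f : X → ℝ} {E : Submodule ℝ X} {c p q : E}
    (hd : ∀ x : X, x ≠ 0 → DifferentiableAt ℝ f x)
    (hne : ∀ s : ℝ × ℝ, c + s.1 • p + s.2 • q ≠ 0) {s : ℝ × ℝ}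
    (h : Good2 f E (c + s.1 • p + s.2 • q)) (a b : ℝ × ℝ) :
    DifferentiableAt ℝ (fderiv ℝ (fun s : ℝ × ℝ => f ((c : X) + s.1 • (p : X) + s.2 • (q : X)))) s
    ∧ fderiv ℝ (fderiv ℝ (fun s : ℝ × ℝ => f ((c : X) + s.1 • (p : X) + s.2 • (q : X)))) s a b =
      fderiv ℝ (fderiv ℝ (fun z : E => f z)) (c + s.1 • p + s.2 • q)
        (a.1 • p + a.2 • q) (b.1 • p + b.2 • q) := by
  set L : ℝ × ℝ →L[ℝ] E := (ContinuousLinearMap.fst ℝ ℝ ℝ).smulRight p +
    (ContinuousLinearMap.snd ℝ ℝ ℝ).smulRight q with hL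
  have hLa : ∀ a : ℝ × ℝ, L a = a.1 • p + a.2 • q := fun a => rfl
  set g : E → ℝ := fun z : E => f z with hg
  have hgd : ∀ z : E, z ≠ 0 → DifferentiableAt ℝ g z := fun z hz => by
    have hz' : (z : X) ≠ 0 := fun h => hz (Subtype.ext h)
    exact (hd z hz').comp z E.subtypeL.differentiableAt
  have hℓ : ∀ s : ℝ × ℝ, HasFDerivAt (fun s : ℝ × ℝ => c + s.1 • p + s.2 • q) L s := by
    intro s
    have h1 : (fun s : ℝ × ℝ => c + s.1 • p + s.2 • q) = fun s => c + L s := by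
      funext s
      rw [hLa, add_assoc]
    rw [h1]
    exact (L.hasFDerivAt (x := s)).const_add c
  have hw : (fun s : ℝ × ℝ => f ((c : X) + s.1 • (p : X) + s.2 • (q : X))) =
      fun s : ℝ × ℝ => g (c + s.1 • p + s.2 • q) := rfl
  rw [hw]
  have hfw : fderiv ℝ (fun s : ℝ × ℝ => g (c + s.1 • p + s.2 • q)) =
      fun s => (fderiv ℝ g (c + s.1 • p + s.2 • q)).comp L := by
    funext s
    exact ((hgd _ (hne s)).hasFDerivAt.comp s (hℓ s)).fderiv
  rw [hfw]
  have h2 : HasFDerivAt (fun s : ℝ × ℝ => (fderiv ℝ g (c + s.1 • p + s.2 • q)).comp L)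
      ((ContinuousLinearMap.compL ℝ (ℝ × ℝ) E ℝ).flip L ∘L
        ((fderiv ℝ (fderiv ℝ g) (c + s.1 • p + s.2 • q)).comp L)) s := by
    have h3 : HasFDerivAt (fun s : ℝ × ℝ => fderiv ℝ g (c + s.1 • p + s.2 • q))
        ((fderiv ℝ (fderiv ℝ g) (c + s.1 • p + s.2 • q)).comp L) s := by
      have h30 : HasFDerivAt (fderiv ℝ g) (fderiv ℝ (fderiv ℝ g) (c + s.1 • p + s.2 • q))
        (c + s.1 • p + s.2 • q) := h.1.hasFDerivAt
      exact HasFDerivAt.comp (E := ℝ × ℝ) (F := E) (G := E →L[ℝ] ℝ) s h30 (hℓ s)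
    exact (((ContinuousLinearMap.compL ℝ (ℝ × ℝ) E ℝ).flip L).hasFDerivAt).comp s h3
  refine ⟨h2.differentiableAt, ?_⟩
  rw [h2.fderiv]
  rfl

end good

end P084
end 
end

/- UcNear -/
section
/-!
Near every plane there are planes on which the Hessian determinants are almost nonnegative.
-/

open MeasureTheory Measure Set Filter Topology Metric Module
open scoped NNReal ENNReal

noncomputable section

namespace P084

variable {X Y : Type*} [NormedAddCommGroup X] [NormedSpace ℝ X]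
  [NormedAddCommGroup Y] [NormedSpace ℝ Y]

/-- The second derivative of a potential with gradient `g`. -/
def d2 (g : X → X →L[ℝ] ℝ) (x u v : X) : ℝ := deriv (fun t : ℝ => g (x + t • u) v) 0

theorem tendsto_quot_of_hasDerivAt {φ : ℝ → ℝ} {L : ℝ} (h : HasDerivAt φ L 0) :
    Tendsto (fun t : ℝ => t⁻¹ * (φ t - φ 0)) (𝓝[>] 0) (𝓝 L) := by
  have h1 := hasDerivAt_iff_tendsto_slope_zero.mp h
  simp only [zero_add, smul_eq_mul] at h1
  exact h1.mono_left (nhdsWithin_mono _ fun t ht => ne_of_gt ht)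

/-- The value of the second derivative at good points. -/
theorem Good2.d2_eq {f : X → ℝ} {E : Submodule ℝ X} {x : E} (h : Good2 f E x)
    (hd : ∀ x : X, x ≠ 0 → DifferentiableAt ℝ f x) (hx : x ≠ 0) (u v : E) :
    d2 (fderiv ℝ f) x u v = fderiv ℝ (fderiv ℝ (fun z : E => f z)) x u v :=
  (h.hasDerivAt hd hx u v).deriv

theorem Good2.d2_symm {f : X → ℝ} {E : Submodule ℝ X} {x : E} (h : Good2 f E x)
    (hd : ∀ x : X, x ≠ 0 → DifferentiableAt ℝ f x) (hx : x ≠ 0) {u v : X} (hu : u ∈ E)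
    (hv : v ∈ E) : d2 (fderiv ℝ f) x u v = d2 (fderiv ℝ f) x v u := by
  rw [h.d2_eq hd hx ⟨u, hu⟩ ⟨v, hv⟩, h.d2_eq hd hx ⟨v, hv⟩ ⟨u, hu⟩]
  exact h.2 _ _

theorem Good2.tendsto {f : X → ℝ} {E : Submodule ℝ X} {x : E} (h : Good2 f E x)
    (hd : ∀ x : X, x ≠ 0 → DifferentiableAt ℝ f x) (hx : x ≠ 0) {u v : X} (hu : u ∈ E)
    (hv : v ∈ E) : Tendsto (fun t : ℝ => t⁻¹ * (fderiv ℝ f ((x : X) + t • u) v - fderiv ℝ f x v))
      (𝓝[>] 0) (𝓝 (d2 (fderiv ℝ f) x u v)) := by
  have h1 := h.hasDerivAt hd hx ⟨u, hu⟩ ⟨v, hv⟩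
  rw [← h.d2_eq hd hx] at h1
  have h2 := tendsto_quot_of_hasDerivAt h1
  simp only [zero_smul, add_zero] at h2
  exact h2

/-- The determinant of the Hessian on a plane. -/
def hdet (w : ℝ × ℝ → ℝ) (s : ℝ × ℝ) : ℝ :=
  fderiv ℝ (fderiv ℝ w) s (1, 0) (1, 0) * fderiv ℝ (fderiv ℝ w) s (0, 1) (0, 1) -
    (fderiv ℝ (fderiv ℝ w) s (1, 0) (0, 1)) ^ 2

theorem Good2.hdet_eq {f : X → ℝ} {E : Submodule ℝ X} {c p q : E}
    (hd : ∀ x : X, x ≠ 0 → DifferentiableAt ℝ f x)
    (hne : ∀ s : ℝ × ℝ, c + s.1 • p + s.2 • q ≠ 0) {s : ℝ × ℝ}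
    (h : Good2 f E (c + s.1 • p + s.2 • q)) :
    hdet (fun s : ℝ × ℝ => f ((c : X) + s.1 • (p : X) + s.2 • (q : X))) s =
      d2 (fderiv ℝ f) ((c + s.1 • p + s.2 • q : E) : X) p p *
        d2 (fderiv ℝ f) ((c + s.1 • p + s.2 • q : E) : X) q q -
      (d2 (fderiv ℝ f) ((c + s.1 • p + s.2 • q : E) : X) p q) ^ 2 := by
  have hx := hne s
  rw [hdet, (h.plane hd hne (1, 0) (1, 0)).2, (h.plane hd hne (0, 1) (0, 1)).2,
    (h.plane hd hne (1, 0) (0, 1)).2, h.d2_eq hd hx, h.d2_eq hd hx, h.d2_eq hd hx]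
  simp only [one_smul, zero_smul, add_zero, zero_add]

/-! ### One step of the construction -/

section step

variable {F : X → Y}

theorem fderiv_dual_comp (hdF : ∀ x : X, x ≠ 0 → DifferentiableAt ℝ F x) (η : Y →L[ℝ] ℝ) {x : X}
    (hx : x ≠ 0) : fderiv ℝ (fun z => η (F z)) x = η.comp (fderiv ℝ F x) :=
  (η.hasFDerivAt.comp x (hdF x hx).hasFDerivAt).fderiv

theorem lipAt_fderiv_dual_comp (hdF : ∀ x : X, x ≠ 0 → DifferentiableAt ℝ F x)
    (hFL : ∀ x : X, x ≠ 0 → LipAt (fderiv ℝ F) x) (η : Y →L[ℝ] ℝ) {x : X} (hx : x ≠ 0) :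
    LipAt (fderiv ℝ (fun z => η (F z))) x := by
  have h1 : LipAt (fun z => η.comp (fderiv ℝ F z)) x := (lipAt_const η x).clm_comp (hFL x hx)
  refine h1.congr ?_
  filter_upwards [isOpen_ne.mem_nhds hx] with z hz
  exact (fderiv_dual_comp hdF η hz).symm

theorem step_exists (hX : SmoothNorm X) (hXL : ∀ x : X, x ≠ 0 → LipAt (dn : X → X →L[ℝ] ℝ) x)
    (hdF : ∀ x : X, x ≠ 0 → DifferentiableAt ℝ F x)
    (hFL : ∀ x : X, x ≠ 0 → LipAt (fderiv ℝ F) x) {c p q : X} {ξ : Y →L[ℝ] ℝ}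
    {K : Set (ℝ × ℝ)} {δ ρ : ℝ} (hρ : 0 < ρ)
    (hne : ∀ m : X, ‖m - c‖ < ρ → ∀ s : ℝ × ℝ, m + s.1 • p + s.2 • q ≠ 0)
    (hneg : ∀ m : X, ‖m - c‖ < ρ →
      ¬ ∀ᵐ s : ℝ × ℝ, s ∈ K → -δ ≤ hdet (fun s : ℝ × ℝ => ξ (F (m + s.1 • p + s.2 • q))) s)
    (S : Finset X) (Φ : Finset (Y →L[ℝ] ℝ)) (hc : c ∈ S) (hp : p ∈ S) (hq : q ∈ S)
    (hξ : ξ ∈ Φ) {ε : ℝ} (hε : 0 < ε) :
    ∃ (m : X) (s : ℝ × ℝ) (t : ℝ), ‖m - c‖ < ρ ∧ ‖m - c‖ < ε ∧ s ∈ K ∧ 0 < t ∧ t < ε ∧
      (∀ u ∈ S, ∀ v ∈ S, d2 dn (m + s.1 • p + s.2 • q) u v = d2 dn (m + s.1 • p + s.2 • q) v u ∧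
        |t⁻¹ * (dn ((m + s.1 • p + s.2 • q) + t • u) v - dn (m + s.1 • p + s.2 • q) v) -
          d2 dn (m + s.1 • p + s.2 • q) u v| < ε) ∧
      (∀ η ∈ Φ, ∀ u ∈ S, ∀ v ∈ S, d2 (fderiv ℝ fun z => η (F z)) (m + s.1 • p + s.2 • q) u v =
          d2 (fderiv ℝ fun z => η (F z)) (m + s.1 • p + s.2 • q) v u ∧
        |t⁻¹ * (fderiv ℝ (fun z => η (F z)) ((m + s.1 • p + s.2 • q) + t • u) v -
          fderiv ℝ (fun z => η (F z)) (m + s.1 • p + s.2 • q) v) -
          d2 (fderiv ℝ fun z => η (F z)) (m + s.1 • p + s.2 • q) u v| < ε) ∧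
      d2 (fderiv ℝ fun z => ξ (F z)) (m + s.1 • p + s.2 • q) p p *
        d2 (fderiv ℝ fun z => ξ (F z)) (m + s.1 • p + s.2 • q) q q -
        (d2 (fderiv ℝ fun z => ξ (F z)) (m + s.1 • p + s.2 • q) p q) ^ 2 < -δ := by
  classical
  set E : Submodule ℝ X := Submodule.span ℝ (S : Set X) with hE
  have hfin : FiniteDimensional ℝ E := FiniteDimensional.span_finset ℝ S
  have hSE : ∀ u ∈ S, u ∈ E := fun u hu => Submodule.subset_span hu
  let _ : MeasurableSpace E := borel E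
  have _ : BorelSpace E := ⟨rfl⟩
  -- the family of functions
  set f : Option Φ → X → ℝ := fun k => match k with
    | none => fun z => ‖z‖
    | some η => fun z => (η : Y →L[ℝ] ℝ) (F z) with hf
  have hfd : ∀ k x, x ≠ 0 → DifferentiableAt ℝ (f k) x := by
    intro k x hx
    match k with
    | none => exact hX x hx
    | some η => exact (η : Y →L[ℝ] ℝ).differentiableAt.comp x (hdF x hx)
  have hfL : ∀ k x, x ≠ 0 → LipAt (fderiv ℝ (f k)) x := by
    intro k x hx
    match k with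
    | none => exact hXL x hx
    | some η => exact lipAt_fderiv_dual_comp hdF hFL (η : Y →L[ℝ] ℝ) hx
  have hae := ae_good2 E (addHaar : Measure E) hfd hfL
  set c' : E := ⟨c, hSE c hc⟩ with hc'
  set p' : E := ⟨p, hSE p hp⟩ with hp'
  set q' : E := ⟨q, hSE q hq⟩ with hq'
  obtain ⟨m, hm1, hm2⟩ := exists_near_ae (addHaar : Measure E) hae c' p' q'
    (show 0 < min ρ ε by positivity)
  have hmρ : ‖(m : X) - c‖ < ρ := by
    have : ‖(m : X) - c‖ = ‖m - c'‖ := rfl
    rw [this]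
    exact hm1.trans_le (min_le_left _ _)
  have hmε : ‖(m : X) - c‖ < ε := by
    have : ‖(m : X) - c‖ = ‖m - c'‖ := rfl
    rw [this]
    exact hm1.trans_le (min_le_right _ _)
  have hneE : ∀ s : ℝ × ℝ, m + s.1 • p' + s.2 • q' ≠ 0 := by
    intro s h0
    exact hne m hmρ s (congrArg (Subtype.val) h0)
  -- choice of the point of the plane
  obtain ⟨s, hsK, hsdet, hsgood⟩ : ∃ s : ℝ × ℝ, s ∈ K ∧
      hdet (fun s : ℝ × ℝ => ξ (F ((m : X) + s.1 • p + s.2 • q))) s < -δ ∧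
      ∀ k, Good2 (f k) E (m + s.1 • p' + s.2 • q') := by
    by_contra hcon
    push Not at hcon
    apply hneg m hmρ
    filter_upwards [hm2] with s hs hsK
    by_contra hlt
    push Not at hlt
    obtain ⟨k, hk⟩ := hcon s hsK hlt
    exact hk (hs (hneE s) k)
  set x : E := m + s.1 • p' + s.2 • q' with hx
  have hx0 : x ≠ 0 := hneE s
  have hxX : (x : X) = (m : X) + s.1 • p + s.2 • q := rfl
  -- the scale
  have hscale : ∀ᶠ t : ℝ in 𝓝[>] 0, 0 < t ∧ t < ε ∧
      (∀ u ∈ S, ∀ v ∈ S, |t⁻¹ * (dn ((x : X) + t • u) v - dn (x : X) v) -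
          d2 dn (x : X) u v| < ε) ∧
      (∀ η ∈ Φ, ∀ u ∈ S, ∀ v ∈ S,
        |t⁻¹ * (fderiv ℝ (fun z => η (F z)) ((x : X) + t • u) v -
          fderiv ℝ (fun z => η (F z)) (x : X) v) -
          d2 (fderiv ℝ fun z => η (F z)) (x : X) u v| < ε) := by
    have a1 : ∀ᶠ t : ℝ in 𝓝[>] 0, 0 < t := self_mem_nhdsWithin
    have a2 : ∀ᶠ t : ℝ in 𝓝[>] 0, t < ε := by
      have : Iio ε ∈ 𝓝 (0 : ℝ) := Iio_mem_nhds hε
      exact mem_nhdsWithin_of_mem_nhds this
    have key : ∀ k : Option Φ, ∀ u ∈ S, ∀ v ∈ S, ∀ᶠ t : ℝ in 𝓝[>] 0,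
        |t⁻¹ * (fderiv ℝ (f k) ((x : X) + t • u) v - fderiv ℝ (f k) (x : X) v) -
          d2 (fderiv ℝ (f k)) (x : X) u v| < ε := by
      intro k u hu v hv
      have h1 := (hsgood k).tendsto (hfd k) hx0 (hSE u hu) (hSE v hv)
      have h2 := h1.eventually (Metric.ball_mem_nhds _ hε)
      filter_upwards [h2] with t ht
      rwa [Real.dist_eq] at ht
    have a3 : ∀ᶠ t : ℝ in 𝓝[>] 0, ∀ u ∈ S, ∀ v ∈ S,
        |t⁻¹ * (dn ((x : X) + t • u) v - dn (x : X) v) - d2 dn (x : X) u v| < ε := by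
      rw [eventually_all_finset]
      intro u hu
      rw [eventually_all_finset]
      intro v hv
      exact key none u hu v hv
    have a4 : ∀ᶠ t : ℝ in 𝓝[>] 0, ∀ η ∈ Φ, ∀ u ∈ S, ∀ v ∈ S,
        |t⁻¹ * (fderiv ℝ (fun z => η (F z)) ((x : X) + t • u) v -
          fderiv ℝ (fun z => η (F z)) (x : X) v) -
          d2 (fderiv ℝ fun z => η (F z)) (x : X) u v| < ε := by
      rw [eventually_all_finset]
      intro η hη
      rw [eventually_all_finset]
      intro u hu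
      rw [eventually_all_finset]
      intro v hv
      exact key (some ⟨η, hη⟩) u hu v hv
    filter_upwards [a1, a2, a3, a4] with t h1 h2 h3 h4
    exact ⟨h1, h2, h3, h4⟩
  obtain ⟨t, ht0, htε, ht1, ht2⟩ := hscale.exists
  refine ⟨m, s, t, hmρ, hmε, hsK, ht0, htε, ?_, ?_, ?_⟩
  · intro u hu v hv
    rw [← hxX]
    exact ⟨(hsgood none).d2_symm (hfd none) hx0 (hSE u hu) (hSE v hv), ht1 u hu v hv⟩
  · intro η hη u hu v hv
    rw [← hxX]
    exact ⟨(hsgood (some ⟨η, hη⟩)).d2_symm (hfd (some ⟨η, hη⟩)) hx0 (hSE u hu) (hSE v hv),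
      ht2 η hη u hu v hv⟩
  · have h1 := (hsgood (some ⟨ξ, hξ⟩)).hdet_eq (hfd (some ⟨ξ, hξ⟩)) hneE
    rw [← hxX]
    have h2 : hdet (fun s : ℝ × ℝ => f (some ⟨ξ, hξ⟩)
        ((m : X) + s.1 • (p' : X) + s.2 • (q' : X))) s < -δ := hsdet
    rw [h1] at h2
    exact h2

end step

/-! ### Limits along ultrafilters -/

section limit

variable {ι : Type*} {Z : Type*} [NormedAddCommGroup Z] [NormedSpace ℝ Z]

theorem exists_weak_lim' [CompleteSpace Z] [UniformConvexSpace Z] (U : Ultrafilter ι) {y : ι → Z}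
    {C : ℝ} (hC : 0 ≤ C) (hy : ∀ᶠ i in (U : Filter ι), ‖y i‖ ≤ C) :
    ∃ y₀ : Z, ‖y₀‖ ≤ C ∧ ∀ η : Z →L[ℝ] ℝ, Tendsto (fun i => η (y i)) U (𝓝 (η y₀)) := by
  classical
  obtain ⟨y₀, hy₀⟩ := exists_weak_lim U (y := fun i => if ‖y i‖ ≤ C then y i else 0) (C := C)
    (fun i => by
      split_ifs with h
      · exact h
      · simpa only [norm_zero] using hC)
  have h1 : ∀ η : Z →L[ℝ] ℝ, Tendsto (fun i => η (y i)) U (𝓝 (η y₀)) := fun η =>
    (hy₀ η).congr' (by
      filter_upwards [hy] with i hi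
      rw [if_pos hi])
  refine ⟨y₀, ?_, h1⟩
  by_cases h0 : y₀ = 0
  · rw [h0, norm_zero]; exact hC
  obtain ⟨φ, hφ1, hφ2⟩ := exists_dual_vector ℝ y₀ (norm_ne_zero_iff.mpr h0)
  have hφ2' : φ y₀ = ‖y₀‖ := by simpa using hφ2
  rw [← hφ2']
  refine le_of_tendsto (h1 φ) ?_
  filter_upwards [hy] with i hi
  have := φ.le_opNorm (y i)
  rw [hφ1, one_mul] at this
  exact (le_abs_self _).trans (this.trans hi)

theorem eq_of_dual {a b : Z} (h : ∀ η : Z →L[ℝ] ℝ, η a = η b) : a = b := by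
  rw [← sub_eq_zero]
  refine SeparatingDual.eq_zero_of_forall_dual_eq_zero (R := ℝ) fun η => ?_
  rw [map_sub, h η, sub_self]

/-- Existence of weak ultralimits of bounded families. -/
def WeakLims (ι : Type*) (Z : Type*) [NormedAddCommGroup Z] [NormedSpace ℝ Z] : Prop :=
  ∀ (U : Ultrafilter ι) (y : ι → Z) (C : ℝ), 0 ≤ C → (∀ᶠ i in (U : Filter ι), ‖y i‖ ≤ C) →
    ∃ y₀ : Z, ‖y₀‖ ≤ C ∧ ∀ η : Z →L[ℝ] ℝ, Tendsto (fun i => η (y i)) U (𝓝 (η y₀))

theorem weakLims_of_uniformConvex (ι : Type*) (Z : Type*) [NormedAddCommGroup Z]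
    [NormedSpace ℝ Z] [CompleteSpace Z] [UniformConvexSpace Z] : WeakLims ι Z :=
  fun U _ _ hC hy => exists_weak_lim' U hC hy

/-- Symmetric difference quotients have bilinear weak ultralimits. -/
theorem exists_bilin_limit (hZ : WeakLims ι Z) (U : Ultrafilter ι)
    {g : X → X →L[ℝ] Z} {x : X} (hg : LipAt g x) {xi : ι → X} (tx : Tendsto xi U (𝓝 x))
    {s : ι → ℝ} (spos : ∀ᶠ i in (U : Filter ι), 0 < s i) (ts : Tendsto s U (𝓝 0))
    (sym : ∀ (η : Z →L[ℝ] ℝ) (u v : X), Tendsto (fun i =>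
      η ((s i)⁻¹ • (g (xi i + s i • u) v - g (xi i) v)) -
      η ((s i)⁻¹ • (g (xi i + s i • v) u - g (xi i) u))) U (𝓝 0)) :
    ∃ B : X →L[ℝ] X →L[ℝ] Z, (∀ u v, B u v = B v u) ∧ ∀ (u v : X) (η : Z →L[ℝ] ℝ),
      Tendsto (fun i => η ((s i)⁻¹ • (g (xi i + s i • u) v - g (xi i) v))) U (𝓝 (η (B u v))) := by
  obtain ⟨K, V, hV, hK⟩ := lipAt_iff.mp hg
  have hbd : ∀ u v : X, ∀ᶠ i in (U : Filter ι),
      ‖(s i)⁻¹ • (g (xi i + s i • u) v - g (xi i) v)‖ ≤ K * ‖u‖ * ‖v‖ := by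
    intro u v
    have t1 : Tendsto (fun i => xi i + s i • u) U (𝓝 x) := by
      have := tx.add (ts.smul (tendsto_const_nhds (x := u)))
      rwa [zero_smul, add_zero] at this
    filter_upwards [tx.eventually hV, t1.eventually hV, spos] with i h1 h2 h3
    have h4 := hK.dist_le_mul _ h2 _ h1
    rw [dist_eq_norm, dist_eq_norm, add_sub_cancel_left, norm_smul, Real.norm_eq_abs,
      abs_of_pos h3] at h4
    rw [← _root_.sub_apply, norm_smul, norm_inv, Real.norm_eq_abs, abs_of_pos h3,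
      inv_mul_le_iff₀ h3]
    refine ((g (xi i + s i • u) - g (xi i)).le_opNorm v).trans ?_
    calc ‖g (xi i + s i • u) - g (xi i)‖ * ‖v‖ ≤ (K * (s i * ‖u‖)) * ‖v‖ := by (clear * - h4; gcongr)
      _ = s i * (K * ‖u‖ * ‖v‖) := by ring
  have hex := fun u v : X => hZ U _ (K * ‖u‖ * ‖v‖) (by (clear * -; positivity)) (hbd u v)
  choose B hB1 hB2 using hex
  have hsym : ∀ u v, B u v = B v u := by
    intro u v
    refine eq_of_dual fun η => ?_
    have h1 := (hB2 u v η).sub (hB2 v u η)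
    have h2 := tendsto_nhds_unique h1 (sym η u v)
    linarith only [h2]
  have hadd : ∀ u v v', B u (v + v') = B u v + B u v' := by
    intro u v v'
    refine eq_of_dual fun η => ?_
    rw [map_add]
    refine tendsto_nhds_unique (hB2 u (v + v') η) (((hB2 u v η).add (hB2 u v' η)).congr
      fun i => ?_)
    rw [← map_add, ← smul_add, map_add, map_add]
    congr 2
    abel
  have hsmul : ∀ (c : ℝ) u v, B u (c • v) = c • B u v := by
    intro c u v
    refine eq_of_dual fun η => ?_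
    rw [map_smul, smul_eq_mul]
    refine tendsto_nhds_unique (hB2 u (c • v) η) (((hB2 u v η).const_mul c).congr fun i => ?_)
    rw [map_smul (g (xi i + s i • u)), map_smul (g (xi i)), ← smul_sub, smul_comm, map_smul η c,
      smul_eq_mul]
  refine ⟨LinearMap.mkContinuous₂ (LinearMap.mk₂ ℝ B
    (fun u u' v => by rw [hsym, hadd, hsym v, hsym v]) (fun c u v => by rw [hsym, hsmul, hsym v])
    hadd hsmul) K (fun u v => hB1 u v), hsym, hB2⟩

end limit

section near

variable {F : X → Y}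

/-- Index set of the approximation. -/
abbrev Idx (X Y : Type*) [NormedAddCommGroup X] [NormedSpace ℝ X] [NormedAddCommGroup Y]
    [NormedSpace ℝ Y] := Finset X × Finset (Y →L[ℝ] ℝ) × ℕ

/-- **Planes with almost nonnegative Hessian determinants.** -/
theorem det_ge_near_gen (hYW : WeakLims (Idx X Y) Y) (hX : SmoothNorm X)
    (hXL : ∀ x : X, x ≠ 0 → LipAt (dn : X → X →L[ℝ] ℝ) x)
    (hdF : ∀ x : X, x ≠ 0 → DifferentiableAt ℝ F x)
    (hFL : ∀ x : X, x ≠ 0 → LipAt (fderiv ℝ F) x)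
    (box : ∀ (U : Ultrafilter (Idx X Y)) (x : X), x ≠ 0 → ∀ (xi : Idx X Y → X) (s : Idx X Y → ℝ),
      Tendsto xi U (𝓝 x) → (∀ᶠ i in (U : Filter (Idx X Y)), 0 < s i) → Tendsto s U (𝓝 0) →
      ∀ (h : X →L[ℝ] X →L[ℝ] ℝ) (B : X →L[ℝ] X →L[ℝ] Y), (∀ u v, h u v = h v u) →
      (∀ u v, B u v = B v u) →
      (∀ u v, Tendsto (fun i => (s i)⁻¹ * (dn (xi i + s i • u) v - dn (xi i) v)) U
        (𝓝 (h u v))) →
      (∀ u v (η : Y →L[ℝ] ℝ), Tendsto (fun i => η ((s i)⁻¹ •
        (fderiv ℝ F (xi i + s i • u) v - fderiv ℝ F (xi i) v))) U (𝓝 (η (B u v)))) →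
      ∃ b : Y, ∀ u v, B u v = h u v • b)
    {c p q : X} (hcpq : ∀ s : ℝ × ℝ, c + s.1 • p + s.2 • q ≠ 0) (ξ : Y →L[ℝ] ℝ)
    {K : Set (ℝ × ℝ)} (hK : IsCompact K) {δ ρ : ℝ} (hδ : 0 < δ) (hρ : 0 < ρ)
    (hne : ∀ m : X, ‖m - c‖ < ρ → ∀ s : ℝ × ℝ, m + s.1 • p + s.2 • q ≠ 0) :
    ∃ m : X, ‖m - c‖ < ρ ∧
      ∀ᵐ s : ℝ × ℝ, s ∈ K → -δ ≤ hdet (fun s : ℝ × ℝ => ξ (F (m + s.1 • p + s.2 • q))) s := by
  classical
  by_contra hcon
  have hneg : ∀ m : X, ‖m - c‖ < ρ →
      ¬ ∀ᵐ s : ℝ × ℝ, s ∈ K → -δ ≤ hdet (fun s : ℝ × ℝ => ξ (F (m + s.1 • p + s.2 • q))) s :=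
    fun m hm h => hcon ⟨m, hm, h⟩
  have hstep : ∀ i : Idx X Y, _ := fun i =>
    step_exists hX hXL hdF hFL hρ hne hneg (insert c (insert p (insert q i.1))) (insert ξ i.2.1)
      (by simp) (by simp) (by simp) (by simp) (show (0 : ℝ) < 1 / ((i.2.2 : ℝ) + 1) by (clear * -; positivity))
  choose m s t hmρ hmε hsK ht0 htε hN hΦ hdet using hstep
  -- the ultrafilter
  obtain ⟨U, hU⟩ : ∃ U : Ultrafilter (Idx X Y), (U : Filter (Idx X Y)) ≤ atTop :=
    Ultrafilter.exists_le atTop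
  have memX : ∀ u : X, ∀ᶠ i : Idx X Y in (U : Filter (Idx X Y)),
      u ∈ insert c (insert p (insert q i.1)) := by
    intro u
    refine hU ?_
    filter_upwards [eventually_ge_atTop (({u}, ∅, 0) : Idx X Y)] with i hi
    have h1 : ({u} : Finset X) ≤ i.1 := hi.1
    have h2 : u ∈ i.1 := h1 (Finset.mem_singleton_self u)
    simp [h2]
  have memΦ : ∀ η : Y →L[ℝ] ℝ, ∀ᶠ i : Idx X Y in (U : Filter (Idx X Y)),
      η ∈ insert ξ i.2.1 := by
    intro η
    refine hU ?_
    filter_upwards [eventually_ge_atTop ((∅, {η}, 0) : Idx X Y)] with i hi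
    have h1 : ({η} : Finset (Y →L[ℝ] ℝ)) ≤ i.2.1 := hi.2.1
    have h2 : η ∈ i.2.1 := h1 (Finset.mem_singleton_self η)
    simp [h2]
  have tn : Tendsto (fun i : Idx X Y => 1 / ((i.2.2 : ℝ) + 1)) U (𝓝 0) := by
    have h1 : Tendsto (fun i : Idx X Y => i.2.2) atTop atTop := by
      rw [Filter.tendsto_atTop]
      intro n
      filter_upwards [eventually_ge_atTop ((∅, ∅, n) : Idx X Y)] with i hi
      exact hi.2.2
    exact ((tendsto_one_div_add_atTop_nhds_zero_nat (𝕜 := ℝ)).comp h1).mono_left hU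
  -- limits
  have tm : Tendsto m U (𝓝 c) := by
    rw [tendsto_iff_norm_sub_tendsto_zero]
    exact squeeze_zero (fun i => norm_nonneg _) (fun i => (hmε i).le) tn
  have tt : Tendsto t U (𝓝 0) :=
    squeeze_zero (fun i => (ht0 i).le) (fun i => (htε i).le) tn
  obtain ⟨s₀, hs₀K, hs₀⟩ := hK.ultrafilter_le_nhds (U.map s) (by
    rw [le_principal_iff]
    change ∀ᶠ i in (U : Filter (Idx X Y)), s i ∈ K
    exact Eventually.of_forall hsK)
  have tS : Tendsto s U (𝓝 s₀) := hs₀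
  set xi : Idx X Y → X := fun i => m i + (s i).1 • p + (s i).2 • q with hxi
  set x : X := c + s₀.1 • p + s₀.2 • q with hx
  have hx0 : x ≠ 0 := hcpq s₀
  have tx : Tendsto xi U (𝓝 x) := by
    have h1 : Tendsto (fun i => (s i).1) U (𝓝 s₀.1) := (continuous_fst.tendsto s₀).comp tS
    have h2 : Tendsto (fun i => (s i).2) U (𝓝 s₀.2) := (continuous_snd.tendsto s₀).comp tS
    exact (tm.add (h1.smul_const p)).add (h2.smul_const q)
  have tpos : ∀ᶠ i in (U : Filter (Idx X Y)), 0 < t i := Eventually.of_forall ht0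
  have hxi0 : ∀ᶠ i in (U : Filter (Idx X Y)), xi i ≠ 0 := tx.eventually_ne hx0
  have hxu0 : ∀ u : X, ∀ᶠ i in (U : Filter (Idx X Y)), xi i + t i • u ≠ 0 := by
    intro u
    have := tx.add (tt.smul (tendsto_const_nhds (x := u)))
    rw [zero_smul, add_zero] at this
    exact this.eventually_ne hx0
  -- approximation of the quotients
  have apN : ∀ u v : X, Tendsto (fun i => (t i)⁻¹ * (dn (xi i + t i • u) v - dn (xi i) v) -
      d2 dn (xi i) u v) U (𝓝 0) := by
    intro u v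
    refine squeeze_zero_norm' ?_ tn
    filter_upwards [memX u, memX v] with i hu hv
    exact ((hN i u hu v hv).2).le
  have apF : ∀ (η : Y →L[ℝ] ℝ) (u v : X), Tendsto (fun i => η ((t i)⁻¹ •
      (fderiv ℝ F (xi i + t i • u) v - fderiv ℝ F (xi i) v)) -
      d2 (fderiv ℝ fun z => η (F z)) (xi i) u v) U (𝓝 0) := by
    intro η u v
    refine squeeze_zero_norm' ?_ tn
    filter_upwards [memX u, memX v, memΦ η, hxi0, hxu0 u] with i hu hv hη h1 h2
    have h3 := ((hΦ i η hη u hu v hv).2).le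
    change |(t i)⁻¹ * (fderiv ℝ (fun z => η (F z)) (xi i + t i • u) v -
      fderiv ℝ (fun z => η (F z)) (xi i) v) - d2 (fderiv ℝ fun z => η (F z)) (xi i) u v| ≤ _ at h3
    rw [fderiv_dual_comp hdF η h1, fderiv_dual_comp hdF η h2] at h3
    rw [Real.norm_eq_abs, map_smul, smul_eq_mul, map_sub]
    exact h3
  -- bilinear limits
  obtain ⟨h, hsym, hth⟩ := exists_bilin_limit (Z := ℝ) (weakLims_of_uniformConvex _ _) U (hXL x hx0) tx tpos tt (by
    intro η u v
    have h1 : Tendsto (fun i => η 1 * (((t i)⁻¹ * (dn (xi i + t i • u) v - dn (xi i) v) -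
        d2 dn (xi i) u v) - ((t i)⁻¹ * (dn (xi i + t i • v) u - dn (xi i) u) -
        d2 dn (xi i) v u))) U (𝓝 (η 1 * (0 - 0))) := ((apN u v).sub (apN v u)).const_mul _
    rw [sub_zero, mul_zero] at h1
    refine h1.congr' ?_
    filter_upwards [memX u, memX v] with i hu hv
    have h2 := (hN i u hu v hv).1
    change d2 dn (xi i) u v = d2 dn (xi i) v u at h2
    have h3 : ∀ r : ℝ, η r = η 1 * r := fun r => by
      conv_lhs => rw [← mul_one r, ← smul_eq_mul, map_smul, smul_eq_mul]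
      ring
    rw [h3 ((t i)⁻¹ • _), h3 ((t i)⁻¹ • _), h2, smul_eq_mul, smul_eq_mul]
    ring)
  have hth' : ∀ u v, Tendsto (fun i => (t i)⁻¹ * (dn (xi i + t i • u) v - dn (xi i) v)) U
      (𝓝 (h u v)) := fun u v => hth u v (ContinuousLinearMap.id ℝ ℝ)
  obtain ⟨B, Bsym, hB⟩ := exists_bilin_limit (Z := Y) hYW U (hFL x hx0) tx tpos tt (by
    intro η u v
    have h1 := (apF η u v).sub (apF η v u)
    rw [sub_zero] at h1
    refine h1.congr' ?_
    filter_upwards [memX u, memX v, memΦ η] with i hu hv hη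
    have h2 := (hΦ i η hη u hu v hv).1
    change d2 (fderiv ℝ fun z => η (F z)) (xi i) u v =
      d2 (fderiv ℝ fun z => η (F z)) (xi i) v u at h2
    rw [h2]
    ring)
  obtain ⟨b, hb⟩ := box U x hx0 xi t tx tpos tt h B hsym Bsym hth' hB
  -- the determinant
  have td2 : ∀ u v : X, Tendsto (fun i => d2 (fderiv ℝ fun z => ξ (F z)) (xi i) u v) U
      (𝓝 (h u v * ξ b)) := by
    intro u v
    have h1 := (hB u v ξ).sub (apF ξ u v)
    rw [sub_zero, hb, map_smul, smul_eq_mul] at h1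
    refine h1.congr fun i => ?_
    ring
  have tdet := ((td2 p p).mul (td2 q q)).sub ((td2 p q).pow 2)
  have h1 : h p p * ξ b * (h q q * ξ b) - (h p q * ξ b) ^ 2 ≤ -δ :=
    le_of_tendsto tdet (Eventually.of_forall fun i => (hdet i).le)
  have hpsd : ∀ u, 0 ≤ h u u := by
    intro u
    refine ge_of_tendsto (hth' u u) ?_
    filter_upwards [hxi0, hxu0 u] with i h1 h2
    refine mul_nonneg (inv_nonneg.mpr (ht0 i).le) ?_
    have h3 := hX.le_norm_add h1 (t i • u)
    have h4 := hX.le_norm_add h2 (-(t i • u))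
    rw [add_neg_cancel_right, map_neg, map_smul, smul_eq_mul] at h4
    rw [map_smul, smul_eq_mul] at h3
    have h5 : 0 ≤ t i * (dn (xi i + t i • u) u - dn (xi i) u) := by linarith only [h3, h4]
    exact nonneg_of_mul_nonneg_right h5 (ht0 i)
  have hcs := psd_cs h hsym hpsd p q
  have h2 : h p p * ξ b * (h q q * ξ b) - (h p q * ξ b) ^ 2 =
      (ξ b) ^ 2 * (h p p * h q q - (h p q) ^ 2) := by ring
  rw [h2] at h1
  have h3 : 0 ≤ (ξ b) ^ 2 * (h p p * h q q - (h p q) ^ 2) :=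
    mul_nonneg (sq_nonneg _) (by linarith only [hcs])
  linarith only [hδ, h1, h3]

end near

end P084
end 
end

/- UcFinal -/
section
/-!
The end of the `C^{1,1}` case in uniformly convex spaces.
-/

open MeasureTheory Measure Set Filter Topology Metric Module
open scoped NNReal ENNReal

noncomputable section

namespace P084

variable {X Y : Type*} [NormedAddCommGroup X] [NormedSpace ℝ X]
  [NormedAddCommGroup Y] [NormedSpace ℝ Y] {F : X → Y}

theorem Reg.lipAt {K : ℝ} (hR : Reg F K) {x : X} (hx : x ≠ 0) : LipAt (fderiv ℝ F) x := by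
  have hK := hR.nonneg
  have hx0 : 0 < ‖x‖ := norm_pos_iff.mpr hx
  rw [lipAt_iff]
  refine ⟨⟨2 * K / ‖x‖, by positivity⟩, ball x (‖x‖ / 2), ball_mem_nhds _ (by positivity), ?_⟩
  refine LipschitzOnWith.of_dist_le_mul fun y hy z hz => ?_
  have hn : ∀ y ∈ ball x (‖x‖ / 2), ‖x‖ / 2 ≤ ‖y‖ := by
    intro y hy
    rw [mem_ball, dist_eq_norm] at hy
    have : ‖x‖ ≤ ‖y‖ + ‖y - x‖ := by
      have e : x = y - (y - x) := by abel
      calc ‖x‖ = ‖y - (y - x)‖ := by rw [← e]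
        _ ≤ _ := norm_sub_le _ _
    linarith only [hy, this]
  have hy' := hn y hy
  have hz' := hn z hz
  have h1 := hR.lip y z (norm_pos_iff.mp (by linarith only [hx0, hy'])) (norm_pos_iff.mp (by linarith only [hx0, hz']))
  rw [dist_eq_norm, dist_eq_norm]
  refine h1.trans ?_
  change _ ≤ 2 * K / ‖x‖ * ‖y - z‖
  have h2 : 0 ≤ K * ‖y - z‖ := by (clear * - hK; positivity)
  rw [div_le_iff₀ (by linarith only [hx0, hy'])]
  calc K * ‖y - z‖ = 2 * K / ‖x‖ * ‖y - z‖ * (‖x‖ / 2) := by field_simp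
    _ ≤ 2 * K / ‖x‖ * ‖y - z‖ * ‖y‖ := by (clear * - hy' hK hx; gcongr)

theorem norm_lipAt_dn (hX : UC11 X) {x : X} (hx : x ≠ 0) :
    LipAt (dn : X → X →L[ℝ] ℝ) x := by
  obtain ⟨C, hC0, hC⟩ := hX.exists_pos
  have hx0 : 0 < ‖x‖ := norm_pos_iff.mpr hx
  rw [lipAt_iff]
  refine ⟨⟨8 * C / ‖x‖, by positivity⟩, ball x (‖x‖ / 2), ball_mem_nhds _ (by positivity), ?_⟩
  refine LipschitzOnWith.of_dist_le_mul fun y hy z hz => ?_
  have hn : ∀ y ∈ ball x (‖x‖ / 2), ‖x‖ / 2 ≤ ‖y‖ := by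
    intro y hy
    rw [mem_ball, dist_eq_norm] at hy
    have : ‖x‖ ≤ ‖y‖ + ‖y - x‖ := by
      have e : x = y - (y - x) := by abel
      calc ‖x‖ = ‖y - (y - x)‖ := by rw [← e]
        _ ≤ _ := norm_sub_le _ _
    linarith only [hy, this]
  have hy' := hn y hy
  have hz' := hn z hz
  have h1 := UC11.dn_lip hC0.le hC (x := y) (y := z) (norm_pos_iff.mp (by linarith only [hx0, hy']))
    (norm_pos_iff.mp (by linarith only [hx0, hz']))
  rw [dist_eq_norm, dist_eq_norm]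
  refine h1.trans ?_
  change _ ≤ 8 * C / ‖x‖ * ‖y - z‖
  have h2 : 0 ≤ C * ‖y - z‖ := by (clear * - hC0; positivity)
  rw [div_le_iff₀ (by linarith only [hx0, hy'])]
  calc 4 * C * ‖y - z‖ = 8 * C / ‖x‖ * ‖y - z‖ * (‖x‖ / 2) := by field_simp; ring
    _ ≤ 8 * C / ‖x‖ * ‖y - z‖ * ‖y‖ := by gcongr

/-- Second derivatives on a plane missing the origin. -/
theorem plane_ae {u : X → ℝ} (hu : ∀ x : X, x ≠ 0 → DifferentiableAt ℝ u x)
    (huL : ∀ x : X, x ≠ 0 → LipAt (fderiv ℝ u) x) {c e₁ e₂ : X}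
    (hne : ∀ s : ℝ × ℝ, c + s.1 • e₁ + s.2 • e₂ ≠ 0) :
    ∀ᵐ s : ℝ × ℝ, (∀ v : ℝ × ℝ, lineDeriv ℝ (fun s => fderiv ℝ u (c + Ep.LL e₁ e₂ s) e₁) s v =
        fderiv ℝ (fderiv ℝ (fun s : ℝ × ℝ => u (c + s.1 • e₁ + s.2 • e₂))) s v (1, 0)) ∧
      (∀ v : ℝ × ℝ, lineDeriv ℝ (fun s => fderiv ℝ u (c + Ep.LL e₁ e₂ s) e₂) s v =
        fderiv ℝ (fderiv ℝ (fun s : ℝ × ℝ => u (c + s.1 • e₁ + s.2 • e₂))) s v (0, 1)) ∧
      fderiv ℝ (fderiv ℝ (fun s : ℝ × ℝ => u (c + s.1 • e₁ + s.2 • e₂))) s (0, 1) (1, 0) =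
      fderiv ℝ (fderiv ℝ (fun s : ℝ × ℝ => u (c + s.1 • e₁ + s.2 • e₂))) s (1, 0) (0, 1) := by
  obtain ⟨w, hw⟩ : ∃ w : ℝ × ℝ → ℝ, w = fun s => u (c + s.1 • e₁ + s.2 • e₂) := ⟨_, rfl⟩
  rw [← hw]
  set L : ℝ × ℝ →L[ℝ] X := (ContinuousLinearMap.fst ℝ ℝ ℝ).smulRight e₁ +
    (ContinuousLinearMap.snd ℝ ℝ ℝ).smulRight e₂ with hL
  have hLa : ∀ a : ℝ × ℝ, L a = a.1 • e₁ + a.2 • e₂ := fun a => rfl
  have hℓ : ∀ s : ℝ × ℝ, HasFDerivAt (fun s : ℝ × ℝ => c + s.1 • e₁ + s.2 • e₂) L s := by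
    intro s
    have h1 : (fun s : ℝ × ℝ => c + s.1 • e₁ + s.2 • e₂) = fun s => c + L s := by
      funext s
      rw [hLa, add_assoc]
    rw [h1]
    exact (L.hasFDerivAt (x := s)).const_add c
  have hwd : ∀ s, HasFDerivAt w ((fderiv ℝ u (c + s.1 • e₁ + s.2 • e₂)).comp L) s := by
    intro s
    rw [hw]
    exact (hu _ (hne s)).hasFDerivAt.comp s (hℓ s)
  have hfw : fderiv ℝ w = fun s => (fderiv ℝ u (c + s.1 • e₁ + s.2 • e₂)).comp L :=
    funext fun s => (hwd s).fderiv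
  have hwL : ∀ s, LipAt (fderiv ℝ w) s := by
    intro s
    rw [hfw]
    have h1 : LipAt (fun s : ℝ × ℝ => c + s.1 • e₁ + s.2 • e₂) s := by
      have h2 : ContDiff ℝ 1 (fun s : ℝ × ℝ => c + s.1 • e₁ + s.2 • e₂) := by fun_prop
      exact (h2.contDiffAt.hasStrictFDerivAt (by norm_num)).lipAt
    have h2 : LipAt (fun s : ℝ × ℝ => fderiv ℝ u (c + s.1 • e₁ + s.2 • e₂)) s :=
      LipAt.comp (f := fderiv ℝ u) (g := fun s : ℝ × ℝ => c + s.1 • e₁ + s.2 • e₂)
        (huL _ (hne s)) h1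
    exact h2.clm_comp (lipAt_const L s)
  have hae := ae_second_symm (volume : Measure (ℝ × ℝ)) (κ := Unit) (f := fun _ => w)
    (fun _ s _ => (hwd s).differentiableAt) (fun _ s _ => hwL s)
  have hne0 : ∀ᵐ s : ℝ × ℝ, s ≠ 0 :=
    (measure_eq_zero_iff_ae_notMem.1 (measure_singleton (0 : ℝ × ℝ))).mono fun x hx => by
      simpa using hx
  filter_upwards [hae, hne0] with s hs hs0
  obtain ⟨hd, hsym⟩ := hs hs0 ()
  have hline : ∀ a v : ℝ × ℝ, lineDeriv ℝ (fun s => fderiv ℝ w s a) s v =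
      fderiv ℝ (fderiv ℝ w) s v a := by
    intro a v
    have h1 : HasFDerivAt (fun s => fderiv ℝ w s a)
        ((ContinuousLinearMap.apply ℝ ℝ a).comp (fderiv ℝ (fderiv ℝ w) s)) s :=
      ((ContinuousLinearMap.apply ℝ ℝ a).hasFDerivAt).comp s hd.hasFDerivAt
    exact (h1.hasLineDerivAt v).lineDeriv
  have he1 : (fun s => fderiv ℝ u (c + Ep.LL e₁ e₂ s) e₁) = fun s => fderiv ℝ w s (1, 0) := by
    funext s
    rw [hfw]
    change fderiv ℝ u (c + Ep.LL e₁ e₂ s) e₁ =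
      fderiv ℝ u (c + s.1 • e₁ + s.2 • e₂) (L (1, 0))
    rw [hLa, Ep.LL_apply, add_assoc]
    simp
  have he2 : (fun s => fderiv ℝ u (c + Ep.LL e₁ e₂ s) e₂) = fun s => fderiv ℝ w s (0, 1) := by
    funext s
    rw [hfw]
    change fderiv ℝ u (c + Ep.LL e₁ e₂ s) e₂ =
      fderiv ℝ u (c + s.1 • e₁ + s.2 • e₂) (L (0, 1))
    rw [hLa, Ep.LL_apply, add_assoc]
    simp only [zero_smul, one_smul, zero_add]
  refine ⟨fun v => ?_, fun v => ?_, hsym _ _⟩
  · rw [he1, hline]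
  · rw [he2, hline]

/-- Additivity from the black box on second order limits. -/
theorem additive_of_box_gen (hYW : WeakLims (Idx X Y) Y) (hF : SphIso F) (hX : UC11 X)
    {K₀ : ℝ} (hR : Reg F K₀)
    (hdim : ∀ e₁ e₂ : X, ∃ c : X, c ∉ Submodule.span ℝ {e₁, e₂})
    (box : ∀ (U : Ultrafilter (Idx X Y)) (x : X), x ≠ 0 → ∀ (xi : Idx X Y → X) (s : Idx X Y → ℝ),
      Tendsto xi U (𝓝 x) → (∀ᶠ i in (U : Filter (Idx X Y)), 0 < s i) → Tendsto s U (𝓝 0) →
      ∀ (h : X →L[ℝ] X →L[ℝ] ℝ) (B : X →L[ℝ] X →L[ℝ] Y), (∀ u v, h u v = h v u) →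
      (∀ u v, B u v = B v u) →
      (∀ u v, Tendsto (fun i => (s i)⁻¹ * (dn (xi i + s i • u) v - dn (xi i) v)) U
        (𝓝 (h u v))) →
      (∀ u v (η : Y →L[ℝ] ℝ), Tendsto (fun i => η ((s i)⁻¹ •
        (fderiv ℝ F (xi i + s i • u) v - fderiv ℝ F (xi i) v))) U (𝓝 (η (B u v)))) →
      ∃ b : Y, ∀ u v, B u v = h u v • b) (x y : X) : F (x + y) = F x + F y := by
  refine eq_of_dual fun ξ => ?_
  rw [map_add]
  have hK := hR.nonneg
  have hdF : ∀ x : X, x ≠ 0 → DifferentiableAt ℝ F x := hR.diff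
  have hFL : ∀ x : X, x ≠ 0 → LipAt (fderiv ℝ F) x := fun x hx => hR.lipAt hx
  have hXL : ∀ x : X, x ≠ 0 → LipAt (dn : X → X →L[ℝ] ℝ) x := fun x hx => norm_lipAt_dn hX hx
  refine Ep.linear_of_base (u := fun z => ξ (F z)) (fun t z => ?_) (fun z hz => ?_)
    (C := ‖ξ‖ * K₀) (by (clear * - hK; positivity)) (fun z z' hz hz' => ?_) (fun e₁ e₂ hind m => ?_) x y
  · rw [hF.smul, map_smul, smul_eq_mul]
  · exact ξ.differentiableAt.comp z (hdF z hz)
  · rw [fderiv_dual_comp hdF ξ hz, fderiv_dual_comp hdF ξ hz', ← ContinuousLinearMap.comp_sub]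
    have hz0 : 0 < ‖z‖ := norm_pos_iff.mpr hz
    have h1 := hR.lip z z' hz hz'
    calc ‖z‖ * ‖ξ.comp (fderiv ℝ F z - fderiv ℝ F z')‖
        ≤ ‖z‖ * (‖ξ‖ * (K₀ * ‖z - z'‖ / ‖z‖)) := by
          gcongr
          refine (ContinuousLinearMap.opNorm_comp_le _ _).trans ?_
          (clear * - h1; gcongr)
      _ = ‖ξ‖ * K₀ * ‖z - z'‖ := by (clear * - hz; field_simp)
  · -- base points
    obtain ⟨c₁, hc₁⟩ := hdim e₁ e₂
    have hc₁0 : 0 < ‖c₁‖ + 1 := by (clear * -; positivity)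
    set r : ℝ := ((m : ℝ) + 1)⁻¹ / 2 / (‖c₁‖ + 1) with hr
    have hr0 : 0 < r := by (clear * -; positivity)
    set c₀ : X := r • c₁ with hc₀
    have hc₀n : ‖c₀‖ < ((m : ℝ) + 1)⁻¹ / 2 := by
      rw [hc₀, norm_smul, Real.norm_eq_abs, abs_of_pos hr0, hr, div_mul_eq_mul_div,
        div_lt_iff₀ hc₁0]
      have : 0 < ((m : ℝ) + 1)⁻¹ / 2 := by positivity
      gcongr
      linarith only []
    have hc₀s : c₀ ∉ Submodule.span ℝ {e₁, e₂} := by
      intro h
      apply hc₁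
      have h2 := Submodule.smul_mem _ r⁻¹ h
      rwa [hc₀, smul_smul, inv_mul_cancel₀ hr0.ne', one_smul] at h2
    have hfin : FiniteDimensional ℝ (Submodule.span ℝ ({e₁, e₂} : Set X)) :=
      FiniteDimensional.span_of_finite ℝ (by simp)
    have hclosed : IsClosed (Submodule.span ℝ ({e₁, e₂} : Set X) : Set X) :=
      Submodule.closed_of_finiteDimensional _
    obtain ⟨ρ₁, hρ₁, hball⟩ := Metric.isOpen_iff.mp hclosed.isOpen_compl c₀ hc₀s
    set ρ : ℝ := min ρ₁ (((m : ℝ) + 1)⁻¹ / 2) with hρ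
    have hρ0 : 0 < ρ := by (clear * - hρ₁; positivity)
    have hout : ∀ z : X, ‖z - c₀‖ < ρ → z ∉ Submodule.span ℝ {e₁, e₂} := by
      intro z hz
      have h1 : z ∈ ball c₀ ρ₁ := by
        rw [mem_ball, dist_eq_norm]
        exact hz.trans_le (min_le_left _ _)
      exact hball h1
    have hLs : ∀ s : ℝ × ℝ, s.1 • e₁ + s.2 • e₂ ∈ Submodule.span ℝ {e₁, e₂} := fun s =>
      Submodule.add_mem _ (Submodule.smul_mem _ _ (Submodule.subset_span (by simp)))
        (Submodule.smul_mem _ _ (Submodule.subset_span (by simp)))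
    have hneS : ∀ z : X, z ∉ Submodule.span ℝ {e₁, e₂} →
        ∀ s : ℝ × ℝ, z + s.1 • e₁ + s.2 • e₂ ≠ 0 := by
      intro z hz s h0
      apply hz
      rw [add_assoc] at h0
      rw [eq_neg_of_add_eq_zero_left h0]
      exact Submodule.neg_mem _ (hLs s)
    have hKc : IsCompact (Icc (-2 : ℝ) 2 ×ˢ Icc (-(2 * ((m : ℝ) + 1))) (2 * ((m : ℝ) + 1))) :=
      isCompact_Icc.prod isCompact_Icc
    obtain ⟨c, hcρ, hcdet⟩ := det_ge_near_gen hYW hX.smooth hXL hdF hFL box (c := c₀) (p := e₁) (q := e₂)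
      (hneS c₀ hc₀s) ξ hKc (δ := ((m : ℝ) + 1)⁻¹ * ((m : ℝ) + 1)⁻¹) (by (clear * -; positivity)) hρ0
      (fun z hz => hneS z (hout z hz))
    have hcs := hout c hcρ
    have hpl := plane_ae (u := fun z => ξ (F z))
      (fun z hz => ξ.differentiableAt.comp z (hdF z hz))
      (fun z hz => lipAt_fderiv_dual_comp hdF hFL ξ hz) (hneS c hcs)
    refine ⟨c, ?_, hcs, ?_, ?_⟩
    · have h1 : ‖c‖ ≤ ‖c - c₀‖ + ‖c₀‖ := by
        have e : c = (c - c₀) + c₀ := by abel
        calc ‖c‖ = ‖(c - c₀) + c₀‖ := by rw [← e]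
          _ ≤ _ := norm_add_le _ _
      have h2 : ‖c - c₀‖ < ((m : ℝ) + 1)⁻¹ / 2 := hcρ.trans_le (min_le_right _ _)
      linarith only [hc₀n, h1, h2]
    · filter_upwards [hpl] with s hs
      rw [hs.1, hs.2.1]
      exact hs.2.2
    · filter_upwards [hpl, hcdet] with s hs hs2 h1 h2
      rw [hs.1, hs.1, hs.2.1, hs.2.1, hs.2.2]
      have h3 := hs2 ⟨abs_le.mp h1, abs_le.mp h2⟩
      rw [hdet] at h3
      linarith only [h3]

end P084
end 
end

/- UcC11 -/
section
/-!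
Tingley's problem when the norms and the isometry have quadratically bounded second differences
(no convexity assumption).
-/

open Set Filter Topology Metric P084

noncomputable section

namespace Vale.Agent.P084

variable {X Y : Type*} [NormedAddCommGroup X] [NormedSpace ℝ X]
  [NormedAddCommGroup Y] [NormedSpace ℝ Y]

/-- **Second order limits**, without convexity. -/
theorem second_limit_gen [CompleteSpace X] {F : X → Y} {C K : ℝ}
    (hF : SphIso F) (hC : 0 ≤ C)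
    (hX : ∀ q h : X, ‖q‖ = 1 → ‖q + h‖ + ‖q - h‖ - 2 ≤ C * ‖h‖ ^ 2)
    (hY : ∀ q h : Y, ‖q‖ = 1 → ‖q + h‖ + ‖q - h‖ - 2 ≤ C * ‖h‖ ^ 2)
    (hR : Reg F K) {K' : ℝ} (hR' : Reg hF.inv K')
    {ι : Type*} {l : Filter ι} [l.NeBot] {x : X} (hx : x ≠ 0) {xi : ι → X} {s : ι → ℝ}
    (hxi : Tendsto xi l (𝓝 x)) (hs : ∀ᶠ i in l, 0 < s i) (hs0 : Tendsto s l (𝓝 0))
    {h : X →L[ℝ] X →L[ℝ] ℝ} {B : X →L[ℝ] X →L[ℝ] Y}
    (hsymm : ∀ u v, h u v = h v u) (Bsymm : ∀ u v, B u v = B v u)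
    (hh : ∀ u v, Tendsto (fun i => (s i)⁻¹ * (dn (xi i + s i • u) v - dn (xi i) v)) l (𝓝 (h u v)))
    (hB : ∀ u v (η : Y →L[ℝ] ℝ), Tendsto (fun i => η ((s i)⁻¹ •
      (fderiv ℝ F (xi i + s i • u) v - fderiv ℝ F (xi i) v))) l (𝓝 (η (B u v)))) :
    ∃ b : Y, ∀ u v, B u v = h u v • b := by
  have sX : SmoothNorm X := smoothX hX
  have sY : SmoothNorm Y := smoothX hY
  have hxn : 0 < ‖x‖ := norm_pos_iff.mpr hx
  have hd : DifferentiableAt ℝ F x := hR.diff x hx
  have hd' : DifferentiableAt ℝ hF.inv (F x) := hR'.diff _ (hF.ne_zero hx)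
  -- the inverse of the derivative
  set A : X →L[ℝ] Y := fderiv ℝ F x with hA
  set A' : Y →L[ℝ] X := fderiv ℝ hF.inv (F x) with hA'
  have hAA' : ∀ y, A (A' y) = y := by
    have h1 : HasFDerivAt (F ∘ hF.inv) (A.comp A') (F x) := by
      have h2 : HasFDerivAt F A (hF.inv (F x)) := by rw [hF.inv_apply]; exact hd.hasFDerivAt
      exact h2.comp (F x) hd'.hasFDerivAt
    have h2 : F ∘ hF.inv = id := by
      ext y
      exact hF.apply_inv y
    rw [h2] at h1
    have h3 := h1.unique (hasFDerivAt_id (F x))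
    intro y
    have := congrArg (fun L : Y →L[ℝ] Y => L y) h3
    simpa using this
  -- psd
  have hpsd : ∀ u, 0 ≤ h u u := by
    intro u
    refine ge_of_tendsto (hh u u) ?_
    filter_upwards [hs, ev_shift hx hxi hs hs0
      (u := fun _ => u) (M := ‖u‖) (Eventually.of_forall fun _ => le_rfl)] with i hi h4
    have n1 : xi i ≠ 0 := norm_pos_iff.mp (by linarith only [hxn, h4])
    have n2 : xi i + s i • u ≠ 0 := norm_pos_iff.mp (by linarith only [hxn, h4])
    have e1 := sX.le_norm_add n1 (s i • u)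
    have e2 := sX.le_norm_add n2 (-(s i • u))
    rw [add_neg_cancel_right, map_neg, map_smul, smul_eq_mul] at e2
    rw [map_smul, smul_eq_mul] at e1
    have e3 : 0 ≤ s i * (dn (xi i + s i • u) u - dn (xi i) u) := by linarith only [e1, e2]
    have e4 : 0 ≤ dn (xi i + s i • u) u - dn (xi i) u := nonneg_of_mul_nonneg_right e3 hi
    (clear * - hi e4; positivity)
  have hBx : ∀ v, B x v = 0 := B_self hF hR hx hxi hs hs0 hB
  have hBx' : ∀ v, B v x = 0 := fun v => by rw [Bsymm, hBx]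
  have hhx : ∀ v, h x v = 0 := h_self hC hX hx hxi hs hs0 hh
  have hhx' : ∀ v, h v x = 0 := fun v => by rw [hsymm, hhx]
  have hdnB : ∀ u v, dn (F x) (B u v) = 0 := dn_B hF hC hX hY hR hx hxi hs hs0 hB
  let T : Submodule ℝ X := LinearMap.ker (dn x : X →ₗ[ℝ] ℝ)
  have hT : ∀ u : X, u ∈ T ↔ dn x u = 0 := fun u => LinearMap.mem_ker
  have hTc : IsClosed (T : Set X) := ContinuousLinearMap.isClosed_ker (dn x)
  have : CompleteSpace T := hTc.completeSpace_coe
  -- the vector valued form on `T`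
  have hdnA' : ∀ y, dn x (A' y) = dn (F x) y := by
    intro y
    rw [← dn_fderiv hF sX sY hx hd (A' y), ← hA, hAA']
  have hPT : ∀ z, dn x (z - (‖x‖⁻¹ * dn x z) • x) = 0 := by
    intro z
    rw [map_sub, map_smul, sX.dn_self hx, smul_eq_mul]
    field_simp
    ring
  let Q : X →L[ℝ] T := (ContinuousLinearMap.id ℝ X - (‖x‖⁻¹ : ℝ) • ((dn x).smulRight x)).codRestrict
    T (fun z => by
      rw [hT]
      have := hPT z
      simpa [smul_smul, ContinuousLinearMap.smulRight_apply] using this)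
  have hQ : ∀ z : X, dn x z = 0 → ((Q z : T) : X) = z := by
    intro z hz
    simp [Q, hz]
  let Γ : T →L[ℝ] T →L[ℝ] T :=
    ((ContinuousLinearMap.compL ℝ T X T Q).comp
      (((ContinuousLinearMap.compL ℝ T Y X A')).comp
        (((ContinuousLinearMap.compL ℝ T X Y).flip T.subtypeL).comp (B.comp T.subtypeL))))
  have hΓ : ∀ u v : T, ((Γ u v : T) : X) = A' (B u v) := by
    intro u v
    have h1 : Γ u v = Q (A' (B u v)) := rfl
    rw [h1, hQ _ (by rw [hdnA', hdnB])]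
  have hAΓ : ∀ u v : T, A ((Γ u v : T) : X) = B u v := fun u v => by rw [hΓ, hAA']
  let g : T →L[ℝ] T →L[ℝ] ℝ :=
    ((ContinuousLinearMap.compL ℝ T X ℝ).flip T.subtypeL).comp (h.comp T.subtypeL)
  have hg : ∀ u v : T, g u v = h u v := fun u v => rfl
  obtain ⟨b, hb⟩ := al_lemma_gen (T := T) (uc11_submodule ⟨C, hX⟩ T) g
    (fun u v => by rw [hg, hg, hsymm]) (fun u => by rw [hg]; exact hpsd _)
    Γ (fun u v => by ext; rw [hΓ, hΓ, Bsymm])
    (fun u => ‖x‖⁻¹ * (dn (A u) (F x) - dn (u : X) x)) (K := 2)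
    (fun u => by
      rw [abs_mul, abs_of_pos (inv_pos.mpr hxn), inv_mul_le_iff₀ hxn]
      have h1 : |dn (A u) (F x)| ≤ ‖x‖ := by
        have := dn_apply_abs_le (A u) (F x)
        rwa [hF.norm] at this
      have h2 : |dn (u : X) x| ≤ ‖x‖ := dn_apply_abs_le (u : X) x
      have h3 := abs_sub (dn (A u) (F x)) (dn (u : X) x)
      linarith only [h1, h2, h3])
    (fun v w hv => by
      have hv0 : (v : X) ≠ 0 := by simpa using hv
      have hvT : dn x (v : X) = 0 := (hT _).mp v.2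
      have h1 := al_identity hF hC hX hY hR hx hxi hs hs0 hh hB (v := v) hvT hv0 w
      rw [dn_submodule sX T hv, hg,
        ← dn_fderiv_tangent hF sX sY hx hd (v := v) (w := (Γ v w : T)) hvT
          ((hT _).mp (Γ v w).2) hv0, ← hA, hAΓ, Bsymm, hsymm]
      rw [← hA] at h1
      have hxn' := hxn.ne'
      field_simp
      linarith only [h1])
  refine ⟨A (b : X), ?_⟩
  have key : ∀ u v : T, B u v = h u v • A b := by
    intro u v
    rw [← hAΓ, hb u v, hg, Submodule.coe_smul, map_smul]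
  have dec : ∀ u : X, ∃ (c : ℝ) (t : T), u = c • x + (t : X) := by
    intro u
    refine ⟨dn x u / ‖x‖, ⟨u - (dn x u / ‖x‖) • x, ?_⟩, ?_⟩
    · rw [hT, map_sub, map_smul, sX.dn_self hx, smul_eq_mul]
      field_simp
      ring
    · simp
  intro u v
  obtain ⟨c1, t1, rfl⟩ := dec u
  obtain ⟨c2, t2, rfl⟩ := dec v
  simp only [map_add, map_smul, _root_.add_apply, _root_.smul_apply,
    hBx, hBx', hhx, hhx', smul_zero, zero_add, add_zero, key]

theorem weakLims_of_unifSmooth (ι : Type*) {Z : Type*} [NormedAddCommGroup Z] [NormedSpace ℝ Z]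
    [CompleteSpace Z] (hZ : UnifSmooth Z) : WeakLims ι Z :=
  fun U _ _ hC hy => hZ.exists_weak_lim U hC hy

/-- **The case of bounded second differences.** -/
theorem linear_of_sd [CompleteSpace X] {F : X → Y} (hF : SphIso F)
    (hdim : ∀ e₁ e₂ : X, ∃ c : X, c ∉ Submodule.span ℝ {e₁, e₂}) {C : ℝ} (hC0 : 0 ≤ C)
    (hX : ∀ q h : X, ‖q‖ = 1 → ‖q + h‖ + ‖q - h‖ - 2 ≤ C * ‖h‖ ^ 2)
    (hY : ∀ q h : Y, ‖q‖ = 1 → ‖q + h‖ + ‖q - h‖ - 2 ≤ C * ‖h‖ ^ 2)
    (hF2 : ∀ q h : X, ‖q‖ = 1 → ‖F (q + h) + F (q - h) - (2 : ℝ) • F q‖ ≤ C * ‖h‖ ^ 2)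
    (hG2 : ∀ q h : Y, ‖q‖ = 1 →
      ‖hF.inv (q + h) + hF.inv (q - h) - (2 : ℝ) • hF.inv q‖ ≤ C * ‖h‖ ^ 2) :
    ∃ T : X ≃ₗᵢ[ℝ] Y, ∀ x, T x = F x := by
  have : CompleteSpace Y := hF.completeSpace
  have hG : SphIso hF.inv := hF.sphIso_inv
  obtain ⟨K, hR⟩ := hF.reg_of_sd hC0 hF2
  obtain ⟨K', hR'⟩ := hG.reg_of_sd hC0 hG2
  have hYs : UnifSmooth Y := UC11.unifSmooth ⟨C, hY⟩
  have hadd := additive_of_box_gen (weakLims_of_unifSmooth _ hYs) hF ⟨C, hX⟩ hR hdim
    (fun U x hx xi s hxi hs hs0 h B hsymm Bsymm hh hB =>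
      second_limit_gen hF hC0 hX hY hR hR' hx hxi hs hs0 hsymm Bsymm hh hB)
  let R : X →ₗ[ℝ] Y :=
    { toFun := F
      map_add' := hadd
      map_smul' := fun c x => hF.smul c x }
  exact hF.exists_linearIsometryEquiv R (fun x => rfl)

end Vale.Agent.P084
end 
end
end

section

/- FullMain -/
section
/-!
# Tingley's problem

Every surjective isometry between the unit spheres of two real normed spaces is the restriction of
a linear isometry.
-/

open Set Filter Topology Metric Module P084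

namespace Vale.Agent.P084

open BadPoint

/-- The homogeneous extension of a surjective isometry of spheres of Banach spaces. -/
theorem sphIso_of_sphereEquiv {X Y : Type*} [NormedAddCommGroup X] [NormedSpace ℝ X]
    [NormedAddCommGroup Y] [NormedSpace ℝ Y] [CompleteSpace X] [CompleteSpace Y]
    (F : SphereEquiv X Y) : SphIso (F : X → Y) where
  smul c x := by
    rcases le_total 0 c with hc | hc
    · exact F.smul_map hc x
    · have h1 := F.smul_map (show 0 ≤ -c by linarith) x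
      have h2 := Gen.odd F ((-c) • x)
      have h3 : -((-c) • x) = c • x := by rw [neg_smul, neg_neg]
      rw [h3, h1, neg_smul, neg_neg] at h2
      exact h2
  dist x y h := by
    rcases eq_or_ne x 0 with rfl | hx
    · have hy : y = 0 := by rw [norm_zero] at h; exact norm_eq_zero.mp h.symm
      rw [hy, sub_self, sub_self]
      simp
    · have hn : 0 < ‖x‖ := norm_pos_iff.mpr hx
      have hy : y ≠ 0 := by
        rintro rfl
        rw [norm_zero] at h
        exact hn.ne' h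
      have h1 : ‖‖x‖⁻¹ • x‖ = 1 := norm_inv_smul_eq_one hx
      have h2 : ‖‖x‖⁻¹ • y‖ = 1 := by rw [h]; exact norm_inv_smul_eq_one hy
      have h3 := F.iso_map h1 h2
      have h0 : (0 : ℝ) ≤ ‖x‖⁻¹ := by positivity
      rw [F.smul_map h0, F.smul_map h0, ← smul_sub, ← smul_sub, norm_smul, norm_smul] at h3
      exact mul_left_cancel₀ (norm_ne_zero_iff.mpr (inv_ne_zero hn.ne')) h3
  surj := F.surjective

/-- A homogeneous isometry of spheres whose domain is a line is linear. -/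
theorem linear_of_line {X Y : Type*} [NormedAddCommGroup X] [NormedSpace ℝ X]
    [NormedAddCommGroup Y] [NormedSpace ℝ Y] {F : X → Y} (hF : SphIso F)
    {v : X} (hv : ∀ w : X, ∃ c : ℝ, w = c • v) : ∃ T : X ≃ₗᵢ[ℝ] Y, ∀ x, T x = F x := by
  have hadd : ∀ x y, F (x + y) = F x + F y := by
    intro x y
    obtain ⟨a, rfl⟩ := hv x
    obtain ⟨b, rfl⟩ := hv y
    rw [← add_smul, hF.smul, hF.smul, hF.smul, add_smul]
  let R : X →ₗ[ℝ] Y :=
    { toFun := F
      map_add' := hadd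
      map_smul' := fun c x => hF.smul c x }
  exact hF.exists_linearIsometryEquiv R (fun x => rfl)

/-- A space which is spanned by two vectors and is not a line has dimension two. -/
theorem finrank_eq_two {X : Type*} [NormedAddCommGroup X] [NormedSpace ℝ X] {e₁ e₂ : X}
    (h : ∀ c : X, c ∈ Submodule.span ℝ {e₁, e₂}) (hd : UC.Dim2 X) :
    FiniteDimensional ℝ X ∧ finrank ℝ X = 2 := by
  have h1 : (⊤ : Submodule ℝ X) = Submodule.span ℝ {e₁, e₂} :=
    (eq_top_iff.mpr fun c _ => h c).symm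
  have hfin : FiniteDimensional ℝ X := by
    refine ⟨?_⟩
    rw [h1]
    exact Submodule.fg_span (by simp)
  refine ⟨hfin, le_antisymm ?_ ?_⟩
  · classical
    have h2 : finrank ℝ (Submodule.span ℝ ((({e₁, e₂} : Finset X) : Set X))) ≤ 2 :=
      (finrank_span_finset_le_card _).trans Finset.card_le_two
    rw [Finset.coe_pair, ← h1, finrank_top] at h2
    exact h2
  · by_contra hlt
    push Not at hlt
    obtain ⟨v, hv⟩ := finrank_le_one_iff.mp (Nat.lt_succ_iff.mp hlt)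
    obtain ⟨w, hw⟩ := hd v
    obtain ⟨c, hc⟩ := hv w
    exact hw c hc.symm

/-- **Tingley's problem for Banach spaces.** -/
theorem linear_of_sphereEquiv {X Y : Type*} [NormedAddCommGroup X] [NormedSpace ℝ X]
    [NormedAddCommGroup Y] [NormedSpace ℝ Y] [CompleteSpace X] [CompleteSpace Y]
    (F : SphereEquiv X Y) : ∃ T : X ≃ₗᵢ[ℝ] Y, ∀ x, T x = F x := by
  have hF : SphIso (F : X → Y) := sphIso_of_sphereEquiv F
  by_cases hd : UC.Dim2 X
  swap
  · rw [UC.Dim2] at hd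
    push Not at hd
    obtain ⟨v, hv⟩ := hd
    exact linear_of_line hF hv
  have hG : SphIso hF.inv := hF.sphIso_inv
  have hinv : ∀ y, F.symm y = hF.inv y := by
    intro y
    apply hF.inj
    rw [hF.apply_inv]
    exact F.apply_symm y
  have hd' : UC.Dim2 Y := by
    intro q
    obtain ⟨v, hv⟩ := hd (F.symm q)
    refine ⟨F v, fun c hc => hv c ?_⟩
    apply hF.inj
    rw [hF.smul, hc]
    congr 1
    exact (F.apply_symm q).symm
  rcases Gen.dichotomy hd F with ⟨T, hT⟩ | ⟨C₁, hC₁⟩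
  · exact hF.exists_linearIsometryEquiv T (fun x => (hT x).symm)
  rcases Gen.dichotomy hd' F.symm with ⟨T, hT⟩ | ⟨C₂, hC₂⟩
  · obtain ⟨T', hT'⟩ := hG.exists_linearIsometryEquiv T (fun x => by rw [hT, hinv])
    refine ⟨T'.symm, fun x => ?_⟩
    rw [LinearIsometryEquiv.symm_apply_eq, hT', hF.inv_apply]
  set C : ℝ := max (max C₁ C₂) 0 with hCdef
  have hC0 : 0 ≤ C := le_max_right _ _
  have hC1 : C₁ ≤ C := (le_max_left _ _).trans (le_max_left _ _)
  have hC2 : C₂ ≤ C := (le_max_right _ _).trans (le_max_left _ _)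
  have hX : ∀ q h : X, ‖q‖ = 1 → ‖q + h‖ + ‖q - h‖ - 2 ≤ C * ‖h‖ ^ 2 := fun q h hq =>
    ((hC₁ q h hq).1).trans (by (clear * - hC1; gcongr))
  have hY : ∀ q h : Y, ‖q‖ = 1 → ‖q + h‖ + ‖q - h‖ - 2 ≤ C * ‖h‖ ^ 2 := fun q h hq =>
    ((hC₂ q h hq).1).trans (by (clear * - hC2; gcongr))
  by_cases hdim : ∀ e₁ e₂ : X, ∃ c : X, c ∉ Submodule.span ℝ {e₁, e₂}
  · refine linear_of_sd hF hdim (C := C) hC0 hX hY
      (fun q h hq => ((hC₁ q h hq).2).trans (by gcongr)) (fun q h hq => ?_)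
    rw [← hinv, ← hinv, ← hinv]
    exact ((hC₂ q h hq).2).trans (by gcongr)
  · push Not at hdim
    obtain ⟨e₁, e₂, h⟩ := hdim
    obtain ⟨hfin, hrank⟩ := finrank_eq_two h hd
    have hX' : UC11 X := ⟨C, hX⟩
    have hY' : UC11 Y := ⟨C, hY⟩
    exact hF.caseC2 hrank ⟨hX'.smooth, fun x hx => norm_lipAt_dn hX' hx⟩
      ⟨hY'.smooth, fun x hx => norm_lipAt_dn hY' hx⟩

/-- **Tingley's problem**: every surjective isometry between the unit spheres of two real normed
spaces is the restriction of a linear isometry. -/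
theorem mazurUlam {X Y : Type*} [NormedAddCommGroup X] [NormedSpace ℝ X]
    [NormedAddCommGroup Y] [NormedSpace ℝ Y]
    (f : sphere (0 : X) 1 → sphere (0 : Y) 1) (hf : Isometry f) (hs : Function.Surjective f) :
    ∃ T : X ≃ₗᵢ[ℝ] Y, ∀ x : sphere (0 : X) 1, T (x : X) = (f x : Y) := by
  refine Compl.exists_linear_of_completion (fun g hg hgs => ?_) f hf hs
  obtain ⟨T, hT⟩ := linear_of_sphereEquiv (ofIsometry g hg hgs)
  exact ⟨T, fun x => by rw [hT, ofIsometry_apply]⟩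

end Vale.Agent.P084
end
end
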